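import Crest.Agent.N207.O.Ini2

/-!
# Row 207, block O (helper99): the initial tower `I1_ini`
-/

set_option autoImplicit false
set_option linter.unusedSectionVars false

open Set Filter Topology Function

noncomputable section

namespace Crest.Agent.N207.O

namespace Ini

variable {ι : Type} [Fintype ι] [DecidableEq ι] {T : Tw ι}

theorem exists_s (T : Tw ι) (u : ℕ → (ι → ℂ) → ℂ) : ∀ p : ℕ, ∃ s : ι ⊕ ℕ → (ι → ℂ) → ℂ,
    (∀ k x, s (Sum.inl k) x = x k) ∧ ∀ j < p, ∀ x, s (Sum.inr j) x =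
      Complex.exp (∑ a ∈ (T.lv j).toFinset, (T.ρ j a : ℂ) * s a x + u j x) -
        ∑ a ∈ (T.lv j).toFinset, (T.c j a : ℂ) * s a x
  | 0 => ⟨Sum.elim (fun k x => x k) 0, fun _ _ => rfl, by simp⟩
  | p + 1 => by
    obtain ⟨s, h1, h2⟩ := exists_s T u p
    set f : (ι → ℂ) → ℂ := fun x =>
      Complex.exp (∑ a ∈ (T.lv p).toFinset, (T.ρ p a : ℂ) * s a x + u p x) -
        ∑ a ∈ (T.lv p).toFinset, (T.c p a : ℂ) * s a x
    have e : ∀ j < p + 1, ∀ (γ : ι ⊕ ℕ → ℝ) x, ∑ a ∈ (T.lv j).toFinset,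
        (γ a : ℂ) * update s (Sum.inr p) f a x = ∑ a ∈ (T.lv j).toFinset, (γ a : ℂ) * s a x :=
      fun j hj γ x => Finset.sum_congr rfl fun a ha => by
        rw [update_of_ne]
        rintro rfl
        have := Tw.inr_mem_lv.1 (List.mem_toFinset.1 ha)
        omega
    refine ⟨update s (Sum.inr p) f, fun k x => by rw [update_of_ne (by simp), h1], fun j hj x => ?_⟩
    rw [e j hj, e j hj]
    rcases Nat.lt_succ_iff_lt_or_eq.1 hj with c | rfl
    · rw [update_of_ne (by simp [c.ne]), h2 j c]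
    · rw [update_self]

theorem ind_lv {P : ι ⊕ ℕ → Prop} {n : ℕ} (h1 : ∀ k, Sum.inl k ∈ T.lv n → P (Sum.inl k))
    (h2 : ∀ j < n, (∀ a ∈ T.lv j, P a) → P (Sum.inr j)) : ∀ a ∈ T.lv n, P a := by
  have key : ∀ j, j ≤ n → ∀ a ∈ T.lv j, P a := fun j => by
    induction j using Nat.strong_induction_on with
    | _ j ih =>
      rintro hj (k | i) ha
      · exact h1 k ((Tw.lv_suffix hj).subset ha)
      · have := Tw.inr_mem_lv.1 ha
        exact h2 i (by omega) (ih i this (by omega))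
  exact key n le_rfl

theorem A_ent : ∀ {l : List (ι ⊕ ℕ)} {g : (ι → ℂ) → ℂ}, Differentiable ℂ g →
    Bd (T.D []) g → T.fr.A l g
  | [], _, h, hb => ⟨h.differentiableOn, hb⟩
  | a :: l, g, h, hb => ⟨h.differentiableOn, fun t => if t = 0 then g else 0, fun t => by
      dsimp only
      split_ifs
      exacts [A_ent h hb, Fr.Cl.zero], fun t ht => if_neg ht.ne,
      fun K => ⟨{0}, 0, fun t _ ht => if_neg (by simpa using ht), fun x _ => by
        simp [Fr.ex_zero]⟩⟩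

theorem A_coord {k : ι} (hk : k ∈ T.Fv) (c : ℝ) (l : List (ι ⊕ ℕ)) :
    T.fr.A l fun x => (c : ℂ) + x k :=
  A_ent (by fun_prop) ⟨‖(c : ℂ)‖ + T.r k, fun x hx =>
    (norm_add_le _ _).trans (by linarith [hx k hk])⟩

theorem rr_coord (k : ι) (c : ℝ) (S : Set (ι → ℂ)) : RR S fun x => (c : ℂ) + x k :=
  fun x _ hx => by simp [hx k]

theorem sp_of (h : T.WF) {k : ι} (h1 : k ∉ T.Fv) (h2 : Sum.inl k ∉ T.top) : T.Sp := by
  rw [Tw.Sp, ← Finset.card_union_of_disjoint (Finset.disjoint_left.2 fun k h1 h2 =>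
    h.dj k h1 (List.mem_toFinset.1 (Finset.mem_filter.1 h2).2))]
  exact Finset.card_lt_univ_of_notMem (x := k) (by simp [h1, h2])

end Ini

open Ini Sq

variable {α : Type} {U : Ultrafilter α}

theorem I1_ini {n m : ℕ} {θ : α → Fin n → ℝ} {θ₀ : Fin n → ℝ} (hθ : Tendsto θ U (𝓝 θ₀))
    {L : α → Fin m → ℝ} (hL : ∀ e, Tendsto (fun i => L i e) U atTop) :
    ∃ (ι : Type) (_ : Fintype ι) (_ : DecidableEq ι) (T : Tw ι) (p : α → ι → ℂ) (κ : Fin n → ι)
      (Λ : Fin m → (ι → ℂ) → ℂ), T.WF ∧ T.Sp ∧ T.Pt U p ∧ (∀ k, κ k ∈ T.Fv) ∧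
      (∀ᶠ i in U, (∀ k, (θ i k : ℂ) = θ₀ k + p i (κ k)) ∧ ∀ e, (L i e : ℂ) = Λ e (p i)) ∧
      (∀ e, ∃ (γ : ι ⊕ ℕ → ℝ) (b : (ι → ℂ) → ℂ), T.fr.A T.top b ∧ RR (T.D T.top) b ∧
        ∀ x ∈ T.D T.top, Λ e x = T.lin T.top γ x + b x) ∧
      ∀ (e : Fin m) (C : ℝ), ∃ R₀ : ℝ, ∀ R ≥ R₀, ∀ r : ι → ℝ,
        (∀ k ∈ T.Fv, 0 < r k ∧ r k ≤ T.r k) → MapsTo (Λ e) ((T.shr R r).D T.top) (J.Om C) ∧
        ∀ (E : Type) [NormedAddCommGroup E] [NormedSpace ℂ E] (N : ℂ → E) (c : ℕ → ℕ → E),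
          J.Dul C N c → (T.shr R r).fr.St T.top (fun x => N (Λ e x)) fun _ => c 0 0 := by
  obtain ⟨p, hp⟩ := data (L := fun e i => L i e) hL
  set ι := (Fin n ⊕ Fin m ⊕ Fin p) ⊕ Option (Fin p)
  obtain ⟨B, ρ, c, s, W, hD⟩ := hp ι (fun j => Sum.inr (some j))
    (Sum.inr_injective.comp (Option.some_injective _))
  let T₀ : Tw ι := ⟨p, B, ∅, 0, 0, 0, 0, ρ, c, 0⟩
  obtain ⟨D₀, -, hL₀⟩ := hD T₀ rfl
  choose uc huc using D₀.Wl
  choose J g b hJ using hL₀
  let ku : Fin p → ι := fun j => Sum.inl (Sum.inr (Sum.inr j))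
  let kb : Fin m → ι := fun e => Sum.inl (Sum.inr (Sum.inl e))
  let u : ℕ → (ι → ℂ) → ℂ := fun j x => if h : j < p then (uc j h : ℂ) + x (ku ⟨j, h⟩) else 0
  have hu : ∀ j (h : j < p), u j = fun x => (uc j h : ℂ) + x (ku ⟨j, h⟩) := fun j h =>
    funext fun x => dif_pos h
  obtain ⟨S, S1, S2⟩ := exists_s T₀ u p
  let T : Tw ι := ⟨p, B, Finset.univ.filter fun k => k.isLeft, 0, 1, 1, S, ρ, c, u⟩
  have el : T₀.lv = T.lv := funext fun j => lv_congr fun _ _ => rfl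
  rw [el] at S2 huc
  obtain ⟨D, fr, -⟩ := hD T rfl
  have mF : ∀ k, Sum.inl k ∈ T.Fv := fun k => by simp [T]
  have nF : ∀ k, Sum.inr k ∉ T.Fv := fun k => by simp [T]
  have sL : ∀ j < p, ∀ x, T.s (Sum.inr j) x =
      Complex.exp (T.E j x) - T.lin (T.lv j) (T.c j) x := S2
  have wf : T.WF := by
    refine ⟨le_rfl, fun _ _ => one_pos, D.ord.nodup, fun k hk h => ?_, fun _ _ => Nat.zero_le _, S1,
      fun j hj x _ => sL j hj x, fun j hj => ?_, fun j hj => ?_, fun j hj k hk hf => ?_, D.ρ0, D.c0,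
      D.ρs, D.ρp, D.ρm⟩
    · obtain ⟨j, rfl⟩ := fr k h
      exact nF _ hk
    · show T.fr.A _ (u j)
      rw [hu j hj]; exact A_coord (mF _) _ _
    · show RR _ (u j)
      rw [hu j hj]; exact rr_coord _ _ _
    · have hf' : k ∉ T.Fv := hf.resolve_right (Nat.not_lt_zero _)
      have iu : ∀ j < p, Ind k (T.u j) := fun j hj x w => by
        show u j _ = u j _
        simp only [hu j hj]
        rw [update_of_ne (ne_of_mem_of_not_mem (mF _) hf')]
      have st : ∀ j < p, (∀ a ∈ T.lv j, Ind k (T.s a)) → Ind k (T.s (Sum.inr j)) :=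
        fun j hj h x w => by
          rw [sL j hj, sL j hj, Tw.E, Tw.E, Tw.ind_lin h, Tw.ind_lin h, iu j hj]
      exact ⟨st j hj (ind_lv (fun k' hk' x w => by
        show S _ _ = S _ _
        rw [S1, S1, update_of_ne (by rintro rfl; exact hk hk')]) fun i hi => st i (hi.trans hj)), iu j hj⟩
  let pr : α → ι → ℝ := fun i => Sum.elim (Sum.elim (fun k => θ i k - θ₀ k) (Sum.elim
    (fun e => L i e - ∑ j ∈ Finset.range (J e + 1), g e j * W j i - b e)
    fun j => Real.log (W j i) - lin s (T.lv j) (ρ j) i - uc j j.2))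
    fun o => if Sum.inl (Sum.inr o) ∈ T.top.toFinset then s (Sum.inl (Sum.inr o)) i else 0
  have cl : ∀ (l : List (ι ⊕ ℕ)) (γ : ι ⊕ ℕ → ℝ) i, (∀ a ∈ l, T.s a (fun k => pr i k) = s a i) →
      T.lin l γ (fun k => pr i k) = (lin s l γ i : ℝ) := fun l γ i h => by
    rw [Tw.lin, lin, Complex.ofReal_sum]
    exact Finset.sum_congr rfl fun a ha => by rw [h a (List.mem_toFinset.1 ha), Complex.ofReal_mul]
  have cE : ∀ j < p, ∀ i, (∀ a ∈ T.lv j, T.s a (fun k => pr i k) = s a i) →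
      Complex.exp (T.E j fun k => pr i k) = W j i := fun j hj i h => by
    rw [Tw.E, cl _ _ i h, ← Real.exp_log (D.W0 j i), Complex.ofReal_exp]
    congr 1
    rw [show T.u j = _ from hu j hj, show T.ρ j = ρ j from rfl]
    simp only [pr, ku, Sum.elim_inl, Sum.elim_inr]
    push_cast; ring
  have val : ∀ i, ∀ a ∈ T.top, T.s a (fun k => pr i k) = s a i := fun i =>
    ind_lv (fun k hk => by
      obtain ⟨j, rfl⟩ := fr k hk
      show S _ _ = _
      rw [S1]
      exact congrArg _ (if_pos (List.mem_toFinset.2 hk))) fun j hj h => by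
      rw [sL j hj, cE j hj i h, cl _ _ i h, D.Ws j hj i]
      push_cast; ring
  have lt : ∀ e, ∀ R ≥ (1 : ℝ), ∀ r : ι → ℝ, (∀ k ∈ T.Fv, 0 < r k ∧ r k ≤ T.r k) →
      LT (T.shr R r) (J e) (g e) fun x => (b e : ℂ) + x (kb e) := fun e R hR r hr =>
    ⟨(T4_shr wf hR hr).1, fun j hj a ha => D.cs j hj a (by rwa [T.shr_lv] at ha), fun j hj => by
      show (T.shr R r).fr.A _ (u j)
      rw [hu j hj]; exact A_coord (T := T.shr R r) (mF _) _ _,
      A_coord (T := T.shr R r) (mF _) _ _, (hJ e).Jp, (hJ e).g0, (hJ e).dom⟩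
  have lt0 : ∀ e, LT T (J e) (g e) fun x => (b e : ℂ) + x (kb e) := fun e =>
    lt e 1 le_rfl 1 fun _ _ => ⟨one_pos, le_rfl⟩
  refine ⟨ι, inferInstance, inferInstance, T, fun i k => pr i k, fun k => Sum.inl (Sum.inl k),
    fun e => Lam T (J e) (g e) fun x => (b e : ℂ) + x (kb e), wf, ?_,
    ⟨fun i k => Complex.ofReal_im _, fun k hk => ?_, fun k hk hn i => ?_, fun a ha => ?_,
      fun a l hl d hd => ?_⟩, fun k => mF _, Eventually.of_forall fun i => ⟨fun k => ?_, fun e => ?_⟩,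
    fun e => ⟨_, _, A_coord (mF _) _ _, rr_coord _ _ _, fun x hx => (lt0 e).lam_lin (lt0 e).sf hx⟩,
    fun e C => ?_⟩
  · refine sp_of wf (k := Sum.inr none) (nF _) fun h => ?_
    obtain ⟨j, hj⟩ := fr _ h
    cases hj
  · refine (Complex.continuous_ofReal.tendsto' 0 0 rfl).comp ?_
    rcases k with (k | e | j) | k
    · exact tendsto_sub_nhds_zero_iff.2 (tendsto_pi_nhds.1 hθ k)
    · exact tendsto_sub_nhds_zero_iff.2 (hJ e).lim
    · exact tendsto_sub_nhds_zero_iff.2 (huc j j.2)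
    · exact absurd hk (nF k)
  · rcases k with k | k
    · exact absurd (mF k) hk
    · exact (congrArg _ (if_neg fun h => hn (List.mem_toFinset.1 h))).trans Complex.ofReal_zero
  · simp only [val _ a ha, Complex.ofReal_re]
    exact D.ord.big a ha
  · simp only [val _ a (hl.subset (by simp)), val _ d (hl.subset (by simp [hd])), Complex.ofReal_re]
    exact (D.ord.suffix hl).2.1 d hd
  · simp [pr]
  · dsimp only
    rw [Lam, Finset.sum_congr rfl fun j hj => by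
      have hj' : j < p := by have := Finset.mem_range.1 hj; have := (hJ e).Jp; omega
      rw [cE j hj' i fun a ha => val i a ((Tw.lv_top hj'.le).subset ha)]]
    simp only [pr, kb, Sum.elim_inl, Sum.elim_inr]
    push_cast; ring
  · obtain ⟨R₀, hR₀⟩ := om (Sum.inr (J e) :: T.lv (J e)).toFinset (fun a _ => (lt0 e).cv0 a)
      (a₀ := Sum.inr (J e)) (by simp) ((lt0 e).cv_top ▸ (lt0 e).g0) (‖(b e : ℂ)‖ + 1) C
    refine ⟨max R₀ 1, fun R hR r hr => ?_⟩
    have l := lt e R ((le_max_right _ _).trans hR) r hr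
    have eL : Lam (T.shr R r) (J e) (g e) (fun x => (b e : ℂ) + x (kb e)) =
        Lam T (J e) (g e) fun x => (b e : ℂ) + x (kb e) := by
      funext x; simp only [Lam, T.shr_E]
    have hm : MapsTo (Lam (T.shr R r) (J e) (g e) fun x => (b e : ℂ) + x (kb e))
        ((T.shr R r).D (Sum.inr (J e) :: (T.shr R r).lv (J e))) (N207.J.Om C) := fun x hx => by
      rw [l.lam_lin List.suffix_rfl hx]
      rw [T.shr_lv] at hx ⊢
      exact hR₀ R ((le_max_left _ _).trans hR) (fun a => T.s a x) _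
        (fun a ha => (Tw.D_cst hx (List.mem_toFinset.1 ha)).1) ((norm_add_le _ _).trans (by
          have : ‖x (kb e)‖ < r (kb e) := Tw.D_nil hx (mF _)
          have : r (kb e) ≤ 1 := (hr _ (mF _)).2
          linarith))
    dsimp only
    rw [← eL, ← T.shr_top R r]
    exact ⟨hm.mono_left (Tw.D_suffix l.sf), fun E _ _ N c hN => l.st hm hN⟩

end Crest.Agent.N207.O

end
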