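import Crest.Agent.N207.O.Mon3

/-!
# Row 207, block O (helper84): the monomialisation theorem
-/

set_option autoImplicit false
set_option linter.unusedSectionVars false

open Set Filter Topology Metric

noncomputable section

namespace Crest.Agent.N207.O

variable {ι : Type} [Fintype ι] [DecidableEq ι] {α : Type} {U : Ultrafilter α} {T T' T'' : Tw ι}
  {p p' p'' : α → ι → ℂ} {l l' l'' : List (ι ⊕ ℕ)} {W W' : Finset ι} {k : ι}
  {g g' : (ι → ℂ) → ℂ} {Φ Ψ : (ι → ℂ) → ι → ℂ} {n m : ℕ} {w : ι → ℝ} {x : ι → ℂ}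
  {Fv : Finset ι} {Lb : ι → ℕ}

namespace Tw

theorem uu_ind (h : Ctx T U p m W) (hk : T.Fre (T.lv m) k) {a u : (ι → ℂ) → ℂ} (ia : Ind k a)
    {δ : ι ⊕ ℕ → ℝ} (e : ∀ x ∈ T.D (T.lv m), a x = Complex.exp (-T.lin (T.lv m) δ x) * u x)
    (hu : T.UU U p (insert k W) u) : T.UU U p W u := by
  obtain ⟨w, c, h1, h2, h3⟩ := hu
  have hw : ∀ j ∈ W, |w j| < T.r j := fun j hj => h1 j (Finset.mem_insert_of_mem hj)
  refine ⟨w, c, hw, h2, h3.congr' ((ev_upd h.gd.wf h.pt h.top h.fre hw).mono fun i hi => ?_)⟩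
  have h4 := e _ (hk.mem h.gd.wf h.top hi (t := w k)
    (by simpa using h1 k (Finset.mem_insert_self _ _)))
  rw [ia, e _ hi, hk.lin h.gd.wf h.top] at h4
  simp only [upd_insert]
  exact (mul_left_cancel₀ (Complex.exp_ne_zero _) h4).symm

/-- the Newton polygon step -/
theorem newton (h : Ctx T U p m W) (hk : k ∈ T.Fv) (hkW : k ∉ W) (hm : T.lab k = m) {e : ℕ}
    (IH : ∀ n ≤ e, RO U T.Fv T.lab m W k n) {a : ℕ → (ι → ℂ) → ℂ} {u : (ι → ℂ) → ℂ}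
    (ia : ∀ j, Ind k (a j)) (hu : T.AR (T.lv m) u)
    (ha : ∀ j < e + 1, EqOn (a j) 0 (T.D (T.lv m)) ∨ T.MU U p (T.lv m) (insert k W) (a j))
    (hg : ∀ x ∈ T.D (T.lv m),
      g x = ∑ j ∈ Finset.range (e + 1), a j x * x k ^ j + x k ^ (e + 1) * u x)
    (hw : ∀ j ∈ W, |w j| < T.r j) {c : ℂ} (hc : c ≠ 0)
    (h1 : Tendsto (fun i => u (upd W w (p i))) U (𝓝 c))
    (h0 : ∀ x ∈ T.D (T.lv m), a e (upd W w x) = 0) : MS T U p m W g := by
  classical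
  rcases L1_class h.gd.wf h.pt hk h.le with b | ⟨γ, c0, z, b1, b2, b3, b4⟩ |
    ⟨γ, ε, η, σ, l₁, l₂, b1, b2, b3, b4, b5, b6⟩
  · exact Or.inl ⟨T, p, id, (Stp.refl h.gd h.pt).lf, h.sp, Or.inr ⟨k, hk, hkW, hm, b⟩⟩
  swap
  · exact Or.inl (esc_new h hk hkW hm b1 b2 b3 b4 b5 b6)
  have hf := fre_lv hk hm.ge
  set A := Function.update a (e + 1) u with hA
  have key : ∀ j, ∃ (δ : ι ⊕ ℕ → ℝ) (v : (ι → ℂ) → ℂ), T.AR (T.lv m) v ∧ (j = e + 1 → v = u) ∧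
      (j < e + 2 → (j = e + 1 ∨ ¬ EqOn (a j) 0 (T.D (T.lv m))) → T.UU U p W v ∧
        ∀ x ∈ T.D (T.lv m), A j x = Complex.exp (-T.lin (T.lv m) δ x) * v x) := fun j => by
    by_cases hj : j = e + 1
    · refine ⟨0, u, hu, fun _ => rfl, fun _ _ => ⟨⟨w, c, hw, hc, h1⟩, fun x _ => ?_⟩⟩
      simp [hA, hj, lin_zero (γ := 0) fun _ _ => rfl]
    by_cases hj' : j < e + 2 ∧ ¬ EqOn (a j) 0 (T.D (T.lv m))
    · obtain ⟨δ, v, c1, c2, c3, c4⟩ := (ha j (by omega)).resolve_left hj'.2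
      exact ⟨δ, v, ⟨c1, c2⟩, fun e => absurd e hj, fun _ _ => ⟨uu_ind h hf (ia j) c4 c3,
        by rwa [hA, Function.update_of_ne hj]⟩⟩
    · exact ⟨0, u, hu, fun _ => rfl, fun c1 c2 => absurd ⟨c1, c2.resolve_left hj⟩ hj'⟩
  choose δ v k1 k2 k3 using key
  refine blow h hk hkW hm IH (A := A) (u := v) (δ := δ)
    (J := (Finset.range (e + 2)).filter fun j => j = e + 1 ∨ ¬ EqOn (a j) 0 (T.D (T.lv m)))
    (fun j hj => Finset.mem_range.1 (Finset.mem_filter.1 hj).1) (by simp) k1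
    (fun j hj => (k3 j (Finset.mem_range.1 (Finset.mem_filter.1 hj).1)
      (Finset.mem_filter.1 hj).2).1)
    (fun j hj => (k3 j (Finset.mem_range.1 (Finset.mem_filter.1 hj).1)
      (Finset.mem_filter.1 hj).2).2)
    (fun j c1 c2 x hx => ?_) (fun x hx => ?_) hw hc (k2 _ rfl ▸ h1)
    (by rwa [hA, Function.update_of_ne (by omega)]) b1 b2 b3 b4
  · have c3 : ¬ (j = e + 1 ∨ ¬ EqOn (a j) 0 (T.D (T.lv m))) :=
      fun c3 => c2 (Finset.mem_filter.2 ⟨Finset.mem_range.2 c1, c3⟩)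
    rw [hA, Function.update_of_ne fun e => c3 (Or.inl e)]
    exact (not_not.1 fun e => c3 (Or.inr e)) hx
  · rw [hg x hx, Finset.sum_range_succ _ (e + 1), hA, Function.update_self, mul_comm (u x)]
    congr 1
    exact Finset.sum_congr rfl fun j hj => by
      rw [Function.update_of_ne (Finset.mem_range.1 hj).ne]

theorem ind_tc (d : ℕ) (g : (ι → ℂ) → ℂ) : Ind k (tc k d g) := fun x t => by
  simp only [tc, Function.update_idem]

theorem ro_all (hk : k ∈ Fv) (hkW : k ∉ W) (hm : Lb k = m) (IM : MI U Fv Lb m (insert k W))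
    (d : ℕ) : RO U Fv Lb m W k d := by
  induction d using Nat.strong_induction_on with
  | _ d ih =>
  rintro T p rfl rfl h g hg ⟨w, c, hw, hc, h1⟩
  have hf := fre_lv hk hm.ge
  have hq := ev_upd h.gd.wf h.pt h.top h.fre hw
  have z0 : ∀ {T : Tw ι} {p : α → ι → ℂ}, T.Pt U p → k ∈ T.Fv →
      Tendsto (fun i => upd W w (p i) k) U (𝓝 0) := fun hp hk => by
    simpa only [upd_of_not hkW] using hp.z0 k hk
  cases d with
  | zero =>
    exact Or.inr ⟨T, p, id, Stp.refl h.gd h.pt, MU.of_unit hg ⟨w, c, hw, hc,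
      hg.lim0 h.gd.wf h.top hf hq (z0 h.pt hk) (by simpa [tc] using h1)⟩⟩
  | succ e =>
    obtain ⟨c', hc'⟩ := (hg.tc h.gd.wf h.top hf e).ulim h.ok hq
    by_cases h0 : c' = 0
    swap
    · exact ih e (by omega) T p rfl rfl h g hg ⟨w, c', hw, h0, hc'⟩
    obtain ⟨T1, p1, Φ, s1, a1, a2⟩ := tsch h hk hkW hm hg hw hc (h0 ▸ hc') h1
    have c1 := h.stp s1
    have t1 : T.lv m <:+ T1.top := s1.top ▸ h.top
    have g1 := (s1.pb h.le).ar hg
    have f1 := s1.fre hf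
    have w1 := s1.lf.rad (fun j hj => (h.pas j hj).1) hw
    have W1 : ∀ j ∈ W, T1.Fre (T.lv m) j := fun j hj => s1.fre (h.fre j hj)
    obtain ⟨-, u, u1, u2, u3⟩ := C5_tay s1.gd.wf t1 f1.1 f1.2 g1.a g1.r (e + 1)
    have q1 := ev_upd s1.gd.wf s1.lf.pt t1 W1 w1
    have u4 := AR.lim0 s1.gd.wf t1 f1 ⟨u1, u2⟩ q1 (z0 s1.lf.pt f1.1)
      (a1.congr' (q1.mono fun i hi => (u3 _ hi).2.symm))
    have m1 : T1.lab k = m := s1.sm.lab ▸ hm
    refine MS.pull s1 h.le ?_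
    rcases multi (T := T1) (by rw [s1.sm.Fv, s1.sm.lab]; exact IM) (c1.insert f1.1 m1)
      (fun j => tc k j (g ∘ Φ)) (fun j => s1.lv ▸ g1.tc s1.gd.wf t1 f1 j) (e + 1) with
      b | ⟨T2, p2, Ψ, s2, b⟩
    · exact Or.inl (b.mono (Finset.subset_insert _ _))
    have s3 := s2.mono le_rfl (Finset.subset_insert k W)
    have c2 := c1.stp s2
    have P := s2.pb c1.le
    rw [← s2.lv] at b
    rw [← s1.lv] at u1 u2 u3 a2
    have P' : Pb T1 T2 (T1.lv m) (T2.lv m) Ψ := by rw [s2.lv]; exact P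
    refine MS.pull s3 c1.le (newton c2 (s2.sm.Fv ▸ f1.1) hkW (s2.sm.lab ▸ m1) (e := e)
      (fun n hn => by rw [s2.sm.Fv, s2.sm.lab, s1.sm.Fv, s1.sm.lab]; exact ih n (by omega))
      (a := fun j => tc k j (g ∘ Φ) ∘ Ψ) (u := u ∘ Ψ)
      (fun j => s2.lf.ind (Finset.mem_insert_self _ _) (ind_tc j _)) (P'.ar ⟨u1, u2⟩) b
      (fun x hx => ?_) (s3.lf.rad (fun j hj => (c1.pas j hj).1) w1) hc
      (u4.congr' (s3.lf.val u w)) fun x hx => ?_)
    · simpa only [Function.comp_apply, s2.lf.coord (Finset.mem_insert_self k W)] using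
        (u3 _ (P'.maps hx)).1
    · rw [Function.comp_apply, upd_com s3.lf.com]
      exact a2 _ (P'.maps hx)

theorem step_W (hk : k ∈ Fv) (hkW : k ∉ W) (hm : Lb k = m) (IM : MI U Fv Lb m (insert k W)) :
    MI U Fv Lb m W := by
  rintro T p rfl rfl h g hg h0
  rcases IM T p rfl rfl (h.insert hk hm) g hg h0 with
    b | ⟨T1, p1, Φ, s1, γ, u, u1, u2, ⟨w, c, hw, hc, u3⟩, u4⟩
  · exact Or.inl (b.mono (Finset.subset_insert _ _))
  have s := s1.mono le_rfl (Finset.subset_insert k W)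
  have c1 := h.stp s
  have t1 : T.lv m <:+ T1.top := s.top ▸ h.top
  have f1 := s.fre (fre_lv hk hm.ge)
  have hu : T1.AR (T.lv m) u := ⟨u1, u2⟩
  have w1 : ∀ j ∈ W, |w j| < T1.r j := fun j hj => hw j (Finset.mem_insert_of_mem hj)
  have q1 := ev_upd s.gd.wf s.lf.pt t1 (fun j hj => s.fre (h.fre j hj)) w1
  obtain ⟨d, hd⟩ : ∃ d, T1.UU U p1 W (tc k d u) := by
    by_contra! H
    obtain ⟨B, hB⟩ := hu.bd (T1_ok s.gd.wf t1)
    refine hc (tendsto_nhds_unique (by simpa only [upd_insert] using u3) (ord_zero (F := U)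
      (φ := fun i t => u (Function.update (upd W w (p1 i)) k t)) (ρ := T1.r k) (B := B)
      (q1.mono fun i hi => hu.slice s.gd.wf t1 f1 hi)
      (q1.mono fun i hi t ht => hB _ (f1.mem s.gd.wf t1 hi (mem_ball_zero_iff.1 ht)))
      (w := w k) (by simpa using hw k (Finset.mem_insert_self _ _)) fun n => ?_))
    obtain ⟨c', hc'⟩ := (hu.tc s.gd.wf t1 f1 n).ulim (T1_ok s.gd.wf t1) q1
    obtain rfl : c' = 0 := not_not.1 fun e => H n ⟨w, c', w1, e, hc'⟩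
    exact hc'
  refine MS.pull s h.le (MS.mon (l := T1.lv m) (Ψ := id) c1
    ((Stp.refl (n := 0) (W := W) s.gd s.lf.pt).pb0 c1.top) γ
    (ro_all hk hkW hm IM d T1 p1 s.sm.Fv s.sm.lab c1 u (s.lv ▸ hu) hd) ?_)
  rw [s.lv]; exact u4

theorem mi_all (m : ℕ) : ∀ W, MI U Fv Lb m W := by
  induction m using Nat.strong_induction_on with
  | _ m ihm =>
  intro W
  induction hN : ((Fv \ W).filter fun k => Lb k = m).card using Nat.strong_induction_on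
    generalizing W with
  | _ N ih =>
  by_cases hV : ∃ k ∈ Fv, k ∉ W ∧ Lb k = m
  · obtain ⟨k, h1, h2, h3⟩ := hV
    refine step_W h1 h2 h3 (ih _ ?_ _ rfl)
    rw [← hN]
    refine Finset.card_lt_card ⟨Finset.filter_subset_filter _
      (Finset.sdiff_subset_sdiff le_rfl (Finset.subset_insert _ _)), fun e => ?_⟩
    simpa using e (show k ∈ _ by simp [h1, h2, h3])
  · rintro T p rfl rfl h g hg h0
    exact step_U h (fun k h1 h2 => lt_of_le_of_ne (h.act k h1 h2) fun e => hV ⟨k, h1, h2, e⟩)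
      (fun j e c => ihm j (by omega) W T p rfl rfl c) hg h0

end Tw

open Tw

/-- **monomialisation** -/
theorem M_fin (h : T.WF) (hs : T.Sp) (hp : T.Pt U p) (hg : T.fr.A T.top g)
    (hr : RR (T.D T.top) g) : ∃ (T' : Tw ι) (p' : α → ι → ℂ) (Φ : (ι → ℂ) → ι → ℂ),
      T.Lift T' U (T.p + 1) ∅ p p' Φ ∧
        (EqOn (g ∘ Φ) 0 (T'.D T'.top) ∨ T'.MU U p' T'.top ∅ (g ∘ Φ)) := by
  induction hN : T.μ using Nat.strong_induction_on generalizing T p g with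
  | _ N ih =>
  have drop : ∀ (T' : Tw ι) (p' : α → ι → ℂ) (Φ : (ι → ℂ) → ι → ℂ),
      T.Lift T' U (T.p + 1) ∅ p p' Φ → T'.Sp → T'.μ < T.μ →
      ∃ (T' : Tw ι) (p' : α → ι → ℂ) (Φ : (ι → ℂ) → ι → ℂ), T.Lift T' U (T.p + 1) ∅ p p' Φ ∧
        (EqOn (g ∘ Φ) 0 (T'.D T'.top) ∨ T'.MU U p' T'.top ∅ (g ∘ Φ)) := fun T' p' Φ L s m => by
    have a := (L.top le_rfl).ar ⟨hg, hr⟩
    obtain ⟨T'', p'', Ψ, L', b⟩ := ih _ (hN ▸ m) L.wf s L.pt a.a a.r rfl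
    exact ⟨T'', p'', _, L.trans (L.pp ▸ L') le_rfl, b⟩
  obtain ⟨R, -, s⟩ := exists_good h hp ∅
  have L0 := s.lf.mono (Nat.zero_le (T.p + 1)) Finset.Subset.rfl
  by_cases h0 : EqOn (g ∘ id) 0 ((T.shr R T.r).D (T.shr R T.r).top)
  · exact ⟨_, _, _, L0, Or.inl h0⟩
  have c : Ctx (T.shr R T.r) U p T.p ∅ := ⟨s.gd, hs.of_sub rfl rfl Finset.Subset.rfl, s.lf.pt,
    le_rfl, by simp, fun k hk _ => h.lab k hk⟩
  rcases mi_all T.p ∅ _ p rfl rfl c _ ((L0.top le_rfl).ar ⟨hg, hr⟩) h0 with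
    ⟨T1, p1, Φ, L, sp, b | ⟨k, b1, b2, b3, b4⟩⟩ | ⟨T1, p1, Φ, s1, b⟩
  · exact drop T1 p1 _ (L0.trans L le_rfl) sp b
  · have O := T1_ok L.wf (lv_top (L.wf.lab k b1))
    have A := AR.const O 0
    obtain ⟨T2, p2, Ψ, L2, d1, d2, d3⟩ := E5_elim (W := ∅) L.wf L.pt b1 b2 (by simp)
      (fun j hj _ => by rw [b3]; exact (L.wf.lab j hj).trans L.pp.le) A.a A.r
      ⟨fun _ _ => rfl, by simp⟩ (by simpa using b4.2 (by rw [L.pp]; exact lt_irrefl _))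
    rw [b3] at L2
    exact drop T2 p2 _ ((L0.trans L le_rfl).trans L2 le_rfl)
      (sp.of_sub d1 L2.pp L2.sub) ((mu_erase b1 L.wf L2.pp d2 d3).trans_le L.mu)
  · exact ⟨T1, p1, _, L0.trans s1.lf le_rfl, Or.inr (by rw [s1.top]; exact b)⟩

end Crest.Agent.N207.O
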