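import Crest.Agent.N207.O.Fin
import Crest.Agent.N207.O.Mon4
import Crest.Agent.N207.O.Ini3

/-! # Row 207, block O: the weak Lojasiewicz inequality on trees -/

set_option autoImplicit false

namespace Crest.Agent.N207.O

theorem ost : OST :=
  ost_of (fun _ _ _ _ _ _ _ _ h hs hp hg hr => M_fin h hs hp hg hr)
    fun _ _ _ _ _ _ hθ _ hL => I1_ini hθ hL

end Crest.Agent.N207.O
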