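import Crest.Agent.N207.CB.Defs

/-! # Row 207, block O (helper84): the output statement of block O -/

set_option autoImplicit false

open Set Filter Topology Metric

noncomputable section

namespace Crest.Agent.N207.O

/-- **weak Lojasiewicz inequality on trees**, along an ultrafilter -/
def OST : Prop :=
  ∀ (Θ V : Type) [Fintype Θ] [Fintype V] [DecidableEq Θ] [DecidableEq V] (D : CB.OD Θ V)
    (α : Type) (U : Ultrafilter α) (θ : α → Θ → ℝ) (L : α → V → ℝ) (r : ℝ), r < D.ρ →
    (∀ i, ‖θ i‖ ≤ r) → (∀ w, Tendsto (fun i => L i w) U atTop) →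
    Tendsto (fun i => D.f (fun j => θ i j) fun w => L i w) U (𝓝 0) →
    ∀ a : ℝ, 0 < a → ∀ η : ℝ, 0 < η → ∀ᶠ i in U,
      ‖D.f (fun j => θ i j) fun w => L i w‖ ≤ η *
        (∑ j, ‖deriv (fun t : ℂ => D.f (Function.update (fun j => (θ i j : ℂ)) j t)
            fun w => L i w) (θ i j)‖ +
          ∑ w, Real.exp (a * L i w) * ‖deriv (fun t : ℂ => D.f (fun j => θ i j)
            (Function.update (fun w => (L i w : ℂ)) w t)) (L i w)‖)

end Crest.Agent.N207.O
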