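import Crest.Agent.N207.O.Cls

/-!
# Row 207, block O (helper88): algebra of the class `Fr.Cl`, part 1
-/

set_option autoImplicit false
set_option linter.unusedSectionVars false

open Set Filter Topology Metric

noncomputable section

namespace Crest.Agent.N207.O

variable {X κ E E' : Type*} [NormedAddCommGroup X] [NormedSpace ℂ X]
  [NormedAddCommGroup E] [NormedSpace ℂ E] [NormedAddCommGroup E'] [NormedSpace ℂ E']
  {F : Fr X κ} {l : List κ} {a : κ} {b b' : ℝ} {g g' : X → E}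

theorem Bd.mono {α β : Type*} [Norm β] {S S' : Set α} {g : α → β} (h : Bd S g) (hs : S' ⊆ S) :
    Bd S' g := h.imp fun _ hC x hx => hC x (hs hx)

theorem Bd.pos {α β : Type*} [Norm β] {S : Set α} {g : α → β} (h : Bd S g) :
    ∃ C : ℝ, 0 < C ∧ ∀ x ∈ S, ‖g x‖ ≤ C := by
  obtain ⟨C, hC⟩ := h
  exact ⟨max C 1, by positivity, fun x hx => (hC x hx).trans (le_max_left _ _)⟩

namespace Fr

theorem Ok.isOpen : ∀ {l : List κ}, F.Ok l → IsOpen (F.D l)
  | [], h => h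
  | _ :: _, h => h.2.1

theorem Ok.tail (h : F.Ok (a :: l)) : F.Ok l := h.1

theorem Ok.sub (h : F.Ok (a :: l)) : F.D (a :: l) ⊆ F.D l := h.2.2.1

theorem Ok.diff (h : F.Ok (a :: l)) : DifferentiableOn ℂ (F.s a) (F.D (a :: l)) := h.2.2.2.1

theorem Ok.re (h : F.Ok (a :: l)) {x : X} (hx : x ∈ F.D (a :: l)) : 0 ≤ (F.s a x).re :=
  h.2.2.2.2 x hx

theorem Ok.suffix {l₀ : List κ} : ∀ {l : List κ}, F.Ok l → l₀ <:+ l → F.Ok l₀
  | [], h, hl => by rw [List.suffix_nil.1 hl]; exact h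
  | _ :: _, h, hl => by
    rcases List.suffix_cons_iff.1 hl with rfl | hl
    · exact h
    · exact Ok.suffix h.1 hl

theorem Ok.subset {l₀ : List κ} : ∀ {l : List κ}, F.Ok l → l₀ <:+ l → F.D l ⊆ F.D l₀
  | [], _, hl => by rw [List.suffix_nil.1 hl]
  | _ :: _, h, hl => by
    rcases List.suffix_cons_iff.1 hl with rfl | hl
    · exact Subset.rfl
    · exact h.sub.trans (Ok.subset h.1 hl)

theorem norm_ex (F : Fr X κ) (a : κ) (t : ℝ) (x : X) :
    ‖F.ex a t x‖ = Real.exp (-(t * (F.s a x).re)) := by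
  simp [ex, Complex.norm_exp]

theorem ex_zero (F : Fr X κ) (a : κ) (x : X) : F.ex a 0 x = 1 := by simp [ex]

theorem ex_add (F : Fr X κ) (a : κ) (t u : ℝ) (x : X) :
    F.ex a (t + u) x = F.ex a t x * F.ex a u x := by
  simp only [ex, ← Complex.exp_add]; congr 1; push_cast; ring

theorem ex_ne (F : Fr X κ) (a : κ) (t : ℝ) (x : X) : F.ex a t x ≠ 0 := Complex.exp_ne_zero _

theorem Ok.diff_ex (h : F.Ok (a :: l)) (t : ℝ) :
    DifferentiableOn ℂ (F.ex a t) (F.D (a :: l)) :=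
  ((h.diff.const_mul (t : ℂ)).neg).cexp

theorem Ok.exp_le (h : F.Ok (a :: l)) {x : X} (hx : x ∈ F.D (a :: l)) {K t : ℝ} (ht : K ≤ t) :
    Real.exp (-(t * (F.s a x).re)) ≤ Real.exp (-(K * (F.s a x).re)) :=
  Real.exp_le_exp.2 (by have := h.re hx; nlinarith)

theorem Ok.norm_ex_le (h : F.Ok (a :: l)) {x : X} (hx : x ∈ F.D (a :: l)) {t : ℝ} (ht : 0 ≤ t) :
    ‖F.ex a t x‖ ≤ 1 := by
  rw [norm_ex]; simpa using h.exp_le hx ht

theorem Cl.zero : ∀ {l : List κ} {b : ℝ}, F.Cl l b (0 : X → E)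
  | [], _ => ⟨differentiableOn_const _, 0, fun _ _ => by simp⟩
  | _ :: _, _ => ⟨differentiableOn_const _, 0, fun _ => Cl.zero, fun _ _ => rfl,
      fun _ => ⟨∅, 0, fun _ _ _ => rfl, fun _ _ => by simp⟩⟩

theorem Cl.zero' : F.Cl l b fun _ => (0 : E) := Cl.zero

end Fr

open Fr

theorem A1_diff : ∀ {l : List κ} {b : ℝ} {g : X → E}, F.Cl l b g → DifferentiableOn ℂ g (F.D l)
  | [], _, _, h => h.1
  | _ :: _, _, _, h => h.1

theorem A2_congr (h : F.Cl l b g) (e : EqOn g g' (F.D l)) : F.Cl l b g' := by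
  cases l with
  | nil =>
    obtain ⟨h1, C, hC⟩ := h
    exact ⟨h1.congr fun x hx => (e hx).symm, C, fun x hx => e hx ▸ hC x hx⟩
  | cons a l =>
    obtain ⟨h1, c, h2, h3, h4⟩ := h
    refine ⟨h1.congr fun x hx => (e hx).symm, c, h2, h3, fun K => ?_⟩
    obtain ⟨S, C, h5, h6⟩ := h4 K
    exact ⟨S, C, h5, fun x hx => e hx ▸ h6 x hx⟩

theorem A3_mono (h : F.Cl l b g) (hb : b' ≤ b) : F.Cl l b' g := by
  cases l with
  | nil => exact h
  | cons a l =>
    obtain ⟨h1, c, h2, h3, h4⟩ := h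
    exact ⟨h1, c, h2, fun t ht => h3 t (ht.trans_le hb), h4⟩

theorem A3_clm (L : E →L[ℂ] E') : ∀ {l : List κ} {b : ℝ} {g : X → E}, F.Cl l b g →
    F.Cl l b fun x => L (g x)
  | [], _, _, h => by
    obtain ⟨h1, C, hC⟩ := h
    exact ⟨L.differentiable.comp_differentiableOn h1, ‖L‖ * C, fun x hx =>
      (L.le_opNorm _).trans (mul_le_mul_of_nonneg_left (hC x hx) (norm_nonneg _))⟩
  | a :: l, b, g, h => by
    obtain ⟨h1, c, h2, h3, h4⟩ := h
    refine ⟨L.differentiable.comp_differentiableOn h1, fun t x => L (c t x),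
      fun t => A3_clm L (h2 t), fun t ht => by funext x; simp [h3 t ht], fun K => ?_⟩
    obtain ⟨S, C, h5, h6⟩ := h4 K
    refine ⟨S, ‖L‖ * C, fun t ht hs => by funext x; simp [h5 t ht hs], fun x hx => ?_⟩
    have : L (g x) - ∑ t ∈ S, F.ex a t x • L (c t x) = L (g x - ∑ t ∈ S, F.ex a t x • c t x) := by
      simp [map_sum]
    rw [this, mul_assoc]
    exact (L.le_opNorm _).trans (mul_le_mul_of_nonneg_left (h6 x hx) (norm_nonneg _))

/-- the terms of exponent `≥ K` are negligible -/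
theorem tail_le {I : Type*} (hF : F.Ok (a :: l)) {τ : I → ℝ} {d : I → X → E}
    (hd : ∀ i, Bd (F.D l) (d i)) {K : ℝ} (J : Finset I) (hJ : ∀ i ∈ J, τ i < K → d i = 0) :
    ∃ C : ℝ, ∀ x ∈ F.D (a :: l),
      ‖∑ i ∈ J, F.ex a (τ i) x • d i x‖ ≤ C * Real.exp (-(K * (F.s a x).re)) := by
  choose C hC0 hC using fun i => (hd i).pos
  refine ⟨∑ i ∈ J, C i, fun x hx => ?_⟩
  rw [Finset.sum_mul]
  refine norm_sum_le_of_le _ fun i hi => ?_
  by_cases h : τ i < K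
  · rw [hJ i hi h]; simp only [Pi.zero_apply, smul_zero, norm_zero]
    exact mul_nonneg (hC0 i).le (Real.exp_pos _).le
  · rw [norm_smul, norm_ex, mul_comm]
    exact mul_le_mul (hC i x (hF.sub hx)) (hF.exp_le hx (not_lt.1 h)) (Real.exp_pos _).le
      (hC0 i).le

/-- change of the truncation set -/
theorem est_any {I : Type*} (hF : F.Ok (a :: l)) {τ : I → ℝ} {d : I → X → E}
    (hd : ∀ i, Bd (F.D l) (d i)) {K C : ℝ} {J J' : Finset I}
    (hJ : ∀ i, τ i < K → i ∉ J → d i = 0) (hJ' : ∀ i, τ i < K → i ∉ J' → d i = 0)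
    (h : ∀ x ∈ F.D (a :: l),
      ‖g x - ∑ i ∈ J, F.ex a (τ i) x • d i x‖ ≤ C * Real.exp (-(K * (F.s a x).re))) :
    ∃ C' : ℝ, ∀ x ∈ F.D (a :: l),
      ‖g x - ∑ i ∈ J', F.ex a (τ i) x • d i x‖ ≤ C' * Real.exp (-(K * (F.s a x).re)) := by
  classical
  obtain ⟨C1, h1⟩ := tail_le hF hd (K := K) (τ := τ) (J \ J')
    fun i hi ht => hJ' i ht (Finset.mem_sdiff.1 hi).2
  obtain ⟨C2, h2⟩ := tail_le hF hd (K := K) (τ := τ) (J' \ J)
    fun i hi ht => hJ i ht (Finset.mem_sdiff.1 hi).2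
  refine ⟨C + C1 + C2, fun x hx => ?_⟩
  have e := Finset.sum_sdiff_sub_sum_sdiff (s₁ := J') (s₂ := J)
    (f := fun i => F.ex a (τ i) x • d i x)
  have : g x - ∑ i ∈ J', F.ex a (τ i) x • d i x = (g x - ∑ i ∈ J, F.ex a (τ i) x • d i x) +
      (∑ i ∈ J \ J', F.ex a (τ i) x • d i x - ∑ i ∈ J' \ J, F.ex a (τ i) x • d i x) := by
    rw [e]; abel
  rw [this]
  refine (norm_add_le _ _).trans ?_
  have := norm_sub_le (∑ i ∈ J \ J', F.ex a (τ i) x • d i x) (∑ i ∈ J' \ J, F.ex a (τ i) x • d i x)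
  have := h x hx; have := h1 x hx; have := h2 x hx
  linarith

theorem A1_bd : ∀ {l : List κ} {b : ℝ} {g : X → E}, F.Ok l → 0 ≤ b → F.Cl l b g → Bd (F.D l) g
  | [], _, _, _, _, h => h.2
  | a :: l, b, g, hF, hb, h => by
    obtain ⟨_, c, h2, h3, h4⟩ := h
    obtain ⟨S, C, h5, h6⟩ := h4 0
    obtain ⟨C', h7⟩ := est_any hF (τ := id) (fun t => A1_bd hF.1 le_rfl (h2 t)) (J' := ∅) h5
      (fun t ht _ => h3 t (ht.trans_le hb)) h6
    exact ⟨C', fun x hx => by simpa using h7 x hx⟩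

/-- `c` is a family of coefficients of `g` -/
structure Fr.Ex (F : Fr X κ) (a : κ) (l : List κ) (b : ℝ) (g : X → E) (c : ℝ → X → E) : Prop where
  diff : DifferentiableOn ℂ g (F.D (a :: l))
  cl : ∀ t, F.A l (c t)
  lo : ∀ t < b, c t = 0
  fin : ∀ K : ℝ, ∃ S : Finset ℝ, ∀ t < K, t ∉ S → c t = 0
  est : ∀ (K : ℝ) (S : Finset ℝ), (∀ t < K, t ∉ S → c t = 0) → ∃ C : ℝ, ∀ x ∈ F.D (a :: l),
    ‖g x - ∑ t ∈ S, F.ex a t x • c t x‖ ≤ C * Real.exp (-(K * (F.s a x).re))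

namespace Fr

theorem Cl.ex (hF : F.Ok (a :: l)) (h : F.Cl (a :: l) b g) : ∃ c, F.Ex a l b g c := by
  obtain ⟨h1, c, h2, h3, h4⟩ := h
  refine ⟨c, h1, h2, h3, fun K => (h4 K).imp fun S h => h.choose_spec.1, fun K S' hS' => ?_⟩
  obtain ⟨S, C, h5, h6⟩ := h4 K
  exact est_any hF (τ := id) (fun t => A1_bd hF.1 le_rfl (h2 t)) h5 hS' h6

theorem Ex.toCl {c : ℝ → X → E} (h : F.Ex a l b g c) : F.Cl (a :: l) b g := by
  refine ⟨h.diff, c, h.cl, h.lo, fun K => ?_⟩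
  obtain ⟨S, hS⟩ := h.fin K
  obtain ⟨C, hC⟩ := h.est K S hS
  exact ⟨S, C, hS, hC⟩

/-- size of an element of `Cl (a :: l) b` -/
theorem Cl.est (hF : F.Ok (a :: l)) (h : F.Cl (a :: l) b g) :
    ∃ C : ℝ, 0 < C ∧ ∀ x ∈ F.D (a :: l), ‖g x‖ ≤ C * Real.exp (-(b * (F.s a x).re)) := by
  obtain ⟨c, hc⟩ := h.ex hF
  obtain ⟨C, hC⟩ := hc.est b ∅ fun t ht _ => hc.lo t ht
  refine ⟨max C 1, by positivity, fun x hx => ?_⟩
  have := hC x hx
  simp only [Finset.sum_empty, sub_zero] at this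
  exact this.trans (mul_le_mul_of_nonneg_right (le_max_left _ _) (Real.exp_pos _).le)

end Fr

theorem A3_add : ∀ {l : List κ} {b : ℝ} {g g' : X → E}, F.Ok l → F.Cl l b g → F.Cl l b g' →
    F.Cl l b fun x => g x + g' x
  | [], _, _, _, _, h, h' => by
    obtain ⟨h1, C, hC⟩ := h
    obtain ⟨h1', C', hC'⟩ := h'
    exact ⟨h1.add h1', C + C', fun x hx => (norm_add_le _ _).trans (add_le_add (hC x hx) (hC' x hx))⟩
  | a :: l, b, g, g', hF, h, h' => by
    classical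
    obtain ⟨c, hc⟩ := h.ex hF
    obtain ⟨c', hc'⟩ := h'.ex hF
    refine ⟨hc.diff.add hc'.diff, fun t x => c t x + c' t x,
      fun t => A3_add hF.1 (hc.cl t) (hc'.cl t),
      fun t ht => by funext x; simp [hc.lo t ht, hc'.lo t ht], fun K => ?_⟩
    obtain ⟨S, hS⟩ := hc.fin K
    obtain ⟨S', hS'⟩ := hc'.fin K
    have e : ∀ t < K, t ∉ S ∪ S' → c t = 0 := fun t ht h => hS t ht fun h1 => h (by simp [h1])
    have e' : ∀ t < K, t ∉ S ∪ S' → c' t = 0 := fun t ht h => hS' t ht fun h1 => h (by simp [h1])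
    obtain ⟨C, hC⟩ := hc.est K _ e
    obtain ⟨C', hC'⟩ := hc'.est K _ e'
    refine ⟨S ∪ S', C + C', fun t ht h => by funext x; simp [e t ht h, e' t ht h], fun x hx => ?_⟩
    have : g x + g' x - ∑ t ∈ S ∪ S', F.ex a t x • (c t x + c' t x) =
        (g x - ∑ t ∈ S ∪ S', F.ex a t x • c t x) + (g' x - ∑ t ∈ S ∪ S', F.ex a t x • c' t x) := by
      simp only [smul_add, Finset.sum_add_distrib]; abel
    rw [this, add_mul]
    exact (norm_add_le _ _).trans (add_le_add (hC x hx) (hC' x hx))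

namespace Fr

theorem Cl.diff (h : F.Cl l b g) : DifferentiableOn ℂ g (F.D l) := A1_diff h

theorem Cl.congr (h : F.Cl l b g) (e : EqOn g g' (F.D l)) : F.Cl l b g' := A2_congr h e

theorem Cl.add (hF : F.Ok l) (h : F.Cl l b g) (h' : F.Cl l b g') :
    F.Cl l b fun x => g x + g' x := A3_add hF h h'

theorem Cl.neg (h : F.Cl l b g) : F.Cl l b fun x => -g x :=
  A3_clm (-ContinuousLinearMap.id ℂ E) h

theorem Cl.sub (hF : F.Ok l) (h : F.Cl l b g) (h' : F.Cl l b g') :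
    F.Cl l b fun x => g x - g' x := by
  simpa only [sub_eq_add_neg] using A3_add hF h h'.neg

theorem Cl.csmul (z : ℂ) (h : F.Cl l b g) : F.Cl l b fun x => z • g x :=
  A3_clm (z • ContinuousLinearMap.id ℂ E) h

theorem Cl.const_mul {g : X → ℂ} (z : ℂ) (h : F.Cl l b g) : F.Cl l b fun x => z * g x :=
  h.csmul z

theorem Cl.sum {I : Type*} (hF : F.Ok l) (J : Finset I) {f : I → X → E}
    (h : ∀ i ∈ J, F.Cl l b (f i)) : F.Cl l b fun x => ∑ i ∈ J, f i x := by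
  classical
  induction J using Finset.induction_on with
  | empty => simpa using Cl.zero'
  | insert i J hi ih =>
    simp only [Finset.sum_insert hi]
    exact A3_add hF (h i (Finset.mem_insert_self _ _))
      (ih fun j hj => h j (Finset.mem_insert_of_mem hj))

/-- **Constructor from an arbitrary locally finite family of terms.** -/
theorem Cl.of_family {I : Type*} (hF : F.Ok (a :: l)) (hg : DifferentiableOn ℂ g (F.D (a :: l)))
    (τ : I → ℝ) (d : I → X → E) (hd : ∀ i, F.A l (d i)) (hb : ∀ i, τ i < b → d i = 0)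
    (he : ∀ K : ℝ, 0 ≤ K → ∃ (J : Finset I) (C : ℝ), (∀ i, τ i < K → i ∉ J → d i = 0) ∧
      ∀ x ∈ F.D (a :: l),
        ‖g x - ∑ i ∈ J, F.ex a (τ i) x • d i x‖ ≤ C * Real.exp (-(K * (F.s a x).re))) :
    F.Cl (a :: l) b g := by
  classical
  have he' : ∀ K : ℝ, ∃ (J : Finset I) (C : ℝ), (∀ i, τ i < K → i ∉ J → d i = 0) ∧
      ∀ x ∈ F.D (a :: l),
        ‖g x - ∑ i ∈ J, F.ex a (τ i) x • d i x‖ ≤ C * Real.exp (-(K * (F.s a x).re)) := by
    intro K
    obtain ⟨J, C, h1, h2⟩ := he (max K 0) (le_max_right _ _)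
    refine ⟨J, max C 0, fun i hi => h1 i (hi.trans_le (le_max_left _ _)), fun x hx => ?_⟩
    exact (h2 x hx).trans (mul_le_mul (le_max_left _ _) (hF.exp_le hx (le_max_left _ _))
      (Real.exp_pos _).le (le_max_right _ _))
  have hfin : ∀ K : ℝ, {i | τ i < K ∧ d i ≠ 0}.Finite := fun K => by
    obtain ⟨J, _, h1, _⟩ := he' K
    exact J.finite_toSet.subset fun i hi => by_contra fun h => hi.2 (h1 i hi.1 h)
  have hm : ∀ K i, i ∈ (hfin K).toFinset ↔ τ i < K ∧ d i ≠ 0 := fun K i => by simp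
  refine ⟨hg, fun t x => ∑ i ∈ (hfin (t + 1)).toFinset with τ i = t, d i x,
    fun t => Cl.sum hF.1 _ fun i _ => hd i, fun t ht => ?_, fun K => ?_⟩
  · funext x
    exact Finset.sum_eq_zero fun i hi => by
      rw [hb i ((Finset.mem_filter.1 hi).2 ▸ ht)]; rfl
  obtain ⟨J, C, h1, h2⟩ := he' K
  obtain ⟨C', h3⟩ := est_any hF (fun i => A1_bd hF.1 le_rfl (hd i)) (J' := (hfin K).toFinset) h1
    (fun i hi h => by_contra fun h' => h ((hm K i).2 ⟨hi, h'⟩)) h2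
  refine ⟨(hfin K).toFinset.image τ, C', fun t ht hs => ?_, fun x hx => ?_⟩
  · funext x
    refine Finset.sum_eq_zero fun i hi => ?_
    obtain ⟨h4, h5⟩ := Finset.mem_filter.1 hi
    exact absurd (Finset.mem_image.2 ⟨i, (hm K i).2 ⟨h5 ▸ ht, ((hm _ i).1 h4).2⟩, h5⟩) hs
  convert h3 x hx using 3
  rw [← Finset.sum_fiberwise_of_maps_to (g := τ) (t := (hfin K).toFinset.image τ)
    (fun i hi => Finset.mem_image_of_mem τ hi)]
  refine Finset.sum_congr rfl fun t ht => ?_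
  obtain ⟨j, hj, rfl⟩ := Finset.mem_image.1 ht
  have e : ((hfin (τ j + 1)).toFinset.filter fun i => τ i = τ j) =
      (hfin K).toFinset.filter fun i => τ i = τ j := by
    ext i
    simp only [Finset.mem_filter, hm]
    have := ((hm K j).1 hj).1
    constructor
    · rintro ⟨⟨_, h5⟩, h6⟩; exact ⟨⟨h6 ▸ this, h5⟩, h6⟩
    · rintro ⟨⟨_, h5⟩, h6⟩; exact ⟨⟨by rw [h6]; linarith, h5⟩, h6⟩
  dsimp only
  rw [e, Finset.smul_sum]
  exact Finset.sum_congr rfl fun i hi => by rw [(Finset.mem_filter.1 hi).2]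

end Fr

end Crest.Agent.N207.O
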