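import Crest.Agent.N207.O.Alg1

/-!
# Row 207, block O (helper88): algebra of the class `Fr.Cl`, part 2
-/

set_option autoImplicit false
set_option linter.unusedSectionVars false

open Set Filter Topology Metric

noncomputable section

namespace Crest.Agent.N207.O

variable {X κ E E' E'' : Type*} [NormedAddCommGroup X] [NormedSpace ℂ X]
  [NormedAddCommGroup E] [NormedSpace ℂ E] [NormedAddCommGroup E'] [NormedSpace ℂ E']
  [NormedAddCommGroup E''] [NormedSpace ℂ E'']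
  {F : Fr X κ} {l : List κ} {a : κ} {b b' : ℝ} {g g' : X → E}

open Fr

theorem bil_diff (B : E →L[ℂ] E' →L[ℂ] E'') {f : X → E'} {S : Set X} (h : DifferentiableOn ℂ g S)
    (h' : DifferentiableOn ℂ f S) : DifferentiableOn ℂ (fun x => B (g x) (f x)) S :=
  (B.differentiable.comp_differentiableOn h).clm_apply h'

theorem bil_aux (B : E →L[ℂ] E' →L[ℂ] E'') : ∀ {l : List κ} {b b' : ℝ} {g : X → E} {f : X → E'},
    F.Ok l → 0 ≤ b → 0 ≤ b' → F.Cl l b g → F.Cl l b' f → F.Cl l (b + b') fun x => B (g x) (f x)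
  | [], _, _, _, _, _, _, _, h, h' => by
    obtain ⟨C, hC0, hC⟩ := h.2.pos
    obtain ⟨C', _, hC'⟩ := h'.2.pos
    refine ⟨bil_diff B h.1 h'.1, ‖B‖ * C * C', fun x hx => (B.le_opNorm₂ _ _).trans ?_⟩
    have := hC x hx; have := hC' x hx
    gcongr
  | a :: l, b, b', g, f, hF, hb, hb', h, h' => by
    classical
    obtain ⟨c, hc⟩ := h.ex hF
    obtain ⟨c', hc'⟩ := h'.ex hF
    refine Cl.of_family hF (bil_diff B hc.diff hc'.diff) (fun i : ℝ × ℝ => i.1 + i.2)
      (fun i x => B (c i.1 x) (c' i.2 x))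
      (fun i => by simpa using bil_aux B hF.1 le_rfl le_rfl (hc.cl i.1) (hc'.cl i.2))
      (fun i hi => ?_) fun K hK => ?_
    · funext x
      by_cases h1 : i.1 < b
      · simp [hc.lo _ h1]
      · simp [hc'.lo i.2 (by linarith)]
    obtain ⟨S, hS⟩ := hc.fin K
    obtain ⟨S', hS'⟩ := hc'.fin K
    obtain ⟨C, hC⟩ := hc.est K S hS
    obtain ⟨C', hC'⟩ := hc'.est K S' hS'
    obtain ⟨M', hM0', hM'⟩ := (A1_bd hF hb' h').pos
    obtain ⟨M, hM⟩ := tail_le hF (τ := id) (fun t => A1_bd hF.1 le_rfl (hc.cl t)) (K := 0) S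
      fun t _ ht => hc.lo t (lt_of_lt_of_le ht hb)
    refine ⟨S ×ˢ S', ‖B‖ * C * M' + ‖B‖ * M * C', fun i hi hs => ?_, fun x hx => ?_⟩
    · funext x
      by_cases h1 : i.1 < b
      · simp [hc.lo _ h1]
      by_cases h2 : i.2 < b'
      · simp [hc'.lo _ h2]
      by_cases h3 : i.1 ∈ S
      · have h4 : i.2 ∉ S' := fun h4 => hs (Finset.mem_product.2 ⟨h3, h4⟩)
        simp [hS' i.2 (by linarith) h4]
      · simp [hS i.1 (by linarith) h3]
    have e : B (g x) (f x) - ∑ i ∈ S ×ˢ S', F.ex a (i.1 + i.2) x • B (c i.1 x) (c' i.2 x) =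
        B (g x - ∑ t ∈ S, F.ex a t x • c t x) (f x) +
          B (∑ t ∈ S, F.ex a t x • c t x) (f x - ∑ t ∈ S', F.ex a t x • c' t x) := by
      simp only [Finset.sum_product, map_sub, map_sum, map_smul, sub_apply,
        sum_apply, smul_apply, ex_add, mul_smul,
        Finset.smul_sum]
      rw [Finset.sum_comm (s := S') (t := S)]
      simp only [smul_comm (F.ex a _ x) (F.ex a _ x)]
      abel
    rw [e]
    have h1 := hC x hx
    have h2 := hC' x hx
    have h3 := hM' x hx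
    have h4 := hM x hx
    simp only [id, zero_mul, neg_zero, Real.exp_zero, mul_one] at h4
    have h5 : 0 ≤ C * Real.exp (-(K * (F.s a x).re)) := (norm_nonneg _).trans h1
    have h6 : 0 ≤ M := (norm_nonneg _).trans h4
    refine (norm_add_le _ _).trans ((add_le_add (B.le_opNorm₂ _ _) (B.le_opNorm₂ _ _)).trans ?_)
    calc _ ≤ ‖B‖ * (C * Real.exp (-(K * (F.s a x).re))) * M' +
          ‖B‖ * M * (C' * Real.exp (-(K * (F.s a x).re))) := by gcongr
      _ = _ := by ring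

theorem A3_bil (hF : F.Ok l) (B : E →L[ℂ] E' →L[ℂ] E'') {f : X → E'} (hb : 0 ≤ b) (hb' : 0 ≤ b')
    (h : F.Cl l b g) (h' : F.Cl l b' f) : F.Cl l (b + b') fun x => B (g x) (f x) :=
  bil_aux B hF hb hb' h h'

theorem Fr.A.up (hF : F.Ok (a :: l)) (h : F.A l g) : F.A (a :: l) g :=
  Cl.of_family hF ((A1_diff h).mono hF.sub) (fun _ : Unit => 0) (fun _ => g) (fun _ => h)
    (fun _ h => absurd h (lt_irrefl _)) fun _ _ =>
      ⟨Finset.univ, 0, fun _ _ h => absurd (Finset.mem_univ _) h, fun x _ => by simp [ex_zero]⟩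

theorem A4_lift {l₀ : List κ} : ∀ {l : List κ}, F.Ok l → l₀ <:+ l → F.A l₀ g → F.A l g
  | [], _, hl, h => by rw [List.suffix_nil.1 hl] at h; exact h
  | _ :: _, hF, hl, h => by
    rcases List.suffix_cons_iff.1 hl with rfl | hl
    · exact h
    · exact (A4_lift hF.1 hl h).up hF

namespace Fr

theorem Cl.const (hF : F.Ok l) (e : E) : F.A l fun _ => e :=
  A4_lift hF List.nil_suffix ⟨differentiableOn_const _, ‖e‖, fun _ _ => le_rfl⟩

/-- bounded holomorphic functions on `D []` -/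
theorem A.of_nil (hF : F.Ok l) (h : DifferentiableOn ℂ g (F.D [])) (hb : Bd (F.D []) g) :
    F.A l g := A4_lift hF List.nil_suffix ⟨h, hb⟩

theorem Cl.smul (hF : F.Ok l) {f : X → ℂ} (hb : 0 ≤ b) (hb' : 0 ≤ b') (h : F.Cl l b f)
    (h' : F.Cl l b' g) : F.Cl l (b + b') fun x => f x • g x :=
  A3_bil hF (ContinuousLinearMap.lsmul ℂ ℂ) hb hb' h h'

theorem Cl.mul (hF : F.Ok l) {f g : X → ℂ} (hb : 0 ≤ b) (hb' : 0 ≤ b') (h : F.Cl l b f)
    (h' : F.Cl l b' g) : F.Cl l (b + b') fun x => f x * g x := Cl.smul hF hb hb' h h'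

theorem A.smul (hF : F.Ok l) {f : X → ℂ} (h : F.A l f) (h' : F.A l g) :
    F.A l fun x => f x • g x := by simpa using Cl.smul hF le_rfl le_rfl h h'

theorem A.mul (hF : F.Ok l) {f g : X → ℂ} (h : F.A l f) (h' : F.A l g) :
    F.A l fun x => f x * g x := A.smul hF h h'

theorem Cl.pow (hF : F.Ok l) {f : X → ℂ} (hb : 0 ≤ b) (h : F.Cl l b f) (n : ℕ) :
    F.Cl l (n * b) fun x => f x ^ n := by
  induction n with
  | zero => simpa using Cl.const hF (1 : ℂ)
  | succ n ih =>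
    have := Cl.mul hF (by positivity) hb ih h
    simpa only [pow_succ, Nat.cast_succ, add_mul, one_mul] using this

theorem A.pow (hF : F.Ok l) {f : X → ℂ} (h : F.A l f) (n : ℕ) : F.A l fun x => f x ^ n := by
  simpa using Cl.pow hF le_rfl h n

theorem A.prod {I : Type*} (hF : F.Ok l) (J : Finset I) {f : I → X → ℂ}
    (h : ∀ i ∈ J, F.A l (f i)) : F.A l fun x => ∏ i ∈ J, f i x := by
  classical
  induction J using Finset.induction_on with
  | empty => simpa using Cl.const hF (1 : ℂ)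
  | insert i J hi ih =>
    simp only [Finset.prod_insert hi]
    exact A.mul hF (h i (Finset.mem_insert_self _ _))
      (ih fun j hj => h j (Finset.mem_insert_of_mem hj))

/-- multiplication by `e^{-t s_a}`, any real `t` -/
theorem Cl.ex_smul (hF : F.Ok (a :: l)) (t : ℝ) (h : F.Cl (a :: l) b g) :
    F.Cl (a :: l) (t + b) fun x => F.ex a t x • g x := by
  obtain ⟨c, hc⟩ := h.ex hF
  refine Cl.of_family hF ((hF.diff_ex t).smul hc.diff) (fun u : ℝ => t + u) c hc.cl
    (fun u hu => hc.lo u (by linarith)) fun K _ => ?_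
  obtain ⟨S, hS⟩ := hc.fin (K - t)
  obtain ⟨C, hC⟩ := hc.est _ S hS
  refine ⟨S, C, fun u hu => hS u (by linarith), fun x hx => ?_⟩
  have e : F.ex a t x • g x - ∑ u ∈ S, F.ex a (t + u) x • c u x =
      F.ex a t x • (g x - ∑ u ∈ S, F.ex a u x • c u x) := by
    simp only [smul_sub, Finset.smul_sum, ex_add, mul_smul]
  rw [e, norm_smul, norm_ex]
  calc _ ≤ Real.exp (-(t * (F.s a x).re)) * (C * Real.exp (-((K - t) * (F.s a x).re))) := by
        gcongr; exact hC x hx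
    _ = _ := by
      rw [mul_left_comm, ← Real.exp_add]; congr 2; ring

/-- general summation theorem -/
theorem Cl.series {I : Type*} (hF : F.Ok (a :: l)) {T : I → X → E} {β : I → ℝ}
    (hT : ∀ i, F.Cl (a :: l) (β i) (T i)) (hb : ∀ i, β i < b → T i = 0)
    (hg : DifferentiableOn ℂ g (F.D (a :: l)))
    (he : ∀ K : ℝ, 0 ≤ K → ∃ (J : Finset I) (C : ℝ), (∀ i, β i < K → i ∉ J → T i = 0) ∧
      ∀ x ∈ F.D (a :: l), ‖g x - ∑ i ∈ J, T i x‖ ≤ C * Real.exp (-(K * (F.s a x).re))) :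
    F.Cl (a :: l) b g := by
  classical
  have hT' : ∀ i, ∃ c, F.Ex a l (β i) (T i) c ∧ (T i = 0 → c = 0) := fun i => by
    by_cases h : T i = 0
    · refine ⟨0, ⟨A1_diff (hT i), fun _ => Cl.zero, fun _ _ => rfl,
        fun _ => ⟨∅, fun _ _ _ => rfl⟩, fun _ _ _ => ⟨0, fun x _ => by simp [h]⟩⟩, fun _ => rfl⟩
    · exact ((hT i).ex hF).imp fun c hc => ⟨hc, fun h' => absurd h' h⟩
  choose c hc h0 using hT'
  refine Cl.of_family hF hg (fun i : Σ _ : I, ℝ => i.2) (fun i => c i.1 i.2)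
    (fun i => (hc i.1).cl i.2) (fun i hi => ?_) fun K hK => ?_
  · by_cases h : β i.1 < b
    · rw [h0 _ (hb _ h)]; rfl
    · exact (hc i.1).lo _ (by linarith)
  obtain ⟨J, C, hJ, hC⟩ := he K hK
  choose S hS using fun i => (hc i).fin K
  choose C' hC' using fun i => (hc i).est K (S i) (hS i)
  refine ⟨J.sigma S, C + ∑ i ∈ J, C' i, fun i hi hs => ?_, fun x hx => ?_⟩
  · by_cases h : i.1 ∈ J
    · exact hS i.1 i.2 hi fun h' => hs (Finset.mem_sigma.2 ⟨h, h'⟩)
    by_cases h' : β i.1 < K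
    · rw [h0 _ (hJ _ h' h)]; rfl
    · exact (hc i.1).lo _ (by linarith)
  have e : g x - ∑ i ∈ J.sigma S, F.ex a i.2 x • c i.1 i.2 x = (g x - ∑ i ∈ J, T i x) +
      ∑ i ∈ J, (T i x - ∑ t ∈ S i, F.ex a t x • c i t x) := by
    rw [Finset.sum_sigma, Finset.sum_sub_distrib]; abel
  rw [e, add_mul, Finset.sum_mul]
  exact (norm_add_le _ _).trans (add_le_add (hC x hx)
    (norm_sum_le_of_le _ fun i _ => hC' i x hx))

/-- splitting off the coefficient of the lowest exponent -/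
theorem Ex.split (hF : F.Ok (a :: l)) {c : ℝ → X → E} (h : F.Ex a l b g c) :
    ∃ (γ : ℝ) (g1 : X → E), 0 < γ ∧ F.A (a :: l) g1 ∧
      ∀ x, g x = F.ex a b x • (c b x + F.ex a γ x • g1 x) := by
  classical
  obtain ⟨S, hS⟩ := h.fin (b + 1)
  obtain ⟨γ, hγ, hγ1, hγS⟩ : ∃ γ : ℝ, 0 < γ ∧ γ ≤ 1 ∧ ∀ t ∈ S, b < t → b + γ ≤ t := by
    clear hS
    induction S using Finset.induction_on with
    | empty => exact ⟨1, one_pos, le_rfl, fun _ h => absurd h (by simp)⟩
    | insert u S _ ih =>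
      obtain ⟨γ, h1, h2, h3⟩ := ih
      by_cases hu : b < u
      · refine ⟨min γ (u - b), lt_min h1 (by linarith), (min_le_left _ _).trans h2, fun t ht h => ?_⟩
        rcases Finset.mem_insert.1 ht with rfl | ht
        · have := min_le_right γ (t - b); linarith
        · have := min_le_left γ (u - b); have := h3 t ht h; linarith
      · refine ⟨γ, h1, h2, fun t ht h => ?_⟩
        rcases Finset.mem_insert.1 ht with rfl | ht
        · exact absurd h hu
        · exact h3 t ht h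
  have h1 : F.Cl (a :: l) (b + γ) fun x => g x - F.ex a b x • c b x := by
    refine ⟨h.diff.sub ((hF.diff_ex b).smul ((A1_diff (h.cl b)).mono hF.sub)),
      Function.update c b 0, fun t => ?_, fun t ht => ?_, fun K => ?_⟩
    · by_cases ht : t = b
      · rw [ht, Function.update_self]; exact Cl.zero
      · rw [Function.update_of_ne ht]; exact h.cl t
    · rcases lt_trichotomy t b with h1 | h1 | h1
      · rw [Function.update_of_ne h1.ne]; exact h.lo t h1
      · rw [h1, Function.update_self]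
      · rw [Function.update_of_ne h1.ne']
        exact hS t (by linarith) fun h2 => by have := hγS t h2 h1; linarith
    obtain ⟨S', hS'⟩ := h.fin K
    obtain ⟨C, hC⟩ := h.est K (insert b (S'.erase b)) fun t ht hs =>
      hS' t ht fun h' => hs (by by_cases e : t = b <;> simp [e, h'])
    refine ⟨S'.erase b, C, fun t ht hs => ?_, fun x hx => ?_⟩
    · by_cases e : t = b
      · rw [e, Function.update_self]
      · rw [Function.update_of_ne e]; exact hS' t ht fun h' => hs (by simp [e, h'])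
    · have := hC x hx
      rw [Finset.sum_insert (Finset.notMem_erase _ _), ← sub_sub] at this
      convert this using 3
      exact Finset.sum_congr rfl fun t ht => by
        rw [Function.update_of_ne (Finset.ne_of_mem_erase ht)]
  refine ⟨γ, fun x => F.ex a (-(b + γ)) x • (g x - F.ex a b x • c b x), hγ,
    by simpa using h1.ex_smul hF (-(b + γ)), fun x => ?_⟩
  rw [smul_add, smul_smul, smul_smul, ← ex_add, ← ex_add]
  simp [ex_zero]

/-- projection to the lower level -/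
theorem A.proj (hF : F.Ok (a :: l)) (h : F.A (a :: l) g) : ∃ (c g1 : X → E) (γ : ℝ), 0 < γ ∧
    F.A l c ∧ F.A (a :: l) g1 ∧ ∀ x, g x = c x + F.ex a γ x • g1 x := by
  obtain ⟨c, hc⟩ := Cl.ex hF h
  obtain ⟨γ, g1, h1, h2, h3⟩ := hc.split hF
  exact ⟨c 0, g1, γ, h1, hc.cl 0, h2, fun x => by simpa [ex_zero] using h3 x⟩

/-- the lowest coefficient that does not vanish on `D l` -/
theorem Ex.lead (hF : F.Ok (a :: l)) {c : ℝ → X → E} (h : F.Ex a l b g c)
    (h0 : ∃ t, ¬ EqOn (c t) 0 (F.D l)) : ∃ (t γ : ℝ) (g1 : X → E), b ≤ t ∧ 0 < γ ∧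
      ¬ EqOn (c t) 0 (F.D l) ∧ F.A (a :: l) g1 ∧
      ∀ x, g x = F.ex a t x • (c t x + F.ex a γ x • g1 x) := by
  classical
  obtain ⟨t1, ht1⟩ := h0
  obtain ⟨S, hS⟩ := h.fin (t1 + 1)
  have hz : ∀ t, c t = 0 → EqOn (c t) 0 (F.D l) := fun t e x _ => by rw [e]
  obtain ⟨t, ht, hmin⟩ := (S.filter fun t => ¬ EqOn (c t) 0 (F.D l)).exists_min_image id
    ⟨t1, Finset.mem_filter.2 ⟨by_contra fun h' => ht1 (hz _ (hS t1 (by linarith) h')), ht1⟩⟩
  have ht' := (Finset.mem_filter.1 ht).2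
  have hlt : t ≤ t1 := hmin t1
    (Finset.mem_filter.2 ⟨by_contra fun h' => ht1 (hz _ (hS t1 (by linarith) h')), ht1⟩)
  have hlow : ∀ u < t, EqOn (c u) 0 (F.D l) := fun u hu => by_contra fun h' => by
    have := hmin u
      (Finset.mem_filter.2 ⟨by_contra fun h'' => h' (hz _ (hS u (by linarith) h'')), h'⟩)
    exact absurd hu (not_lt.2 this)
  have h' : F.Ex a l t g fun u => if u < t then 0 else c u := by
    refine ⟨h.diff, fun u => ?_, fun u hu => if_pos hu, fun K => (h.fin K).imp fun S hS u hu hs => ?_,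
      fun K S' hS' => ?_⟩
    · split_ifs
      · exact Cl.zero
      · exact h.cl u
    · split_ifs
      · rfl
      · exact hS u hu hs
    obtain ⟨S1, hS1⟩ := h.fin K
    obtain ⟨C, hC⟩ := h.est K S1 hS1
    refine est_any hF (τ := id) (d := fun u => if u < t then 0 else c u) (J := S1) (C := C)
      (fun u => ?_) (fun u hu hs => ?_) hS' fun x hx => ?_
    · split_ifs
      · exact ⟨0, fun _ _ => by simp⟩
      · exact A1_bd hF.1 le_rfl (h.cl u)
    · split_ifs
      · rfl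
      · exact hS1 u hu hs
    · convert hC x hx using 3
      refine Finset.sum_congr rfl fun u _ => ?_
      dsimp only [id]
      split_ifs with hu
      · rw [hlow u hu (hF.sub hx)]
      · rfl
  obtain ⟨γ, g1, h1, h2, h3⟩ := h'.split hF
  refine ⟨t, γ, g1, not_lt.1 fun hb => ht' (hz _ (h.lo t hb)), h1, ht', h2, fun x => ?_⟩
  simpa using h3 x

/-- all coefficients vanish: flat -/
theorem Ex.flat (hF : F.Ok (a :: l)) {c : ℝ → X → E} (h : F.Ex a l b g c)
    (h0 : ∀ t, EqOn (c t) 0 (F.D l)) (K : ℝ) :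
    ∃ C : ℝ, ∀ x ∈ F.D (a :: l), ‖g x‖ ≤ C * Real.exp (-(K * (F.s a x).re)) := by
  obtain ⟨S, hS⟩ := h.fin K
  obtain ⟨C, hC⟩ := h.est K S hS
  refine ⟨C, fun x hx => ?_⟩
  have := hC x hx
  rwa [Finset.sum_eq_zero fun t _ => by rw [h0 t (hF.sub hx)]; simp, sub_zero] at this

end Fr

theorem A5_ex (hF : F.Ok (a :: l)) {t : ℝ} (_ht : 0 ≤ t) (h : F.A (a :: l) g) :
    F.Cl (a :: l) t fun x => F.ex a t x • g x := by simpa using Cl.ex_smul hF t h

theorem A6_series (hF : F.Ok (a :: l)) {T : ℕ → X → E} {β : ℕ → ℝ} (h0 : ∀ n, 0 ≤ β n)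
    (hβ : Tendsto β atTop atTop) (hT : ∀ n, F.Cl (a :: l) (β n) (T n))
    (hg : DifferentiableOn ℂ g (F.D (a :: l)))
    (he : ∀ K : ℝ, ∃ N₀ : ℕ, ∀ N ≥ N₀, ∃ C : ℝ, ∀ x ∈ F.D (a :: l),
      ‖g x - ∑ n ∈ Finset.range N, T n x‖ ≤ C * Real.exp (-(K * (F.s a x).re))) :
    F.A (a :: l) g := by
  refine Cl.series hF hT (fun n h => absurd (h0 n) (not_le.2 h)) hg fun K _ => ?_
  obtain ⟨N₀, hN₀⟩ := he K
  obtain ⟨N₁, hN₁⟩ := eventually_atTop.1 (hβ.eventually_ge_atTop K)
  obtain ⟨C, hC⟩ := hN₀ (max N₀ N₁) (le_max_left _ _)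
  refine ⟨_, C, fun n hn hs => absurd (hN₁ n ?_) (not_le.2 hn), hC⟩
  exact (le_max_right _ _).trans (not_lt.1 fun h => hs (Finset.mem_range.2 h))

theorem A8_lead (hF : F.Ok (a :: l)) (hq : F.QA1 a l) {g : X → ℂ} (h : F.A (a :: l) g)
    (h0 : ¬ EqOn g 0 (F.D (a :: l))) : ∃ (t γ : ℝ) (c g1 : X → ℂ), 0 < γ ∧ F.A l c ∧
      ¬ EqOn c 0 (F.D l) ∧ F.A (a :: l) g1 ∧
      ∀ x ∈ F.D (a :: l), g x = F.ex a t x * (c x + F.ex a γ x * g1 x) := by
  obtain ⟨c, hc⟩ := Cl.ex hF h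
  obtain ⟨t, γ, g1, _, h1, h2, h3, h4⟩ := hc.lead hF (by
    by_contra h'
    exact h0 (hq g hc.diff (hc.flat hF fun t => by_contra fun h'' => h' ⟨t, h''⟩)))
  exact ⟨t, γ, c t, g1, h1, hc.cl t, h2, h3, fun x _ => h4 x⟩

end Crest.Agent.N207.O
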