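import Crest.Agent.N207.O.Alg2

/-!
# Row 207, block O (helper88): standard parts, ranges, pull-backs
-/

set_option autoImplicit false
set_option linter.unusedSectionVars false

open Set Filter Topology Metric

noncomputable section

namespace Crest.Agent.N207.O

variable {X X' κ κ' E : Type*} [NormedAddCommGroup X] [NormedSpace ℂ X]
  [NormedAddCommGroup X'] [NormedSpace ℂ X'] [NormedAddCommGroup E] [NormedSpace ℂ E]
  {F : Fr X κ} {F' : Fr X' κ'} {l : List κ} {l' : List κ'} {a : κ} {a' : κ'} {b b' : ℝ}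
  {g g' : X → E}

open Fr

namespace Fr

theorem St.A {gb : X → E} : ∀ {l : List κ}, F.St l g gb → F.A l g
  | [], h => h.1
  | _ :: _, h => h.1

theorem St.A0 {gb : X → E} : ∀ {l : List κ} {g : X → E}, F.St l g gb → F.A [] gb
  | [], _, h => h.2.1
  | _ :: _, _, h => by
    obtain ⟨_, c, _, _, _, h1, _⟩ := h
    exact St.A0 h1

theorem St.congr {gb : X → E} (h : F.St l g gb) (e : EqOn g g' (F.D l)) : F.St l g' gb := by
  cases l with
  | nil => exact ⟨A2_congr h.1 e, h.2.1, fun x hx => (e hx).symm.trans (h.2.2 hx)⟩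
  | cons a l =>
    obtain ⟨h1, c, g1, γ, h2, h3, h4, h5⟩ := h
    exact ⟨A2_congr h1 e, c, g1, γ, h2, h3, h4, fun x hx => (e hx).symm.trans (h5 x hx)⟩

theorem St.congr_right {gb gb' : X → E} (e : EqOn gb gb' (F.D [])) :
    ∀ {l : List κ} {g : X → E}, F.St l g gb → F.St l g gb'
  | [], _, h => ⟨h.1, A2_congr h.2.1 e, fun _ hx => (h.2.2 hx).trans (e hx)⟩
  | _ :: _, _, h => by
    obtain ⟨h1, c, g1, γ, h2, h3, h4, h5⟩ := h
    exact ⟨h1, c, g1, γ, h2, St.congr_right e h3, h4, h5⟩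

theorem St.up {gb : X → E} (hF : F.Ok (a :: l)) (h : F.St l g gb) : F.St (a :: l) g gb :=
  ⟨h.A.up hF, g, 0, 1, one_pos, h, Cl.zero, fun x _ => by simp⟩

theorem St.lift {gb : X → E} {l₀ : List κ} : ∀ {l : List κ}, F.Ok l → l₀ <:+ l → F.St l₀ g gb →
    F.St l g gb
  | [], _, hl, h => by rw [List.suffix_nil.1 hl] at h; exact h
  | _ :: _, hF, hl, h => by
    rcases List.suffix_cons_iff.1 hl with rfl | hl
    · exact h
    · exact (St.lift hF.1 hl h).up hF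

theorem St.of_nil (hF : F.Ok l) (h : F.A [] g) : F.St l g g :=
  St.lift hF List.nil_suffix ⟨h, h, fun _ _ => rfl⟩

theorem In.A {K : Set E} : ∀ {l : List κ}, F.In l K g → F.A l g
  | [], h => h.1
  | _ :: _, h => h.1

theorem In.maps {K : Set E} : ∀ {l : List κ}, F.In l K g → MapsTo g (F.D l) K
  | [], h => h.2
  | _ :: _, h => h.2.1

theorem In.congr {K : Set E} (h : F.In l K g) (e : EqOn g g' (F.D l)) : F.In l K g' := by
  cases l with
  | nil => exact ⟨A2_congr h.1 e, fun x hx => e hx ▸ h.2 hx⟩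
  | cons a l =>
    obtain ⟨h1, h0, c, g1, γ, h2, h3, h4, h5⟩ := h
    exact ⟨A2_congr h1 e, fun x hx => e hx ▸ h0 hx, c, g1, γ, h2, h3, h4,
      fun x hx => (e hx).symm.trans (h5 x hx)⟩

theorem In.mono {K K' : Set E} (hK : K ⊆ K') : ∀ {l : List κ} {g : X → E}, F.In l K g → F.In l K' g
  | [], _, h => ⟨h.1, h.2.mono_right hK⟩
  | _ :: _, _, h => by
    obtain ⟨h1, h0, c, g1, γ, h2, h3, h4, h5⟩ := h
    exact ⟨h1, h0.mono_right hK, c, g1, γ, h2, In.mono hK h3, h4, h5⟩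

theorem In.up {K : Set E} (hF : F.Ok (a :: l)) (h : F.In l K g) : F.In (a :: l) K g :=
  ⟨h.A.up hF, h.maps.mono_left hF.sub, g, 0, 1, one_pos, h, Cl.zero, fun x _ => by simp⟩

theorem In.lift {K : Set E} {l₀ : List κ} : ∀ {l : List κ}, F.Ok l → l₀ <:+ l → F.In l₀ K g →
    F.In l K g
  | [], _, hl, h => by rw [List.suffix_nil.1 hl] at h; exact h
  | _ :: _, hF, hl, h => by
    rcases List.suffix_cons_iff.1 hl with rfl | hl
    · exact h
    · exact (In.lift hF.1 hl h).up hF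

end Fr

theorem A7_St : ∀ {l : List κ} {g : X → E}, F.Ok l → F.A l g → ∃ gb, F.St l g gb
  | [], g, _, h => ⟨g, h, h, fun _ _ => rfl⟩
  | _ :: _, _, hF, h => by
    obtain ⟨c, g1, γ, h1, h2, h3, h4⟩ := h.proj hF
    obtain ⟨gb, h5⟩ := A7_St hF.1 h2
    exact ⟨gb, h, c, g1, γ, h1, h5, h3, fun x _ => h4 x⟩

theorem A7_In : ∀ {l : List κ} {g : X → E}, F.Ok l → F.A l g → ∃ M : ℝ, F.In l (closedBall 0 M) g
  | [], g, _, h => h.2.imp fun M hM => ⟨h, fun x hx => by simpa using hM x hx⟩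
  | _ :: _, _, hF, h => by
    obtain ⟨c, g1, γ, h1, h2, h3, h4⟩ := h.proj hF
    obtain ⟨M, h5⟩ := A7_In hF.1 h2
    obtain ⟨M', h6⟩ := A1_bd hF le_rfl h
    exact ⟨max M M', h, fun x hx => by simpa using Or.inr (h6 x hx), c, g1, γ, h1,
      h5.mono (closedBall_subset_closedBall (le_max_left _ _)), h3, fun x _ => h4 x⟩

/-- `A9_step` keeping the lower bound of the exponents -/
theorem A9_step' (hF : F.Ok (a :: l)) (hF' : F'.Ok (a' :: l')) {Φ : X' → X} {e : X' → ℂ}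
    (hm : MapsTo Φ (F'.D (a' :: l')) (F.D (a :: l)))
    (hd : DifferentiableOn ℂ Φ (F'.D (a' :: l')))
    (hs : ∀ x ∈ F'.D (a' :: l'), F.s a (Φ x) = F'.s a' x + e x)
    (he : ∀ t : ℝ, 0 ≤ t → F'.A (a' :: l') fun x => Complex.exp (-((t : ℂ) * e x)))
    (hB : ∃ B : ℝ, ∀ x ∈ F'.D (a' :: l'), -B ≤ (e x).re)
    (H : ∀ c : X → E, F.A l c → F'.A (a' :: l') (c ∘ Φ)) (hb : 0 ≤ b) (h : F.Cl (a :: l) b g) :
    F'.Cl (a' :: l') b (g ∘ Φ) := by
  obtain ⟨c, hc⟩ := Cl.ex hF h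
  obtain ⟨B, hB⟩ := hB
  refine Cl.series hF' (β := id)
    (T := fun t x => F'.ex a' t x • (Complex.exp (-((t : ℂ) * e x)) • c t (Φ x)))
    (fun t => ?_) (fun t ht => ?_) (hc.diff.comp hd hm) fun K hK => ?_
  · by_cases ht : t < b
    · simpa [hc.lo t ht] using Cl.zero'
    · have ht' : 0 ≤ t := hb.trans (not_lt.1 ht)
      exact A5_ex hF' ht' (A.smul hF' (he t ht') (H _ (hc.cl t)))
  · funext x; simp [hc.lo t ht]
  obtain ⟨S, hS⟩ := hc.fin K
  obtain ⟨C, hC⟩ := hc.est K S hS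
  refine ⟨S, max C 0 * Real.exp (K * B), fun t ht hs => by funext x; simp [hS t ht hs],
    fun x hx => ?_⟩
  have h1 := hC _ (hm hx)
  have e1 : ∀ t : ℝ, F.ex a t (Φ x) = F'.ex a' t x * Complex.exp (-((t : ℂ) * e x)) := fun t => by
    simp only [ex, hs x hx, ← Complex.exp_add]; congr 1; ring
  simp only [e1, mul_smul] at h1
  refine h1.trans ?_
  rw [mul_assoc, ← Real.exp_add]
  refine mul_le_mul (le_max_left _ _) (Real.exp_le_exp.2 ?_) (Real.exp_pos _).le (le_max_right _ _)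
  rw [hs x hx, Complex.add_re]
  have := hB x hx
  nlinarith

theorem A9_step (hF : F.Ok (a :: l)) (hF' : F'.Ok (a' :: l')) {Φ : X' → X} {e : X' → ℂ}
    (hm : MapsTo Φ (F'.D (a' :: l')) (F.D (a :: l)))
    (hd : DifferentiableOn ℂ Φ (F'.D (a' :: l')))
    (hs : ∀ x ∈ F'.D (a' :: l'), F.s a (Φ x) = F'.s a' x + e x)
    (he : ∀ t : ℝ, 0 ≤ t → F'.A (a' :: l') fun x => Complex.exp (-((t : ℂ) * e x)))
    (hB : ∃ B : ℝ, ∀ x ∈ F'.D (a' :: l'), -B ≤ (e x).re)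
    (H : ∀ c : X → E, F.A l c → F'.A (a' :: l') (c ∘ Φ)) (h : F.A (a :: l) g) :
    F'.A (a' :: l') (g ∘ Φ) := A9_step' hF hF' hm hd hs he hB H le_rfl h

/-- pull-back with differentiability only on the domains of the suffixes -/
theorem A9_pull' {F' : Fr X' κ} {Φ : X' → X} : ∀ {l : List κ} {b : ℝ} {g : X → E},
    (∀ l₀, l₀ <:+ l → MapsTo Φ (F'.D l₀) (F.D l₀)) →
    (∀ l₀, l₀ <:+ l → DifferentiableOn ℂ Φ (F'.D l₀)) →
    (∀ a l₀, a :: l₀ <:+ l → ∀ x ∈ F'.D (a :: l₀), F.s a (Φ x) = F'.s a x) →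
    F.Cl l b g → F'.Cl l b (g ∘ Φ)
  | [], _, _, hm, hd, _, h => by
    obtain ⟨h1, C, hC⟩ := h
    exact ⟨h1.comp (hd _ List.suffix_rfl) (hm _ List.suffix_rfl), C,
      fun x hx => hC _ (hm _ List.suffix_rfl hx)⟩
  | a :: l, b, g, hm, hd, hs, h => by
    obtain ⟨h1, c, h2, h3, h4⟩ := h
    have ht : ∀ l₀, l₀ <:+ l → l₀ <:+ a :: l := fun l₀ h => h.trans (List.suffix_cons _ _)
    refine ⟨h1.comp (hd _ List.suffix_rfl) (hm _ List.suffix_rfl), fun t => c t ∘ Φ,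
      fun t => A9_pull' (fun l₀ h => hm l₀ (ht _ h)) (fun l₀ h => hd l₀ (ht _ h))
        (fun a l₀ h => hs a l₀ (ht _ h)) (h2 t), fun t ht => by funext x; simp [h3 t ht], fun K => ?_⟩
    obtain ⟨S, C, h5, h6⟩ := h4 K
    refine ⟨S, C, fun t ht hs => by funext x; simp [h5 t ht hs], fun x hx => ?_⟩
    have := h6 _ (hm _ List.suffix_rfl hx)
    simpa only [ex, hs a l List.suffix_rfl x hx, Function.comp] using this

theorem A9_pull {F' : Fr X' κ} (hF' : F'.Ok l) {Φ : X' → X}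
    (hm : ∀ l₀, l₀ <:+ l → MapsTo Φ (F'.D l₀) (F.D l₀)) (hd : DifferentiableOn ℂ Φ (F'.D []))
    (hs : ∀ a l₀, a :: l₀ <:+ l → ∀ x ∈ F'.D (a :: l₀), F.s a (Φ x) = F'.s a x)
    (h : F.Cl l b g) : F'.Cl l b (g ∘ Φ) :=
  A9_pull' hm (fun _ h => hd.mono ((hF'.suffix h).subset List.nil_suffix)) hs h

namespace Fr

theorem Sub.suffix {F' : Fr X κ} {R : ℝ} {l₀ : List κ} : ∀ {l : List κ}, F'.Sub F R l → l₀ <:+ l →
    F'.Sub F R l₀
  | [], h, hl => by rw [List.suffix_nil.1 hl]; exact h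
  | _ :: _, h, hl => by
    rcases List.suffix_cons_iff.1 hl with rfl | hl
    · exact h
    · exact Sub.suffix h.1 hl

theorem Sub.subset {F' : Fr X κ} {R : ℝ} : ∀ {l : List κ}, F'.Sub F R l → F'.D l ⊆ F.D l
  | [], h => h
  | _ :: _, h => h.2.1

theorem Sub.mono {F' : Fr X κ} {R R' : ℝ} (hR : R' ≤ R) : ∀ {l : List κ}, F'.Sub F R l →
    F'.Sub F R' l
  | [], h => h
  | _ :: _, h => ⟨Sub.mono hR h.1, h.2.1, h.2.2.1, fun x hx => hR.trans (h.2.2.2 x hx)⟩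

/-- restriction to a sub-frame -/
theorem Cl.restrict {F' : Fr X κ} {R : ℝ} (hs : F'.Sub F R l) (h : F.Cl l b g) : F'.Cl l b g :=
  A9_pull' (Φ := id) (fun _ h => (hs.suffix h).subset) (fun _ _ => differentiableOn_id)
    (fun _ _ h x _ => by rw [(hs.suffix h).2.2.1]; rfl) h

theorem St.restrict {F' : Fr X κ} {R : ℝ} {gb : X → E} : ∀ {l : List κ} {g : X → E},
    F'.Sub F R l → F.St l g gb → F'.St l g gb
  | [], _, hs, h => ⟨Cl.restrict hs h.1, Cl.restrict hs h.2.1, h.2.2.mono hs⟩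
  | _ :: _, _, hs, h => by
    obtain ⟨h1, c, g1, γ, h2, h3, h4, h5⟩ := h
    refine ⟨Cl.restrict hs h1, c, g1, γ, h2, St.restrict hs.1 h3, Cl.restrict hs h4,
      fun x hx => ?_⟩
    simpa only [ex, hs.2.2.1] using h5 x (hs.2.1 hx)

theorem In.restrict {F' : Fr X κ} {R : ℝ} {K : Set E} : ∀ {l : List κ} {g : X → E},
    F'.Sub F R l → F.In l K g → F'.In l K g
  | [], _, hs, h => ⟨Cl.restrict hs h.1, h.2.mono_left hs⟩
  | _ :: _, _, hs, h => by
    obtain ⟨h1, h0, c, g1, γ, h2, h3, h4, h5⟩ := h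
    refine ⟨Cl.restrict hs h1, h0.mono_left hs.2.1, c, g1, γ, h2, In.restrict hs.1 h3,
      Cl.restrict hs h4, fun x hx => ?_⟩
    simpa only [ex, hs.2.2.1] using h5 x (hs.2.1 hx)

theorem Ok.prod {Y : Type*} [NormedAddCommGroup Y] [NormedSpace ℂ Y] {U : Set Y} (hU : IsOpen U) :
    ∀ {l : List κ}, F.Ok l → (F.prod U).Ok l
  | [], h => IsOpen.prod h hU
  | _ :: _, h => ⟨Ok.prod hU h.1, h.isOpen.prod hU, prod_mono h.sub Subset.rfl,
      h.diff.comp differentiableOn_fst fun _ hx => hx.1, fun _ hx => h.re hx.1⟩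

/-- functions of the first variable only -/
theorem Cl.fst {Y : Type*} [NormedAddCommGroup Y] [NormedSpace ℂ Y] {U : Set Y} (h : F.Cl l b g) :
    (F.prod U).Cl l b fun z => g z.1 :=
  A9_pull' (F' := F.prod U) (Φ := Prod.fst) (fun _ _ _ hx => hx.1)
    (fun _ _ => differentiableOn_fst) (fun _ _ _ _ _ => rfl) h

/-- slices of a function on a product frame -/
theorem Cl.slice {Y : Type*} [NormedAddCommGroup Y] [NormedSpace ℂ Y] {U : Set Y} {G : X × Y → E}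
    (h : (F.prod U).Cl l b G) {y : Y} (hy : y ∈ U) : F.Cl l b fun x => G (x, y) :=
  A9_pull' (F := F.prod U) (Φ := fun x => (x, y)) (fun _ _ _ hx => ⟨hx, hy⟩)
    (fun _ _ => differentiableOn_id.prodMk (differentiableOn_const _)) (fun _ _ _ _ _ => rfl) h

end Fr

end Crest.Agent.N207.O
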