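import Crest.Agent.N207.O.El1
import Crest.Agent.N207.O.Sec1b

/-!
# Row 207, block O (helper88): bridge from towers to one variable sections, part 1
-/

set_option autoImplicit false
set_option linter.unusedSectionVars false

open Set Filter Topology Metric Function

noncomputable section

namespace Crest.Agent.N207.O.Br

open El Fr

section list

variable {ι : Type} {L : List (ι ⊕ ℕ)} {n m i : ℕ} {a : ι ⊕ ℕ}

/-- the level number `n`, counted from the bottom -/
def ix (L : List (ι ⊕ ℕ)) (n : ℕ) : ι ⊕ ℕ := L.reverse.getD n (Sum.inr 0)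

/-- the `n` lowest levels -/
def sf (L : List (ι ⊕ ℕ)) (n : ℕ) : List (ι ⊕ ℕ) := (L.reverse.take n).reverse

theorem sf_zero : sf L 0 = [] := by simp [sf]

theorem sf_succ (h : n < L.length) : sf L (n + 1) = ix L n :: sf L n := by
  have h' : n < L.reverse.length := by simpa using h
  rw [sf, sf, ix, List.take_succ_eq_append_getElem h', List.getD_eq_getElem _ _ h']
  simp

theorem sf_len : sf L L.length = L := by
  rw [sf, List.take_of_length_le (by simp), List.reverse_reverse]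

theorem sf_suffix : sf L n <:+ L := by
  rw [sf, ← List.reverse_prefix, List.reverse_reverse]
  exact List.take_prefix _ _

theorem length_sf (h : n ≤ L.length) : (sf L n).length = n := by simp [sf, h]

theorem sf_of_suffix {l : List (ι ⊕ ℕ)} (h : l <:+ L) : sf L l.length = l := by
  obtain ⟨t, rfl⟩ := h
  simp [sf]

theorem sf_mono (h : m ≤ n) : sf L m <:+ sf L n := by
  rw [sf, sf, List.reverse_suffix]
  exact List.take_prefix_take_left h

theorem cons_suffix (h : n < L.length) : ix L n :: sf L n <:+ L := sf_succ h ▸ sf_suffix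

theorem mem_sf (h : n ≤ L.length) : a ∈ sf L n ↔ ∃ i < n, ix L i = a := by
  induction n with
  | zero => simp [sf_zero]
  | succ n ih =>
    rw [sf_succ h, List.mem_cons, ih (by omega)]
    constructor
    · rintro (rfl | ⟨i, hi, rfl⟩)
      · exact ⟨n, by omega, rfl⟩
      · exact ⟨i, by omega, rfl⟩
    · rintro ⟨i, hi, rfl⟩
      rcases Nat.lt_succ_iff_lt_or_eq.1 hi with hi | rfl
      · exact Or.inr ⟨i, hi, rfl⟩
      · exact Or.inl rfl

theorem ix_mem (hi : i < n) (h : n ≤ L.length) : ix L i ∈ sf L n := (mem_sf h).2 ⟨i, hi, rfl⟩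

theorem ix_not_mem (hL : L.Nodup) (h : n < L.length) : ix L n ∉ sf L n :=
  (List.nodup_cons.1 ((cons_suffix h).sublist.nodup hL)).1

theorem sum_sf [DecidableEq ι] {M : Type*} [AddCommMonoid M] (hL : L.Nodup) (h : n ≤ L.length)
    (f : ι ⊕ ℕ → M) : ∑ a ∈ (sf L n).toFinset, f a = ∑ i ∈ Finset.range n, f (ix L i) := by
  induction n with
  | zero => simp [sf_zero]
  | succ n ih =>
    rw [sf_succ h, List.toFinset_cons, Finset.sum_insert (by simpa using ix_not_mem hL h),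
      Finset.sum_range_succ, ih (by omega), add_comm]

end list

variable {ι : Type} [Fintype ι] [DecidableEq ι] {T : Tw ι} {L : List (ι ⊕ ℕ)} {n m i j J : ℕ}
  {k : ι} {b : Bool} {y : ι → ℂ} {p : ℕ → ℝ} {s : ℂ}

/-- tied levels -/
def td (L : List (ι ⊕ ℕ)) (n : ℕ) : Prop := ∃ j, ix L n = Sum.inr j

/-- exponents, by numbers -/
def nm (L : List (ι ⊕ ℕ)) (ρ : ℕ → ι ⊕ ℕ → ℝ) (n i : ℕ) : ℝ :=
  if i < n then Sum.elim (fun _ => 0) (fun j => ρ j (ix L i)) (ix L n) else 0

/-- the curve: level `n` tracks the level `n - 1` (`b = true`) or is translated -/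
def cv (L : List (ι ⊕ ℕ)) (S : ι ⊕ ℕ → (ι → ℂ) → ℂ) (b : Bool) (y : ι → ℂ) (p : ℕ → ℝ) :
    ℕ → ℂ → ι → ℂ
  | 0, _ => y
  | n + 1, s => Sum.elim (fun k => update (cv L S b y p n s) k
      ((p n : ℂ) + if b = true ∧ n ≠ 0 then S (ix L (n - 1)) (cv L S b y p n s) else s))
      (fun _ => cv L S b y p n s) (ix L n)

/-- the scales along the curve -/
def sg (L : List (ι ⊕ ℕ)) (S : ι ⊕ ℕ → (ι → ℂ) → ℂ) (b : Bool) (y : ι → ℂ) (p : ℕ → ℝ) (n : ℕ)
    (s : ℂ) : ℂ := S (ix L n) (cv L S b y p (n + 1) s)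

/-- the units along the curve -/
def uu (L : List (ι ⊕ ℕ)) (S : ι ⊕ ℕ → (ι → ℂ) → ℂ) (u : ℕ → (ι → ℂ) → ℂ) (b : Bool) (y : ι → ℂ)
    (p : ℕ → ℝ) (n : ℕ) (s : ℂ) : ℂ :=
  Sum.elim (fun _ => 0) (fun j => u j (cv L S b y p n s)) (ix L n)

/-- the preimages of the domains -/
def ZZ (L : List (ι ⊕ ℕ)) (T : Tw ι) (b : Bool) (y : ι → ℂ) (p : ℕ → ℝ) (n : ℕ) : Set ℂ :=
  {s | cv L T.s b y p n s ∈ T.D (sf L n)}

theorem nm_inr {ρ : ℕ → ι ⊕ ℕ → ℝ} (e : ix L n = Sum.inr j) (hi : i < n) :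
    nm L ρ n i = ρ j (ix L i) := by simp [nm, e, hi]

theorem nm_nn {ρ : ℕ → ι ⊕ ℕ → ℝ} (h : ∀ j a, 0 ≤ ρ j a) (n i : ℕ) : 0 ≤ nm L ρ n i := by
  unfold nm
  split_ifs
  · cases ix L n
    · exact le_rfl
    · exact h _ _
  · exact le_rfl

theorem cv_inl {S : ι ⊕ ℕ → (ι → ℂ) → ℂ} (e : ix L n = Sum.inl k) : cv L S b y p (n + 1) s =
    update (cv L S b y p n s) k
      ((p n : ℂ) + if b = true ∧ n ≠ 0 then S (ix L (n - 1)) (cv L S b y p n s) else s) := by
  simp only [cv, e, Sum.elim_inl]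

theorem cv_inr {S : ι ⊕ ℕ → (ι → ℂ) → ℂ} (e : ix L n = Sum.inr j) :
    cv L S b y p (n + 1) s = cv L S b y p n s := by simp only [cv, e, Sum.elim_inr]

theorem not_td (h : ¬ td L n) : ∃ k, ix L n = Sum.inl k := by
  rcases e : ix L n with k | j
  · exact ⟨k, rfl⟩
  · exact absurd ⟨j, e⟩ h

section tw

variable (h : T.WF) (hL : L = T.top)
include h hL

theorem sft : sf L n <:+ T.top := hL ▸ sf_suffix

theorem cst (hn : n < L.length) : ix L n :: sf L n <:+ T.top := hL ▸ cons_suffix hn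

theorem tied_lv (hn : n < L.length) (e : ix L n = Sum.inr j) : sf L n = T.lv j ∧ j < T.p :=
  suffix_inr (e ▸ cst h hL hn)

theorem free_k (hn : n < L.length) (e : ix L n = Sum.inl k) (hm : m ≤ n) :
    Sum.inl k ∉ sf L m ∧ k ∉ T.Fv :=
  ⟨fun h' => ix_not_mem (hL ▸ h.nd) hn (e ▸ (sf_mono hm).subset h'),
    fun h' => h.dj k h' ((cst h hL hn).subset (e ▸ List.mem_cons_self))⟩

theorem ex (hJ : J ≤ L.length) : Q.Ex J (td L) (nm L T.ρ) (nm L T.c) := by
  refine ⟨nm_nn h.ρ0, nm_nn h.c0, fun a b hab => if_neg (not_lt.2 hab), ?_, ?_⟩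
  · rintro n hn ⟨j, e⟩
    obtain ⟨e1, hj⟩ := tied_lv h hL (hn.trans_le hJ) e
    obtain ⟨a, ha, h0⟩ := h.ρp j hj
    obtain ⟨i, hi, rfl⟩ := (mem_sf (hn.trans_le hJ).le).1 (e1 ▸ ha)
    exact ⟨i, by rwa [nm_inr e hi]⟩
  · rintro m n hmn hn ⟨j, e⟩ ⟨j', e'⟩
    obtain ⟨e1, hj⟩ := tied_lv h hL (hn.trans_le hJ) e'
    have hjj : j < j' := inr_mem.1 (e1 ▸ e ▸ ix_mem hmn (hn.trans_le hJ).le)
    obtain ⟨h1, a, ha, h2⟩ := h.ρm j j' hjj hj
    refine ⟨fun i => ?_, ?_⟩
    · by_cases hi : i < m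
      · rw [nm_inr e hi, nm_inr e' (hi.trans hmn)]; exact h1 _
      · rw [nm, if_neg hi]; exact nm_nn h.ρ0 _ _
    · obtain ⟨i, hi, rfl⟩ := (mem_sf (hn.trans_le hJ).le).1 (e1 ▸ ha)
      refine ⟨i, ?_⟩
      rw [nm_inr e' hi]
      by_cases hi' : i < m
      · rwa [nm_inr e hi']
      · rw [nm, if_neg hi']; exact (h.ρ0 _ _).trans_lt h2

/-- the lower scales do not see the upper part of the curve -/
theorem s_cv {a : ι ⊕ ℕ} (ha : a ∈ sf L m) (hm : m ≤ n) (hn : n ≤ L.length) :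
    T.s a (cv L T.s b y p n s) = T.s a (cv L T.s b y p m s) := by
  induction n, hm using Nat.le_induction with
  | base => rfl
  | succ n hm ih =>
    rw [← ih (by omega)]
    rcases e : ix L n with k | j
    · obtain ⟨h1, h2⟩ := free_k h hL hn e hm
      rw [cv_inl e, ind_s h (sft h hL) h1 (fun h' => absurd h' h2) ha]
    · rw [cv_inr e]

theorem sg_eq (hi : i < n) (hn : n ≤ L.length) :
    sg L T.s b y p i s = T.s (ix L i) (cv L T.s b y p n s) :=
  (s_cv h hL (ix_mem i.lt_succ_self (by omega)) hi hn).symm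

theorem mem_cv (hm : m ≤ n) (hn : n ≤ L.length) :
    cv L T.s b y p n s ∈ T.D (sf L m) ↔ cv L T.s b y p m s ∈ T.D (sf L m) := by
  induction n, hm using Nat.le_induction with
  | base => rfl
  | succ n hm ih =>
    rw [← ih (by omega)]
    rcases e : ix L n with k | j
    · obtain ⟨h1, h2⟩ := free_k h hL hn e hm
      rw [cv_inl e]
      refine ⟨fun h' => ?_, fun h' => T2_upd h (sft h hL) h1 (fun h' => absurd h' h2) h'
        fun h' => absurd h' h2⟩
      have := T2_upd h (sft h hL) h1 (fun h' => absurd h' h2) h' (w := cv L T.s b y p n s k)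
        fun h' => absurd h' h2
      rwa [update_idem, update_eq_self] at this
    · rw [cv_inr e]

/-- class functions of the lower levels do not see the upper part of the curve -/
theorem g_cv {g : (ι → ℂ) → ℂ} (hg : T.fr.A (sf L m) g) (hm : m ≤ n) (hn : n ≤ L.length)
    (hs : s ∈ ZZ L T b y p m) : g (cv L T.s b y p n s) = g (cv L T.s b y p m s) := by
  induction n, hm using Nat.le_induction with
  | base => rfl
  | succ n hm ih =>
    rw [← ih (by omega)]
    rcases e : ix L n with k | j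
    · obtain ⟨h1, h2⟩ := free_k h hL hn e hm
      rw [cv_inl e, T3_liou h (sft h hL) h1 h2 (A1_diff hg)
        (A1_bd (T1_ok h (sft h hL)) le_rfl hg) ((mem_cv h hL hm (by omega)).2 hs)]
    · rw [cv_inr e]

theorem lf_eq (γ : ι ⊕ ℕ → ℝ) (hn : n ≤ L.length) :
    Q.lf (fun i => γ (ix L i)) n (sg L T.s b y p) s = T.lin (sf L n) γ (cv L T.s b y p n s) := by
  rw [Q.lf, Tw.lin, sum_sf (hL ▸ h.nd) hn]
  exact Finset.sum_congr rfl fun i hi => by rw [sg_eq h hL (Finset.mem_range.1 hi) hn]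

theorem lf_nm {ρ : ℕ → ι ⊕ ℕ → ℝ} (hn : n < L.length) (e : ix L n = Sum.inr j) :
    Q.lf (nm L ρ n) n (sg L T.s b y p) s = T.lin (T.lv j) (ρ j) (cv L T.s b y p n s) := by
  rw [← (tied_lv h hL hn e).1, ← lf_eq h hL _ hn.le]
  exact Finset.sum_congr rfl fun i hi => by rw [nm_inr e (Finset.mem_range.1 hi)]

theorem ph_eq (hn : n < L.length) (e : ix L n = Sum.inr j) :
    Q.ph (nm L T.ρ) (sg L T.s b y p) (uu L T.s T.u b y p) n s = T.E j (cv L T.s b y p n s) := by
  rw [Q.ph, lf_nm h hL hn e, uu, e]; rfl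

theorem cs_iff (hn : n < L.length) :
    Q.cs (td L) (nm L T.ρ) (sg L T.s b y p) (uu L T.s T.u b y p) T.R n s ↔
      T.cst (ix L n) (cv L T.s b y p (n + 1) s) := by
  refine and_congr Iff.rfl ⟨fun h' j e => ?_, ?_⟩
  · have := h' ⟨j, e⟩
    rwa [ph_eq h hL hn e, ← cv_inr e] at this
  · rintro h' ⟨j, e⟩
    rw [ph_eq h hL hn e, ← cv_inr e]
    exact h' j e

theorem ZZ_sub (hn : n < L.length) : ZZ L T b y p (n + 1) ⊆ ZZ L T b y p n := fun _ hs =>
  (mem_cv h hL n.le_succ hn).1 (D_suffix (sf_mono n.le_succ) hs)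

theorem step_dif (hn : n < L.length) {X : Type*} [NormedAddCommGroup X] [NormedSpace ℂ X]
    {V : Set X} {Y : X → ι → ℂ} {σ : X → ℂ} (hσ : DifferentiableOn ℂ σ V)
    (hd : DifferentiableOn ℂ (fun x => cv L T.s b (Y x) p n (σ x)) V)
    (hV : ∀ x ∈ V, σ x ∈ ZZ L T b (Y x) p n) :
    DifferentiableOn ℂ (fun x => cv L T.s b (Y x) p (n + 1) (σ x)) V := by
  rcases e : ix L n with k | j
  · simp only [cv_inl e]
    refine dif_update hd ((differentiableOn_const _).add ?_)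
    by_cases hb : b = true ∧ n ≠ 0
    · simp only [if_pos hb]
      exact (dif_mem (T1_ok h (sft h hL)) (ix_mem (by omega) hn.le)).comp hd hV
    · simpa only [if_neg hb] using hσ
  · simpa only [cv_inr e] using hd

theorem open_dif (hy : y ∈ T.D []) (hn : n ≤ L.length) : IsOpen (ZZ L T b y p n) ∧
    DifferentiableOn ℂ (cv L T.s b y p n) (ZZ L T b y p n) := by
  induction n with
  | zero =>
    refine ⟨?_, differentiableOn_const y⟩
    rw [show ZZ L T b y p 0 = univ from eq_univ_of_forall fun s => by simpa [ZZ, sf_zero, cv] using hy]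
    exact isOpen_univ
  | succ n ih =>
    obtain ⟨h1, h2⟩ := ih (by omega)
    have h3 := step_dif h hL hn (Y := fun _ => y) differentiableOn_id h2 fun _ hx => hx
    refine ⟨?_, h3.mono (ZZ_sub h hL hn)⟩
    have := h3.continuousOn.isOpen_inter_preimage h1 (h.isOpen_D (sft h hL (n := n + 1)))
    convert this using 1
    exact (inter_eq_right.2 (ZZ_sub h hL hn)).symm

theorem dif_succ (hy : y ∈ T.D []) (hn : n < L.length) :
    DifferentiableOn ℂ (cv L T.s b y p (n + 1)) (ZZ L T b y p n) :=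
  step_dif h hL hn (Y := fun _ => y) differentiableOn_id (open_dif h hL hy hn.le).2 fun _ hx => hx

theorem zs (hy : y ∈ T.D []) (hJ : J ≤ L.length) :
    Q.Zs J (td L) (nm L T.ρ) (sg L T.s b y p) (uu L T.s T.u b y p) T.R (ZZ L T b y p) := by
  refine ⟨by linarith [h.R1], eq_univ_of_forall fun s => by simpa [ZZ, sf_zero, cv] using hy,
    fun n hn => (open_dif h hL hy (hn.trans hJ)).1, fun n hn => ZZ_sub h hL (hn.trans_le hJ),
    fun n hn s hs => ?_, fun n hn P hP h1 h2 ⟨s0, h3, h4⟩ s hs => ?_⟩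
  · have hn' := hn.trans_le hJ
    rw [cs_iff h hL hn']
    rw [ZZ, mem_ofPred_eq, sf_succ hn'] at hs
    exact (D_cons hs).2
  · have hn' := hn.trans_le hJ
    rw [ZZ, mem_ofPred_eq, sf_succ hn'] at h4 ⊢
    obtain ⟨z, hz, h5⟩ := h4
    refine ⟨z, hz, ?_⟩
    rw [connectedComponentIn_eq h5]
    refine (hP.image _ ((dif_succ h hL hy hn').continuousOn.mono h1)).subset_connectedComponentIn
      (mem_image_of_mem _ h3) ?_ (mem_image_of_mem _ hs)
    rintro _ ⟨w, hw, rfl⟩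
    exact ⟨(mem_cv h hL n.le_succ hn').2 (h1 hw), (cs_iff h hL hn').1 (h2 w hw)⟩

end tw

end Crest.Agent.N207.O.Br
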