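import Crest.Agent.N207.O.Sec2

/-! Row 207, block O (helper76): the ray from an ordered deep point. -/

set_option autoImplicit false

namespace Crest.Agent.N207.O.Q

open Set Filter Finset
open scoped Topology

variable {J : ℕ} {td : ℕ → Prop} {ρ cc : ℕ → ℕ → ℝ} {γ C R τ T R1 : ℝ} {p : ℕ → ℝ}
  {σ u : ℕ → ℂ → ℂ} {Z : ℕ → Set ℂ}

/-- numerical conditions on the depth `R1` -/
structure Num (J : ℕ) (γ C R τ T R1 : ℝ) : Prop where
  γ0 : 0 ≤ γ
  one : 1 ≤ R1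
  pw : ∀ o, R1 ≤ o → (2 * R + 1) * (1 + √o) < o
  ex : ∀ o, R1 ≤ o →
    J * (2 * C * Real.exp γ * (Real.exp (-γ * o) * (Kd J T C * o) ^ J)) ≤ τ / 8
  Q : 4 * (J * T + 1) ≤ τ * Real.exp (τ * R1 - 2 * C)

theorem ev_pw (R0 : ℝ) : ∀ᶠ o : ℝ in atTop, R0 * (1 + √o) < o := by
  filter_upwards [eventually_ge_atTop 1, eventually_gt_atTop ((2 * |R0|) ^ 2)] with o h1 h2
  have h3 : 2 * |R0| < √o := Real.lt_sqrt_of_sq_lt h2
  have h4 : 1 ≤ √o := Real.one_le_sqrt.2 h1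
  have h5 : √o * √o = o := Real.mul_self_sqrt (by linarith)
  have := le_abs_self R0
  have := abs_nonneg R0
  nlinarith

theorem tendsto_exp_pow (hγ : 0 < γ) (K : ℝ) (N : ℕ) :
    Tendsto (fun o : ℝ => Real.exp (-γ * o) * (K * o) ^ N) atTop (𝓝 0) := by
  have h := (tendsto_rpow_mul_exp_neg_mul_atTop_nhds_zero N γ hγ).const_mul (K ^ N)
  rw [mul_zero] at h
  refine h.congr fun o => ?_
  rw [Real.rpow_natCast, mul_pow]; ring

theorem num_exists (J : ℕ) (hγ : 0 < γ) (C R : ℝ) (hτ : 0 < τ) (T : ℝ) :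
    ∃ R0, ∀ R1, R0 ≤ R1 → Num J γ C R τ T R1 := by
  have e2 : ∀ᶠ o : ℝ in atTop,
      J * (2 * C * Real.exp γ * (Real.exp (-γ * o) * (Kd J T C * o) ^ J)) ≤ τ / 8 := by
    have h := ((tendsto_exp_pow hγ (Kd J T C) J).const_mul (2 * C * Real.exp γ)).const_mul (J : ℝ)
    exact h.eventually (ge_mem_nhds (by simpa using hτ))
  have e3 : ∀ᶠ R : ℝ in atTop, 4 * (J * T + 1) ≤ τ * Real.exp (τ * R - 2 * C) :=
    (Tendsto.const_mul_atTop hτ (Real.tendsto_exp_atTop.comp (tendsto_atTop_add_const_right _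
      (-(2 * C)) (tendsto_id.const_mul_atTop hτ)))).eventually (eventually_ge_atTop _)
  obtain ⟨R1, h⟩ := eventually_atTop.1
    ((((ev_pw (2 * R + 1)).and e2).and e3).and (eventually_ge_atTop (1 : ℝ)))
  exact ⟨R1, fun R hR => ⟨hγ.le, (h R hR).2, fun o ho => (h o (by linarith)).1.1.1,
    fun o ho => (h o (by linarith)).1.1.2, (h R hR).1.2⟩⟩

theorem real_pw {R0 : ℝ} {w : ℂ} (h : w.im = 0) (h0 : 0 ≤ w.re) (h1 : R0 * (1 + √w.re) < w.re) :
    w ∈ Pw R0 := by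
  simp only [Pw, mem_setOf_eq, norm_of_im h h0]; exact h1

theorem om_up {R' : ℝ} (hR : 0 ≤ R') {w w' : ℂ} (hw : w ∈ Om R') (h : w.im = 0) (h' : w'.im = 0)
    (hle : w.re ≤ w'.re) : w' ∈ Om R' := by
  obtain ⟨h1, h2⟩ := hw
  have h0 : 0 < w.re := hR.trans_lt h1
  rw [norm_of_im h h0.le] at h2
  refine ⟨by linarith, ?_⟩
  rw [norm_of_im h' (by linarith)]
  have h3 := Real.log_le_sub_one_of_pos (div_pos (h0.trans_le hle) h0)
  rw [Real.log_div (by linarith) h0.ne'] at h3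
  have h4 : w'.re / w.re - 1 = (w'.re - w.re) / w.re := by field_simp
  have h5 : R' * ((w'.re - w.re) / w.re) ≤ w'.re - w.re := by
    rw [mul_div_assoc', div_le_iff₀ h0]; nlinarith
  nlinarith

/-- `u'` is small at an ordered deep real point -/
theorem Dec.der_real (hE : Ex J td ρ cc) (hS : Sec J td ρ cc γ C R p σ u Z) (hK : Cn J ρ cc τ T)
    (hN : Num J γ C R τ T R1) {a : ℕ} (ha : a ≤ J) {x : ℝ} (hx : (x : ℂ) ∈ Z a)
    (big : ∀ b < a, R1 ≤ oo σ b x) (ord : ∀ b < a, ∀ i ≤ b, oo σ i x ≤ oo σ b x) {g : ℂ → ℂ}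
    (hg : Dec γ C σ Z a g) : ‖deriv g x‖ ≤ τ / 8 := by
  have im : ∀ b < a, (σ b x).im = 0 := fun b hb =>
    hS.im_zero b (by omega) x (hS.anti hb.le ha hx)
  have one := hN.one
  refine (hg.der hE hS hK.T0 hK.k1 ha hx (M := fun b => oo σ b x)
    (fun b hb => real_pw (im b hb) (by have := big b hb; unfold oo at this; linarith)
      (hN.pw _ (big b hb))) (fun b hb => by linarith [big b hb]) (fun b hb i hi => ?_)
    hN.γ0 hS.C0).trans ?_
  · rw [norm_of_im (im i (by omega)) (by have := big i (by omega); unfold oo at this; linarith)]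
    exact ord b hb i hi
  · rcases Nat.eq_zero_or_pos a with rfl | h0
    · simp; linarith [hK.τ0]
    have hJ : (0 : ℝ) < J := by exact_mod_cast (by omega : 0 < J)
    calc _ ≤ ∑ b ∈ range a, τ / 8 / J := sum_le_sum fun b hb => by
            rw [le_div_iff₀ hJ, mul_comm]; exact hN.ex _ (big b (by simpa using hb))
      _ ≤ _ := by
        rw [sum_const, card_range, nsmul_eq_mul, mul_div_assoc', div_le_iff₀ hJ, mul_comm]
        exact mul_le_mul_of_nonneg_left (by exact_mod_cast ha) (by linarith [hK.τ0])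

/-- free levels above the lowest one track their lower neighbour -/
def Trk (J : ℕ) (td : ℕ → Prop) (p : ℕ → ℝ) (σ : ℕ → ℂ → ℂ) (Z : ℕ → Set ℂ) : Prop :=
  ∀ m, m + 1 < J → ¬ td (m + 1) → 0 ≤ p (m + 1) ∧ ∀ s ∈ Z (m + 1), σ (m + 1) s = p (m + 1) + σ m s

/-- facts on the ray -/
structure Ry (td : ℕ → Prop) (ρ cc : ℕ → ℕ → ℝ) (τ : ℝ) (σ u : ℕ → ℂ → ℂ) (Z : ℕ → Set ℂ) (a : ℕ)
    (x : ℝ) : Prop extends Lv td ρ cc τ σ u a x where
  mem : (x : ℂ) ∈ Z (a + 1)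
  grow : oo σ a 0 + x ≤ oo σ a x
  ord : ∀ b ≤ a, oo σ b x ≤ oo σ a x ∧ dd σ b x ≤ dd σ a x
  nc : td a → WW ρ σ u a x ≤ 2 * oo σ a x

theorem ray_conn : IsPreconnected ((fun x : ℝ => (x : ℂ)) '' Ici 0) :=
  isPreconnected_Ici.image _ Complex.continuous_ofReal.continuousOn

theorem ray (hE : Ex J td ρ cc) (hS : Sec J td ρ cc γ C R p σ u Z) (hK : Cn J ρ cc τ T)
    (hN : Num J γ C R τ T R1) (htr : Trk J td p σ Z) (s0 : (0 : ℂ) ∈ Z J)
    (s1 : ∀ a < J, R1 ≤ oo σ a 0) (s2 : ∀ a < J, td a → fo (cc a) a σ 0 ≤ oo σ a 0)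
    (s3 : ∀ a < J, td a → ∀ b < a, oo σ b 0 ≤ oo σ a 0) :
    ∀ a < J, ∀ x, 0 ≤ x → Ry td ρ cc τ σ u Z a x := by
  intro a
  induction a using Nat.strong_induction_on with
  | _ a ih =>
  intro ha
  have ih' : ∀ b < a, ∀ x, 0 ≤ x → Ry td ρ cc τ σ u Z b x := fun b hb => ih b hb (by omega)
  have one := hN.one
  have mem : ∀ x : ℝ, 0 ≤ x → (x : ℂ) ∈ Z a := fun x hx => by
    rcases a with _ | m
    · simp [hS.Z0]
    · exact (ih' m (by omega) x hx).mem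
  have big : ∀ x : ℝ, 0 ≤ x → ∀ b < a, R1 ≤ oo σ b x := fun x hx b hb => by
    linarith [(ih' b hb x hx).grow, s1 b (by omega)]
  have L : ∀ x : ℝ, 0 ≤ x → Lv td ρ cc τ σ u a x := fun x hx =>
    pt_step hE hS hK (by linarith) hN.Q ha (mem x hx)
      (fun hta => (hS.dec a ha hta).der_real hE hS hK hN ha.le (mem x hx) (big x hx)
        fun b hb i hi => ((ih' b hb x hx).ord i hi).1)
      (big x hx) (fun b hb => (ih' b hb x hx).toLv)
      fun y hy b hb => hS.im_zero b (by omega) y (hS.anti hb.le ha.le hy)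
  have der : ∀ b ≤ a, ∀ x : ℝ, 0 ≤ x → HasDerivAt (oo σ b) (dd σ b x) x := fun b hb x hx =>
    hasDerivAt_re (hS.dAt hb (by omega) ha.le (mem x hx)).hasDerivAt
  have grow : ∀ x : ℝ, 0 ≤ x → oo σ a 0 + x ≤ oo σ a x := fun x hx => by
    simpa using ray_grow (der a le_rfl) (fun y hy => (L y hy).d1) hx
  have mem' : (fun x : ℝ => (x : ℂ)) '' Ici 0 ⊆ Z (a + 1) := by
    refine hS.Zp a ha _ ray_conn (by rintro _ ⟨x, hx, rfl⟩; exact mem x hx) ?_
      ⟨0, ⟨0, mem_Ici.2 le_rfl, by simp⟩, hS.anti (by omega) le_rfl s0⟩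
    rintro _ ⟨x, hx, rfl⟩
    have h1 : R1 ≤ oo σ a x := by linarith [grow x hx, s1 a ha, mem_Ici.1 hx]
    refine ⟨pw_margin hS.R0 (real_pw (L x hx).im (by unfold oo at h1; linarith) (hN.pw _ h1))
      (by simp), fun hta => ?_⟩
    rw [((L x hx).tied hta).2.2.2.2.2.2.2, abs_zero]; positivity
  intro x hx
  refine ⟨L x hx, mem' ⟨x, hx, rfl⟩, grow x hx, fun b hb => ?_, fun hta => ?_⟩
  · rcases hb.eq_or_lt with rfl | hb
    · exact ⟨le_rfl, le_rfl⟩
    by_cases hta : td a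
    · refine ⟨?_, ((L x hx).tied hta).2.2.2.2.1 b hb⟩
      have := ray_grow (f := fun x => oo σ a x - oo σ b x) (m := 0)
        (fun y hy => (der a le_rfl y hy).sub (der b hb.le y hy))
        (fun y hy => sub_nonneg.2 (((L y hy).tied hta).2.2.2.2.1 b hb)) hx
      linarith [s3 a ha hta b hb]
    · obtain ⟨m, rfl⟩ : ∃ m, a = m + 1 := ⟨a - 1, by omega⟩
      obtain ⟨h1, h2⟩ := htr m ha hta
      have h3 := (ih' m (by omega) x hx).ord b (by omega)
      refine ⟨?_, by rw [dd, dd, hS.free_deriv2 ha (mem x hx) h2]; exact h3.2⟩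
      have : oo σ (m + 1) x = p (m + 1) + oo σ m x := by simp [oo, h2 x (mem x hx)]
      linarith [h3.1]
  · have := ray_grow (f := fun x => oo σ a x - fo (cc a) a σ x) (m := 0)
      (f' := fun x => dd σ a x - fd (cc a) a σ x) (fun y hy => (der a le_rfl y hy).sub
        (HasDerivAt.fun_sum fun i hi => (der i (by simp at hi; omega) y hy).const_mul _))
      (fun y hy => by
        obtain ⟨-, h1, -, -, -, h2, -⟩ := (L y hy).tied hta
        linarith) hx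
    linarith [s2 a ha hta, ((L x hx).tied hta).2.2.1]

/-- the ray stays in a second family of domains -/
theorem ray_mem {R' : ℝ} {Z' : ℕ → Set ℂ} (hZ : Zs J td ρ σ u R' Z') (s0 : (0 : ℂ) ∈ Z' J)
    (h : ∀ a < J, ∀ x, 0 ≤ x → Ry td ρ cc τ σ u Z a x) :
    ∀ a ≤ J, ∀ x : ℝ, 0 ≤ x → (x : ℂ) ∈ Z' a := by
  intro a
  induction a with
  | zero => intro _ x _; simp [hZ.Z0]
  | succ a ih =>
    intro ha x hx
    have s0' := hZ.anti ha le_rfl s0
    refine hZ.Zp a ha _ ray_conn (by rintro _ ⟨x, hx, rfl⟩; exact ih (by omega) x hx) ?_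
      ⟨0, ⟨0, mem_Ici.2 le_rfl, by simp⟩, s0'⟩ ⟨x, hx, rfl⟩
    rintro _ ⟨x, hx, rfl⟩
    have L := h a ha x hx
    refine ⟨om_up hZ.R0 (hZ.Zc a ha 0 s0').1 (by simpa using (h a ha 0 le_rfl).im) L.im ?_,
      fun hta => ?_⟩
    · have := L.grow
      simp only [oo, Complex.ofReal_zero] at this
      linarith [mem_Ici.1 hx]
    · rw [(L.tied hta).2.2.2.2.2.2.2, abs_zero]; positivity

end Crest.Agent.N207.O.Q
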