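import Crest.Agent.N207.O.Brg1
import Crest.Agent.N207.O.Sec2b

/-!
# Row 207, block O (helper88): bridge from towers to one variable sections, part 2
-/

set_option autoImplicit false
set_option linter.unusedSectionVars false

open Set Filter Topology Metric Function

noncomputable section

namespace Crest.Agent.N207.O.Br

open El Fr

variable {ι : Type} [Fintype ι] [DecidableEq ι] {T : Tw ι} {L : List (ι ⊕ ℕ)} {n m i j J : ℕ}
  {k : ι} {b : Bool} {y : ι → ℂ} {p : ℕ → ℝ} {s : ℂ}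

theorem dec_mono {γ γ' C C' : ℝ} {σ : ℕ → ℂ → ℂ} {Z : ℕ → Set ℂ} {g : ℂ → ℂ}
    (hre : ∀ b < n, ∀ s ∈ Z (b + 1), 0 ≤ (σ b s).re) (hγ : γ' ≤ γ) (hC0 : 0 ≤ C') (hC : C ≤ C')
    (h : Q.Dec γ C σ Z n g) : Q.Dec γ' C' σ Z n g := by
  obtain ⟨k, v, h1, h2⟩ := h
  refine ⟨k, v, h1, fun b hb => ⟨(h2 b hb).1, fun s hs => ((h2 b hb).2 s hs).trans ?_⟩⟩
  have := hre b hb s hs
  exact mul_le_mul hC (Real.exp_le_exp.2 (by nlinarith)) (Real.exp_pos _).le hC0

theorem cont_upd {X : Type*} [TopologicalSpace X] {V : Set X} {f : X → ι → ℂ} {φ : X → ℂ}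
    (hf : ContinuousOn f V) (hφ : ContinuousOn φ V) :
    ContinuousOn (fun x => update (f x) k (φ x)) V :=
  continuousOn_pi.2 fun i => by
    by_cases e : i = k
    · subst e; simpa using hφ
    · simpa [e] using continuousOn_pi.1 hf i

variable (h : T.WF) (hL : L = T.top)
include h hL

theorem sg_re (hn : n < L.length) (hs : s ∈ ZZ L T b y p (n + 1)) : 0 ≤ (sg L T.s b y p n s).re :=
  (show (0 : ℝ) ≤ T.R by linarith [h.R1]).trans (s_om hs (ix_mem n.lt_succ_self hn)).1.le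

/-- **class functions along the curve**, with constants that do not depend on the curve -/
theorem dec (hn : n ≤ L.length) {g : (ι → ℂ) → ℂ} (hg : T.fr.A (sf L n) g) :
    ∃ γ0 C0 : ℝ, 0 < γ0 ∧ 0 ≤ C0 ∧ ∀ γ ≤ γ0, ∀ C ≥ C0, ∀ (b : Bool) (y : ι → ℂ) (p : ℕ → ℝ),
      y ∈ T.D [] → Q.Dec γ C (sg L T.s b y p) (ZZ L T b y p) n fun s => g (cv L T.s b y p n s) := by
  induction n generalizing g with
  | zero =>
    exact ⟨1, 0, one_pos, le_rfl, fun γ _ C _ b y p _ =>
      ⟨g y, 0, fun s _ => by simp [cv], fun _ hb => absurd hb (Nat.not_lt_zero _)⟩⟩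
  | succ n ih =>
    have hF : T.fr.Ok (ix L n :: sf L n) := T1_ok h (cst h hL hn)
    rw [sf_succ hn] at hg
    obtain ⟨c, g1, γ1, h1, h2, h3, h4⟩ := hg.proj hF
    obtain ⟨γ0, C0, k1, k2, k3⟩ := ih (by omega) h2
    obtain ⟨C1, hC1, k4⟩ := (A1_bd hF le_rfl h3).pos
    refine ⟨min γ0 γ1, max C0 C1, lt_min k1 h1, le_max_of_le_left k2, fun γ hγ C hC b y p hy => ?_⟩
    obtain ⟨κ, v, k5, k6⟩ := k3 γ (hγ.trans (min_le_left _ _)) C (le_trans (le_max_left _ _) hC)
      b y p hy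
    have hm : ∀ s ∈ ZZ L T b y p (n + 1), cv L T.s b y p (n + 1) s ∈ T.fr.D (ix L n :: sf L n) :=
      fun s hs => by rw [← sf_succ hn]; exact hs
    refine ⟨κ, update v n fun s => T.fr.ex (ix L n) γ1 (cv L T.s b y p (n + 1) s) •
      g1 (cv L T.s b y p (n + 1) s), fun s hs => ?_, fun i hi => ?_⟩
    · have e := k5 s (ZZ_sub h hL hn hs)
      dsimp only at e ⊢
      rw [h4, g_cv h hL h2 n.le_succ hn (ZZ_sub h hL hn hs), e, Finset.sum_range_succ, update_self,
        add_assoc]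
      congr 2
      exact Finset.sum_congr rfl fun i hi => by rw [update_of_ne (Finset.mem_range.1 hi).ne]
    · rcases Nat.lt_succ_iff_lt_or_eq.1 hi with hi | rfl
      · rw [update_of_ne hi.ne]; exact k6 i hi
      · rw [update_self]
        refine ⟨((hF.diff_ex γ1).smul (A1_diff h3)).comp (open_dif h hL hy hn).2 hm,
          fun s hs => ?_⟩
        have h5 := sg_re h hL hn hs
        have h6 : γ ≤ γ1 := hγ.trans (min_le_right _ _)
        rw [norm_smul, norm_ex, mul_comm]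
        refine mul_le_mul ((k4 _ (hm s hs)).trans ((le_max_right _ _).trans hC))
          (Real.exp_le_exp.2 ?_) (Real.exp_pos _).le (k2.trans ((le_max_left _ _).trans hC))
        change -(γ1 * (sg L T.s b y p i s).re) ≤ _
        nlinarith

/-- the curve is real at real times -/
theorem cv_real (hy : y ∈ Rp ι) (hn : n ≤ L.length) {x : ℝ}
    (hx : ∀ m < n, (x : ℂ) ∈ ZZ L T b y p m) : cv L T.s b y p n x ∈ Rp ι := by
  induction n with
  | zero => exact hy
  | succ n ih =>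
    have h1 := ih (by omega) fun m hm => hx m (by omega)
    rcases e : ix L n with k | j
    · rw [cv_inl e]
      refine update_real h1 ?_
      split_ifs with hb
      · simpa using T6_real h (sft h hL) _ (ix_mem (by omega) (by omega : n ≤ L.length)) _
          (hx n n.lt_succ_self) h1
      · simp
    · rwa [cv_inr e]

theorem ZZ_anti (hm : m ≤ n) (hn : n ≤ L.length) : ZZ L T b y p n ⊆ ZZ L T b y p m := fun _ hs =>
  (mem_cv h hL hm hn).1 (D_suffix (sf_mono hm) hs)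

theorem cv_real' (hy : y ∈ Rp ι) (hn : n ≤ L.length) {x : ℝ} (hx : (x : ℂ) ∈ ZZ L T b y p n) :
    cv L T.s b y p n x ∈ Rp ι := cv_real h hL hy hn fun _ hm => ZZ_anti h hL hm.le hn hx

theorem sg_free (e : ix L n = Sum.inl k) (hn : n < L.length) : sg L T.s b y p n s =
    p n + if b = true ∧ n ≠ 0 then sg L T.s b y p (n - 1) s else s := by
  rw [sg, e, h.sN, cv_inl e, update_self]
  split_ifs with hb
  · rw [sg_eq h hL (by omega : n - 1 < n) hn.le]
  · rfl

/-- **the section of a tower** -/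
theorem sec : ∃ γ0 C0 : ℝ, 0 < γ0 ∧ 0 ≤ C0 ∧ ∀ γ ≤ γ0, ∀ C ≥ C0, ∀ J ≤ L.length,
    ∀ (b : Bool) (y : ι → ℂ) (p : ℕ → ℝ), y ∈ T.D [] → y ∈ Rp ι →
      (b = true → ∀ m, m + 1 < J → ¬ td L (m + 1) → 0 ≤ p (m + 1)) →
      Q.Sec J (td L) (nm L T.ρ) (nm L T.c) γ C T.R p (sg L T.s b y p) (uu L T.s T.u b y p)
        (ZZ L T b y p) := by
  have key : ∀ n, ∃ γ0 C0 : ℝ, 0 < γ0 ∧ 0 ≤ C0 ∧ ∀ γ ≤ γ0, ∀ C ≥ C0, n < L.length → td L n →
      ∀ (b : Bool) (y : ι → ℂ) (p : ℕ → ℝ), y ∈ T.D [] →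
        Q.Dec γ C (sg L T.s b y p) (ZZ L T b y p) n (uu L T.s T.u b y p n) ∧
          ∀ s ∈ ZZ L T b y p n, ‖uu L T.s T.u b y p n s‖ ≤ C := by
    intro n
    by_cases hn : n < L.length ∧ td L n
    · obtain ⟨hn, j, e⟩ := hn
      obtain ⟨e1, hj⟩ := tied_lv h hL hn e
      have hu : T.fr.A (sf L n) (T.u j) := e1 ▸ h.uA j hj
      obtain ⟨γ0, C0, h1, h2, h3⟩ := dec h hL hn.le hu
      obtain ⟨C1, h4⟩ := A1_bd (T1_ok h (sft h hL)) le_rfl hu
      refine ⟨γ0, max C0 C1, h1, le_max_of_le_left h2, fun γ hγ C hC _ _ b y p hy => ?_⟩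
      have e2 : uu L T.s T.u b y p n = fun s => T.u j (cv L T.s b y p n s) := by
        funext s; rw [uu, e]; rfl
      rw [e2]
      exact ⟨h3 γ hγ C (le_trans (le_max_left _ _) hC) b y p hy,
        fun s hs => (h4 _ hs).trans (le_trans (le_max_right _ _) hC)⟩
    · exact ⟨1, 0, one_pos, le_rfl, fun _ _ _ _ h1 h2 => absurd ⟨h1, h2⟩ hn⟩
  choose γ0 C0 h1 h2 h3 using key
  obtain ⟨n1, -, h4⟩ := (Finset.range (L.length + 1)).exists_min_image γ0 ⟨0, by simp⟩
  obtain ⟨n2, -, h5⟩ := (Finset.range (L.length + 1)).exists_max_image C0 ⟨0, by simp⟩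
  refine ⟨γ0 n1, C0 n2, h1 _, h2 _, fun γ hγ C hC J hJ b y p hy hr hp => ?_⟩
  have h6 := fun n (hn : n < J) ht => h3 n γ (hγ.trans (h4 n (by simp; omega))) C
    (le_trans (h5 n (by simp; omega)) hC) (hn.trans_le hJ) ht b y p hy
  refine ⟨zs h hL hy hJ, (h2 _).trans hC, fun n hn ht => ?_, ?_, fun n hn ht => (h6 n hn ht).1,
    fun n hn ht => (h6 n hn ht).2, ?_⟩
  · obtain ⟨k, e⟩ := not_td ht
    by_cases hb : b = true ∧ n ≠ 0
    · obtain ⟨m, rfl⟩ := Nat.exists_eq_succ_of_ne_zero hb.2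
      exact Or.inr ⟨m, rfl, hp hb.1 m hn ht, fun s _ => by
        rw [sg_free h hL e (hn.trans_le hJ), if_pos hb]; rfl⟩
    · exact Or.inl fun s _ => by rw [sg_free h hL e (hn.trans_le hJ), if_neg hb]
  · rintro n hn ⟨j, e⟩ s hs
    obtain ⟨e1, hj⟩ := tied_lv h hL (hn.trans_le hJ) e
    rw [ph_eq h hL (hn.trans_le hJ) e, lf_nm h hL (hn.trans_le hJ) e, sg, cv_inr e, e]
    exact h.sL j hj _ (e1 ▸ hs)
  · rintro n hn ⟨j, e⟩ x hx
    obtain ⟨e1, hj⟩ := tied_lv h hL (hn.trans_le hJ) e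
    rw [uu, e]
    exact h.uR j hj _ (e1 ▸ hx) (cv_real' h hL hr (hn.trans_le hJ).le hx)

theorem trk (hJ : J ≤ L.length) (hp : ∀ m, m + 1 < J → ¬ td L (m + 1) → 0 ≤ p (m + 1))
    (Z : ℕ → Set ℂ) : Q.Trk J (td L) p (sg L T.s true y p) Z := fun m hm ht => by
  obtain ⟨k, e⟩ := not_td ht
  exact ⟨hp m hm ht, fun s _ => by rw [sg_free h hL e (hm.trans_le hJ)]; simp⟩

omit h hL in
/-- the offsets of the curve through `y` -/
def pp (L : List (ι ⊕ ℕ)) (S : ι ⊕ ℕ → (ι → ℂ) → ℂ) (b : Bool) (y : ι → ℂ) (n : ℕ) : ℝ :=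
  (S (ix L n) y).re - if b = true ∧ n ≠ 0 then (S (ix L (n - 1)) y).re else 0

/-- the curve starts at `y` -/
theorem cv_zero (hJ : J ≤ L.length) (hy : y ∈ T.D (sf L J)) (hr : y ∈ Rp ι) (hn : n ≤ J) :
    cv L T.s b y (pp L T.s b y) n 0 = y := by
  induction n with
  | zero => rfl
  | succ n ih =>
    rcases e : ix L n with k | j
    · rw [cv_inl e, ih (by omega), pp, e, h.sN]
      convert update_eq_self k y
      have h1 : ((y k).re : ℂ) = y k := Complex.conj_eq_iff_re.1 (Complex.conj_eq_iff_im.2 (hr k))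
      split_ifs with hb
      · have h2 := T6_real h (sft h hL) _ (ix_mem (by omega : n - 1 < J) hJ) _ hy hr
        push_cast
        rw [h1, Complex.conj_eq_iff_re.1 (Complex.conj_eq_iff_im.2 h2), sub_add_cancel]
      · simp [h1]
    · rw [cv_inr e, ih (by omega)]

theorem zero_mem (hJ : J ≤ L.length) (hy : y ∈ T.D (sf L J)) (hr : y ∈ Rp ι) :
    (0 : ℂ) ∈ ZZ L T b y (pp L T.s b y) J := by
  rw [ZZ, mem_ofPred_eq, cv_zero h hL hJ hy hr le_rfl]; exact hy

theorem sg_zero (hJ : J ≤ L.length) (hy : y ∈ T.D (sf L J)) (hr : y ∈ Rp ι) (hn : n < J) :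
    sg L T.s b y (pp L T.s b y) n 0 = T.s (ix L n) y := by
  rw [sg, cv_zero h hL hJ hy hr hn]

omit h hL in
theorem pw_ix {r : ι ⊕ ℕ → ι ⊕ ℕ → Prop} (hJ : J ≤ L.length) (hy : (sf L J).Pairwise r) (hn : n < J)
    (hm : m < n) : r (ix L n) (ix L m) := by
  have h1 := hy.sublist (sf_mono (L := L) (show n + 1 ≤ J from hn)).sublist
  rw [sf_succ (hn.trans_le hJ), List.pairwise_cons] at h1
  exact h1.1 _ (ix_mem hm (hn.trans_le hJ).le)

theorem pp_nn (hJ : J ≤ L.length) (hy : y ∈ T.D (sf L J)) (hs : y ∈ T.Sd (sf L J)) :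
    ∀ m, m + 1 < J → 0 ≤ pp L T.s true y (m + 1) := fun m hm => by
  have h1 := pw_ix hJ hs.2 hm m.lt_succ_self
  have h2 := (s_om hy (ix_mem (by omega : m < J) hJ)).1
  have h3 := h.R1
  simp only [pp, ne_eq, Nat.add_eq_zero_iff, one_ne_zero, and_false, not_false_eq_true, and_self,
    if_true, Nat.add_sub_cancel]
  nlinarith

/-- the constant direction -/
theorem cv_false (hn : n ≤ L.length) (hr : y ∈ Rp ι) (k : ι) :
    cv L T.s false y (pp L T.s false y) n s k = y k + if Sum.inl k ∈ (sf L n).toFinset then s else 0 := by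
  induction n with
  | zero => simp [cv, sf_zero]
  | succ n ih =>
    rw [sf_succ hn]
    rcases e : ix L n with k' | j
    · rw [cv_inl e]
      by_cases hk : k = k'
      · subst hk
        simp [pp, e, h.sN, Complex.conj_eq_iff_re.1 (Complex.conj_eq_iff_im.2 (hr k))]
      · rw [update_of_ne hk, ih (by omega)]
        exact congrArg _ (if_congr (by simp [hk]) rfl rfl)
    · rw [cv_inr e, ih (by omega)]
      exact congrArg _ (if_congr (by simp) rfl rfl)

theorem cv_dir (hr : y ∈ Rp ι) :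
    cv L T.s false y (pp L T.s false y) L.length s = y + s • T.dir := by
  funext k
  rw [cv_false h hL le_rfl hr, sf_len, hL]
  by_cases hk : Sum.inl k ∈ T.top <;> simp [Tw.dir, hk]

/-- coordinates that are not free levels are frozen -/
theorem cv_fix (hn : n ≤ L.length) (hk : Sum.inl k ∉ sf L n) : cv L T.s b y p n s k = y k := by
  induction n with
  | zero => rfl
  | succ n ih =>
    rw [sf_succ hn, List.mem_cons, not_or] at hk
    rcases e : ix L n with k' | j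
    · rw [cv_inl e, update_of_ne (fun e' => hk.1 (by rw [e, e'])), ih (by omega) hk.2]
    · rw [cv_inr e, ih (by omega) hk.2]

/-- joint continuity in the base point, the offsets and the time -/
theorem cv_cont {X : Type*} [TopologicalSpace X] {V : Set X} {Y : X → ι → ℂ} {P : X → ℕ → ℝ}
    {σ : X → ℂ} (hY : ContinuousOn Y V) (hP : ∀ m, ContinuousOn (fun x => P x m) V)
    (hσ : ContinuousOn σ V) (hn : n ≤ L.length)
    (hV : ∀ m < n, ∀ x ∈ V, σ x ∈ ZZ L T b (Y x) (P x) m) :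
    ContinuousOn (fun x => cv L T.s b (Y x) (P x) n (σ x)) V := by
  induction n with
  | zero => exact hY
  | succ n ih =>
    have h1 := ih (by omega) fun m hm => hV m (by omega)
    rcases e : ix L n with k | j
    · simp only [cv_inl e]
      refine cont_upd h1 ((Complex.continuous_ofReal.comp_continuousOn (hP n)).add ?_)
      by_cases hb : b = true ∧ n ≠ 0
      · simp only [if_pos hb]
        exact (dif_mem (T1_ok h (sft h hL)) (ix_mem (by omega) (by omega : n ≤ L.length))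
          ).continuousOn.comp h1 (hV n n.lt_succ_self)
      · simpa only [if_neg hb] using hσ
    · simpa only [cv_inr e] using h1

section shr

variable {R : ℝ} {r : ι → ℝ} (hR : T.R ≤ R) (hr : ∀ k ∈ T.Fv, 0 < r k ∧ r k ≤ T.r k)
include hR hr

theorem zs_shr (hy : y ∈ (T.shr R r).D []) (hJ : J ≤ L.length) :
    Q.Zs J (td L) (nm L T.ρ) (sg L T.s b y p) (uu L T.s T.u b y p) R (ZZ L (T.shr R r) b y p) :=
  zs (T4_shr h hR hr).1 (hL.trans (T.shr_top R r).symm) hy hJ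

theorem ZZ_shr : ZZ L (T.shr R r) b y p n ⊆ ZZ L T b y p n := fun _ hs => (T4_shr h hR hr).2.1 _ hs

theorem zero_mem_shr (hJ : J ≤ L.length) (hy : y ∈ (T.shr R r).D (sf L J)) (hy' : y ∈ Rp ι) :
    (0 : ℂ) ∈ ZZ L (T.shr R r) b y (pp L T.s b y) J :=
  zero_mem (T4_shr h hR hr).1 (hL.trans (T.shr_top R r).symm) hJ hy hy'

/-- the facts at the starting seed -/
theorem start (hJ : J ≤ L.length) (hy : y ∈ (T.shr R r).D (sf L J))
    (hs : y ∈ (T.shr R r).Sd (sf L J)) {Tm : ℝ} (hT : ∀ a < J, ∀ i < J, nm L T.c a i ≤ Tm)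
    (hTR : Tm * J ≤ R) :
    (∀ a < J, R ≤ Q.oo (sg L T.s b y (pp L T.s b y)) a 0) ∧
    (∀ a < J, Q.fo (nm L T.c a) a (sg L T.s b y (pp L T.s b y)) 0 ≤
      Q.oo (sg L T.s b y (pp L T.s b y)) a 0) ∧
    ∀ a < J, ∀ i < a, R * Q.oo (sg L T.s b y (pp L T.s b y)) i 0 ≤
      Q.oo (sg L T.s b y (pp L T.s b y)) a 0 ∧ Q.oo (sg L T.s b y (pp L T.s b y)) i 0 ≤
      Q.oo (sg L T.s b y (pp L T.s b y)) a 0 := by
  have R1 := h.R1
  have e : ∀ a < J, Q.oo (sg L T.s b y (pp L T.s b y)) a 0 = (T.s (ix L a) y).re := fun a ha => by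
    rw [Q.oo, Complex.ofReal_zero, sg_zero h hL hJ ((T4_shr h hR hr).2.1 _ hy) hs.1 ha]
  have h1 : ∀ a < J, R ≤ Q.oo (sg L T.s b y (pp L T.s b y)) a 0 := fun a ha =>
    e a ha ▸ (s_om hy (ix_mem ha hJ)).1.le
  have h2 : ∀ a < J, ∀ i < a, R * Q.oo (sg L T.s b y (pp L T.s b y)) i 0 ≤
      Q.oo (sg L T.s b y (pp L T.s b y)) a 0 := fun a ha i hi => by
    rw [e a ha, e i (hi.trans ha)]; exact (pw_ix hJ hs.2 ha hi).le
  refine ⟨h1, fun a ha => ?_, fun a ha i hi => ⟨h2 a ha i hi, ?_⟩⟩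
  · have h3 := h1 a ha
    have T0 : 0 ≤ Tm := (nm_nn h.c0 a a).trans (hT a ha a ha)
    have h4 : R * Q.fo (nm L T.c a) a (sg L T.s b y (pp L T.s b y)) 0 ≤
        ∑ _i ∈ Finset.range a, Tm * Q.oo (sg L T.s b y (pp L T.s b y)) a 0 := by
      rw [Q.fo, Finset.mul_sum]
      refine Finset.sum_le_sum fun i hi => ?_
      have hi := Finset.mem_range.1 hi
      rw [mul_left_comm]
      exact mul_le_mul (hT a ha i (hi.trans ha)) (h2 a ha i hi)
        (mul_nonneg (by linarith) (by linarith [h1 i (hi.trans ha)])) T0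
    rw [Finset.sum_const, Finset.card_range, nsmul_eq_mul, ← mul_assoc] at h4
    have h5 : (a : ℝ) * Tm ≤ R := by
      have : (a : ℝ) ≤ J := by exact_mod_cast ha.le
      nlinarith
    refine le_of_mul_le_mul_left (h4.trans ?_) (by linarith : 0 < R)
    exact mul_le_mul_of_nonneg_right h5 (by linarith)
  · have := h2 a ha i hi
    have := h1 i (hi.trans ha)
    nlinarith

end shr

end Crest.Agent.N207.O.Br
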