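import Crest.Agent.N207.O.Alg3
import Crest.Agent.N207.O.Kit2

/-!
# Row 207, block O (helper88): conjugation symmetry
-/

set_option autoImplicit false
set_option linter.unusedSectionVars false

open Set Filter Topology Metric
open scoped ComplexConjugate

noncomputable section

namespace Crest.Agent.N207.O

open Fr

variable {ι : Type} [Fintype ι] [DecidableEq ι] {α : Type} {U : Ultrafilter α} {T : Tw ι}
  {p : α → ι → ℂ} {l : List (ι ⊕ ℕ)} {W : Finset ι} {k : ι} {g : (ι → ℂ) → ℂ}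

theorem cj_eq_star (x : ι → ℂ) : cj x = star x := rfl

theorem cj_cj (x : ι → ℂ) : cj (cj x) = x := star_star x

theorem cj_real {x : ι → ℂ} (hx : x ∈ Rp ι) : cj x = x :=
  funext fun k => Complex.conj_eq_iff_im.2 (hx k)

theorem continuous_cj : Continuous (cj : (ι → ℂ) → ι → ℂ) := continuous_star

/-- the reflected function -/
def rf (g : (ι → ℂ) → ℂ) (x : ι → ℂ) : ℂ := conj (g (cj x))

theorem rf_diff {S : Set (ι → ℂ)} (hS : IsOpen S) (hm : ∀ x ∈ S, cj x ∈ S)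
    (hg : DifferentiableOn ℂ g S) : DifferentiableOn ℂ (rf g) S := fun x hx => by
  have := (hg.differentiableAt (hS.mem_nhds (hm x hx))).star_star
  rw [cj_eq_star, star_star] at this
  exact this.differentiableWithinAt

theorem suffix_lv {j : ℕ} : ∀ {n : ℕ}, Sum.inr j :: l <:+ T.lv n → j < n ∧ l = T.lv j := by
  have key : ∀ (B : List ι) (m : List (ι ⊕ ℕ)), Sum.inr j :: l <:+ B.map Sum.inl ++ m →
      Sum.inr j :: l <:+ m := by
    intro B m
    induction B with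
    | nil => exact id
    | cons b B ih =>
      intro h
      rcases List.suffix_cons_iff.1 h with h | h
      · simp at h
      · exact ih h
  intro n
  induction n with
  | zero =>
    intro h
    have := key (T.B 0) [] (by simpa [Tw.lv] using h)
    simp at this
  | succ n ih =>
    intro h
    rcases List.suffix_cons_iff.1 (key _ _ h) with h | h
    · simp only [List.cons.injEq, Sum.inr.injEq] at h
      exact ⟨by omega, h.1 ▸ h.2⟩
    · exact ⟨(ih h).1.trans n.lt_succ_self, (ih h).2⟩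

/-- a real holomorphic function commutes with the conjugation -/
theorem rf_eq (h : T.WF) (hl : l <:+ T.top) (hm : ∀ x ∈ T.D l, cj x ∈ T.D l)
    (hg : DifferentiableOn ℂ g (T.D l)) (hr : RR (T.D l) g) : EqOn (rf g) g (T.D l) := by
  have := T9_idR h hl (g := fun x => rf g x - g x)
    ((rf_diff (T1_ok h hl).isOpen hm hg).sub hg) fun x hx hx' => by
      simp only [rf, cj_real hx', Complex.conj_eq_iff_im.2 (hr x hx hx'), sub_self]
  exact fun x hx => sub_eq_zero.1 (this hx)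

theorem lin_cj {γ : ι ⊕ ℕ → ℝ} {x : ι → ℂ} (hs : ∀ a ∈ l, T.s a (cj x) = conj (T.s a x)) :
    T.lin l γ (cj x) = conj (T.lin l γ x) := by
  simp only [Tw.lin, map_sum, map_mul, Complex.conj_ofReal]
  exact Finset.sum_congr rfl fun a ha => by rw [hs a (List.mem_toFinset.1 ha)]

theorem Om_conj {R : ℝ} {w : ℂ} (hw : w ∈ Om R) : conj w ∈ Om R := by
  simpa [Om] using hw

theorem J1_cj (h : T.WF) : ∀ {l : List (ι ⊕ ℕ)}, l <:+ T.top → (∀ x ∈ T.D l, cj x ∈ T.D l) ∧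
    ∀ a ∈ l, ∀ x ∈ T.D l, T.s a (cj x) = (starRingEnd ℂ) (T.s a x)
  | [], _ => ⟨fun x hx k hk => by simpa [cj] using hx k hk, fun _ ha => absurd ha (by simp)⟩
  | a :: l, hl => by
    have hl' : l <:+ T.top := (List.suffix_cons a l).trans hl
    obtain ⟨hm, hs⟩ := J1_cj h hl'
    have key : ∀ x ∈ T.D l, T.s a (cj x) = conj (T.s a x) ∧
        ∀ j, a = Sum.inr j → T.E j (cj x) = conj (T.E j x) := by
      intro x hx
      cases a with
      | inl k => exact ⟨by rw [h.sN, h.sN]; rfl, fun j hj => by simp at hj⟩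
      | inr j =>
        obtain ⟨hj, rfl⟩ := suffix_lv hl
        have hE : T.E j (cj x) = conj (T.E j x) := by
          have h1 := rf_eq h hl' hm (A1_diff (h.uA j hj)) (h.uR j hj) (hm x hx)
          simp only [rf, cj_cj] at h1
          simp only [Tw.E, map_add, lin_cj fun a ha => hs a ha x hx, h1]
        refine ⟨?_, fun j' hj' => by cases hj'; exact hE⟩
        rw [h.sL j hj _ (hm x hx), h.sL j hj x hx, hE, lin_cj fun a ha => hs a ha x hx,
          Complex.exp_conj, map_sub]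
    have hsub : T.D (a :: l) ⊆ T.D l := (T1_ok h hl).sub
    refine ⟨?_, fun b hb x hx => ?_⟩
    · rintro x ⟨y, hy, hx⟩
      refine ⟨y, hy, ?_⟩
      have hS : MapsTo cj {x | x ∈ T.D l ∧ T.cst a x} {x | x ∈ T.D l ∧ T.cst a x} := by
        rintro z ⟨hz, hz1, hz2⟩
        refine ⟨hm z hz, ?_, fun j hj => ?_⟩
        · rw [(key z hz).1]; exact Om_conj hz1
        · rw [(key z hz).2 j hj, Complex.conj_im, abs_neg]; exact hz2 j hj
      have hyS : y ∈ {x | x ∈ T.D l ∧ T.cst a x} := connectedComponentIn_nonempty_iff.1 ⟨x, hx⟩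
      have := continuous_cj.continuousOn.mapsTo_connectedComponentIn hyS hx
      rw [cj_real hy.1] at this
      exact connectedComponentIn_mono _ hS.image_subset this
    · rcases List.mem_cons.1 hb with rfl | hb
      · exact (key x (hsub hx)).1
      · exact hs b hb x (hsub hx)

theorem ex_cj (h : T.WF) {a : ι ⊕ ℕ} (hl : a :: l <:+ T.top) (t : ℝ) {x : ι → ℂ}
    (hx : x ∈ T.D (a :: l)) : T.fr.ex a t (cj x) = conj (T.fr.ex a t x) := by
  have : T.fr.s a (cj x) = conj (T.fr.s a x) := (J1_cj h hl).2 a List.mem_cons_self x hx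
  simp only [ex, this, ← Complex.exp_conj, map_neg, map_mul, Complex.conj_ofReal]

theorem rf_est (h : T.WF) {a : ι ⊕ ℕ} (hl : a :: l <:+ T.top) {c : ℝ → (ι → ℂ) → ℂ} {K C : ℝ}
    {S : Finset ℝ} (he : ∀ x ∈ T.fr.D (a :: l), ‖g x - ∑ t ∈ S, T.fr.ex a t x • c t x‖ ≤
      C * Real.exp (-(K * (T.fr.s a x).re))) : ∀ x ∈ T.fr.D (a :: l),
    ‖rf g x - ∑ t ∈ S, T.fr.ex a t x • rf (c t) x‖ ≤ C * Real.exp (-(K * (T.fr.s a x).re)) := by
  intro x hx
  have hx' := (J1_cj h hl).1 x hx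
  have h1 := he _ hx'
  have h2 : T.fr.s a (cj x) = conj (T.fr.s a x) := (J1_cj h hl).2 a List.mem_cons_self x hx
  rw [h2, Complex.conj_re, ← Complex.norm_conj] at h1
  simpa only [rf, map_sub, map_sum, smul_eq_mul, map_mul, ex_cj h hl _ hx, Complex.conj_conj]
    using h1

theorem rf_cl (h : T.WF) : ∀ {l : List (ι ⊕ ℕ)} {b : ℝ} {g : (ι → ℂ) → ℂ}, l <:+ T.top →
    T.fr.Cl l b g → T.fr.Cl l b (rf g)
  | [], _, _, hl, hg => by
    obtain ⟨h1, C, hC⟩ := hg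
    refine ⟨rf_diff (T1_ok h hl).isOpen (J1_cj h hl).1 h1, C, fun x hx => ?_⟩
    simpa [rf] using hC _ ((J1_cj h hl).1 x hx)
  | a :: l, b, g, hl, hg => by
    obtain ⟨h1, c, h2, h3, h4⟩ := hg
    refine ⟨rf_diff (T1_ok h hl).isOpen (J1_cj h hl).1 h1, fun t => rf (c t),
      fun t => rf_cl h ((List.suffix_cons a l).trans hl) (h2 t),
      fun t ht => by funext x; simp [rf, h3 t ht], fun K => ?_⟩
    obtain ⟨S, C, h5, h6⟩ := h4 K
    exact ⟨S, C, fun t ht hs => by funext x; simp [rf, h5 t ht hs], rf_est h hl h6⟩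

theorem J2_A (h : T.WF) (hl : l <:+ T.top) {b : ℝ} (hg : T.fr.Cl l b g) :
    T.fr.Cl l b fun x => (starRingEnd ℂ) (g (cj x)) := rf_cl h hl hg

/-- real functions have real coefficients -/
theorem ex_real (h : T.WF) {a : ι ⊕ ℕ} (hl : a :: l <:+ T.top) {b : ℝ} (hg : T.fr.Cl (a :: l) b g)
    (hr : RR (T.D (a :: l)) g) : ∃ c, T.fr.Ex a l b g c ∧ ∀ t, RR (T.D l) (c t) := by
  have hF := T1_ok h hl
  have hl' : l <:+ T.top := (List.suffix_cons a l).trans hl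
  obtain ⟨c, hc⟩ := hg.ex hF
  have he := rf_eq h hl (J1_cj h hl).1 hc.diff hr
  have hz : ∀ t, c t = 0 → (fun x => (1 / 2 : ℂ) * (c t x + rf (c t) x)) = 0 := fun t e => by
    funext x; simp [rf, e]
  have hcl : ∀ t, T.fr.A l fun x => (1 / 2 : ℂ) * (c t x + rf (c t) x) := fun t =>
    (A3_add hF.1 (hc.cl t) (rf_cl h hl' (hc.cl t))).const_mul _
  refine ⟨fun t x => (1 / 2 : ℂ) * (c t x + rf (c t) x), ⟨hc.diff, hcl,
    fun t ht => hz t (hc.lo t ht), fun K => (hc.fin K).imp fun S hS t ht hs => hz t (hS t ht hs),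
    fun K S' hS' => ?_⟩, fun t x _ hx => by simp [rf, cj_real hx]⟩
  obtain ⟨S, hS⟩ := hc.fin K
  obtain ⟨C, hC⟩ := hc.est K S hS
  refine est_any hF (τ := id) (fun t => A1_bd hF.1 le_rfl (hcl t)) (J := S) (C := C)
    (fun t ht hs => hz t (hS t ht hs)) hS' fun x hx => ?_
  have h1 := hC x hx
  have h2 := rf_est h hl hC x hx
  rw [he hx] at h2
  have e : g x - ∑ t ∈ S, T.fr.ex a (id t) x • ((1 / 2 : ℂ) * (c t x + rf (c t) x)) =
      (1 / 2 : ℂ) * ((g x - ∑ t ∈ S, T.fr.ex a t x • c t x) +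
        (g x - ∑ t ∈ S, T.fr.ex a t x • rf (c t) x)) := by
    have : ∀ t, T.fr.ex a (id t) x • ((1 / 2 : ℂ) * (c t x + rf (c t) x)) =
        (1 / 2 : ℂ) * (T.fr.ex a t x • c t x) + (1 / 2 : ℂ) * (T.fr.ex a t x • rf (c t) x) :=
      fun t => by simp only [id, smul_eq_mul]; ring
    simp only [this, Finset.sum_add_distrib, ← Finset.mul_sum]; ring
  rw [e, norm_mul]
  have := norm_add_le (g x - ∑ t ∈ S, T.fr.ex a t x • c t x)
    (g x - ∑ t ∈ S, T.fr.ex a t x • rf (c t) x)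
  have h3 : ‖(1 / 2 : ℂ)‖ = 1 / 2 := by simp
  rw [h3]; linarith

theorem ex_im (h : T.WF) {a : ι ⊕ ℕ} (hl : a :: l <:+ T.top) (t : ℝ) :
    RR (T.D (a :: l)) (T.fr.ex a t) := fun x hx hx' => by
  have := ex_cj h hl t hx
  rw [cj_real hx'] at this
  exact Complex.conj_eq_iff_im.1 this.symm

theorem rr_rest (h : T.WF) {a : ι ⊕ ℕ} (hl : a :: l <:+ T.top) {t γ : ℝ} {c g1 : (ι → ℂ) → ℂ}
    (hr : RR (T.D (a :: l)) g) (hc : RR (T.D l) c)
    (e : ∀ x, g x = T.fr.ex a t x • (c x + T.fr.ex a γ x • g1 x)) : RR (T.D (a :: l)) g1 := by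
  intro x hx hx'
  have h1 := hr x hx hx'
  have h2 := hc x ((T1_ok h hl).sub hx) hx'
  have h3 := ex_im h hl t x hx hx'
  have h4 := ex_im h hl γ x hx hx'
  have h5 : (T.fr.ex a t x).re ≠ 0 := fun e => ex_ne _ a t x (Complex.ext e h3)
  have h6 : (T.fr.ex a γ x).re ≠ 0 := fun e => ex_ne _ a γ x (Complex.ext e h4)
  rw [e x] at h1
  simpa [h2, h3, h4, h5, h6] using h1

/-- `J3_lead` with the sign of the exponent -/
theorem J3_lead' (h : T.Good) {a : ι ⊕ ℕ} (hl : a :: l <:+ T.top) (hg : T.fr.A (a :: l) g)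
    (hr : RR (T.D (a :: l)) g) (h0 : ¬ EqOn g 0 (T.D (a :: l))) :
    ∃ (t γ : ℝ) (c g1 : (ι → ℂ) → ℂ), 0 ≤ t ∧ 0 < γ ∧ T.fr.A l c ∧ RR (T.D l) c ∧
      ¬ EqOn c 0 (T.D l) ∧ T.fr.A (a :: l) g1 ∧ RR (T.D (a :: l)) g1 ∧
      ∀ x, g x = T.fr.ex a t x * (c x + T.fr.ex a γ x * g1 x) := by
  have hF := T1_ok h.wf hl
  obtain ⟨c, hc, hcr⟩ := ex_real h.wf hl hg hr
  obtain ⟨t, γ, g1, h1, h2, h3, h4, h5⟩ := hc.lead hF (by
    by_contra h'
    exact h0 (h.qa a l hl g hc.diff (hc.flat hF fun t => by_contra fun h'' => h' ⟨t, h''⟩)))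
  exact ⟨t, γ, c t, g1, h1, h2, hc.cl t, hcr t, h3, h4, rr_rest h.wf hl hr (hcr t) h5, h5⟩

theorem J3_lead (h : T.Good) {a : ι ⊕ ℕ} (hl : a :: l <:+ T.top) (hg : T.fr.A (a :: l) g)
    (hr : RR (T.D (a :: l)) g) (h0 : ¬ EqOn g 0 (T.D (a :: l))) :
    ∃ (t γ : ℝ) (c g1 : (ι → ℂ) → ℂ), 0 < γ ∧ T.fr.A l c ∧ RR (T.D l) c ∧ ¬ EqOn c 0 (T.D l) ∧
      T.fr.A (a :: l) g1 ∧ RR (T.D (a :: l)) g1 ∧
      ∀ x ∈ T.D (a :: l), g x = T.fr.ex a t x * (c x + T.fr.ex a γ x * g1 x) := by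
  obtain ⟨t, γ, c, g1, _, h1, h2, h3, h4, h5, h6, h7⟩ := J3_lead' h hl hg hr h0
  exact ⟨t, γ, c, g1, h1, h2, h3, h4, h5, h6, fun x _ => h7 x⟩

/-- real decomposition (used by QA for the ties) -/
theorem J4_proj (h : T.WF) {a : ι ⊕ ℕ} (hl : a :: l <:+ T.top) (hg : T.fr.A (a :: l) g)
    (hr : RR (T.D (a :: l)) g) : ∃ (γ : ℝ) (c g1 : (ι → ℂ) → ℂ), 0 < γ ∧ T.fr.A l c ∧
      RR (T.D l) c ∧ T.fr.A (a :: l) g1 ∧ RR (T.D (a :: l)) g1 ∧
      ∀ x ∈ T.D (a :: l), g x = c x + T.fr.ex a γ x * g1 x := by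
  obtain ⟨c, hc, hcr⟩ := ex_real h hl hg hr
  obtain ⟨γ, g1, h1, h2, h3⟩ := hc.split (T1_ok h hl)
  exact ⟨γ, c 0, g1, h1, hc.cl 0, hcr 0, h2, rr_rest h hl hr (hcr 0) h3,
    fun x _ => by simpa [ex_zero] using h3 x⟩

end Crest.Agent.N207.O
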