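import Mathlib

/-!
# Row 207, block O (helper99): ordered families of real sequences along an ultrafilter
-/

set_option autoImplicit false
set_option linter.unusedSectionVars false

open Set Filter Topology

noncomputable section

namespace Crest.Agent.N207.O.Sq

variable {α κ : Type*} [DecidableEq κ] {U : Ultrafilter α} {v s : κ → α → ℝ} {l t : List κ}
  {a : κ} {γ : κ → ℝ} {y w σ : α → ℝ} {c g : ℝ}

/-- linear combination -/
def lin (v : κ → α → ℝ) (l : List κ) (γ : κ → ℝ) (i : α) : ℝ := ∑ a ∈ l.toFinset, γ a * v a i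

/-- strictly decreasing archimedean classes, all infinite -/
def Ord (U : Ultrafilter α) (v : κ → α → ℝ) : List κ → Prop
  | [] => True
  | a :: l => Tendsto (v a) U atTop ∧ (∀ b ∈ l, Tendsto (fun i => v b i / v a i) U (𝓝 0)) ∧
      Ord U v l

/-- a linear combination up to a convergent sequence -/
def Rep (U : Ultrafilter α) (v : κ → α → ℝ) (l : List κ) (y : α → ℝ) : Prop :=
  ∃ γ c, Tendsto (fun i => y i - lin v l γ i) U (𝓝 c)

theorem tri (U : Ultrafilter α) (f : α → ℝ) :
    (∃ c, Tendsto f U (𝓝 c)) ∨ Tendsto f U atTop ∨ Tendsto f U atBot := by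
  by_cases h : (↑(U.map f) : Filter ℝ) ≤ cocompact ℝ
  · rw [cocompact_eq_atBot_atTop, Ultrafilter.le_sup_iff] at h
    exact Or.inr h.symm
  · left
    obtain ⟨K, hK, hn⟩ : ∃ K, IsCompact K ∧ Kᶜ ∉ U.map f := by
      by_contra! hn
      exact h (hasBasis_cocompact.ge_iff.2 hn)
    obtain ⟨c, -, hc⟩ := hK.ultrafilter_le_nhds (U.map f)
      (le_principal_iff.2 (Ultrafilter.compl_notMem_iff.1 hn))
    exact ⟨c, hc⟩

theorem lin_nil (i : α) : lin v [] γ i = 0 := by simp [lin]

theorem lin_cons (h : a ∉ l) (i : α) : lin v (a :: l) γ i = γ a * v a i + lin v l γ i := by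
  rw [lin, List.toFinset_cons, Finset.sum_insert (by simpa using h), lin]

theorem lin_congr {γ' : κ → ℝ} (h1 : ∀ a ∈ l, γ a = γ' a) (h2 : ∀ a ∈ l, v a = s a) (i : α) :
    lin v l γ i = lin s l γ' i :=
  Finset.sum_congr rfl fun a ha => by
    rw [h1 a (List.mem_toFinset.1 ha), h2 a (List.mem_toFinset.1 ha)]

theorem lin_sub {γ' : κ → ℝ} (i : α) :
    lin v l (fun a => γ a - γ' a) i = lin v l γ i - lin v l γ' i := by
  simp [lin, sub_mul]

theorem lin_zero (h : ∀ a ∈ l, γ a = 0) (i : α) : lin v l γ i = 0 :=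
  Finset.sum_eq_zero fun a ha => by rw [h a (List.mem_toFinset.1 ha), zero_mul]

theorem lin_subset (h : l ⊆ t) (h0 : ∀ a ∈ t, a ∉ l → γ a = 0) (i : α) :
    lin v t γ i = lin v l γ i :=
  (Finset.sum_subset (fun a ha => List.mem_toFinset.2 (h (List.mem_toFinset.1 ha)))
    fun a ha hn => by rw [h0 a (List.mem_toFinset.1 ha) (by simpa using hn), zero_mul]).symm

theorem div_self' (h : Tendsto w U atTop) : Tendsto (fun i => w i / w i) U (𝓝 1) :=
  tendsto_const_nhds.congr' ((h.eventually_gt_atTop 0).mono fun _ hi => (div_self hi.ne').symm)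

theorem top_of_div (h : Tendsto w U atTop) (hy : Tendsto (fun i => y i / w i) U (𝓝 g))
    (hg : 0 < g) : Tendsto y U atTop :=
  (hy.pos_mul_atTop hg h).congr' ((h.eventually_gt_atTop 0).mono fun _ hi =>
    div_mul_cancel₀ _ hi.ne')

theorem bot_of_div (h : Tendsto w U atTop) (hy : Tendsto (fun i => y i / w i) U (𝓝 g))
    (hg : g < 0) : Tendsto y U atBot :=
  (hy.neg_mul_atTop hg h).congr' ((h.eventually_gt_atTop 0).mono fun _ hi =>
    div_mul_cancel₀ _ hi.ne')

theorem div_trans (h : Tendsto w U atTop) (hy : Tendsto (fun i => y i / w i) U (𝓝 g))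
    (hs : Tendsto (fun i => w i / σ i) U (𝓝 c)) : Tendsto (fun i => y i / σ i) U (𝓝 (g * c)) :=
  (hy.mul hs).congr' ((h.eventually_gt_atTop 0).mono fun i hi => by field_simp)

theorem lin_small (h : ∀ b ∈ l, Tendsto (fun i => v b i / σ i) U (𝓝 0)) :
    Tendsto (fun i => lin v l γ i / σ i) U (𝓝 0) := by
  have := tendsto_finsetSum l.toFinset fun b hb => (h b (List.mem_toFinset.1 hb)).const_mul (γ b)
  simp only [mul_zero, Finset.sum_const_zero] at this
  exact this.congr fun i => by simp only [lin, Finset.sum_div, mul_div_assoc]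

namespace Ord

theorem notMem (h : Ord U v (a :: l)) : a ∉ l := fun ha =>
  one_ne_zero (tendsto_nhds_unique (div_self' h.1) (h.2.1 a ha))

theorem nodup : ∀ {l : List κ}, Ord U v l → l.Nodup
  | [], _ => List.nodup_nil
  | _ :: _, h => List.nodup_cons.2 ⟨h.notMem, nodup h.2.2⟩

theorem big : ∀ {l : List κ}, Ord U v l → ∀ a ∈ l, Tendsto (v a) U atTop
  | [], _, _, h => by simp at h
  | _ :: _, h, a, ha => by
    rcases List.mem_cons.1 ha with rfl | ha
    · exact h.1
    · exact big h.2.2 a ha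

theorem suffix : ∀ {t : List κ}, Ord U v t → l <:+ t → Ord U v l
  | [], h, hl => by rwa [List.suffix_nil.1 hl]
  | _ :: _, h, hl => by
    rcases List.suffix_cons_iff.1 hl with rfl | hl
    · exact h
    · exact suffix h.2.2 hl

theorem of_suffix : ∀ {t : List κ}, (∀ a ∈ t, Tendsto (v a) U atTop) →
    (∀ a l, a :: l <:+ t → ∀ b ∈ l, Tendsto (fun i => v b i / v a i) U (𝓝 0)) → Ord U v t
  | [], _, _ => trivial
  | a :: l, h1, h2 => ⟨h1 a (by simp), h2 a l List.suffix_rfl, of_suffix
      (fun b hb => h1 b (by simp [hb])) fun b l' hl => h2 b l' (hl.trans (List.suffix_cons _ _))⟩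

theorem congr : ∀ {l : List κ}, Ord U v l → (∀ a ∈ l, v a =ᶠ[U] s a) → Ord U s l
  | [], _, _ => trivial
  | a :: l, h, e => ⟨h.1.congr' (e a (by simp)), fun b hb => (h.2.1 b hb).congr' (by
      filter_upwards [e a (by simp), e b (by simp [hb])] with i h1 h2
      rw [h1, h2]), congr h.2.2 fun b hb => e b (by simp [hb])⟩

theorem lin_div (h : Ord U v (a :: l)) :
    Tendsto (fun i => lin v (a :: l) γ i / v a i) U (𝓝 (γ a)) := by
  have := ((div_self' h.1).const_mul (γ a)).add (lin_small (γ := γ) h.2.1)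
  rw [mul_one, add_zero] at this
  exact this.congr fun i => by rw [lin_cons h.notMem]; ring

theorem lin_cons0 (h : Ord U v (a :: l)) (h0 : γ a = 0) : lin v (a :: l) γ = lin v l γ :=
  funext fun i => by rw [lin_cons h.notMem, h0, zero_mul, zero_add]

/-- linear combinations are totally ordered -/
theorem tri : ∀ {l : List κ}, Ord U v l → (∀ a ∈ l, γ a = 0) ∨ Tendsto (lin v l γ) U atTop ∨
    Tendsto (lin v l γ) U atBot
  | [], _ => Or.inl (by simp)
  | a :: l, h => by
    rcases lt_trichotomy (γ a) 0 with c | c | c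
    · exact Or.inr (Or.inr (bot_of_div h.1 h.lin_div c))
    · rw [h.lin_cons0 c]
      exact (tri h.2.2).imp_left fun k b hb => (List.mem_cons.1 hb).elim (· ▸ c) (k b)
    · exact Or.inr (Or.inl (top_of_div h.1 h.lin_div c))

theorem uniq (h : Ord U v l) (hc : Tendsto (lin v l γ) U (𝓝 c)) : ∀ a ∈ l, γ a = 0 :=
  (h.tri (γ := γ)).resolve_right fun k => k.elim (not_tendsto_atTop_of_tendsto_nhds hc)
    (not_tendsto_atBot_of_tendsto_nhds hc)

theorem head_nonneg (h : Ord U v (a :: l)) (hγ : Tendsto (lin v (a :: l) γ) U atTop) : 0 ≤ γ a :=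
  not_lt.1 fun c => hγ.not_tendsto disjoint_atTop_atBot (bot_of_div h.1 h.lin_div c)

theorem top : ∀ {l : List κ}, Ord U v l → Tendsto (lin v l γ) U atTop → a ∈ l → γ a ≠ 0 →
    ∃ C : ℝ, ∀ᶠ i in U, v a i ≤ C * lin v l γ i
  | [], _, _, ha, _ => by simp at ha
  | b :: l, h, hγ, ha, h0 => by
    rcases (h.head_nonneg hγ).eq_or_lt with c | c
    · rw [h.lin_cons0 c.symm] at hγ ⊢
      exact top h.2.2 hγ ((List.mem_cons.1 ha).resolve_left fun e => h0 (e ▸ c.symm)) h0
    · have k : ∀ᶠ i in U, v a i / v b i < 2 := by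
        rcases List.mem_cons.1 ha with rfl | ha
        · exact (div_self' h.1).eventually (gt_mem_nhds one_lt_two)
        · exact (h.2.1 a ha).eventually (gt_mem_nhds two_pos)
      refine ⟨4 / γ b, ?_⟩
      filter_upwards [k, h.lin_div.eventually (lt_mem_nhds (half_lt_self c)),
        h.1.eventually_gt_atTop 0] with i h1 h2 h3
      rw [div_lt_iff₀ h3] at h1
      rw [lt_div_iff₀ h3] at h2
      rw [div_mul_eq_mul_div, le_div_iff₀ c]
      nlinarith

theorem head_eq (h : Ord U v (a :: l)) (hy : Tendsto (fun i => y i - lin v (a :: l) γ i) U (𝓝 c))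
    (hg : Tendsto (fun i => y i / v a i) U (𝓝 g)) : γ a = g := by
  have := (hy.div_atTop h.1).add (h.lin_div (γ := γ))
  rw [zero_add] at this
  exact tendsto_nhds_unique (this.congr fun i => by ring) hg

/-- the coefficients above the class of `y` vanish -/
theorem supp : ∀ {t : List κ}, Ord U v t → a :: l <:+ t →
    Tendsto (fun i => y i - lin v t γ i) U (𝓝 c) → Tendsto (fun i => y i / v a i) U (𝓝 g) →
    (∀ b ∈ t, b ∉ a :: l → γ b = 0) ∧ γ a = g
  | [], _, hl, _, _ => by simp at hl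
  | b :: t, h, hl, hy, hg => by
    rcases List.suffix_cons_iff.1 hl with e | hl
    · cases e
      exact ⟨fun b hb hn => absurd hb hn, h.head_eq hy hg⟩
    · have ha : a ∈ t := hl.subset (by simp)
      have h0 : γ b = 0 := h.head_eq hy (by simpa using div_trans (h.2.2.big a ha) hg (h.2.1 a ha))
      rw [h.lin_cons0 h0] at hy
      obtain ⟨k1, k2⟩ := supp h.2.2 hl hy hg
      exact ⟨fun d hd hn => (List.mem_cons.1 hd).elim (· ▸ h0) fun hd => k1 d hd hn, k2⟩

end Ord

/-- a new class `σ` between `l₁` and `l₂` -/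
structure Gap (U : Ultrafilter α) (v : κ → α → ℝ) (l₁ l₂ : List κ) (σ : α → ℝ) : Prop where
  big : Tendsto σ U atTop
  lo : ∀ b ∈ l₂, Tendsto (fun i => v b i / σ i) U (𝓝 0)
  hi : ∀ a ∈ l₁, Tendsto (fun i => σ i / v a i) U (𝓝 0)

theorem small_of_eq {V : α → ℝ} {η : ℝ} (hη : η ≠ 0) (e : ∀ i, w i = lin v l γ i + η * σ i)
    (h1 : Tendsto (fun i => w i / V i) U (𝓝 0))
    (h2 : ∀ b ∈ l, Tendsto (fun i => v b i / V i) U (𝓝 0)) :
    Tendsto (fun i => σ i / V i) U (𝓝 0) := by
  have := (h1.sub (lin_small (γ := γ) h2)).const_mul η⁻¹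
  rw [sub_zero, mul_zero] at this
  exact this.congr fun i => by rw [e i]; field_simp; ring

theorem inv_top (hv : Tendsto σ U atTop) (h : Tendsto (fun i => w i / σ i) U atTop) :
    Tendsto w U atTop ∧ Tendsto (fun i => σ i / w i) U (𝓝 0) :=
  ⟨(h.atTop_mul_atTop₀ hv).congr' ((hv.eventually_gt_atTop 0).mono fun _ hi =>
    div_mul_cancel₀ _ hi.ne'), h.inv_tendsto_atTop.congr fun i => by simp⟩

/-- **classification** of a sequence against an ordered family -/
theorem Ord.cls : ∀ {l : List κ}, Ord U v l → ∀ w : α → ℝ, Rep U v l w ∨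
    ∃ (γ : κ → ℝ) (η : ℝ) (σ : α → ℝ) (l₁ l₂ : List κ), l = l₁ ++ l₂ ∧ η ≠ 0 ∧ Gap U v l₁ l₂ σ ∧
      ∀ i, w i = lin v l γ i + η * σ i
  | [], _, w => by
    rcases Sq.tri U w with ⟨c, k⟩ | k | k
    · exact Or.inl ⟨0, c, by simpa [lin_nil] using k⟩
    · exact Or.inr ⟨0, 1, w, [], [], rfl, one_ne_zero, ⟨k, by simp, by simp⟩, by simp [lin_nil]⟩
    · exact Or.inr ⟨0, -1, fun i => -w i, [], [], rfl, by simp,
        ⟨tendsto_neg_atBot_atTop.comp k, by simp, by simp⟩, by simp [lin_nil]⟩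
  | a :: l, h, w => by
    have big : ∀ w : α → ℝ, Tendsto (fun i => w i / v a i) U atTop → Gap U v [] (a :: l) w :=
      fun w k => ⟨(inv_top h.1 k).1, fun b hb => by
        rcases List.mem_cons.1 hb with rfl | hb
        · exact (inv_top h.1 k).2
        · simpa using div_trans h.1 (h.2.1 b hb) (inv_top h.1 k).2, by simp⟩
    rcases Sq.tri U fun i => w i / v a i with ⟨g, k⟩ | k | k
    · have e : ∀ γ : κ → ℝ, ∀ i, lin v (a :: l) (Function.update γ a g) i =
          g * v a i + lin v l γ i := fun γ i => by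
        rw [lin_cons h.notMem, Function.update_self, lin_congr (s := v) (γ' := γ)
          (fun b hb => Function.update_of_ne (ne_of_mem_of_not_mem hb h.notMem) _ _) fun _ _ => rfl]
      rcases cls h.2.2 fun i => w i - g * v a i with ⟨γ, c, k'⟩ | ⟨γ, η, σ, l₁, l₂, e1, e2, e3, e4⟩
      · exact Or.inl ⟨Function.update γ a g, c, k'.congr fun i => by rw [e]; ring⟩
      · refine Or.inr ⟨Function.update γ a g, η, σ, a :: l₁, l₂, by simp [e1], e2,
          ⟨e3.big, e3.lo, fun b hb => ?_⟩, fun i => by rw [e]; linarith [e4 i]⟩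
        rcases List.mem_cons.1 hb with rfl | hb
        · refine small_of_eq e2 e4 ?_ h.2.1
          have := k.sub ((div_self' h.1).const_mul g)
          rw [mul_one, sub_self] at this
          exact this.congr fun i => by ring
        · exact e3.hi b hb
    · exact Or.inr ⟨0, 1, w, [], a :: l, rfl, one_ne_zero, big w k, fun i => by
        rw [lin_zero (γ := 0) fun _ _ => rfl]; simp⟩
    · exact Or.inr ⟨0, -1, fun i => -w i, [], a :: l, rfl, by simp,
        big _ ((tendsto_neg_atBot_atTop.comp k).congr fun i => by simp [neg_div]), fun i => by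
        rw [lin_zero (γ := 0) fun _ _ => rfl]; simp⟩

end Crest.Agent.N207.O.Sq

end
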