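import Crest.Agent.N207.O.Kit2
import Crest.Agent.N207.O.Sq

/-!
# Row 207, block O (helper99): values along the ultrafilter (L1, L2, L3)
-/

set_option autoImplicit false
set_option linter.unusedSectionVars false

open Set Filter Topology Metric

noncomputable section

namespace Crest.Agent.N207.O

variable {ι : Type} [Fintype ι] [DecidableEq ι] {α : Type} {U : Ultrafilter α} {T : Tw ι}
  {p : α → ι → ℂ} {l : List (ι ⊕ ℕ)} {k : ι}

/-- the real parts of the scales at the points `p i` -/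
def Tw.val (T : Tw ι) (p : α → ι → ℂ) (a : ι ⊕ ℕ) (i : α) : ℝ := (T.s a (p i)).re

theorem Tw.re_lin_val (T : Tw ι) (p : α → ι → ℂ) (l : List (ι ⊕ ℕ)) (γ : ι ⊕ ℕ → ℝ) (i : α) :
    (T.lin l γ (p i)).re = Sq.lin (T.val p) l γ i := by
  simp [Tw.lin, Sq.lin, Tw.val]

theorem Tw.Pt.sq (hp : T.Pt U p) (hl : l <:+ T.top) : Sq.Ord U (T.val p) l :=
  (Sq.Ord.of_suffix hp.big hp.ord).suffix hl

theorem L2_tri (hp : T.Pt U p) (hl : l <:+ T.top) (γ : ι ⊕ ℕ → ℝ) :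
    (∀ a ∈ l, γ a = 0) ∨ Tendsto (fun i => (T.lin l γ (p i)).re) U atTop ∨
      Tendsto (fun i => (T.lin l γ (p i)).re) U atBot := by
  simp only [Tw.re_lin_val]
  exact (hp.sq hl).tri

theorem L3_top (hp : T.Pt U p) (hl : l <:+ T.top) {γ : ι ⊕ ℕ → ℝ}
    (hγ : Tendsto (fun i => (T.lin l γ (p i)).re) U atTop) {a : ι ⊕ ℕ} (ha : a ∈ l)
    (h0 : γ a ≠ 0) : ∃ C : ℝ, ∀ᶠ i in U, (T.s a (p i)).re ≤ C * (T.lin l γ (p i)).re := by
  simp only [Tw.re_lin_val] at hγ ⊢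
  exact (hp.sq hl).top hγ ha h0

theorem lin_val (h : T.WF) (hp : T.Pt U p) (hl : l <:+ T.top) (γ : ι ⊕ ℕ → ℝ) :
    ∀ᶠ i in U, T.lin l γ (p i) = (Sq.lin (T.val p) l γ i : ℝ) :=
  (T5_mem h hp hl).mono fun i hi => Complex.ext (by rw [Tw.re_lin_val, Complex.ofReal_re])
    (by rw [Tw.im_lin (fun a ha => T6_real h hl a ha _ hi (hp.re i)), Complex.ofReal_im])

/-- a nonzero real null sequence is `± e^{-w}` -/
theorem exists_log {f : α → ℝ} (h0 : Tendsto f U (𝓝 0)) (hn : ∀ᶠ i in U, f i ≠ 0) :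
    ∃ (ε : ℝ) (w : α → ℝ), |ε| = 1 ∧ Tendsto w U atTop ∧ ∀ᶠ i in U, f i = ε * Real.exp (-w i) := by
  have t : Tendsto (fun i => -Real.log (f i)) U atTop :=
    tendsto_neg_atBot_atTop.comp (Real.tendsto_log_nhdsNE_zero.comp
      (tendsto_nhdsWithin_iff.2 ⟨h0, hn⟩))
  rcases Ultrafilter.eventually_or.1 (hn.mono fun i hi => lt_or_gt_of_ne hi) with c | c
  · exact ⟨-1, _, by simp, t, c.mono fun i hi => by
      rw [neg_neg, Real.exp_log_eq_abs hi.ne, abs_of_neg hi]; ring⟩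
  · exact ⟨1, _, by simp, t, c.mono fun i hi => by rw [neg_neg, Real.exp_log hi, one_mul]⟩

theorem L1_class (h : T.WF) (hp : T.Pt U p) (hk : k ∈ T.Fv) {j : ℕ} (hj : j ≤ T.p) :
    T.Bey U p j k ∨
    (∃ (γ : ι ⊕ ℕ → ℝ) (c : ℝ) (z : α → ℝ), c ≠ 0 ∧ Tendsto z U (𝓝 0) ∧
      Tendsto (fun i => (T.lin (T.lv j) γ (p i)).re) U atTop ∧
      ∀ᶠ i in U, p i k = Complex.exp (-T.lin (T.lv j) γ (p i)) * ((c : ℂ) + z i)) ∨
    ∃ (γ : ι ⊕ ℕ → ℝ) (ε η : ℝ) (σ : α → ℝ) (l₁ l₂ : List (ι ⊕ ℕ)), T.lv j = l₁ ++ l₂ ∧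
      Tendsto σ U atTop ∧ (∀ b ∈ l₂, Tendsto (fun i => (T.s b (p i)).re / σ i) U (𝓝 0)) ∧
      (∀ a ∈ l₁, Tendsto (fun i => σ i / (T.s a (p i)).re) U (𝓝 0)) ∧
      (j < T.p → Tendsto (fun i => σ i / (T.s (Sum.inr j) (p i)).re) U (𝓝 0)) ∧
      ∀ᶠ i in U, p i k = (ε : ℂ) * Complex.exp (-(T.lin (T.lv j) γ (p i) + (η * σ i : ℝ))) ∧
        ε ≠ 0 := by
  have hre : ∀ i, p i k = ((p i k).re : ℝ) := fun i => Complex.ext rfl (by simpa using hp.re i k)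
  by_cases hz : ∀ᶠ i in U, p i k = 0
  · exact Or.inl ⟨fun _ => ⟨1, one_pos, hz.mono fun i hi => by
      rw [hi, norm_zero]; exact (Real.exp_pos _).le⟩, fun _ => hz⟩
  obtain ⟨ε, w, e1, wt, hw⟩ := exists_log (U := U) (f := fun i => (p i k).re)
    ((Complex.continuous_re.tendsto 0).comp (hp.z0 k hk))
    ((Ultrafilter.eventually_not.2 hz).mono fun i hi e => hi (by rw [hre, e, Complex.ofReal_zero]))
  have e0 : ε ≠ 0 := by rintro rfl; simp at e1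
  have hl := Tw.lv_top (T := T) hj
  by_cases hb : j < T.p ∧ ¬ Tendsto (fun i => w i / T.val p (Sum.inr j) i) U (𝓝 0)
  · have vt := hp.big _ (Tw.inr_mem_lv.2 hb.1)
    obtain ⟨t, t0, ht⟩ : ∃ t > 0, ∀ᶠ i in U, t ≤ w i / T.val p (Sum.inr j) i := by
      by_contra! hn
      refine hb.2 (tendsto_order.2 ⟨fun a ha => ?_, fun a ha => ?_⟩)
      · filter_upwards [wt.eventually_gt_atTop 0, vt.eventually_gt_atTop 0] with i h1 h2
        exact ha.trans (div_pos h1 h2)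
      · exact hn a ha
    refine Or.inl ⟨fun _ => ⟨t, t0, ?_⟩, fun c => absurd hb.1 c⟩
    filter_upwards [ht, hw, vt.eventually_gt_atTop 0] with i h1 h2 h3
    rw [hre, Complex.norm_real, h2, Real.norm_eq_abs, abs_mul, e1, one_mul, Real.abs_exp]
    exact Real.exp_le_exp.2 (neg_le_neg ((le_div_iff₀ h3).1 h1))
  refine Or.inr ?_
  rcases (hp.sq hl).cls w with ⟨γ, c, hc⟩ | ⟨γ, η, σ, l₁, l₂, a1, a2, a3, a4⟩
  · refine Or.inl ⟨γ, ε * Real.exp (-c), fun i =>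
      ε * Real.exp (-(w i - Sq.lin (T.val p) (T.lv j) γ i)) - ε * Real.exp (-c), mul_ne_zero e0 (Real.exp_ne_zero _), ?_, ?_, ?_⟩
    · exact tendsto_sub_nhds_zero_iff.2 (((Real.continuous_exp.tendsto _).comp hc.neg).const_mul ε)
    · simp only [Tw.re_lin_val]
      exact (wt.atTop_add hc.neg).congr fun i => by ring
    · filter_upwards [hw, lin_val h hp hl γ] with i h1 h2
      rw [hre, h1, h2]
      norm_cast
      rw [add_sub_cancel, mul_left_comm, ← Real.exp_add]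
      congr 2; ring
  · refine Or.inr ⟨γ, ε, η, σ, l₁, l₂, a1, a3.big, a3.lo, a3.hi, fun c => ?_, ?_⟩
    · exact Sq.small_of_eq a2 a4 (by_contra fun hn => hb ⟨c, hn⟩) (hp.ord _ _ (Tw.inr_lv_suffix c))
    · filter_upwards [hw, lin_val h hp hl γ] with i h1 h2
      refine ⟨?_, e0⟩
      rw [hre, h1, h2, a4 i]
      norm_cast

end Crest.Agent.N207.O

end
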