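import Mathlib

/-!
# Row 207, block O (helper84): nested exponential expansions on abstract frames

A frame gives scales `s a` and domains `D l` (`l` = list of levels, head = top level).
`F.Cl l b g`: `g` is holomorphic on `D l` and `g ~ ∑_{t ≥ b} e^{-t s_a} c_t`, `c_t ∈ F.A l'`.
-/

set_option autoImplicit false

open Set Filter Topology Metric

noncomputable section

namespace Crest.Agent.N207.O

/-- abstract frame -/
structure Fr (X κ : Type*) where
  s : κ → X → ℂ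
  D : List κ → Set X

variable {X κ E Y : Type*} [NormedAddCommGroup X] [NormedSpace ℂ X] [NormedAddCommGroup E]
  [NormedSpace ℂ E] [NormedAddCommGroup Y] [NormedSpace ℂ Y]

/-- bounded on a set -/
def Bd {α β : Type*} [Norm β] (S : Set α) (g : α → β) : Prop := ∃ C : ℝ, ∀ x ∈ S, ‖g x‖ ≤ C

namespace Fr

/-- admissible lists of levels -/
def Ok (F : Fr X κ) : List κ → Prop
  | [] => IsOpen (F.D [])
  | a :: l => F.Ok l ∧ IsOpen (F.D (a :: l)) ∧ F.D (a :: l) ⊆ F.D l ∧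
      DifferentiableOn ℂ (F.s a) (F.D (a :: l)) ∧ ∀ x ∈ F.D (a :: l), 0 ≤ (F.s a x).re

/-- `e^{-t s_a}` -/
def ex (F : Fr X κ) (a : κ) (t : ℝ) (x : X) : ℂ := Complex.exp (-((t : ℂ) * F.s a x))

/-- the class; `b` is a lower bound for the exponents of the top level -/
def Cl (F : Fr X κ) : List κ → ℝ → (X → E) → Prop
  | [], _, g => DifferentiableOn ℂ g (F.D []) ∧ Bd (F.D []) g
  | a :: l, b, g => DifferentiableOn ℂ g (F.D (a :: l)) ∧ ∃ c : ℝ → X → E,
      (∀ t, F.Cl l 0 (c t)) ∧ (∀ t < b, c t = 0) ∧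
      ∀ K : ℝ, ∃ (S : Finset ℝ) (C : ℝ), (∀ t < K, t ∉ S → c t = 0) ∧
        ∀ x ∈ F.D (a :: l),
          ‖g x - ∑ t ∈ S, F.ex a t x • c t x‖ ≤ C * Real.exp (-(K * (F.s a x).re))

/-- the algebra of the list `l` -/
abbrev A (F : Fr X κ) (l : List κ) (g : X → E) : Prop := F.Cl l 0 g

/-- `gb` is a standard part (bottom coefficient) of `g` -/
def St (F : Fr X κ) : List κ → (X → E) → (X → E) → Prop
  | [], g, gb => F.A [] g ∧ F.A [] gb ∧ EqOn g gb (F.D [])
  | a :: l, g, gb => F.A (a :: l) g ∧ ∃ (c g1 : X → E) (γ : ℝ), 0 < γ ∧ F.St l c gb ∧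
      F.A (a :: l) g1 ∧ ∀ x ∈ F.D (a :: l), g x = c x + F.ex a γ x • g1 x

/-- `g` and all its nested leading coefficients take values in `K` -/
def In (F : Fr X κ) : List κ → Set E → (X → E) → Prop
  | [], K, g => F.A [] g ∧ MapsTo g (F.D []) K
  | a :: l, K, g => F.A (a :: l) g ∧ MapsTo g (F.D (a :: l)) K ∧ ∃ (c g1 : X → E) (γ : ℝ),
      0 < γ ∧ F.In l K c ∧ F.A (a :: l) g1 ∧ ∀ x ∈ F.D (a :: l), g x = c x + F.ex a γ x • g1 x

/-- product with a free parameter domain -/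
def prod (F : Fr X κ) (U : Set Y) : Fr (X × Y) κ where
  s a z := F.s a z.1
  D l := F.D l ×ˢ U

/-- quasi-analyticity of the level `a` over `l` -/
def QA1 (F : Fr X κ) (a : κ) (l : List κ) : Prop :=
  ∀ g : X → ℂ, DifferentiableOn ℂ g (F.D (a :: l)) →
    (∀ K : ℝ, ∃ C : ℝ, ∀ x ∈ F.D (a :: l), ‖g x‖ ≤ C * Real.exp (-(K * (F.s a x).re))) →
    EqOn g 0 (F.D (a :: l))

/-- `F'` is a restriction of `F` along `l` on which all scales have real part `≥ R` -/
def Sub (F' F : Fr X κ) (R : ℝ) : List κ → Prop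
  | [] => F'.D [] ⊆ F.D []
  | a :: l => Sub F' F R l ∧ F'.D (a :: l) ⊆ F.D (a :: l) ∧ F'.s a = F.s a ∧
      ∀ x ∈ F'.D (a :: l), R ≤ (F.s a x).re

end Fr

/-- the logarithmic domain of a scale -/
def Om (R : ℝ) : Set ℂ := {w | R < w.re ∧ R * (1 + Real.log ‖w‖) < w.re}

/-- real points -/
def Rp (ι : Type*) : Set (ι → ℂ) := {x | ∀ k, (x k).im = 0}

/-- union of the components of `S` that contain a point of `G` -/
def RC {ι : Type*} (G S : Set (ι → ℂ)) : Set (ι → ℂ) := {x | ∃ y ∈ G, x ∈ connectedComponentIn S y}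

/-- real on the real points of `S` -/
def RR {ι : Type*} (S : Set (ι → ℂ)) (g : (ι → ℂ) → ℂ) : Prop := ∀ x ∈ S, x ∈ Rp ι → (g x).im = 0

/-- independent of the coordinate `k` -/
def Ind {ι β : Type*} [DecidableEq ι] (k : ι) (g : (ι → ℂ) → β) : Prop :=
  ∀ x w, g (Function.update x k w) = g x

/-- coordinatewise conjugation -/
def cj {ι : Type*} (x : ι → ℂ) : ι → ℂ := fun k => (starRingEnd ℂ) (x k)

/-- replace the coordinates in `W` by real numbers -/
def upd {ι : Type*} [DecidableEq ι] (W : Finset ι) (w : ι → ℝ) (x : ι → ℂ) : ι → ℂ :=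
  fun k => if k ∈ W then (w k : ℂ) else x k

end Crest.Agent.N207.O
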