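import Crest.Agent.N207.O.Kit1
import Crest.Agent.N207.O.Sec2b

/-!
# Row 207, block O (helper81): the domains of a deep tower are connected

Static argument: lower the free levels one by one (from the top) until each of them tracks its
lower neighbour; then join along a segment.
-/

set_option autoImplicit false
set_option linter.unusedSectionVars false

open Set Filter Topology Metric

noncomputable section

namespace Crest.Agent.N207.O.Cn

open Tw

variable {ι : Type} [Fintype ι] [DecidableEq ι] {T : Tw ι} {C K : ℝ} {a b : ι ⊕ ℕ}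
  {l m u L : List (ι ⊕ ℕ)} {x y : ι → ℂ} {Q : Set (ι → ℂ)}

theorem sub_D (hQ : IsPreconnected Q) (h1 : Q ⊆ T.D l) (h2 : ∀ x ∈ Q, T.cst a x) (h3 : x ∈ Q)
    (h4 : x ∈ T.D (a :: l)) : Q ⊆ T.D (a :: l) := by
  obtain ⟨y, hy, hx⟩ := h4
  intro z hz
  refine ⟨y, hy, ?_⟩
  rw [connectedComponentIn_eq hx]
  exact hQ.subset_connectedComponentIn (F := {x | x ∈ T.D l ∧ T.cst a x}) h3
    (fun w hw => ⟨h1 hw, h2 w hw⟩) hz

/-- the free levels of `u` track their lower neighbour (`b` = level below `u`) -/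
def trk (T : Tw ι) (b : ι ⊕ ℕ) : List (ι ⊕ ℕ) → (ι → ℂ) → ι → ℂ
  | [], x => x
  | Sum.inl k :: u, x => Function.update (trk T b u x) k (T.s (u.headD b) (trk T b u x))
  | Sum.inr _ :: u, x => trk T b u x

theorem trk_snoc (b' : ι ⊕ ℕ) : ∀ (u : List (ι ⊕ ℕ)) (x : ι → ℂ),
    trk T b' (u ++ [b]) x = trk T b u (trk T b' [b] x)
  | [], _ => rfl
  | Sum.inl k :: u, x => by
    have : (u ++ [b]).headD b' = u.headD b := by cases u <;> rfl
    simp only [List.cons_append, trk, trk_snoc b' u x, this]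
  | Sum.inr k :: u, x => by simp only [List.cons_append, trk, trk_snoc b' u x]

theorem headD_mem (u m : List (ι ⊕ ℕ)) (b : ι ⊕ ℕ) : u.headD b ∈ u ++ b :: m := by
  cases u <;> simp

/-- numerical conditions on the depth -/
structure Big (T : Tw ι) (C K : ℝ) : Prop where
  ub : ∀ j < T.p, ∀ x ∈ T.D (T.lv j), ‖T.u j x‖ ≤ C
  cb : ∀ j < T.p, 1 + ∑ i ∈ (T.lv j).toFinset, T.c j i ≤ K
  b1 : ∀ j < T.p, ∀ i ∈ T.top, 0 < T.ρ j i → ∀ o, T.R ≤ o → K * o ≤ Real.exp (T.ρ j i * o - C)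
  b2 : ∀ j < T.p, ∀ j' < T.p, ∀ i ∈ T.top, T.ρ j' i < T.ρ j i →
    K ≤ Real.exp ((T.ρ j i - T.ρ j' i) * T.R - 2 * C)
  b3 : K * Real.exp (2 * C) ≤ T.R

/-- the invariant of a tracking point -/
structure Inv (T : Tw ι) (C : ℝ) (L : List (ι ⊕ ℕ)) (b : ι ⊕ ℕ) (m u : List (ι ⊕ ℕ))
    (x : ι → ℂ) : Prop where
  re : x ∈ Rp ι
  i1 : ∀ i ∈ u ++ b :: m, (T.s i x).re ≤ (T.s (u.headD b) x).re
  i2 : ∀ i ∈ u, (T.s b x).re ≤ (T.s i x).re
  i3 : (T.s (u.headD b) x).re ≤ (T.s b x).re ∨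
    ∃ j, Sum.inr j ∈ u ++ b :: m ∧ (T.s (u.headD b) x).re ≤ Real.exp (T.E j x).re
  i4 : ∀ j, Sum.inr j ∈ L → (∀ i, i ∉ m → T.ρ j i = 0) →
    T.R * (T.s b x).re ≤ Real.exp ((T.lin m (T.ρ j) x).re + C)

theorem not_fv (h : T.WF) {k : ι} (hl : Sum.inl k :: l <:+ T.top) : k ∉ T.Fv := fun hk =>
  h.dj k hk (hl.subset List.mem_cons_self)

theorem step_free (h : T.WF) {k : ι} (hl : Sum.inl k :: (u ++ b :: m) <:+ T.top)
    (hx : x ∈ T.D (u ++ b :: m)) (I : Inv T C L b m u x) :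
    Function.update x k (T.s (u.headD b) x) ∈ T.D (u ++ b :: m) ∧
      T.cst (Sum.inl k) (Function.update x k (T.s (u.headD b) x)) ∧
      Inv T C L b m (Sum.inl k :: u) (Function.update x k (T.s (u.headD b) x)) := by
  have hk := h.not_mem hl
  have hf := not_fv h hl
  have hl' := suffix_tail hl
  set w := T.s (u.headD b) x with hw
  have e : ∀ i ∈ u ++ b :: m, T.s i (Function.update x k w) = T.s i x := fun i hi =>
    (h.ind_s hl' hk (fun h' => absurd h' hf) hi).1 x w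
  have e0 : T.s (Sum.inl k) (Function.update x k w) = w := by rw [h.sN]; simp
  have hb : b ∈ u ++ b :: m := by simp
  refine ⟨T2_upd h hl' hk (fun h' => absurd h' hf) hx (fun h' => absurd h' hf),
    ⟨by rw [e0]; exact (D_cst hx (headD_mem u m b)).1, fun _ e => by cases e⟩,
    ⟨fun k' => ?_, fun i hi => ?_, fun i hi => ?_, ?_, fun j hj h0 => ?_⟩⟩
  · by_cases e : k' = k
    · subst e
      rw [Function.update_self]
      exact T6_real h hl' _ (headD_mem u m b) x hx I.re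
    · simpa [e] using I.re k'
  · rw [List.headD_cons, e0]
    rcases List.mem_cons.1 hi with rfl | hi
    · rw [e0]
    · rw [e i hi]; exact I.i1 i hi
  · rw [e b hb]
    rcases List.mem_cons.1 hi with rfl | hi
    · rw [e0]; exact I.i1 b hb
    · rw [e i (by simp [hi])]; exact I.i2 i hi
  · rw [List.headD_cons, e0, e b hb]
    refine I.i3.imp id fun ⟨j, hj, h1⟩ => ⟨j, List.mem_cons_of_mem _ hj, ?_⟩
    rw [h.ind_E hl' hk (fun h' => absurd h' hf) hj]; exact h1
  · rw [e b hb, ind_lin (fun i hi => (h.ind_s hl' hk (fun h' => absurd h' hf)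
      (by simp [hi] : i ∈ u ++ b :: m)).1)]
    exact I.i4 j hj h0

theorem re_lin_ge {γ : ι ⊕ ℕ → ℝ} (hγ : ∀ i, 0 ≤ γ i) (hp : ∀ i ∈ l, 0 ≤ (T.s i x).re) (ha : a ∈ l) :
    γ a * (T.s a x).re ≤ (T.lin l γ x).re := by
  rw [re_lin]
  exact Finset.single_le_sum (f := fun i => γ i * (T.s i x).re)
    (fun i hi => mul_nonneg (hγ i) (hp i (List.mem_toFinset.1 hi))) (List.mem_toFinset.2 ha)

theorem lin_supp {γ : ι ⊕ ℕ → ℝ} (hs : ∀ i ∈ m, i ∈ l) (h0 : ∀ i, i ∉ m → γ i = 0) :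
    T.lin l γ x = T.lin m γ x := by
  symm
  refine Finset.sum_subset (fun i hi => List.mem_toFinset.2 (hs i (List.mem_toFinset.1 hi)))
    fun i _ hi => ?_
  rw [h0 i (by simpa using hi)]; simp

/-- real form of a tie -/
theorem tie_re (h : T.WF) {j : ℕ} (hj : j < T.p) (hx : x ∈ T.D (T.lv j)) (hr : x ∈ Rp ι) :
    (T.s (Sum.inr j) x).im = 0 ∧ (T.E j x).im = 0 ∧
      (T.s (Sum.inr j) x).re = Real.exp (T.E j x).re - (T.lin (T.lv j) (T.c j) x).re := by
  have H := h.real_head (inr_lv_suffix hj) fun b hb => T6_real h (lv_top hj.le) b hb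
  have h2 := H.2 j rfl x hx hr
  refine ⟨H.1 x hx hr, h2, ?_⟩
  rw [h.sL j hj x hx, Complex.sub_re, Complex.exp_re, h2]; simp

theorem step_tied (h : T.WF) (hB : Big T C K) {j : ℕ} (hl : Sum.inr j :: (u ++ b :: m) <:+ T.top)
    (hL : Sum.inr j ∈ L) (hx : x ∈ T.D (u ++ b :: m)) (I : Inv T C L b m u x) :
    T.cst (Sum.inr j) x ∧ Inv T C L b m (Sum.inr j :: u) x := by
  obtain ⟨hj, hlv⟩ := inr_suffix hl
  have hl' := suffix_tail hl
  have hR := h.R1
  have hx' : x ∈ T.D (T.lv j) := hlv ▸ hx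
  obtain ⟨t1, t2, t3⟩ := tie_re h hj hx' I.re
  have big : ∀ i ∈ T.lv j, T.R ≤ (T.s i x).re := fun i hi => (D_cst hx' hi).1.1.le
  have pos : ∀ i ∈ T.lv j, 0 ≤ (T.s i x).re := fun i hi => by linarith [big i hi]
  have hh : u.headD b ∈ T.lv j := hlv ▸ headD_mem u m b
  have hb : b ∈ T.lv j := by rw [← hlv]; simp
  have hu := abs_le.1 ((Complex.abs_re_le_norm _).trans (hB.ub j hj x hx'))
  have hE : (T.E j x).re = (T.lin (T.lv j) (T.ρ j) x).re + (T.u j x).re := by simp [E]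
  have hK : 0 ≤ K := by
    have := Finset.sum_nonneg (s := (T.lv j).toFinset) fun i _ => h.c0 j i
    linarith [hB.cb j hj]
  set o := (T.s (u.headD b) x).re with ho
  have o0 : 0 ≤ o := pos _ hh
  have key : K * o ≤ Real.exp (T.E j x).re := by
    rcases I.i3 with h1 | ⟨j', hj', h1⟩
    · refine (mul_le_mul_of_nonneg_left h1 hK).trans ?_
      by_cases h0 : ∀ i, i ∉ m → T.ρ j i = 0
      · have h2 := I.i4 j hL h0
        rw [← lin_supp (l := T.lv j) (fun i hi => by rw [← hlv]; simp [hi]) h0] at h2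
        have h3 : Real.exp ((T.lin (T.lv j) (T.ρ j) x).re + C) ≤
            Real.exp (T.E j x).re * Real.exp (2 * C) := by
          rw [← Real.exp_add]; exact Real.exp_le_exp.2 (by linarith)
        have h4 := mul_le_mul_of_nonneg_right hB.b3 (pos b hb)
        exact le_of_mul_le_mul_right (by nlinarith) (Real.exp_pos (2 * C))
      · push Not at h0
        obtain ⟨i, hi, h2⟩ := h0
        have h3 : 0 < T.ρ j i := (h.ρ0 j i).lt_of_ne' h2
        have h4 : i ∈ T.lv j := by by_contra hc; exact h2 (h.ρs j hj i hc)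
        have h5 : (T.s b x).re ≤ (T.s i x).re := by
          rw [← hlv] at h4
          rcases List.mem_append.1 h4 with h4 | h4
          · exact I.i2 i h4
          · rcases List.mem_cons.1 h4 with rfl | h4
            · exact le_rfl
            · exact absurd h4 hi
        refine (hB.b1 j hj i ((lv_top hj.le).subset h4) h3 _ (big b hb)).trans
          (Real.exp_le_exp.2 ?_)
        have h6 := re_lin_ge (h.ρ0 j) pos h4
        nlinarith
    · rw [hlv] at hj'
      have hjj := inr_mem_lv.1 hj'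
      obtain ⟨h2, i, hi, h3⟩ := h.ρm j' j hjj hj
      have hs := lv_suffix (T := T) hjj.le
      have hu' := abs_le.1 ((Complex.abs_re_le_norm _).trans
        (hB.ub j' (by omega) x (D_suffix hs hx')))
      have hE' : (T.E j' x).re = (T.lin (T.lv j) (T.ρ j') x).re + (T.u j' x).re := by
        rw [lin_supp (fun i hi => hs.subset hi) (h.ρs j' (by omega))]; simp [E]
      have h4 := re_lin_ge (γ := fun i => T.ρ j i - T.ρ j' i) (fun i => sub_nonneg.2 (h2 i)) pos hi
      have h5 : (T.lin (T.lv j) (fun i => T.ρ j i - T.ρ j' i) x).re =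
          (T.lin (T.lv j) (T.ρ j) x).re - (T.lin (T.lv j) (T.ρ j') x).re := by
        simp only [re_lin, sub_mul, Finset.sum_sub_distrib]
      have h6 := mul_le_mul_of_nonneg_left (big i hi) (sub_nonneg.2 h3.le)
      calc K * o ≤ Real.exp ((T.ρ j i - T.ρ j' i) * T.R - 2 * C) * Real.exp (T.E j' x).re :=
            mul_le_mul (hB.b2 j hj j' (by omega) i ((lv_top hj.le).subset hi) h3) h1 o0
              (Real.exp_pos _).le
        _ ≤ _ := by rw [← Real.exp_add]; exact Real.exp_le_exp.2 (by linarith)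
  have c1 : (T.lin (T.lv j) (T.c j) x).re ≤ (∑ i ∈ (T.lv j).toFinset, T.c j i) * o := by
    rw [re_lin, Finset.sum_mul]
    exact Finset.sum_le_sum fun i hi => mul_le_mul_of_nonneg_left
      (I.i1 i (hlv ▸ List.mem_toFinset.1 hi)) (h.c0 j i)
  have c0 : 0 ≤ (T.lin (T.lv j) (T.c j) x).re := by
    rw [re_lin]
    exact Finset.sum_nonneg fun i hi => mul_nonneg (h.c0 j i) (pos i (List.mem_toFinset.1 hi))
  have up : o ≤ (T.s (Sum.inr j) x).re := by
    have := mul_le_mul_of_nonneg_right (hB.cb j hj) o0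
    linarith
  refine ⟨⟨Q.om_up (by linarith) (D_cst hx' hh).1 (T6_real h (lv_top hj.le) _ hh x hx' I.re) t1 up,
    fun j' e => ?_⟩, I.re, fun i hi => ?_, fun i hi => ?_,
    Or.inr ⟨j, List.mem_cons_self, by rw [List.headD_cons]; linarith⟩, I.i4⟩
  · cases e; rw [t2, abs_zero]; positivity
  · rw [List.headD_cons]
    rcases List.mem_cons.1 hi with rfl | hi
    · exact le_rfl
    · exact (I.i1 i hi).trans up
  · rcases List.mem_cons.1 hi with rfl | hi
    · exact (I.i1 b (by simp)).trans up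
    · exact I.i2 i hi

theorem trk_maps (h : T.WF) (hB : Big T C K) (hQ : IsPreconnected Q) (hy : y ∈ Q)
    (hD : Q ⊆ T.D (b :: m)) (hI : ∀ x ∈ Q, Inv T C L b m [] x) :
    ∀ u : List (ι ⊕ ℕ), u ++ b :: m <:+ T.top → (∀ a ∈ u, a ∈ L) →
      trk T b u y ∈ T.D (u ++ b :: m) → ContinuousOn (trk T b u) Q ∧
        ∀ x ∈ Q, trk T b u x ∈ T.D (u ++ b :: m) ∧ Inv T C L b m u (trk T b u x)
  | [], _, _, _ => ⟨continuousOn_id, fun x hx => ⟨hD hx, hI x hx⟩⟩
  | Sum.inr j :: u, hl, hL, h0 => by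
    obtain ⟨h1, h2⟩ := trk_maps h hB hQ hy hD hI u (suffix_tail hl)
      (fun a ha => hL a (List.mem_cons_of_mem _ ha)) (D_cons_sub h0)
    have h3 := fun x hx => step_tied h hB hl (hL _ List.mem_cons_self) (h2 x hx).1 (h2 x hx).2
    refine ⟨h1, fun x hx => ⟨?_, (h3 x hx).2⟩⟩
    exact sub_D (hQ.image _ h1) (by rintro _ ⟨x, hx, rfl⟩; exact (h2 x hx).1)
      (by rintro _ ⟨x, hx, rfl⟩; exact (h3 x hx).1) ⟨y, hy, rfl⟩ h0 ⟨x, hx, rfl⟩
  | Sum.inl k :: u, hl, hL, h0 => by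
    have hf := not_fv h hl
    have hl' := suffix_tail hl
    have h0' : trk T b u y ∈ T.D (u ++ b :: m) := by
      have := T2_upd h hl' (h.not_mem hl) (fun h' => absurd h' hf) (D_cons_sub h0)
        (w := trk T b u y k) (fun h' => absurd h' hf)
      simpa [trk] using this
    obtain ⟨h1, h2⟩ := trk_maps h hB hQ hy hD hI u hl'
      (fun a ha => hL a (List.mem_cons_of_mem _ ha)) h0'
    have h3 := fun x hx => step_free h hl (h2 x hx).1 (h2 x hx).2
    have h4 : ContinuousOn (trk T b (Sum.inl k :: u)) Q := by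
      refine continuousOn_pi.2 fun k' => ?_
      by_cases e : k' = k
      · subst e
        simp only [trk, Function.update_self]
        exact ((T1_ok h hl').diff_mem (headD_mem u m b)).continuousOn.comp h1
          fun x hx => (h2 x hx).1
      · simp only [trk, Function.update_of_ne e]
        exact continuousOn_pi.1 h1 k'
    refine ⟨h4, fun x hx => ⟨?_, (h3 x hx).2.2⟩⟩
    exact sub_D (hQ.image _ h4) (by rintro _ ⟨x, hx, rfl⟩; exact (h3 x hx).1)
      (by rintro _ ⟨x, hx, rfl⟩; exact (h3 x hx).2.1) ⟨y, hy, rfl⟩ h0 ⟨x, hx, rfl⟩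

end Crest.Agent.N207.O.Cn
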