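import Crest.Agent.N207.O.Cn1

/-!
# Row 207, block O (helper81): the domains of a deep tower are connected, part 2
-/

set_option autoImplicit false
set_option linter.unusedSectionVars false

open Set Filter Topology Metric

noncomputable section

namespace Crest.Agent.N207.O.Cn

open Tw

variable {ι : Type} [Fintype ι] [DecidableEq ι] {T : Tw ι} {C K : ℝ} {a b : ι ⊕ ℕ}
  {l m u L : List (ι ⊕ ℕ)} {x y y' : ι → ℂ} {Q : Set (ι → ℂ)}

theorem seed_inv (h : T.WF) (hB : Big T C K) (hl : u ++ b :: m <:+ T.top)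
    (hy : y ∈ T.Sd (u ++ b :: m)) (hD : y ∈ T.D (u ++ b :: m)) (hx : x ∈ Rp ι)
    (e : ∀ i ∈ m, T.s i x = T.s i y) (h1 : (T.s b x).re ≤ (T.s b y).re)
    (h2 : ∀ i ∈ m, (T.s i x).re ≤ (T.s b x).re) : Inv T C u b m [] x := by
  refine ⟨hx, fun i hi => ?_, fun i hi => by simp at hi, Or.inl le_rfl, fun j hj h0 => ?_⟩
  · rcases List.mem_cons.1 hi with rfl | hi
    · exact le_rfl
    · exact h2 i hi
  obtain ⟨u1, u2, rfl⟩ := List.append_of_mem hj
  have hl' : Sum.inr j :: (u2 ++ b :: m) <:+ T.top :=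
    (List.suffix_append u1 _).trans (by simpa using hl)
  obtain ⟨hjp, hlv⟩ := inr_suffix hl'
  have hy' : y ∈ T.D (T.lv j) := by
    rw [← hlv]
    exact D_suffix ((List.suffix_cons (Sum.inr j) _).trans
      (by simpa using List.suffix_append u1 (Sum.inr j :: (u2 ++ b :: m)))) hD
  obtain ⟨-, -, t3⟩ := tie_re h hjp hy' hy.1
  have c0 : 0 ≤ (T.lin (T.lv j) (T.c j) y).re := by
    rw [re_lin]
    exact Finset.sum_nonneg fun i hi => mul_nonneg (h.c0 j i)
      (by linarith [(D_cst hy' (List.mem_toFinset.1 hi)).1.1, h.R1])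
  have h3 := (List.pairwise_append.1 hy.2).2.2 _ hj b List.mem_cons_self
  have hu := abs_le.1 ((Complex.abs_re_le_norm _).trans (hB.ub j hjp y hy'))
  have hE : (T.E j y).re = (T.lin m (T.ρ j) x).re + (T.u j y).re := by
    have : T.lin m (T.ρ j) x = T.lin m (T.ρ j) y :=
      Finset.sum_congr rfl fun i hi => by rw [e i (List.mem_toFinset.1 hi)]
    rw [this, ← lin_supp (l := T.lv j) (fun i hi => by rw [← hlv]; simp [hi]) h0]; simp [E]
  have h4 : Real.exp (T.E j y).re ≤ Real.exp ((T.lin m (T.ρ j) x).re + C) :=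
    Real.exp_le_exp.2 (by linarith)
  have h5 := mul_le_mul_of_nonneg_left h1 (by linarith [h.R1] : 0 ≤ T.R)
  linarith

/-- `x` and `y` are joined inside `S` -/
def Jn (S : Set (ι → ℂ)) (x y : ι → ℂ) : Prop := ∃ P, IsPreconnected P ∧ P ⊆ S ∧ x ∈ P ∧ y ∈ P

theorem Jn.symm {S : Set (ι → ℂ)} (h : Jn S x y) : Jn S y x :=
  h.imp fun _ h => ⟨h.1, h.2.1, h.2.2.2, h.2.2.1⟩

theorem Jn.trans {S : Set (ι → ℂ)} {z : ι → ℂ} : Jn S x y → Jn S y z → Jn S x z
  | ⟨P, h1, h2, h3, h4⟩, ⟨P', g1, g2, g3, g4⟩ =>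
    ⟨P ∪ P', h1.union y h4 g3 g1, union_subset h2 g2, Or.inl h3, Or.inr g4⟩

theorem Jn.mem {S : Set (ι → ℂ)} : Jn S x y → y ∈ S
  | ⟨_, _, h2, _, h4⟩ => h2 h4

theorem jn_trk (h : T.WF) (hB : Big T C K) (hQ : IsPreconnected Q) (hy : y ∈ Q) (hx : x ∈ Q)
    (hD : Q ⊆ T.D (b :: m)) (hI : ∀ x ∈ Q, Inv T C u b m [] x) (hl : u ++ b :: m <:+ T.top)
    (h0 : trk T b u y ∈ T.D (u ++ b :: m)) :
    Jn (T.D (u ++ b :: m)) (trk T b u y) (trk T b u x) := by
  obtain ⟨h1, h2⟩ := trk_maps h hB hQ hy hD hI u hl (fun _ ha => ha) h0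
  exact ⟨_, hQ.image _ h1, by rintro _ ⟨x, hx, rfl⟩; exact (h2 x hx).1, ⟨y, hy, rfl⟩, ⟨x, hx, rfl⟩⟩

theorem down (h : T.WF) (hB : Big T C K) (hl : l <:+ T.top) (hy : y ∈ T.Sd l) (hD : y ∈ T.D l)
    (u : List (ι ⊕ ℕ)) : ∀ b m, l = u ++ b :: m → Jn (T.D l) y (trk T b u y) := by
  induction u using List.reverseRecOn with
  | nil => exact fun b m _ => ⟨{y}, isPreconnected_singleton, by simpa, rfl, rfl⟩
  | append_singleton u b' ih =>
    intro b m e
    have e' : l = u ++ b' :: b :: m := by simpa using e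
    have ih := ih b' (b :: m) e'
    rw [trk_snoc]
    rcases b' with k | j
    swap
    · exact ih
    refine ih.trans ?_
    have hm := ih.mem
    subst e'
    have hR := h.R1
    have hl1 : Sum.inl k :: b :: m <:+ T.top := (List.suffix_append _ _).trans hl
    have hl2 := suffix_tail hl1
    have hk := h.not_mem hl1
    have hf := not_fv h hl1
    have y1 : y ∈ T.D (Sum.inl k :: b :: m) := D_suffix (List.suffix_append _ _) hD
    have y2 := D_cons_sub y1
    have pw := List.pairwise_cons.1 (List.pairwise_append.1 hy.2).2.1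
    have pos : ∀ i ∈ b :: m, 0 ≤ (T.s i y).re := fun i hi => by linarith [(D_cst y2 hi).1.1]
    have le1 : (T.s b y).re ≤ (y k).re := by
      have := pw.1 b List.mem_cons_self
      rw [h.sN] at this
      nlinarith [pos b List.mem_cons_self]
    have le2 : ∀ i ∈ b :: m, (T.s i y).re ≤ (T.s b y).re := fun i hi => by
      rcases List.mem_cons.1 hi with rfl | hi'
      · exact le_rfl
      · nlinarith [(List.pairwise_cons.1 pw.2).1 i hi', pos i hi]
    have imb := T6_real h hl2 b List.mem_cons_self y y2 hy.1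
    have e1 : ∀ i ∈ b :: m, ∀ w, T.s i (Function.update y k w) = T.s i y := fun i hi w =>
      (h.ind_s hl2 hk (fun h' => absurd h' hf) hi).1 y w
    have e0 : ∀ w, T.s (Sum.inl k) (Function.update y k w) = w := fun w => by rw [h.sN]; simp
    set Q := (fun t : ℝ => Function.update y k (t : ℂ)) '' Icc (T.s b y).re (y k).re with hQd
    have hQ : IsPreconnected Q := isPreconnected_Icc.image _
      (continuous_const.update k Complex.continuous_ofReal).continuousOn
    have hyQ : y ∈ Q := ⟨(y k).re, ⟨le1, le_rfl⟩, by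
      have : ((y k).re : ℂ) = y k := Complex.ext (by simp) (by simpa using (hy.1 k).symm)
      simp [this]⟩
    have hxQ : trk T b [Sum.inl k] y ∈ Q := ⟨(T.s b y).re, ⟨le_rfl, le1⟩, by
      have : ((T.s b y).re : ℂ) = T.s b y := Complex.ext (by simp) (by simpa using imb.symm)
      simp [this, trk]⟩
    refine jn_trk h hB hQ hyQ hxQ (sub_D hQ ?_ ?_ hyQ y1) ?_ hl hm
    · rintro _ ⟨t, -, rfl⟩
      exact T2_upd h hl2 hk (fun h' => absurd h' hf) y2 (fun h' => absurd h' hf)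
    · rintro _ ⟨t, ht, rfl⟩
      refine ⟨?_, fun _ e => by cases e⟩
      rw [e0]
      exact O.Q.om_up (by linarith) (D_cst y2 List.mem_cons_self).1 imb (by simp)
        (by simpa using ht.1)
    · rintro _ ⟨t, ht, rfl⟩
      refine seed_inv h hB hl hy hD (fun k' => ?_) (fun i hi => e1 i hi _) ?_ fun i hi => ?_
      · by_cases e : k' = k
        · subst e; simp
        · simpa [e] using hy.1 k'
      · rw [e0, h.sN]; simpa using ht.2
      · rw [e0, e1 i hi]; simpa using (le2 i hi).trans ht.1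

theorem join (h : T.WF) (hB : Big T C K) (hl : a :: l <:+ T.top) (hy : y ∈ T.Sd (a :: l))
    (hD : y ∈ T.D (a :: l)) (hy' : y' ∈ T.Sd (a :: l)) (hD' : y' ∈ T.D (a :: l)) :
    Jn (T.D (a :: l)) y y' := by
  obtain ⟨u, b, e⟩ : ∃ u b, a :: l = u ++ [b] :=
    ⟨_, _, (List.dropLast_append_getLast (List.cons_ne_nil a l)).symm⟩
  have h1 := down h hB hl hy hD u b [] e
  have h2 := down h hB hl hy' hD' u b [] e
  refine h1.trans (Jn.trans ?_ h2.symm)
  have hm := h1.mem
  rw [e] at hl hD hD' hm ⊢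
  have hb : [b] <:+ T.top := (List.suffix_append _ _).trans hl
  have y1 : y ∈ T.D [b] := D_suffix (List.suffix_append _ _) hD
  have y2 : y' ∈ T.D [b] := D_suffix (List.suffix_append _ _) hD'
  have re : ∀ x ∈ segment ℝ y y', x ∈ Rp ι := by
    rintro _ ⟨s, t, -, -, -, rfl⟩ k
    simp [hy.1 k, hy'.1 k]
  have hQ := (convex_segment (𝕜 := ℝ) y y').isPreconnected
  refine jn_trk h hB hQ (left_mem_segment ℝ y y') (right_mem_segment ℝ y y')
    (sub_D hQ (T.convex_D_nil.segment_subset (D_cons_sub y1) (D_cons_sub y2)) (fun x hx => ?_)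
      (left_mem_segment ℝ y y') y1) (fun x hx => ?_) hl hm
  · rcases b with k | j
    swap
    · obtain ⟨hj, e⟩ := inr_suffix hb
      obtain ⟨i, hi, -⟩ := h.ρp j hj
      simp [← e] at hi
    refine ⟨?_, fun _ e => by cases e⟩
    have g1 := (D_cons_cst y1).1
    have g2 := (D_cons_cst y2).1
    rw [h.sN] at g1 g2 ⊢
    have hxr := re x hx k
    obtain ⟨s, t, hs, ht, hst, rfl⟩ := hx
    have hre : ((s • y + t • y') k).re = s * (y k).re + t * (y' k).re := by simp
    obtain rfl : t = 1 - s := by linarith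
    rcases le_total (y k).re (y' k).re with g | g
    · exact Q.om_up (by linarith [h.R1]) g1 (hy.1 k) hxr (by rw [hre]; nlinarith)
    · exact Q.om_up (by linarith [h.R1]) g2 (hy'.1 k) hxr (by rw [hre]; nlinarith)
  · refine ⟨re x hx, fun i hi => ?_, fun i hi => by simp at hi, Or.inl le_rfl, fun j hj h0 => ?_⟩
    · rw [List.mem_singleton.1 hi]; exact le_rfl
    · obtain ⟨i, -, hi⟩ := h.ρp j (inr_mem_lv.1 (hl.subset (List.mem_append_left _ hj)))
      exact absurd (h0 i (by simp)) hi.ne'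

theorem conn_of_big (h : T.WF) (hB : Big T C K) : ∀ l, l <:+ T.top → IsPreconnected (T.D l)
  | [], _ => T.convex_D_nil.isPreconnected
  | a :: l, hl => by
    refine isPreconnected_of_forall_pair fun x hx z hz => ?_
    have key : ∀ x ∈ T.D (a :: l), ∃ y ∈ T.Sd (a :: l), Jn (T.D (a :: l)) x y := by
      rintro x ⟨y, hy, hx⟩
      exact ⟨y, hy, _, isPreconnected_connectedComponentIn, fun w hw => ⟨y, hy, hw⟩, hx,
        mem_connectedComponentIn (connectedComponentIn_nonempty_iff.1 ⟨_, hx⟩)⟩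
    obtain ⟨y, hy, h1⟩ := key x hx
    obtain ⟨y', hy', h2⟩ := key z hz
    obtain ⟨P, g1, g2, g3, g4⟩ := h1.trans ((join h hB hl hy h1.mem hy' h2.mem).trans h2.symm)
    exact ⟨P, g2, g3, g4, g1⟩

theorem ev_lin_exp {ρ : ℝ} (hρ : 0 < ρ) (K C : ℝ) :
    ∀ᶠ o : ℝ in atTop, K * o ≤ Real.exp (ρ * o - C) := by
  have h := (Real.tendsto_exp_div_pow_atTop 1).comp (tendsto_id.const_mul_atTop hρ)
  filter_upwards [h.eventually (eventually_ge_atTop (K * Real.exp C / ρ)),
    eventually_gt_atTop 0] with o h1 h2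
  simp only [Function.comp, id, pow_one] at h1
  rw [div_le_div_iff₀ hρ (by positivity)] at h1
  rw [Real.exp_sub, le_div_iff₀ (Real.exp_pos _)]
  exact le_of_mul_le_mul_right (by linarith) hρ

theorem exists_big (h : T.WF) : ∃ C K R₀ : ℝ, T.R ≤ R₀ ∧ ∀ R ≥ R₀, ∀ r : ι → ℝ,
    (∀ k ∈ T.Fv, r k ≤ T.r k) → Big (T.shr R r) C K := by
  have e1 : ∀ᶠ C : ℝ in atTop, ∀ j ∈ Finset.range T.p, ∀ x ∈ T.D (T.lv j), ‖T.u j x‖ ≤ C := by
    refine (eventually_all_finset _).2 fun j hj => ?_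
    have hj := Finset.mem_range.1 hj
    obtain ⟨C, hC⟩ := A1_bd (T1_ok h (lv_top hj.le)) le_rfl (h.uA j hj)
    filter_upwards [eventually_ge_atTop C] with C' h' x hx using (hC x hx).trans h'
  have e2 : ∀ᶠ K : ℝ in atTop, ∀ j ∈ Finset.range T.p,
      1 + ∑ i ∈ (T.lv j).toFinset, T.c j i ≤ K :=
    (eventually_all_finset _).2 fun j _ => eventually_ge_atTop _
  obtain ⟨C, hC⟩ := e1.exists
  obtain ⟨K, hK⟩ := e2.exists
  have e3 : ∀ᶠ o : ℝ in atTop, ∀ j ∈ Finset.range T.p, ∀ i ∈ T.top.toFinset, 0 < T.ρ j i →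
      K * o ≤ Real.exp (T.ρ j i * o - C) := by
    simp only [eventually_all_finset]
    intro j _ i _
    by_cases h0 : 0 < T.ρ j i
    · exact (ev_lin_exp h0 K C).mono fun _ h _ => h
    · exact Eventually.of_forall fun _ h => absurd h h0
  have e4 : ∀ᶠ o : ℝ in atTop, ∀ j ∈ Finset.range T.p, ∀ j' ∈ Finset.range T.p,
      ∀ i ∈ T.top.toFinset, T.ρ j' i < T.ρ j i →
        K ≤ Real.exp ((T.ρ j i - T.ρ j' i) * o - 2 * C) := by
    simp only [eventually_all_finset]
    intro j _ j' _ i _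
    by_cases h0 : T.ρ j' i < T.ρ j i
    · filter_upwards [ev_lin_exp (sub_pos.2 h0) |K| (2 * C), eventually_ge_atTop 1] with o g1 g2 _
      nlinarith [le_abs_self K, abs_nonneg K]
    · exact Eventually.of_forall fun _ h => absurd h h0
  obtain ⟨R₀, H⟩ := eventually_atTop.1 (((e3.and e4).and (eventually_ge_atTop T.R)).and
    (eventually_ge_atTop (K * Real.exp (2 * C))))
  refine ⟨C, K, R₀, (H R₀ le_rfl).1.2, fun R hR r hr => ⟨fun j hj x hx => ?_, fun j hj => ?_,
    fun j hj i hi h0 o ho => ?_, fun j hj j' hj' i hi h0 => ?_, (H R hR).2⟩⟩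
  · rw [T.shr_lv] at hx
    exact hC j (Finset.mem_range.2 hj) x
      (T.shr_D (h.R1.trans (H R hR).1.2) (H R hR).1.2 hr _ hx)
  · rw [T.shr_lv]; exact hK j (Finset.mem_range.2 hj)
  · rw [T.shr_top] at hi
    exact (H o (hR.trans ho)).1.1.1 j (Finset.mem_range.2 hj) i (List.mem_toFinset.2 hi) h0
  · rw [T.shr_top] at hi
    exact (H R hR).1.1.2 j (Finset.mem_range.2 hj) j' (Finset.mem_range.2 hj') i
      (List.mem_toFinset.2 hi) h0

end Crest.Agent.N207.O.Cn

namespace Crest.Agent.N207.O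

/-- the domains of a deep tower are connected -/
theorem cn_deep {ι : Type} [Fintype ι] [DecidableEq ι] {T : Tw ι} (h : T.WF) :
    ∃ R₀ : ℝ, T.R ≤ R₀ ∧ ∀ R ≥ R₀, ∀ r : ι → ℝ, (∀ k ∈ T.Fv, 0 < r k ∧ r k ≤ T.r k) →
      ∀ l, l <:+ (T.shr R r).top → IsPreconnected ((T.shr R r).D l) := by
  obtain ⟨C, K, R₀, h0, H⟩ := Cn.exists_big h
  exact ⟨R₀, h0, fun R hR r hr => Cn.conn_of_big (T4_shr h (h0.trans hR) hr).1
    (H R hR r fun k hk => (hr k hk).2)⟩

end Crest.Agent.N207.O
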