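import Crest.Agent.N250.H.Int
import Crest.Agent.N250.H.Fix

/-!
# Row 207, block O (helper28): class-free holomorphy lemmas

Iterated divided differences `ds`, Taylor formula with remainder, joint holomorphy of partial
derivatives, circle integrals and divided differences, reality, the root of a perturbed identity.
-/

set_option autoImplicit false
set_option linter.unusedSectionVars false

open Set Filter Topology Metric Complex
open Crest.Agent.N250.H

noncomputable section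

namespace Crest.Agent.N207.O

variable {X Y E : Type*} [NormedAddCommGroup X] [NormedSpace ℂ X] [NormedAddCommGroup Y]
  [NormedSpace ℂ Y] [NormedAddCommGroup E] [NormedSpace ℂ E]

/-- iterated divided difference at `0` -/
def ds (d : ℕ) (f : ℂ → E) : ℂ → E := (Function.swap dslope 0)^[d] f

theorem ds_zero (f : ℂ → E) : ds 0 f = f := rfl

theorem ds_succ (d : ℕ) (f : ℂ → E) : ds (d + 1) f = dslope (ds d f) 0 :=
  Function.iterate_succ_apply' _ _ _

theorem ds_expand (f : ℂ → E) (d : ℕ) (w : ℂ) :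
    f w = ∑ j ∈ Finset.range d, w ^ j • ds j f 0 + w ^ d • ds d f w := by
  induction d with
  | zero => simp [ds_zero]
  | succ d ih =>
    have h := sub_smul_dslope (ds d f) 0 w
    rw [sub_zero, ← ds_succ] at h
    rw [Finset.sum_range_succ, pow_succ, mul_smul, h, smul_sub]
    refine ih.trans ?_
    abel

theorem ds_diff [CompleteSpace E] {f : ℂ → E} {r : ℝ} (hr : 0 < r)
    (hf : DifferentiableOn ℂ f (ball 0 r)) (d : ℕ) : DifferentiableOn ℂ (ds d f) (ball 0 r) := by
  induction d with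
  | zero => exact hf
  | succ d ih => rw [ds_succ]; exact (differentiableOn_dslope (ball_mem_nhds _ hr)).2 ih

theorem dslope_le {f : ℂ → E} {c w : ℂ} {r M : ℝ} (hf : DifferentiableOn ℂ f (ball c r))
    (hM : ∀ z ∈ ball c r, ‖f z‖ ≤ M) (hw : w ∈ ball c r) : ‖dslope f c w‖ ≤ 2 * M / r :=
  norm_dslope_le_div_of_mapsTo_ball hf (maps_of_bd (nonempty_ball.1 ⟨w, hw⟩) hM) hw

theorem ds_le [CompleteSpace E] {f : ℂ → E} {r M : ℝ} (hf : DifferentiableOn ℂ f (ball 0 r))
    (hM : ∀ z ∈ ball 0 r, ‖f z‖ ≤ M) (d : ℕ) : ∀ w ∈ ball 0 r, ‖ds d f w‖ ≤ (2 / r) ^ d * M := by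
  induction d with
  | zero => simpa [ds_zero] using hM
  | succ d ih =>
    intro w hw
    rw [ds_succ]
    refine (dslope_le (ds_diff (nonempty_ball.1 ⟨w, hw⟩) hf d) ih hw).trans (le_of_eq ?_)
    ring

theorem ds_at_zero [CompleteSpace E] {f : ℂ → E} (hf : AnalyticAt ℂ f 0) (d : ℕ) :
    ds d f 0 = (d.factorial : ℂ)⁻¹ • iteratedDeriv d f 0 := by
  obtain ⟨p, r, hp⟩ := hf
  have h1 := (hp.hasFPowerSeriesAt.has_fpower_series_iterate_dslope_fslope d).coeff_zero 1
  have h2 := hp.factorial_smul (1 : ℂ) d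
  rw [← FormalMultilinearSeries.coeff, FormalMultilinearSeries.coeff_iterate_fslope,
    zero_add] at h1
  rw [ds, ← h1, iteratedDeriv_eq_iteratedFDeriv, ← h2, ← Nat.cast_smul_eq_nsmul ℂ, smul_smul,
    inv_mul_cancel₀ (by exact_mod_cast d.factorial_ne_zero), one_smul]
  rfl

/-- no global bound is needed -/
theorem diffOn_fderiv' [CompleteSpace E] {f : X → E} {U : Set X} (hU : IsOpen U)
    (hd : DifferentiableOn ℂ f U) : DifferentiableOn ℂ (fderiv ℂ f) U := by
  intro c hc
  have h1 : ∀ᶠ z in 𝓝 c, ‖f z‖ < ‖f c‖ + 1 :=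
    (hd.continuousOn.continuousAt (hU.mem_nhds hc)).norm.eventually (gt_mem_nhds (lt_add_one _))
  obtain ⟨r, hr, hs⟩ := Metric.eventually_nhds_iff_ball.1 (h1.and (hU.mem_nhds hc))
  exact ((diffOn_fderiv (M := ‖f c‖ + 1) isOpen_ball (fun z hz => (hs z hz).1.le)
    (hd.mono fun z hz => (hs z hz).2)).differentiableAt (ball_mem_nhds c hr)).differentiableWithinAt

theorem slice_diff {G : X × Y → E} {V : Set X} {U : Set Y} (hG : DifferentiableOn ℂ G (V ×ˢ U))
    {x : X} (hx : x ∈ V) : DifferentiableOn ℂ (fun y => G (x, y)) U :=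
  hG.comp (f := fun y => (x, y)) (by fun_prop) fun _ hy => ⟨hx, hy⟩

/-- joint holomorphy of the partial derivative -/
theorem pd_diff [CompleteSpace E] {G : X × Y → E} {V : Set X} {U : Set Y} (hV : IsOpen V)
    (hU : IsOpen U) (hG : DifferentiableOn ℂ G (V ×ˢ U)) :
    DifferentiableOn ℂ (fun z : X × Y => fderiv ℂ (fun y => G (z.1, y)) z.2) (V ×ˢ U) := by
  have h1 := diffOn_fderiv' (hV.prod hU) hG
  refine (h1.clm_comp (differentiableOn_const (ContinuousLinearMap.inr ℂ X Y))).congr ?_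
  intro z hz
  have h2 := (hG.differentiableAt ((hV.prod hU).mem_nhds hz)).hasFDerivAt
  exact (HasFDerivAt.comp (f := fun y => (z.1, y)) z.2 h2 (hasFDerivAt_prodMk_right _ _)).fderiv

/-- holomorphy of circle integrals in a parameter -/
theorem circ_diff [CompleteSpace E] {H : X → ℂ → E} {V : Set X} (hV : IsOpen V) {ρ M : ℝ}
    (hρ : 0 < ρ) (hc : ∀ z ∈ V, ContinuousOn (H z) (sphere 0 ρ))
    (hd : ∀ ζ ∈ sphere (0 : ℂ) ρ, DifferentiableOn ℂ (fun z => H z ζ) V)
    (hb : ∀ z ∈ V, ∀ ζ ∈ sphere (0 : ℂ) ρ, ‖H z ζ‖ ≤ M) :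
    DifferentiableOn ℂ (fun z => ∮ ζ in C(0, ρ), H z ζ) V := by
  have hs : ∀ θ, circleMap 0 ρ θ ∈ sphere (0 : ℂ) ρ := circleMap_mem_sphere 0 hρ.le
  simp only [circleIntegral, intervalIntegral.integral_of_le Real.two_pi_pos.le]
  refine int_diffOn (g := fun _ => ρ * M) hV (MeasureTheory.integrable_const _) (fun z hz => ?_)
    (Eventually.of_forall fun θ => (hd _ (hs θ)).const_smul _)
    (Eventually.of_forall fun θ z hz => ?_)
  · refine Continuous.aestronglyMeasurable ?_
    simp only [deriv_circleMap]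
    exact Continuous.smul (by fun_prop) ((hc z hz).comp_continuous (continuous_circleMap _ _) hs)
  · rw [norm_smul]
    have : ‖deriv (circleMap 0 ρ) θ‖ = ρ := by simp [abs_of_pos hρ]
    rw [this]
    exact mul_le_mul_of_nonneg_left (hb z hz _ (hs θ)) hρ.le

/-- joint holomorphy of the divided difference -/
theorem dslope_diff [CompleteSpace E] {G : X × ℂ → E} {V : Set X} {r M : ℝ} (hV : IsOpen V)
    (hG : DifferentiableOn ℂ G (V ×ˢ ball 0 r)) (hM : ∀ z ∈ V ×ˢ ball (0 : ℂ) r, ‖G z‖ ≤ M) :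
    DifferentiableOn ℂ (fun z : X × ℂ => dslope (fun w => G (z.1, w)) 0 z.2) (V ×ˢ ball 0 r) := by
  intro z hz
  have hr : 0 < r := nonempty_ball.1 ⟨_, hz.2⟩
  have hfix : ∀ ζ ∈ ball (0 : ℂ) r, ∀ U : Set ℂ,
      DifferentiableOn ℂ (fun z : X × ℂ => G (z.1, ζ)) (V ×ˢ U) := fun ζ hζ U =>
    hG.comp (f := fun z : X × ℂ => (z.1, ζ)) (by fun_prop) fun _ hy => ⟨hy.1, hζ⟩
  by_cases h0 : z.2 = 0
  · have hsp : ∀ ζ ∈ sphere (0 : ℂ) (r / 2), ‖ζ‖ = r / 2 := fun ζ h => by simpa using h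
    have hsb : sphere (0 : ℂ) (r / 2) ⊆ ball 0 r := fun ζ h => by
      rw [mem_ball_zero_iff, hsp ζ h]; linarith
    have hne : ∀ ζ ∈ sphere (0 : ℂ) (r / 2), ∀ w ∈ ball (0 : ℂ) (r / 4), r / 4 ≤ ‖ζ - w‖ := by
      intro ζ h w hw
      have := norm_sub_norm_le ζ w
      rw [mem_ball_zero_iff] at hw
      linarith [hsp ζ h]
    have hne' : ∀ ζ ∈ sphere (0 : ℂ) (r / 2), ∀ w ∈ ball (0 : ℂ) (r / 4), ζ - w ≠ 0 :=
      fun ζ h w hw => norm_pos_iff.1 (lt_of_lt_of_le (by positivity) (hne ζ h w hw))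
    have hz0 : ∀ ζ ∈ sphere (0 : ℂ) (r / 2), ζ ≠ 0 := fun ζ h =>
      norm_pos_iff.1 (by rw [hsp ζ h]; positivity)
    have hD := circ_diff (H := fun (z : X × ℂ) ζ =>
        (ζ - z.2)⁻¹ • dslope (fun w => G (z.1, w)) 0 ζ) (V := V ×ˢ ball 0 (r / 4))
      (M := (r / 4)⁻¹ * (2 * M / r)) (hV.prod isOpen_ball) (half_pos hr) ?_ ?_ ?_
    · have hm : V ×ˢ ball (0 : ℂ) (r / 4) ∈ 𝓝 z := (hV.prod isOpen_ball).mem_nhds
        ⟨hz.1, by rw [h0]; exact mem_ball_self (by positivity)⟩
      refine (((hD.const_smul (2 * Real.pi * I : ℂ)⁻¹).differentiableAt hm).congr_of_eventuallyEq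
        ?_).differentiableWithinAt
      filter_upwards [hm] with y hy
      have hd := (differentiableOn_dslope (ball_mem_nhds _ hr)).2 (slice_diff hG hy.1)
      have := (hd.mono (closedBall_subset_ball (half_lt_self hr))).circleIntegral_sub_inv_smul
        (ball_subset_ball (by linarith) hy.2)
      simp only [Pi.smul_apply]
      rw [this, inv_smul_smul₀ (by simp)]
    · intro y hy
      refine ContinuousOn.smul (ContinuousOn.inv₀ (by fun_prop) fun ζ h => hne' ζ h _ hy.2) ?_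
      exact (((differentiableOn_dslope (ball_mem_nhds _ hr)).2
        (slice_diff hG hy.1)).continuousOn).mono hsb
    · intro ζ h
      refine DifferentiableOn.smul (DifferentiableOn.inv (by fun_prop)
        fun y hy => hne' ζ h _ hy.2) ?_
      simp only [dslope_of_ne _ (hz0 ζ h), slope_def_module]
      exact ((hfix ζ (hsb h) _).sub (hfix 0 (mem_ball_self hr) _)).const_smul _
    · intro y hy ζ h
      rw [norm_smul, norm_inv]
      exact mul_le_mul (inv_anti₀ (by positivity) (hne ζ h _ hy.2))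
        (dslope_le (slice_diff hG hy.1) (fun w hw => hM (y.1, w) ⟨hy.1, hw⟩) (hsb h))
        (norm_nonneg _) (by positivity)
  · have hm : V ×ˢ ball (0 : ℂ) r ∈ 𝓝 z := (hV.prod isOpen_ball).mem_nhds hz
    have h1 : DifferentiableAt ℂ (fun y : X × ℂ => (y.2 - 0)⁻¹ • (G y - G (y.1, 0))) z :=
      DifferentiableAt.smul (DifferentiableAt.inv (by fun_prop) (by simpa using h0))
        ((hG.differentiableAt hm).sub ((hfix 0 (mem_ball_self hr) _).differentiableAt hm))
    refine (h1.congr_of_eventuallyEq ?_).differentiableWithinAt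
    filter_upwards [continuous_snd.continuousAt.eventually_ne h0] with y hy
    rw [dslope_of_ne _ hy, slope_def_module]

/-- the derivative of a function real on the real axis is real there -/
theorem deriv_real {f : ℂ → ℂ} {U : Set ℂ} (hU : IsOpen U) (hf : DifferentiableOn ℂ f U)
    (hr : ∀ w ∈ U, w.im = 0 → (f w).im = 0) : ∀ w ∈ U, w.im = 0 → (deriv f w).im = 0 := by
  intro w hw h0
  have h1 := (hf.differentiableAt (hU.mem_nhds hw)).hasDerivAt
  have e : ((w.re : ℝ) : ℂ) = w := by apply Complex.ext <;> simp [h0]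
  rw [← e] at h1
  have h2 := Complex.imCLM.hasFDerivAt.comp_hasDerivAt w.re h1.comp_ofReal
  have h3 : HasDerivAt (Complex.imCLM ∘ fun y : ℝ => f y) 0 w.re := by
    refine (hasDerivAt_const w.re (0 : ℝ)).congr_of_eventuallyEq ?_
    have : ∀ᶠ y : ℝ in 𝓝 w.re, (y : ℂ) ∈ U :=
      continuous_ofReal.continuousAt.eventually (hU.mem_nhds (by rwa [e]))
    filter_upwards [this] with y hy
    exact hr _ hy (ofReal_im y)
  have := h2.unique h3
  rw [e] at this
  exact this

theorem iter_diff [CompleteSpace E] {f : ℂ → E} {U : Set ℂ} (hU : IsOpen U)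
    (hf : DifferentiableOn ℂ f U) (n : ℕ) : DifferentiableOn ℂ (iteratedDeriv n f) U := by
  induction n with
  | zero => simpa using hf
  | succ n ih => rw [iteratedDeriv_succ]; exact ih.deriv hU

theorem iter_real {f : ℂ → ℂ} {U : Set ℂ} (hU : IsOpen U) (hf : DifferentiableOn ℂ f U)
    (hr : ∀ w ∈ U, w.im = 0 → (f w).im = 0) (n : ℕ) :
    ∀ w ∈ U, w.im = 0 → (iteratedDeriv n f w).im = 0 := by
  induction n with
  | zero => simpa using hr
  | succ n ih => rw [iteratedDeriv_succ]; exact deriv_real hU (iter_diff hU hf n) ih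

theorem ds_real {f : ℂ → ℂ} {r : ℝ} (hf : DifferentiableOn ℂ f (ball 0 r))
    (hr : ∀ w ∈ ball (0 : ℂ) r, w.im = 0 → (f w).im = 0) (d : ℕ) :
    ∀ w ∈ ball (0 : ℂ) r, w.im = 0 → (ds d f w).im = 0 := by
  induction d with
  | zero => exact hr
  | succ d ih =>
    intro w hw h0
    have hr0 : 0 < r := nonempty_ball.1 ⟨w, hw⟩
    rw [ds_succ]
    by_cases h : w = 0
    · rw [h, dslope_same]
      exact deriv_real isOpen_ball (ds_diff hr0 hf d) ih 0 (mem_ball_self hr0) rfl
    · rw [dslope_of_ne _ h, slope_def_module]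
      simp [h0, ih w hw h0, ih 0 (mem_ball_self hr0) rfl]

/-- the root of a perturbation of the identity as a contour integral -/
theorem root1 {f : ℂ → ℂ} {ρ : ℝ} (hρ : 0 < ρ) (hf : DifferentiableOn ℂ f (ball 0 (3 * ρ)))
    (hb : ∀ w ∈ ball (0 : ℂ) (3 * ρ), ‖f w - w‖ ≤ ρ / 8) {w₀ : ℂ}
    (e : w₀ = (2 * Real.pi * I : ℂ)⁻¹ • ∮ w in C(0, ρ), w * deriv f w * (f w)⁻¹) :
    f w₀ = 0 ∧ ‖w₀‖ ≤ 2 * ‖f 0‖ ∧
      ((∀ w ∈ ball (0 : ℂ) (3 * ρ), w.im = 0 → (f w).im = 0) → w₀.im = 0) := by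
  set T : ℂ → ℂ := fun w => w - f w with hT
  have hTd : DifferentiableOn ℂ T (ball 0 (3 * ρ)) := differentiableOn_id.sub hf
  have hTb : ∀ w ∈ ball (0 : ℂ) (3 * ρ), ‖T w‖ ≤ ρ / 8 := fun w hw => by
    rw [hT, norm_sub_rev]; exact hb w hw
  have hc : Ctr T (closedBall 0 ρ) (1 / 8) := by
    have := ctr_of_small (T := T) (x0 := 0) (ρ := ρ) (r := 2 * ρ) (ε := ρ / 8) (by positivity)
      (by rwa [show ρ + 2 * ρ = 3 * ρ by ring])
      (by simpa [show ρ + 2 * ρ = 3 * ρ by ring] using hTb) (by linarith)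
    rwa [show 2 * (ρ / 8) / (2 * ρ) = 1 / 8 by field_simp] at this
  obtain ⟨v, hv, ev⟩ := hc.exists_fix isClosed_closedBall (by norm_num) (by norm_num)
    ⟨0, mem_closedBall_self hρ.le⟩
  have hsub : closedBall (0 : ℂ) ρ ⊆ ball 0 (3 * ρ) := closedBall_subset_ball (by linarith)
  have fv : f v = 0 := by simpa [hT] using ev
  have hv8 : ‖v‖ ≤ ρ / 8 := by rw [← ev]; exact hTb v (hsub hv)
  have hb2 : ball v (2 * ρ) ⊆ ball 0 (3 * ρ) :=
    ball_subset_ball' (by rw [dist_zero_right]; linarith)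
  have hb1 : closedBall (0 : ℂ) ρ ⊆ ball v (2 * ρ) :=
    closedBall_subset_ball' (by rw [dist_comm, dist_zero_right]; linarith)
  have hds : ∀ w ∈ ball v (2 * ρ), dslope f v w = 1 - dslope T v w := by
    intro w hw
    by_cases h : w = v
    · subst h
      have h1 := (hf.differentiableAt (isOpen_ball.mem_nhds (hsub hv))).hasDerivAt
      rw [dslope_same, dslope_same, ((hasDerivAt_id' w).fun_sub h1).deriv]; ring
    · have : w - v ≠ 0 := sub_ne_zero.2 h
      simp only [dslope_of_ne _ h, slope_def_field, hT]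
      field_simp; ring
  have hne : ∀ w ∈ ball v (2 * ρ), dslope f v w ≠ 0 := by
    intro w hw h
    have h1 := dslope_le (hTd.mono hb2) (fun z hz => hTb z (hb2 hz)) hw
    rw [hds w hw, sub_eq_zero] at h
    rw [← h, norm_one, show 2 * (ρ / 8) / (2 * ρ) = 1 / 8 by field_simp] at h1
    norm_num at h1
  have hvb : v ∈ ball (0 : ℂ) ρ := by rw [mem_ball_zero_iff]; linarith
  have hD : DifferentiableOn ℂ (fun w => w * deriv f w * (dslope f v w)⁻¹) (closedBall 0 ρ) :=
    (differentiableOn_id.mul ((hf.deriv isOpen_ball).mono hsub)).mul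
      ((((differentiableOn_dslope (ball_mem_nhds _ (by positivity))).2 (hf.mono hb2)).mono
        hb1).inv fun w hw => hne w (hb1 hw))
  have hI := hD.circleIntegral_sub_inv_smul hvb
  have e2 : w₀ = v := by
    rw [e, circleIntegral.integral_congr hρ.le
      (g := fun w => (w - v)⁻¹ • (w * deriv f w * (dslope f v w)⁻¹)), hI,
      inv_smul_smul₀ (by simp), ← dslope_same, mul_assoc,
      mul_inv_cancel₀ (hne v (mem_ball_self (by positivity))), mul_one]
    intro w _
    have := sub_smul_dslope f v w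
    rw [fv, sub_zero] at this
    simp only [← this, smul_eq_mul, mul_inv]; ring
  rw [e2]
  refine ⟨fv, ?_, fun hr => ?_⟩
  · have := hc.dist_le (by norm_num) hv (mem_closedBall_self hρ.le) ev
    simp only [hT, sub_zero, zero_sub, norm_neg] at this
    rw [le_div_iff₀ (by norm_num)] at this
    linarith [norm_nonneg v]
  · have hc' : Ctr T (closedBall 0 ρ ∩ {w | w.im = 0}) (1 / 8) :=
      ⟨fun w hw => ⟨hc.maps hw.1, by
        have h1 : w.im = 0 := hw.2
        simp [hT, h1, hr w (hsub hw.1) h1]⟩, fun x hx y hy => hc.lip x hx.1 y hy.1⟩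
    obtain ⟨v', hv', ev'⟩ := hc'.exists_fix
      (isClosed_closedBall.inter (isClosed_eq continuous_im continuous_const)) (by norm_num)
      (by norm_num) ⟨0, mem_closedBall_self hρ.le, rfl⟩
    rw [hc.uniq (by norm_num) hv hv'.1 ev ev']
    exact hv'.2

end Crest.Agent.N207.O
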