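import Crest.Agent.N207.O.Alg1
import Crest.Agent.N207.O.Hol1

/-!
# Row 207, block O (helper28): linear fibre operators on product frames, restrictions
-/

set_option autoImplicit false
set_option linter.unusedSectionVars false

open Set Filter Topology Metric Complex
open Crest.Agent.N250.H

noncomputable section

namespace Crest.Agent.N207.O

open Fr

variable {X Y Y' κ E E' : Type*} [NormedAddCommGroup X] [NormedSpace ℂ X] [NormedAddCommGroup Y]
  [NormedSpace ℂ Y] [NormedAddCommGroup Y'] [NormedSpace ℂ Y'] [NormedAddCommGroup E]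
  [NormedSpace ℂ E] [NormedAddCommGroup E'] [NormedSpace ℂ E'] {F F' : Fr X κ} {l : List κ}
  {b R : ℝ}

theorem ok_prod {U : Set Y} (hU : IsOpen U) : ∀ {l : List κ}, F.Ok l → (F.prod U).Ok l
  | [], h => IsOpen.prod h hU
  | _ :: _, h => ⟨ok_prod hU h.1, h.isOpen.prod hU, prod_mono h.sub Subset.rfl,
      h.diff.comp differentiableOn_fst fun _ hz => hz.1, fun _ hz => h.re hz.1⟩

theorem sub_subset : ∀ {l : List κ}, F'.Sub F R l → F'.D l ⊆ F.D l
  | [], h => h
  | _ :: _, h => h.2.1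

theorem sub_mono {R' : ℝ} (hR : R' ≤ R) : ∀ {l : List κ}, F'.Sub F R l → F'.Sub F R' l
  | [], h => h
  | _ :: _, h => ⟨sub_mono hR h.1, h.2.1, h.2.2.1, fun x hx => hR.trans (h.2.2.2 x hx)⟩

theorem sub_prod {U U' : Set Y} (hU : U' ⊆ U) : ∀ {l : List κ}, F'.Sub F R l →
    (F'.prod U').Sub (F.prod U) R l
  | [], h => prod_mono h hU
  | _ :: _, h => ⟨sub_prod hU h.1, prod_mono h.2.1 hU,
      funext fun z => congrFun h.2.2.1 z.1, fun z hz => h.2.2.2 z.1 hz.1⟩

theorem sub_refl : ∀ {l : List κ}, F.Ok l → F.Sub F 0 l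
  | [], _ => Subset.rfl
  | _ :: _, h => ⟨sub_refl h.1, Subset.rfl, rfl, fun _ hx => h.re hx⟩

theorem sub_ex {a : κ} (h : F'.Sub F R (a :: l)) : F'.ex a = F.ex a := by
  funext t x; simp only [Fr.ex, h.2.2.1]

theorem sub_cl : ∀ {l : List κ} {b : ℝ} {g : X → E}, F'.Sub F R l → F.Cl l b g → F'.Cl l b g
  | [], _, _, h, hg => ⟨hg.1.mono h, hg.2.mono h⟩
  | a :: l, b, g, h, hg => by
    obtain ⟨h1, c, h2, h3, h4⟩ := hg
    refine ⟨h1.mono h.2.1, c, fun t => sub_cl h.1 (h2 t), h3, fun K => ?_⟩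
    obtain ⟨S, C, h5, h6⟩ := h4 K
    refine ⟨S, C, h5, fun x hx => ?_⟩
    rw [sub_ex h, h.2.2.1]
    exact h6 x (h.2.1 hx)

theorem sub_st : ∀ {l : List κ} {g gb : X → E}, F'.Sub F R l → F.St l g gb → F'.St l g gb
  | [], _, _, h, hg => ⟨sub_cl h hg.1, sub_cl h hg.2.1, hg.2.2.mono h⟩
  | a :: l, g, gb, h, hg => by
    obtain ⟨h1, c, g1, γ, h2, h3, h4, h5⟩ := hg
    refine ⟨sub_cl h h1, c, g1, γ, h2, sub_st h.1 h3, sub_cl h h4, fun x hx => ?_⟩
    rw [sub_ex h]; exact h5 x (h.2.1 hx)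

theorem sub_in {K K' : Set E} (hK : K ⊆ K') : ∀ {l : List κ} {g : X → E}, F'.Sub F R l →
    F.In l K g → F'.In l K' g
  | [], _, h, hg => ⟨sub_cl h hg.1, fun _ hx => hK (hg.2 (h hx))⟩
  | a :: l, g, h, hg => by
    obtain ⟨h1, h0, c, g1, γ, h2, h3, h4, h5⟩ := hg
    refine ⟨sub_cl h h1, fun _ hx => hK (h0 (h.2.1 hx)), c, g1, γ, h2, sub_in hK h.1 h3,
      sub_cl h h4, fun x hx => ?_⟩
    rw [sub_ex h]; exact h5 x (h.2.1 hx)

theorem in_A {K : Set E} : ∀ {l : List κ} {g : X → E}, F.In l K g → F.A l g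
  | [], _, h => h.1
  | _ :: _, _, h => h.1

theorem in_maps {K : Set E} : ∀ {l : List κ} {g : X → E}, F.In l K g → MapsTo g (F.D l) K
  | [], _, h => h.2
  | _ :: _, _, h => h.2.1

theorem st_A : ∀ {l : List κ} {g gb : X → E}, F.St l g gb → F.A l g ∧ F.A [] gb
  | [], _, _, h => ⟨h.1, h.2.1⟩
  | _ :: _, _, _, h => by
    obtain ⟨h1, _, _, _, _, h3, _⟩ := h
    exact ⟨h1, (st_A h3).2⟩

/-- a bounded linear operator on the fibre functions that preserves joint holomorphy -/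
structure LinOp (X : Type*) [NormedAddCommGroup X] [NormedSpace ℂ X] (U : Set Y) (U' : Set Y')
    (Λ : (Y → E) → Y' → E') (C₀ : ℝ) : Prop where
  zero : ∀ y, Λ (fun _ => 0) y = 0
  lin : ∀ (f g : Y → E) (a : ℂ), DifferentiableOn ℂ f U → DifferentiableOn ℂ g U → ∀ y ∈ U',
    Λ (fun y => f y - a • g y) y = Λ f y - a • Λ g y
  bd : ∀ (f : Y → E) (M : ℝ), DifferentiableOn ℂ f U → (∀ y ∈ U, ‖f y‖ ≤ M) → ∀ y ∈ U',
    ‖Λ f y‖ ≤ C₀ * M
  hol : ∀ (V : Set X) (G : X × Y → E), IsOpen V → DifferentiableOn ℂ G (V ×ˢ U) →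
    Bd (V ×ˢ U) G → DifferentiableOn ℂ (fun z : X × Y' => Λ (fun y => G (z.1, y)) z.2) (V ×ˢ U')

theorem LinOp.sum {U : Set Y} {U' : Set Y'} {Λ : (Y → E) → Y' → E'} {C₀ : ℝ}
    (h : LinOp X U U' Λ C₀) {I : Type*} (S : Finset I) (a : I → ℂ) {f : Y → E} {g : I → Y → E}
    (hf : DifferentiableOn ℂ f U) (hg : ∀ i, DifferentiableOn ℂ (g i) U) {y : Y'} (hy : y ∈ U') :
    Λ (fun y => f y - ∑ i ∈ S, a i • g i y) y = Λ f y - ∑ i ∈ S, a i • Λ (g i) y := by
  classical
  induction S using Finset.induction_on with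
  | empty => simp
  | insert i S hi ih =>
    simp only [Finset.sum_insert hi, add_comm (a i • _), ← sub_sub]
    rw [h.lin (fun y => f y - ∑ i ∈ S, a i • g i y) _ _
      (hf.sub (DifferentiableOn.fun_sum fun i _ => (hg i).const_smul _)) (hg i) y hy, ih]

theorem LinOp.cl {U : Set Y} {U' : Set Y'} {Λ : (Y → E) → Y' → E'} {C₀ : ℝ}
    (h : LinOp X U U' Λ C₀) (hU : IsOpen U) : ∀ {l : List κ} {b : ℝ} {G : X × Y → E}, F.Ok l →
    0 ≤ b → (F.prod U).Cl l b G → (F.prod U').Cl l b fun z => Λ (fun y => G (z.1, y)) z.2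
  | [], _, G, hF, _, hG => by
    refine ⟨h.hol _ G hF hG.1 hG.2, ?_⟩
    obtain ⟨M, hM⟩ := hG.2
    exact ⟨C₀ * M, fun z hz => h.bd _ M (slice_diff hG.1 hz.1)
      (fun y hy => hM (z.1, y) ⟨hz.1, hy⟩) _ hz.2⟩
  | a :: l, b, G, hF, hb, hG => by
    have hB := A1_bd (ok_prod hU hF) hb hG
    obtain ⟨h1, c, h2, h3, h4⟩ := hG
    refine ⟨h.hol _ G hF.isOpen h1 hB, fun t z => Λ (fun y => c t (z.1, y)) z.2,
      fun t => h.cl hU hF.1 le_rfl (h2 t), fun t ht => ?_, fun K => ?_⟩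
    · funext z; simp only [h3 t ht]; exact h.zero _
    · obtain ⟨S, C, h5, h6⟩ := h4 K
      refine ⟨S, C₀ * C, fun t ht hS => ?_, fun z hz => ?_⟩
      · funext z; simp only [h5 t ht hS]; exact h.zero _
      · have hc : ∀ t, DifferentiableOn ℂ (fun y => c t (z.1, y)) U := fun t =>
          slice_diff (A1_diff (h2 t)) (hF.sub hz.1)
        have := h.sum S (fun t => F.ex a t z.1) (slice_diff h1 hz.1) hc hz.2
        rw [mul_assoc]
        refine le_of_eq_of_le (congrArg _ this.symm) (h.bd _ _ ((slice_diff h1 hz.1).sub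
          (DifferentiableOn.fun_sum fun t _ => (hc t).const_smul _)) (fun y hy => ?_) _ hz.2)
        exact h6 (z.1, y) ⟨hz.1, hy⟩

theorem linOp_fderiv [CompleteSpace E] {U U' : Set Y} (hU : IsOpen U) {ε : ℝ} (hε : 0 < ε)
    (hs : ∀ y ∈ U', ball y ε ⊆ U) : LinOp X U U' (fderiv ℂ : (Y → E) → _) (2 / ε) where
  zero y := by simp
  lin f g a hf hg y hy := by
    have hm : U ∈ 𝓝 y := hU.mem_nhds (hs y hy (mem_ball_self hε))
    exact ((hf.differentiableAt hm).hasFDerivAt.sub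
      ((hg.differentiableAt hm).hasFDerivAt.const_smul a)).fderiv
  bd f M hf hM y hy := (fd_le hε (hf.mono (hs y hy)) fun z hz => hM z (hs y hy hz)).trans
    (le_of_eq (by ring))
  hol V G hV hG _ := (pd_diff hV hU hG).mono (prod_mono Subset.rfl fun y hy =>
    hs y hy (mem_ball_self hε))

theorem linOp_dslope [CompleteSpace E] (r : ℝ) :
    LinOp X (ball (0 : ℂ) r) (ball (0 : ℂ) r) (fun f : ℂ → E => dslope f 0) (2 / r) where
  zero y := by by_cases h : y = 0 <;> simp [h, dslope_of_ne, slope_def_module]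
  lin f g a hf hg y hy := by
    have hm : ball (0 : ℂ) r ∈ 𝓝 (0 : ℂ) := ball_mem_nhds _ (nonempty_ball.1 ⟨y, hy⟩)
    by_cases h : y = 0
    · simp only [h, dslope_same]
      exact ((hf.differentiableAt hm).hasDerivAt.sub
        ((hg.differentiableAt hm).hasDerivAt.const_smul a)).deriv
    · simp only [dslope_of_ne _ h, slope_def_module]
      module
  bd f M hf hM y hy := (dslope_le hf hM hy).trans (le_of_eq (by ring))
  hol V G hV hG hB := hB.elim fun _ hM => dslope_diff hV hG hM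

theorem linOp_circ [CompleteSpace E] {U : Set ℂ} {ρ : ℝ} (hρ : 0 < ρ) (hs : sphere 0 ρ ⊆ U)
    (U' : Set Y') : LinOp X U U'
      (fun (f : ℂ → E) _ => (2 * Real.pi * I : ℂ)⁻¹ • ∮ w in C(0, ρ), f w) ρ where
  zero y := by simp [circleIntegral]
  lin f g a hf hg y _ := by
    have h1 := (hf.continuousOn.mono hs).circleIntegrable hρ.le
    have h2 : CircleIntegrable (fun y => a • g y) 0 ρ :=
      ((hg.const_smul a).continuousOn.mono hs).circleIntegrable hρ.le
    simp only []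
    rw [circleIntegral.integral_sub h1 h2, smul_sub, smul_comm a, ← circleIntegral.integral_smul,
      ← circleIntegral.integral_smul a]
  bd f M _ hM y _ := circleIntegral.norm_two_pi_i_inv_smul_integral_le_of_norm_le_const hρ.le
    fun z hz => hM z (hs hz)
  hol V G hV hG hB := by
    obtain ⟨M, hM⟩ := hB
    have := circ_diff (H := fun x ζ => G (x, ζ)) hV hρ
      (fun x hx => (slice_diff hG hx).continuousOn.mono hs)
      (fun ζ h => hG.comp (f := fun x => (x, ζ)) (by fun_prop) fun _ hx => ⟨hx, hs h⟩)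
      fun x hx ζ h => hM (x, ζ) ⟨hx, hs h⟩
    exact (this.const_smul _).comp differentiableOn_fst fun _ hz => hz.1

theorem thick_aux {U U' : Set Y} {ε : ℝ} (hs : ∀ y ∈ U', ball y ε ⊆ U) :
    (∀ y ∈ thickening (ε / 2) U', ball y (ε / 2) ⊆ U) ∧
      ∀ y ∈ U', ball y (ε / 2) ⊆ thickening (ε / 2) U' := by
  refine ⟨fun y hy => ?_, fun y hy => ball_subset_thickening hy _⟩
  obtain ⟨z, hz, h⟩ := mem_thickening_iff.1 hy
  exact (ball_subset_ball' (by linarith)).trans (hs z hz)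

/-- iterated partial derivatives in the parameter -/
theorem cl_iteratedFDeriv [CompleteSpace E] (hF : F.Ok l) (hb : 0 ≤ b) {U : Set Y}
    {G : X × Y → E} (hG : (F.prod U).Cl l b G) (n : ℕ) : ∀ {U' : Set Y} {ε : ℝ}, 0 < ε →
      (∀ y ∈ U', ball y ε ⊆ U) →
      (F.prod U').Cl l b fun z => iteratedFDeriv ℂ n (fun y => G (z.1, y)) z.2 := by
  induction n with
  | zero =>
    intro U' ε hε hs
    exact A3_clm (continuousMultilinearCurryFin0 ℂ Y E).symm.toContinuousLinearEquiv.toContinuousLinearMap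
      (sub_cl (sub_prod (fun y hy => hs y hy (mem_ball_self hε)) (sub_refl hF)) hG)
  | succ n ih =>
    intro U' ε hε hs
    obtain ⟨h1, h2⟩ := thick_aux hs
    have := (linOp_fderiv isOpen_thickening (half_pos hε) h2).cl isOpen_thickening hF hb
      (ih (half_pos hε) h1)
    exact A3_clm (continuousMultilinearCurryLeftEquiv ℂ (fun _ : Fin (n + 1) => Y)
      E).symm.toContinuousLinearEquiv.toContinuousLinearMap this

theorem cl_iteratedDeriv [CompleteSpace E] (hF : F.Ok l) (hb : 0 ≤ b) {U : Set ℂ}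
    {G : X × ℂ → E} (hG : (F.prod U).Cl l b G) (n : ℕ) {U' : Set ℂ} {ε : ℝ} (hε : 0 < ε)
    (hs : ∀ y ∈ U', ball y ε ⊆ U) :
    (F.prod U').Cl l b fun z => iteratedDeriv n (fun y => G (z.1, y)) z.2 :=
  A3_clm (ContinuousMultilinearMap.apply ℂ (fun _ : Fin n => ℂ) E fun _ => 1)
    (cl_iteratedFDeriv hF hb hG n hε hs)

theorem cl_ds [CompleteSpace E] (hF : F.Ok l) (hb : 0 ≤ b) {r : ℝ} {G : X × ℂ → E}
    (hG : (F.prod (ball (0 : ℂ) r)).Cl l b G) (d : ℕ) :
    (F.prod (ball (0 : ℂ) r)).Cl l b fun z => ds d (fun y => G (z.1, y)) z.2 := by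
  induction d with
  | zero => exact hG
  | succ d ih =>
    simp only [ds_succ]
    exact (linOp_dslope r).cl isOpen_ball hF hb ih

end Crest.Agent.N207.O
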