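import Crest.Agent.N207.O.Alg3
import Crest.Agent.N207.O.Lin

/-!
# Row 207, block O (helper28): composition (C0 - C4)
-/

set_option autoImplicit false
set_option linter.unusedSectionVars false

open Set Filter Topology Metric Complex
open Crest.Agent.N250.H

noncomputable section

namespace Crest.Agent.N207.O

open Fr

universe u v

section
variable {Y E : Type*} [NormedAddCommGroup Y] [NormedSpace ℂ Y] [NormedAddCommGroup E]
  [NormedSpace ℂ E] [CompleteSpace E]

theorem iterF_diff {f : Y → E} {U : Set Y} (hU : IsOpen U) (hf : DifferentiableOn ℂ f U) (n : ℕ) :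
    DifferentiableOn ℂ (iteratedFDeriv ℂ n f) U := by
  induction n with
  | zero =>
    exact (continuousMultilinearCurryFin0 ℂ Y
      E).symm.toContinuousLinearEquiv.differentiable.comp_differentiableOn hf
  | succ n ih =>
    exact (continuousMultilinearCurryLeftEquiv ℂ (fun _ : Fin (n + 1) => Y)
      E).symm.toContinuousLinearEquiv.differentiable.comp_differentiableOn (diffOn_fderiv' hU ih)

theorem line_iter {f : Y → E} {U : Set Y} (hU : IsOpen U) (hf : DifferentiableOn ℂ f U) (y v : Y)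
    (n : ℕ) : ∀ z : ℂ, y + z • v ∈ U → iteratedDeriv n (fun z : ℂ => f (y + z • v)) z =
      iteratedFDeriv ℂ n f (y + z • v) fun _ => v := by
  induction n with
  | zero => intro z _; simp
  | succ n ih =>
    intro z hz
    have hc : Continuous fun z : ℂ => y + z • v := by fun_prop
    have e : iteratedDeriv n (fun z : ℂ => f (y + z • v)) =ᶠ[𝓝 z]
        fun z => iteratedFDeriv ℂ n f (y + z • v) fun _ => v := by
      filter_upwards [hc.continuousAt.eventually (hU.mem_nhds hz)] with w hw using ih w hw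
    rw [iteratedDeriv_succ, e.deriv_eq, iteratedFDeriv_succ_apply_left]
    have h1 : HasDerivAt (fun z : ℂ => y + z • v) v z := by
      simpa using ((hasDerivAt_id z).smul_const v).const_add y
    have h2 := ((iterF_diff hU hf n).differentiableAt
      (hU.mem_nhds hz)).hasFDerivAt.comp_hasDerivAt z h1
    exact ((ContinuousMultilinearMap.apply ℂ (fun _ : Fin n => Y) E
      fun _ => v).hasFDerivAt.comp_hasDerivAt z h2).deriv

end

variable {X κ : Type*} [NormedAddCommGroup X] [NormedSpace ℂ X] {F : Fr X κ} {l : List κ}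

theorem A_multi {Y E : Type*} [NormedAddCommGroup Y] [NormedSpace ℂ Y] [NormedAddCommGroup E]
    [NormedSpace ℂ E] (hF : F.Ok l) {w : X → Y} (hw : F.A l w) (n : ℕ) :
    ∀ {M : X → Y [×n]→L[ℂ] E}, F.A l M → F.A l fun x => M x fun _ => w x := by
  induction n with
  | zero =>
    intro M hM
    refine A2_congr (A3_clm (ContinuousMultilinearMap.apply ℂ (fun _ : Fin 0 => Y) E 0) hM)
      fun x _ => ?_
    exact congrArg (M x) (Subsingleton.elim _ _)
  | succ n ih =>
    intro M hM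
    have := A3_bil hF (continuousMultilinearCurryLeftEquiv ℂ (fun _ : Fin (n + 1) => Y)
      E).toContinuousLinearEquiv.toContinuousLinearMap le_rfl le_rfl hM hw
    rw [add_zero] at this
    refine A2_congr (ih this) fun x _ => ?_
    refine congrArg (M x) ?_
    funext i
    refine Fin.cases rfl (fun _ => rfl) i

theorem ex_pow (F : Fr X κ) (a : κ) (γ : ℝ) (x : X) (n : ℕ) :
    F.ex a (n * γ) x = F.ex a γ x ^ n := by
  simp only [Fr.ex, ← Complex.exp_nat_mul]; congr 1; push_cast; ring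

theorem comp_aux {Y : Type u} [NormedAddCommGroup Y] [NormedSpace ℂ Y] {K : Set Y} :
    ∀ {l : List κ} {E : Type (max u v)} [NormedAddCommGroup E] [NormedSpace ℂ E] [CompleteSpace E]
      {U : Set Y} {δ : ℝ} {G : X × Y → E} {φ : X → Y}, F.Ok l → IsOpen U → 0 < δ →
      (∀ y ∈ K, ball y δ ⊆ U) → (F.prod U).A l G → F.In l K φ → F.A l fun x => G (x, φ x)
  | [], E, _, _, _, U, δ, G, φ, hF, hU, hδ, hK, hG, hφ => by
    have hm : ∀ x ∈ F.D [], (x, φ x) ∈ (F.prod U).D [] := fun x hx =>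
      ⟨hx, hK _ (hφ.2 hx) (mem_ball_self hδ)⟩
    exact ⟨hG.1.comp (differentiableOn_id.prodMk hφ.1.1) hm,
      hG.2.imp fun _ hC x hx => hC _ (hm x hx)⟩
  | a :: l, E, _, _, _, U, δ, G, φ, hF, hU, hδ, hK, hG, hφ => by
    obtain ⟨h1, h0, c, g1, γ, hγ, hc, hg1, e⟩ := hφ
    have hm : ∀ x ∈ F.D (a :: l), (x, φ x) ∈ (F.prod U).D (a :: l) := fun x hx =>
      ⟨hx, hK _ (h0 hx) (mem_ball_self hδ)⟩
    have hd : DifferentiableOn ℂ (fun x => (x, φ x)) (F.D (a :: l)) :=
      differentiableOn_id.prodMk (A1_diff h1)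
    refine A9_step (Φ := fun x => (x, φ x)) (e := fun _ => 0) (ok_prod hU hF) hF hm hd
      (fun x _ => (add_zero _).symm) (fun t _ => Cl.const hF _) ⟨0, fun _ _ => by simp⟩
      (fun H hH => ?_) hG
    obtain ⟨k1, k2⟩ := thick_aux hK
    have hP : ∀ n, F.A l fun x => iteratedFDeriv ℂ n (fun y => H (x, y)) (c x) := fun n =>
      comp_aux (G := fun z => iteratedFDeriv ℂ n (fun y => H (z.1, y)) z.2) hF.1 isOpen_thickening
        (half_pos hδ) k2 (cl_iteratedFDeriv hF.1 le_rfl hH n (half_pos hδ) k1) hc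
    set T : ℕ → X → E := fun n x => F.ex a (n * γ) x • ((n.factorial : ℂ)⁻¹ •
      iteratedFDeriv ℂ n (fun y => H (x, y)) (c x) fun _ => g1 x) with hT
    have hTc : ∀ n : ℕ, F.Cl (a :: l) (n * γ) (T n) := fun n =>
      A5_ex hF (by positivity) (Cl.csmul _ (A_multi hF hg1 n ((hP n).up hF)))
    have hHd : DifferentiableOn ℂ H (F.D l ×ˢ U) := A1_diff hH
    obtain ⟨M, hM0, hM⟩ := (A1_bd (ok_prod hU hF.1) le_rfl hH).pos
    obtain ⟨M1, hM10, hM1⟩ := (A1_bd hF le_rfl hg1).pos
    refine A6_series hF (fun n => by positivity)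
      (tendsto_natCast_atTop_atTop.atTop_mul_const hγ) hTc
      (hHd.comp hd fun x hx => ⟨hF.sub hx, (hm x hx).2⟩) fun K' => ?_
    obtain ⟨N₀, hN₀⟩ := exists_nat_ge (K' / γ)
    refine ⟨N₀, fun N hN => ?_⟩
    have hKN : K' ≤ N * γ := by
      rw [div_le_iff₀ hγ] at hN₀
      exact hN₀.trans (mul_le_mul_of_nonneg_right (by exact_mod_cast hN) hγ.le)
    obtain ⟨B, hB0, hB⟩ := (A1_bd hF le_rfl (Cl.sum hF (Finset.range N) fun n _ =>
      A3_mono (hTc n) (b' := 0) (by positivity))).pos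
    set r := δ / M1 with hr
    have hr0 : 0 < r := by positivity
    refine ⟨(2 / r) ^ N * M + (M + B) / r ^ N, fun x hx => ?_⟩
    have key : ‖H (x, φ x) - ∑ n ∈ Finset.range N, T n x‖ ≤
        ((2 / r) ^ N * M + (M + B) / r ^ N) * ‖F.ex a γ x‖ ^ N := by
      have p1 : 0 ≤ (2 / r) ^ N * M * ‖F.ex a γ x‖ ^ N := by positivity
      have p2 : 0 ≤ (M + B) / r ^ N * ‖F.ex a γ x‖ ^ N := by positivity
      rw [add_mul]
      by_cases hμ : ‖F.ex a γ x‖ < r
      · have hcK := in_maps hc (hF.sub hx)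
        have hin : ∀ z ∈ ball (0 : ℂ) r, c x + z • g1 x ∈ U := fun z hz => hK _ hcK (by
          rw [mem_ball_iff_norm, add_sub_cancel_left, norm_smul]
          rw [mem_ball_zero_iff, hr, lt_div_iff₀ hM10] at hz
          exact (mul_le_mul_of_nonneg_left (hM1 x hx) (norm_nonneg _)).trans_lt hz)
        have hs := slice_diff hHd (hF.sub hx)
        have hf : DifferentiableOn ℂ (fun z : ℂ => H (x, c x + z • g1 x)) (ball 0 r) :=
          hs.comp (f := fun z : ℂ => c x + z • g1 x) (by fun_prop) hin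
        have e1 := ds_expand (fun z : ℂ => H (x, c x + z • g1 x)) N (F.ex a γ x)
        have e2 : ∀ n, F.ex a γ x ^ n • ds n (fun z : ℂ => H (x, c x + z • g1 x)) 0 = T n x := by
          intro n
          rw [ds_at_zero (hf.analyticAt (ball_mem_nhds _ hr0)),
            line_iter hU hs _ _ n 0 (hin 0 (mem_ball_self hr0)), hT]
          simp only [ex_pow, zero_smul, add_zero]
        simp only [e2, ← e x hx] at e1
        rw [e1, add_sub_cancel_left, norm_smul, norm_pow, mul_comm]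
        have := ds_le hf (fun z hz => hM (x, _) ⟨hF.sub hx, hin z hz⟩) N _ (mem_ball_zero_iff.2 hμ)
        exact le_add_of_le_of_nonneg (mul_le_mul_of_nonneg_right this (by positivity)) p2
      · refine le_add_of_nonneg_of_le p1 ((norm_sub_le _ _).trans ?_)
        have h3 : r ^ N ≤ ‖F.ex a γ x‖ ^ N := pow_le_pow_left₀ hr0.le (not_lt.1 hμ) N
        rw [div_mul_eq_mul_div, le_div_iff₀ (by positivity)]
        exact mul_le_mul (add_le_add (hM (x, φ x) ⟨hF.sub hx, (hm x hx).2⟩) (hB x hx)) h3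
          (by positivity) (by positivity)
    refine key.trans (mul_le_mul_of_nonneg_left ?_ (by positivity))
    rw [← norm_pow, ← ex_pow, norm_ex]
    exact hF.exp_le hx hKN

variable {Y E E' : Type*} [NormedAddCommGroup Y] [NormedSpace ℂ Y] [NormedAddCommGroup E]
  [NormedSpace ℂ E] [NormedAddCommGroup E'] [NormedSpace ℂ E'] {g : X → E}

/-- substitution of a Banach valued element of the class for the parameter -/
theorem C0_comp {Y : Type u} {E : Type v} [NormedAddCommGroup Y] [NormedSpace ℂ Y]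
    [NormedAddCommGroup E] [NormedSpace ℂ E] [CompleteSpace E] (hF : F.Ok l) {U K : Set Y}
    (hU : IsOpen U) {δ : ℝ} (hδ : 0 < δ) (hK : ∀ y ∈ K, ball y δ ⊆ U) {G : X × Y → E}
    (hG : (F.prod U).A l G) {φ : X → Y} (hφ : F.In l K φ) : F.A l fun x => G (x, φ x) :=
  A3_clm (ContinuousLinearEquiv.ulift (R₁ := ℂ) (M₁ := E)).toContinuousLinearMap
    (comp_aux.{u, v} (E := ULift.{u} E) hF hU hδ hK
      (A3_clm (ContinuousLinearEquiv.ulift (R₁ := ℂ) (M₁ := E)).symm.toContinuousLinearMap hG) hφ)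

theorem ball_of_cth {U K : Set Y} {δ : ℝ} (hK : cthickening δ K ⊆ U) : ∀ y ∈ K, ball y δ ⊆ U :=
  fun _ hy => (ball_subset_thickening hy δ).trans ((thickening_subset_cthickening _ _).trans hK)

theorem C1_comp1 [CompleteSpace E] (hF : F.Ok l) {U K : Set ℂ}
    (hU : IsOpen U) {δ : ℝ} (hδ : 0 < δ) (hK : cthickening δ K ⊆ U) {G : X × ℂ → E}
    (hG : (F.prod U).A l G) {φ : X → ℂ} (hφ : F.In l K φ) : F.A l fun x => G (x, φ x) :=
  C0_comp hF hU hδ (ball_of_cth hK) hG hφ

/-- `C2_compB` for `G` complex differentiable, `K` at distance `δ` from the complement of `U` -/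
theorem C2_compD [CompleteSpace E'] (hF : F.Ok l) {U K : Set E} (hU : IsOpen U)
    {δ : ℝ} (hδ : 0 < δ) (hK : ∀ y ∈ K, ball y δ ⊆ U) {G : E → E'}
    (hG : DifferentiableOn ℂ G U) (hb : Bd U G) (hφ : F.In l K g) : F.A l fun x => G (g x) :=
  C0_comp (G := fun z => G z.2) hF hU hδ hK (A.of_nil (ok_prod hU hF)
    (hG.comp differentiableOn_snd fun _ hz => hz.2) (hb.imp fun _ hC _ hz => hC _ hz.2)) hφ

theorem C2_compB [CompleteSpace E'] (hF : F.Ok l) {U K : Set E} (hU : IsOpen U)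
    {δ : ℝ} (hδ : 0 < δ) (hK : cthickening δ K ⊆ U) {G : E → E'} (hG : AnalyticOnNhd ℂ G U)
    (hb : Bd U G) (hφ : F.In l K g) : F.A l fun x => G (g x) :=
  C2_compD hF hU hδ (ball_of_cth hK) hG.differentiableOn hb hφ

/-- entire maps that are bounded on bounded sets -/
theorem C3_entire [CompleteSpace E'] (hF : F.Ok l) {G : E → E'} (hG : Differentiable ℂ G)
    (hb : ∀ M, Bd (ball 0 M) G) (h : F.A l g) : F.A l fun x => G (g x) := by
  obtain ⟨M, hM⟩ := A7_In hF h
  exact C2_compD hF isOpen_ball one_pos (fun y hy => ball_subset_ball' (ε₂ := M + 1) (by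
    rw [mem_closedBall] at hy; linarith)) hG.differentiableOn (hb _) hM

theorem C3_exp (hF : F.Ok l) {g : X → ℂ} (h : F.A l g) : F.A l fun x => Complex.exp (g x) :=
  C3_entire hF Complex.differentiable_exp (fun M => ⟨Real.exp M, fun z hz => by
    rw [Complex.norm_exp]
    exact Real.exp_le_exp.2 ((Complex.re_le_norm z).trans (mem_ball_zero_iff.1 hz).le)⟩) h

theorem near_aux {gb : X → E} : ∀ {l : List κ} {g : X → E} {ε : ℝ}, F.Ok l → F.St l g gb → 0 < ε →
    ∃ R₀ : ℝ, ∀ F' : Fr X κ, F'.Ok l → F'.Sub F R₀ l →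
      F'.In l (cthickening ε (gb '' F'.D [])) g ∧ ∀ x ∈ F'.D l, ‖g x - gb x‖ ≤ ε
  | [], g, ε, _, h, hε => ⟨0, fun F' _ hs => ⟨⟨sub_cl hs h.1, fun x hx =>
      self_subset_cthickening _ ⟨x, hx, (h.2.2 (hs hx)).symm⟩⟩, fun x hx => by
        rw [h.2.2 (hs hx), sub_self, norm_zero]; exact hε.le⟩⟩
  | a :: l, g, ε, hF, h, hε => by
    obtain ⟨h1, c, g1, γ, hγ, hc, hg1, e⟩ := h
    obtain ⟨R₁, hR₁⟩ := near_aux hF.1 hc (half_pos hε)
    obtain ⟨M, hM0, hM⟩ := (A1_bd hF le_rfl hg1).pos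
    refine ⟨max R₁ (Real.log (M / (ε / 2)) / γ), fun F' hF' hs => ?_⟩
    obtain ⟨k1, k2⟩ := hR₁ F' hF'.1 (sub_mono (le_max_left _ _) hs.1)
    have key : ∀ x ∈ F'.D (a :: l), ‖g x - gb x‖ ≤ ε := by
      intro x hx
      have h2 : Real.log (M / (ε / 2)) ≤ γ * (F.s a x).re := by
        have := (le_max_right _ _).trans (hs.2.2.2 x hx)
        rwa [div_le_iff₀ hγ, mul_comm] at this
      have h3 : ‖F.ex a γ x‖ ≤ ε / 2 / M := by
        rw [norm_ex]
        refine (Real.exp_le_exp.2 (neg_le_neg h2)).trans (le_of_eq ?_)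
        rw [Real.exp_neg, Real.exp_log (by positivity), inv_div]
      have h4 : ‖F.ex a γ x • g1 x‖ ≤ ε / 2 := by
        rw [norm_smul]
        refine (mul_le_mul h3 (hM x (hs.2.1 hx)) (norm_nonneg _) (by positivity)).trans
          (le_of_eq (by field_simp))
      rw [e x (hs.2.1 hx), add_sub_right_comm]
      linarith [norm_add_le (c x - gb x) (F.ex a γ x • g1 x), k2 x (hF'.sub hx)]
    refine ⟨⟨sub_cl hs h1, fun x hx => ?_, c, g1, γ, hγ,
      k1.mono (cthickening_mono (by linarith) _), sub_cl hs hg1, fun x hx => ?_⟩, key⟩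
    · exact mem_cthickening_of_dist_le _ (gb x) _ _ ⟨x, hF'.subset List.nil_suffix hx, rfl⟩
        (by rw [dist_eq_norm]; exact key x hx)
    · rw [sub_ex hs]; exact e x (hs.2.1 hx)

theorem C4_near (hF : F.Ok l) {gb : X → E} (h : F.St l g gb) {ε : ℝ} (hε : 0 < ε) :
    ∃ R₀ : ℝ, ∀ F' : Fr X κ, F'.Ok l → F'.Sub F R₀ l →
      F'.In l (cthickening ε (gb '' F'.D [])) g ∧ F'.St l g gb ∧
        ∀ x ∈ F'.D l, ‖g x - gb x‖ ≤ ε :=
  (near_aux hF h hε).imp fun _ H F' h1 h2 => ⟨(H F' h1 h2).1, sub_st h2 h, (H F' h1 h2).2⟩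

end Crest.Agent.N207.O
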