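import Crest.Agent.N207.O.Comp
import Crest.Agent.N207.O.Alg3
import Crest.Agent.N207.O.Kit2

/-!
# Row 207, block O (helper47): kit for the elementary lifts
-/

set_option autoImplicit false
set_option linter.unusedSectionVars false

open Set Filter Topology Metric

noncomputable section

namespace Crest.Agent.N207.O.El

variable {ι : Type} [Fintype ι] [DecidableEq ι] {α : Type} {U : Ultrafilter α} {T T' : Tw ι}
  {p p' : α → ι → ℂ} {l l' : List (ι ⊕ ℕ)} {a a' : ι ⊕ ℕ} {W : Finset ι} {k : ι} {j : ℕ}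
  {Φ : (ι → ℂ) → ι → ℂ} {x : ι → ℂ}

/-! ### lists of levels -/

theorem lv_congr (h : T'.B = T.B) : T'.lv = T.lv := by
  funext j
  induction j with
  | zero => simp only [Tw.lv, h]
  | succ j ih => simp only [Tw.lv, h, ih]

theorem lw_congr (h : T'.B = T.B) : T'.lw = T.lw := by
  funext j
  cases j <;> simp only [Tw.lw, lv_congr h]

theorem top_congr (h : T'.B = T.B) (hp : T'.p = T.p) : T'.top = T.top := by
  simp only [Tw.top, lv_congr h, hp]

theorem lv_succ_suffix (T : Tw ι) (j : ℕ) : Sum.inr j :: T.lv j <:+ T.lv (j + 1) :=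
  List.suffix_append _ _

theorem lv_suffix (T : Tw ι) {j j' : ℕ} (h : j ≤ j') : T.lv j <:+ T.lv j' := by
  induction h with
  | refl => exact List.suffix_rfl
  | step _ ih => exact ih.trans ((List.suffix_cons _ _).trans (lv_succ_suffix T _))

theorem lv_suffix' (T : Tw ι) {j j' : ℕ} (h : j < j') : Sum.inr j :: T.lv j <:+ T.lv j' :=
  (lv_succ_suffix T j).trans (lv_suffix T h)

theorem lv_top (T : Tw ι) (h : j ≤ T.p) : T.lv j <:+ T.top := lv_suffix T h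

theorem suffix_inr {m : ℕ} (h : Sum.inr j :: l <:+ T.lv m) : l = T.lv j ∧ j < m := by
  have key : ∀ (b : List ι) (L : List (ι ⊕ ℕ)), Sum.inr j :: l <:+ b.map Sum.inl ++ L →
      Sum.inr j :: l <:+ L := fun b L hb => by
    induction b with
    | nil => exact hb
    | cons c b ih =>
      rcases List.suffix_cons_iff.1 hb with e | e
      · cases e
      · exact ih e
  induction m with
  | zero => simpa using key (T.B 0) [] (by simpa [Tw.lv] using h)
  | succ m ih =>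
    rcases List.suffix_cons_iff.1 (key _ _ h) with e | e
    · cases e; exact ⟨rfl, Nat.lt_succ_self _⟩
    · exact ⟨(ih e).1, (ih e).2.trans (Nat.lt_succ_self _)⟩

theorem exists_suffix {β : Type*} {a : β} {l : List β} (h : a ∈ l) : ∃ l₀, a :: l₀ <:+ l := by
  obtain ⟨s, t, rfl⟩ := List.append_of_mem h
  exact ⟨t, List.suffix_append _ _⟩

theorem inr_mem {m : ℕ} : Sum.inr j ∈ T.lv m ↔ j < m :=
  ⟨fun h => (exists_suffix h).elim fun _ h => (suffix_inr h).2,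
    fun h => (lv_suffix' T h).subset List.mem_cons_self⟩

theorem lw_top (T : Tw ι) {m : ℕ} (h : m ≤ T.p + 1) : T.lw m <:+ T.top := by
  cases m with
  | zero => exact List.nil_suffix
  | succ m => exact lv_suffix T (Nat.le_of_succ_le_succ h)

theorem lw_mono (T : Tw ι) {m n : ℕ} (h : m ≤ n) : T.lw m <:+ T.lw n := by
  cases m with
  | zero => exact List.nil_suffix
  | succ m =>
    cases n with
    | zero => omega
    | succ n => exact lv_suffix T (Nat.le_of_succ_le_succ h)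

/-! ### domains -/

theorem RC_sub {G S : Set (ι → ℂ)} : RC G S ⊆ S := fun _ ⟨y, _, h⟩ =>
  connectedComponentIn_subset S y h

theorem RC_open {G S : Set (ι → ℂ)} (h : IsOpen S) : IsOpen (RC G S) := by
  rw [isOpen_iff_mem_nhds]
  rintro x ⟨y, hy, hx⟩
  exact mem_of_superset (h.connectedComponentIn.mem_nhds hx) fun z hz => ⟨y, hy, hz⟩

theorem D_cons (hx : x ∈ T.D (a :: l)) : x ∈ T.D l ∧ T.cst a x := RC_sub hx

theorem D_suffix {l₀ : List (ι ⊕ ℕ)} (h : l₀ <:+ l) : T.D l ⊆ T.D l₀ := by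
  induction l with
  | nil => rw [List.suffix_nil.1 h]
  | cons a l ih =>
    rcases List.suffix_cons_iff.1 h with rfl | h
    · exact Subset.rfl
    · exact fun x hx => ih h (D_cons hx).1

theorem s_om (hx : x ∈ T.D l) (ha : a ∈ l) : T.s a x ∈ Om T.R := by
  obtain ⟨l₀, h⟩ := exists_suffix ha
  exact (D_cons (D_suffix h hx)).2.1

theorem isOpen_Om {R : ℝ} (hR : 0 ≤ R) : IsOpen (Om R) := by
  have h1 : IsOpen {w : ℂ | R < w.re} := isOpen_lt continuous_const Complex.continuous_re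
  have : ContinuousOn (fun w : ℂ => w.re - R * (1 + Real.log ‖w‖)) {w : ℂ | R < w.re} :=
    Complex.continuous_re.continuousOn.sub (continuousOn_const.mul (continuousOn_const.add
      (continuous_norm.continuousOn.log fun w hw h0 => by
        rw [norm_eq_zero.1 h0] at hw
        exact absurd hw (by simpa using hR))))
  convert this.isOpen_inter_preimage h1 (isOpen_Ioi (a := 0)) using 1
  ext w
  simp [Om]

theorem Om_mono {R R' : ℝ} (h1 : 1 ≤ R) (h : R ≤ R') : Om R' ⊆ Om R := fun w hw => by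
  have : 0 ≤ Real.log ‖w‖ := Real.log_nonneg (by
    linarith [hw.1, Complex.re_le_norm w])
  exact ⟨h.trans_lt hw.1, lt_of_le_of_lt (by nlinarith) hw.2⟩

theorem dif_mem (h : T.fr.Ok l) (ha : a ∈ l) : DifferentiableOn ℂ (T.s a) (T.D l) := by
  obtain ⟨l₀, e⟩ := exists_suffix ha
  exact (h.suffix e).diff.mono (D_suffix e)

theorem dif_lin (h : T.fr.Ok l) (γ : ι ⊕ ℕ → ℝ) : DifferentiableOn ℂ (T.lin l γ) (T.D l) :=
  DifferentiableOn.fun_sum fun _ ha => (dif_mem h (List.mem_toFinset.1 ha)).const_mul _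

theorem dif_E (h : T.WF) (hj : j < T.p) : DifferentiableOn ℂ (T.E j) (T.D (T.lv j)) :=
  (dif_lin (T1_ok h (lv_top T hj.le)) _).add (A1_diff (h.uA j hj))

theorem dif_s (h : T.WF) (hl : a :: l <:+ T.top) : DifferentiableOn ℂ (T.s a) (T.D l) := by
  rcases a with k | j
  · exact (differentiable_apply k).differentiableOn.congr fun x _ => h.sN k x
  · obtain ⟨rfl, hj⟩ := suffix_inr hl
    exact ((dif_E h hj).cexp.sub (dif_lin (T1_ok h (lv_top T hj.le)) _)).congr (h.sL j hj)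

theorem rr_lin (h : ∀ a ∈ l, RR (T.D l') (T.s a)) (γ : ι ⊕ ℕ → ℝ) : RR (T.D l') (T.lin l γ) :=
  fun x hx hr => by
    simp only [Tw.lin, Complex.im_sum]
    exact Finset.sum_eq_zero fun a ha => by simp [h a (List.mem_toFinset.1 ha) x hx hr]

theorem rr_E (h : T.WF) (hj : j < T.p) : RR (T.D (T.lv j)) (T.E j) := fun x hx hr => by
  simp [Tw.E, rr_lin (T6_real h (lv_top T hj.le)) _ x hx hr, h.uR j hj x hx hr]

theorem re_lin (hR : 0 ≤ T.R) {γ : ι ⊕ ℕ → ℝ} (hγ : ∀ a, 0 ≤ γ a) (hx : x ∈ T.D l) :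
    0 ≤ (T.lin l γ x).re := by
  simp only [Tw.lin, Complex.re_sum]
  exact Finset.sum_nonneg fun a ha => by
    rw [Complex.re_ofReal_mul]
    exact mul_nonneg (hγ a) (hR.trans (s_om hx (List.mem_toFinset.1 ha)).1.le)

theorem lin_single (ha : a ∈ l) (x : ι → ℂ) : T.lin l (Pi.single a 1) x = T.s a x := by
  rw [Tw.lin, Finset.sum_eq_single a (fun b _ hb => by simp [Pi.single_eq_of_ne hb])
    fun h => absurd (List.mem_toFinset.2 ha) h]
  simp

theorem lin_congr {γ γ' : ι ⊕ ℕ → ℝ} {y : ι → ℂ} (h : ∀ a ∈ l, T'.s a y = T.s a x)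
    (hγ : ∀ a ∈ l, γ' a = γ a) : T'.lin l γ' y = T.lin l γ x :=
  Finset.sum_congr rfl fun a ha => by
    rw [h a (List.mem_toFinset.1 ha), hγ a (List.mem_toFinset.1 ha)]

theorem ok_nil (T : Tw ι) : T.fr.Ok [] := by
  have : T.D [] = ⋂ k ∈ T.Fv, {x : ι → ℂ | ‖x k‖ < T.r k} := by ext x; simp [Tw.D]
  change IsOpen (T.D [])
  rw [this]
  exact isOpen_biInter_finset fun k _ => isOpen_lt (by fun_prop) continuous_const

theorem ok_step (h : T.fr.Ok l) (hR : 0 ≤ T.R) (hs : DifferentiableOn ℂ (T.s a) (T.D l))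
    (hE : ∀ j, a = Sum.inr j → ContinuousOn (T.E j) (T.D l)) : T.fr.Ok (a :: l) := by
  refine ⟨h, RC_open ?_, fun x hx => (D_cons hx).1, hs.mono fun x hx => (D_cons hx).1,
    fun x hx => hR.trans (D_cons hx).2.1.1.le⟩
  have h1 := hs.continuousOn.isOpen_inter_preimage h.isOpen (isOpen_Om hR)
  rcases a with k | j
  · convert h1 using 1
    ext x
    simp [Tw.cst]
  · have h2 := (Complex.continuous_im.comp_continuousOn (hE j rfl)).abs.isOpen_inter_preimage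
      h.isOpen (isOpen_Iio (a := Real.pi / 2))
    convert h1.inter h2 using 1
    ext x
    simp only [Tw.cst, Sum.inr.injEq, forall_eq', mem_setOf_eq, mem_inter_iff, mem_preimage,
      Function.comp, mem_Iio, Tw.fr]
    tauto

theorem maps_step (h : T.WF) (hl : a :: l <:+ T.top) {G S : Set (ι → ℂ)}
    (hc : ContinuousOn Φ (RC G S)) (hm : MapsTo Φ (RC G S) (T.D l))
    (hs : ∀ x ∈ RC G S, T.s a (Φ x) ∈ Om T.R) (hG : ∀ y ∈ G, y ∈ RC G S → Φ y ∈ T.Sd (a :: l)) :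
    MapsTo Φ (RC G S) (T.D (a :: l)) := by
  rintro x ⟨y, hy, hx⟩
  have hZ : connectedComponentIn S y ⊆ RC G S := fun z hz => ⟨y, hy, hz⟩
  have hyZ : y ∈ connectedComponentIn S y :=
    mem_connectedComponentIn (connectedComponentIn_nonempty_iff.1 ⟨x, hx⟩)
  have hP : IsPreconnected (connectedComponentIn S y) := isPreconnected_connectedComponentIn
  have hR : 0 ≤ T.R := zero_le_one.trans h.R1
  refine ⟨Φ y, hG y hy (hZ hyZ), (hP.image Φ (hc.mono hZ)).subset_connectedComponentIn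
    (mem_image_of_mem _ hyZ) ?_ (mem_image_of_mem _ hx)⟩
  rintro _ ⟨z, hz, rfl⟩
  refine ⟨hm (hZ hz), hs z (hZ hz), ?_⟩
  rintro j rfl
  obtain ⟨rfl, hj⟩ := suffix_inr hl
  have fc : ContinuousOn (fun z => |(T.E j (Φ z)).im|) (connectedComponentIn S y) :=
    (Complex.continuous_im.comp_continuousOn
      ((dif_E h hj).continuousOn.comp (hc.mono hZ) (hm.mono_left hZ))).abs
  by_contra hn
  obtain ⟨w, hw, e⟩ := hP.intermediate_value hyZ hz fc (show Real.pi / 2 ∈ Icc _ _ from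
    ⟨by rw [rr_E h hj _ (hm (hZ hyZ)) (hG y hy (hZ hyZ)).1, abs_zero]; positivity, not_lt.1 hn⟩)
  have e1 := h.sL j hj _ (hm (hZ hw))
  have e2 := re_lin hR (h.c0 j) (hm (hZ hw))
  have e3 := (hs w (hZ hw)).1
  have e4 : Real.cos (T.E j (Φ w)).im = 0 := by
    rw [← Real.cos_abs]
    simp only at e
    rw [e, Real.cos_pi_div_two]
  rw [e1, Complex.sub_re, Complex.exp_re, e4, mul_zero] at e3
  linarith

/-! ### pull back along `Φ` -/

/-- `Φ` pulls the list `l` of `T` back to the list `l'` of `T'` -/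
structure Rel (T T' : Tw ι) (l l' : List (ι ⊕ ℕ)) (Φ : (ι → ℂ) → ι → ℂ) : Prop where
  ok : T'.fr.Ok l'
  maps : MapsTo Φ (T'.D l') (T.D l)
  dif : DifferentiableOn ℂ Φ (T'.D l')
  rea : ∀ x ∈ T'.D l', x ∈ Rp ι → Φ x ∈ Rp ι
  cl : ∀ g : (ι → ℂ) → ℂ, T.fr.A l g → T'.fr.A l' (g ∘ Φ)

theorem Rel.nil (hm : MapsTo Φ (T'.D []) (T.D [])) (hd : DifferentiableOn ℂ Φ (T'.D []))
    (hr : ∀ x ∈ T'.D [], x ∈ Rp ι → Φ x ∈ Rp ι) : Rel T T' [] [] Φ :=
  ⟨ok_nil T', hm, hd, hr, fun _ hg => ⟨hg.1.comp hd hm, hg.2.imp fun _ hC x hx => hC _ (hm hx)⟩⟩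

theorem Rel.up (h : Rel T T' l l' Φ) {l'' : List (ι ⊕ ℕ)} (hl : l' <:+ l'') (ho : T'.fr.Ok l'') :
    Rel T T' l l'' Φ :=
  ⟨ho, h.maps.mono_left (D_suffix hl), h.dif.mono (D_suffix hl),
    fun x hx => h.rea x (D_suffix hl hx), fun g hg => A4_lift ho hl (h.cl g hg)⟩

theorem Rel.rr (h : Rel T T' l l' Φ) {g : (ι → ℂ) → ℂ} (hg : RR (T.D l) g) :
    RR (T'.D l') (g ∘ Φ) := fun x hx hr => hg _ (h.maps hx) (h.rea x hx hr)

theorem Rel.step (h : T.WF) (hl : a :: l <:+ T.top) (H : Rel T T' l (a' :: l') Φ)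
    {e : (ι → ℂ) → ℂ} (hs : ∀ x ∈ T'.D (a' :: l'), T.s a (Φ x) = T'.s a' x + e x)
    (ho : ∀ x ∈ T'.D (a' :: l'), T.s a (Φ x) ∈ Om T.R)
    (he : ∀ t : ℝ, 0 ≤ t → T'.fr.A (a' :: l') fun x => Complex.exp (-((t : ℂ) * e x)))
    (hB : ∃ B : ℝ, ∀ x ∈ T'.D (a' :: l'), -B ≤ (e x).re)
    (hG : ∀ y ∈ T'.Sd (a' :: l'), y ∈ T'.D (a' :: l') → Φ y ∈ T.Sd (a :: l)) :
    Rel T T' (a :: l) (a' :: l') Φ := by
  have hm : MapsTo Φ (T'.D (a' :: l')) (T.D (a :: l)) :=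
    maps_step h hl H.dif.continuousOn H.maps ho hG
  exact ⟨H.ok, hm, H.dif, H.rea, fun g hg =>
    A9_step (T1_ok h hl) H.ok hm H.dif hs he hB H.cl hg⟩

/-- bounded corrections are admissible in `Rel.step` -/
theorem corr_of_A (ho : T.fr.Ok l) {e : (ι → ℂ) → ℂ} (he : T.fr.A l e) :
    (∀ t : ℝ, 0 ≤ t → T.fr.A l fun x => Complex.exp (-((t : ℂ) * e x))) ∧
      ∃ B : ℝ, ∀ x ∈ T.D l, -B ≤ (e x).re := by
  refine ⟨fun t _ => C3_exp ho (he.const_mul t).neg, ?_⟩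
  obtain ⟨B, hB⟩ := A1_bd ho le_rfl he
  exact ⟨B, fun x hx => (neg_le_neg (hB x hx)).trans
    (neg_le.1 ((neg_le_abs _).trans (Complex.abs_re_le_norm _)))⟩

/-- **climbing the tower** -/
theorem climb (h : T.WF) {Q l0 l0' : List (ι ⊕ ℕ)} (hQ : Q ++ l0 <:+ T.top)
    (h0 : Rel T T' l0 l0' Φ) (hR : 0 ≤ T'.R)
    (hs : ∀ a ∈ Q, ∃ e : (ι → ℂ) → ℂ, T'.fr.A l0' e ∧ ∀ x ∈ T'.D l0',
      T.s a (Φ x) = T'.s a x + e x ∧ (T'.s a x ∈ Om T'.R → T.s a (Φ x) ∈ Om T.R))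
    (hE : ∀ j, Sum.inr j ∈ Q → ∀ x ∈ T'.D l0', T'.E j x = T.E j (Φ x))
    (hG : ∀ q, q <:+ Q → ∀ y ∈ T'.Sd (q ++ l0'), y ∈ T'.D (q ++ l0') → Φ y ∈ T.Sd (q ++ l0))
    {q : List (ι ⊕ ℕ)} (hq : q <:+ Q) : Rel T T' (q ++ l0) (q ++ l0') Φ := by
  induction q with
  | nil => exact h0
  | cons a q ih =>
    have H := ih ((List.suffix_cons _ _).trans hq)
    have hl : a :: (q ++ l0) <:+ T.top := by
      obtain ⟨t, rfl⟩ := hq
      exact (List.IsSuffix.trans ⟨t, by simp⟩ hQ)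
    have ha : a ∈ Q := hq.subset List.mem_cons_self
    obtain ⟨e, e1, e2⟩ := hs a ha
    have sb : T'.D (q ++ l0') ⊆ T'.D l0' := D_suffix (List.suffix_append _ _)
    have ho : T'.fr.Ok (a :: (q ++ l0')) := by
      refine ok_step H.ok hR ((((dif_s h hl).comp H.dif H.maps).sub
        ((A1_diff e1).mono sb)).congr fun x hx => eq_sub_of_add_eq (e2 x (sb hx)).1.symm) ?_
      rintro j rfl
      obtain ⟨e3, hj⟩ := suffix_inr hl
      exact ((dif_E h hj).continuousOn.comp H.dif.continuousOn (e3 ▸ H.maps)).congr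
        fun x hx => hE j ha x (sb hx)
    obtain ⟨c1, c2⟩ := corr_of_A ho
      (A4_lift ho ((List.suffix_append _ _).trans (List.suffix_cons _ _)) e1)
    exact Rel.step h hl (H.up (List.suffix_cons _ _) ho) (fun x hx => (e2 x (sb (D_cons hx).1)).1)
      (fun x hx => (e2 x (sb (D_cons hx).1)).2 (D_cons hx).2.1) c1 c2 (hG _ hq)

theorem sd_of (hR : T.R ≤ T'.R) (h0 : 0 ≤ T'.R) (hl : l.Sublist l') {y : ι → ℂ}
    (hy : y ∈ T'.Sd l') (hD : y ∈ T'.D l') (hr : Φ y ∈ Rp ι)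
    (hs : ∀ a ∈ l, T.s a (Φ y) = T'.s a y) : Φ y ∈ T.Sd l := by
  refine ⟨hr, (hy.2.sublist hl).imp_of_mem fun {a b} ha hb hab => ?_⟩
  rw [hs a ha, hs b hb]
  exact (mul_le_mul_of_nonneg_right hR (h0.trans (s_om hD (hl.subset hb)).1.le)).trans_lt hab

/-- climbing when the scales are pulled back exactly -/
theorem climb0 (h : T.WF) {Q l0 l0' : List (ι ⊕ ℕ)} (hQ : Q ++ l0 <:+ T.top)
    (h0 : Rel T T' l0 l0' Φ) (hR : T.R ≤ T'.R) (hl : l0.Sublist l0')
    (hs : ∀ a ∈ Q ++ l0, ∀ x ∈ T'.D l0', T.s a (Φ x) = T'.s a x)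
    (hE : ∀ j, Sum.inr j ∈ Q → ∀ x ∈ T'.D l0', T'.E j x = T.E j (Φ x))
    {q : List (ι ⊕ ℕ)} (hq : q <:+ Q) : Rel T T' (q ++ l0) (q ++ l0') Φ := by
  have R0 : 0 ≤ T'.R := by linarith [h.R1]
  refine climb h hQ h0 R0 (fun a ha => ⟨0, Fr.Cl.zero, fun x hx => ?_⟩) hE
    (fun q hq y hy hD => ?_) hq
  · rw [hs a (List.mem_append_left _ ha) x hx]
    exact ⟨by simp, fun h' => Om_mono h.R1 hR h'⟩
  · have hD' := D_suffix (List.suffix_append _ _) hD
    refine sd_of hR R0 (hl.append_left q) hy hD (h0.rea y hD' hy.1) fun a ha => hs a ?_ y hD'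
    rcases List.mem_append.1 ha with ha | ha
    · exact List.mem_append_left _ (hq.subset ha)
    · exact List.mem_append_right _ ha

theorem Rel.pb (h : Rel T T' l l' Φ)
    (hs : ∀ a ∈ l, a ∈ l' ∧ ∀ x ∈ T'.D l', T.s a (Φ x) = T'.s a x) : Tw.Pb T T' l l' Φ :=
  ⟨h.maps, h.cl, fun _ _ hg => h.rr hg, fun a ha => ⟨Pi.single a 1, 0, Fr.Cl.zero,
    fun _ _ _ => rfl, fun x hx => by rw [lin_single (hs a ha).1, (hs a ha).2 x hx]; simp⟩⟩

end Crest.Agent.N207.O.El
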