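import Crest.Agent.N207.O.El0

/-!
# Row 207, block O (helper47): shrinking, smallness, substitution of a free variable
-/

set_option autoImplicit false
set_option linter.unusedSectionVars false

open Set Filter Topology Metric

noncomputable section

namespace Crest.Agent.N207.O

variable {ι : Type} [Fintype ι] [DecidableEq ι] {α : Type} {U : Ultrafilter α} {T T' : Tw ι}
  {p p' : α → ι → ℂ} {l l' : List (ι ⊕ ℕ)} {a a' : ι ⊕ ℕ} {W : Finset ι} {k : ι} {j : ℕ}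
  {Φ : (ι → ℂ) → ι → ℂ} {x : ι → ℂ} {g : (ι → ℂ) → ℂ}

namespace El

section Pull
variable {X X' κ E : Type*} [NormedAddCommGroup X] [NormedSpace ℂ X]
  [NormedAddCommGroup X'] [NormedSpace ℂ X'] [NormedAddCommGroup E] [NormedSpace ℂ E]
  {F : Fr X κ} {F' : Fr X' κ} {Ψ : X' → X}

theorem St_pull {gb : X → E} (hd : Differentiable ℂ Ψ) : ∀ {l : List κ} {g : X → E},
    (∀ l₀, l₀ <:+ l → MapsTo Ψ (F'.D l₀) (F.D l₀)) →
    (∀ a l₀, a :: l₀ <:+ l → ∀ x ∈ F'.D (a :: l₀), F.s a (Ψ x) = F'.s a x) →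
    F.St l g gb → F'.St l (g ∘ Ψ) (gb ∘ Ψ)
  | [], _, hm, hs, h => ⟨A9_pull' hm (fun _ _ => hd.differentiableOn) hs h.1,
      A9_pull' hm (fun _ _ => hd.differentiableOn) hs h.2.1,
      fun _ hx => h.2.2 (hm _ List.suffix_rfl hx)⟩
  | a :: l, _, hm, hs, h => by
    obtain ⟨h1, c, g1, γ, h2, h3, h4, h5⟩ := h
    refine ⟨A9_pull' hm (fun _ _ => hd.differentiableOn) hs h1, c ∘ Ψ, g1 ∘ Ψ, γ, h2,
      St_pull hd (fun l₀ h => hm l₀ (h.trans (List.suffix_cons _ _)))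
        (fun a l₀ h => hs a l₀ (h.trans (List.suffix_cons _ _))) h3,
      A9_pull' hm (fun _ _ => hd.differentiableOn) hs h4, fun x hx => ?_⟩
    simpa only [Fr.ex, hs a l List.suffix_rfl x hx, Function.comp] using
      h5 _ (hm _ List.suffix_rfl hx)

theorem In_pull {K : Set E} (hd : Differentiable ℂ Ψ) : ∀ {l : List κ} {g : X → E},
    (∀ l₀, l₀ <:+ l → MapsTo Ψ (F'.D l₀) (F.D l₀)) →
    (∀ a l₀, a :: l₀ <:+ l → ∀ x ∈ F'.D (a :: l₀), F.s a (Ψ x) = F'.s a x) →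
    F.In l K g → F'.In l K (g ∘ Ψ)
  | [], _, hm, hs, h => ⟨A9_pull' hm (fun _ _ => hd.differentiableOn) hs h.1,
      h.2.comp (hm _ List.suffix_rfl)⟩
  | a :: l, _, hm, hs, h => by
    obtain ⟨h1, h0, c, g1, γ, h2, h3, h4, h5⟩ := h
    refine ⟨A9_pull' hm (fun _ _ => hd.differentiableOn) hs h1, h0.comp (hm _ List.suffix_rfl),
      c ∘ Ψ, g1 ∘ Ψ, γ, h2,
      In_pull hd (fun l₀ h => hm l₀ (h.trans (List.suffix_cons _ _)))
        (fun a l₀ h => hs a l₀ (h.trans (List.suffix_cons _ _))) h3,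
      A9_pull' hm (fun _ _ => hd.differentiableOn) hs h4, fun x hx => ?_⟩
    simpa only [Fr.ex, hs a l List.suffix_rfl x hx, Function.comp] using
      h5 _ (hm _ List.suffix_rfl hx)

end Pull

/-! ### independence -/

theorem free_lv (h : j ≤ T.lab k) : T.Free (T.lv j) k := fun _ hj => (inr_mem.1 hj).trans_le h

theorem free_mono (h : T.Free l k) (hl : l' <:+ l) : T.Free l' k := fun j hj => h j (hl.subset hj)

theorem not_mem (h : T.WF) (hl : l <:+ T.top) (hk : k ∈ T.Fv) : Sum.inl k ∉ l :=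
  fun h' => h.dj k hk (hl.subset h')

theorem ind_su (h : T.WF) (hl : l <:+ T.top) (hk : Sum.inl k ∉ l) (hf : k ∈ T.Fv → T.Free l k)
    (hj : Sum.inr j ∈ l) : Ind k (T.s (Sum.inr j)) ∧ Ind k (T.u j) := by
  obtain ⟨l₀, e⟩ := exists_suffix hj
  obtain ⟨rfl, hp⟩ := suffix_inr (e.trans hl)
  exact h.ind j hp k (fun h' => hk (e.subset (List.mem_cons_of_mem _ h')))
    ((em _).elim (fun h' => Or.inr (hf h' j hj)) Or.inl)

theorem ind_s (h : T.WF) (hl : l <:+ T.top) (hk : Sum.inl k ∉ l) (hf : k ∈ T.Fv → T.Free l k)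
    (ha : a ∈ l) : Ind k (T.s a) := by
  rcases a with k' | j
  · intro x w
    rw [h.sN, h.sN, Function.update_of_ne fun e => hk (by rwa [← e])]
  · exact (ind_su h hl hk hf ha).1

theorem ind_lin (h : T.WF) (hl : l <:+ T.top) (hk : Sum.inl k ∉ l) (hf : k ∈ T.Fv → T.Free l k)
    (γ : ι ⊕ ℕ → ℝ) : Ind k (T.lin l γ) := fun x w =>
  lin_congr (fun _ ha => ind_s h hl hk hf ha x w) fun _ _ => rfl

theorem upd_insert (w : ι → ℝ) (x : ι → ℂ) :
    upd (insert k W) w x = Function.update (upd W w x) k (w k) := by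
  funext i
  by_cases e : i = k
  · subst e; simp [upd]
  · simp [upd, e]

theorem upd_update (hk : k ∉ W) (w : ι → ℝ) (x : ι → ℂ) (v : ℂ) :
    upd W w (Function.update x k v) = Function.update (upd W w x) k v := by
  funext i
  by_cases e : i = k
  · subst e; simp [upd, hk]
  · simp [upd, e]

theorem upd_update' (hk : k ∈ W) (w : ι → ℝ) (x : ι → ℂ) (v : ℂ) :
    upd W w (Function.update x k v) = upd W w x := by
  funext i
  by_cases e : i = k
  · subst e; simp [upd, hk]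
  · simp [upd, e]

theorem dif_upd (W : Finset ι) (w : ι → ℝ) : Differentiable ℂ (upd W w) :=
  differentiable_pi.2 fun i => by
    unfold upd
    split_ifs
    · exact differentiable_const _
    · exact differentiable_apply i

theorem upd_ind {β : Type*} {g : (ι → ℂ) → β} (h : ∀ k ∈ W, Ind k g) (w : ι → ℝ) (x : ι → ℂ) :
    g (upd W w x) = g x := by
  induction W using Finset.induction_on with
  | empty => rfl
  | insert k W _ ih =>
    rw [upd_insert, h k (Finset.mem_insert_self _ _),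
      ih fun i hi => h i (Finset.mem_insert_of_mem hi)]

theorem upd_mem (h : T.WF) (hl : l <:+ T.top) {w : ι → ℝ}
    (hW : ∀ k ∈ W, Sum.inl k ∉ l ∧ (k ∈ T.Fv → T.Free l k ∧ |w k| < T.r k)) (hx : x ∈ T.D l) :
    upd W w x ∈ T.D l := by
  induction W using Finset.induction_on with
  | empty => exact hx
  | insert k W _ ih =>
    have := hW k (Finset.mem_insert_self _ _)
    rw [upd_insert]
    exact T2_upd h hl this.1 (fun h' => (this.2 h').1)
      (ih fun i hi => hW i (Finset.mem_insert_of_mem hi)) fun h' => by simpa using (this.2 h').2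

theorem upd_liou (h : T.WF) (hl : l <:+ T.top) (hW : ∀ k ∈ W, Sum.inl k ∉ l ∧ k ∉ T.Fv)
    (hg : T.fr.A l g) (w : ι → ℝ) (hx : x ∈ T.D l) : g (upd W w x) = g x := by
  induction W using Finset.induction_on with
  | empty => rfl
  | insert k W _ ih =>
    have h1 := hW k (Finset.mem_insert_self _ _)
    have h2 := fun i hi => hW i (Finset.mem_insert_of_mem (b := k) hi)
    rw [upd_insert, T3_liou h hl h1.1 h1.2 (A1_diff hg) (A1_bd (T1_ok h hl) le_rfl hg)
      (upd_mem h hl (fun i hi => ⟨(h2 i hi).1, fun h' => absurd h' (h2 i hi).2⟩) hx), ih h2]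

theorem update_real (hx : x ∈ Rp ι) {w : ℂ} (hw : w.im = 0) : Function.update x k w ∈ Rp ι :=
  fun i => by
    by_cases e : i = k
    · subst e; simpa using hw
    · simpa [e] using hx i

theorem dif_update {X : Type*} [NormedAddCommGroup X] [NormedSpace ℂ X] {S : Set X}
    {f : X → ι → ℂ} {φ : X → ℂ} (hf : DifferentiableOn ℂ f S) (hφ : DifferentiableOn ℂ φ S) :
    DifferentiableOn ℂ (fun x => Function.update (f x) k (φ x)) S :=
  differentiableOn_pi.2 fun i => by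
    by_cases e : i = k
    · subst e; simpa using hφ
    · simpa [e] using differentiableOn_pi.1 hf i

/-! ### points -/

theorem big_ord (hp : T.Pt U p)
    (h1 : ∀ a ∈ T.top, Tendsto (fun i => (T'.s a (p' i)).re / (T.s a (p i)).re) U (𝓝 1)) :
    (∀ a ∈ T.top, Tendsto (fun i => (T'.s a (p' i)).re) U atTop) ∧ ∀ a l, a :: l <:+ T.top →
      ∀ b ∈ l, Tendsto (fun i => (T'.s b (p' i)).re / (T'.s a (p' i)).re) U (𝓝 0) := by
  refine ⟨fun a ha => ((h1 a ha).pos_mul_atTop one_pos (hp.big a ha)).congr' ?_,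
    fun a l hl b hb => ?_⟩
  · filter_upwards [(hp.big a ha).eventually_gt_atTop 0] with i hi using div_mul_cancel₀ _ hi.ne'
  · have ha := hl.subset List.mem_cons_self
    have hb' := hl.subset (List.mem_cons_of_mem _ hb)
    have := ((h1 b hb').mul (hp.ord a l hl b hb)).div (h1 a ha) one_ne_zero
    rw [mul_zero, zero_div] at this
    refine this.congr' ?_
    filter_upwards [(hp.big a ha).eventually_gt_atTop 0, (hp.big b hb').eventually_gt_atTop 0]
      with i h2 h3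
    simp only [Pi.div_apply]
    field_simp

theorem big_ord0 (hp : T.Pt U p) (h1 : ∀ a ∈ T.top, ∀ᶠ i in U, T'.s a (p' i) = T.s a (p i)) :
    (∀ a ∈ T.top, Tendsto (fun i => (T'.s a (p' i)).re) U atTop) ∧ ∀ a l, a :: l <:+ T.top →
      ∀ b ∈ l, Tendsto (fun i => (T'.s b (p' i)).re / (T'.s a (p' i)).re) U (𝓝 0) :=
  big_ord hp fun a ha => tendsto_const_nhds.congr' (by
    filter_upwards [h1 a ha, (hp.big a ha).eventually_gt_atTop 0] with i h2 h3
    rw [h2, div_self h3.ne'])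

theorem pb_of (h : T'.B = T.B) {n : ℕ}
    (H : ∀ l, T.lw n <:+ l → l <:+ T.top → Tw.Pb T T' l l Φ) (m : ℕ) (h1 : n ≤ m)
    (h2 : m ≤ T.p + 1) : Tw.Pb T T' (T.lw m) (T'.lw m) Φ := by
  rw [lw_congr h]
  exact H _ (lw_mono T h1) (lw_top T h2)

theorem sc_of (hs : ∀ x ∈ T'.D (a :: l), T.s a (Φ x) = T'.s a x) :
    ∃ (C : ι ⊕ ℕ → ℝ) (b : (ι → ℂ) → ℂ), T'.fr.A (a :: l) b ∧ RR (T'.D (a :: l)) b ∧
      ∀ x ∈ T'.D (a :: l), T.s a (Φ x) = T'.s a x + T'.lin l C x + b x :=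
  ⟨0, 0, Fr.Cl.zero, fun _ _ _ => rfl, fun x hx => by simp [hs x hx, Tw.lin]⟩

theorem top_shr (T : Tw ι) (R : ℝ) (r : ι → ℝ) : (T.shr R r).top = T.top := top_congr rfl rfl

theorem lv_shr (T : Tw ι) (R : ℝ) (r : ι → ℝ) : (T.shr R r).lv = T.lv := lv_congr rfl

theorem pt_shr (hp : T.Pt U p) (R : ℝ) (r : ι → ℝ) : (T.shr R r).Pt U p := by
  have e := top_shr T R r
  exact ⟨hp.re, hp.z0, e ▸ hp.un, e ▸ hp.big, e ▸ hp.ord⟩

theorem rel_shr (h : T.WF) {R : ℝ} (hR : T.R ≤ R) {r : ι → ℝ}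
    (hr : ∀ k ∈ T.Fv, 0 < r k ∧ r k ≤ T.r k) (hl : l <:+ T.top) : Rel T (T.shr R r) l l id := by
  obtain ⟨h1, h2, h3⟩ := T4_shr h hR hr
  exact ⟨T1_ok h1 (by rwa [top_shr]), h2 l, differentiableOn_id,
    fun _ _ h => h, fun _ hg => hg.restrict (h3 l hl)⟩

end El

open El

theorem E0_shr (h : T.WF) (hp : T.Pt U p) {R : ℝ} (hR : T.R ≤ R) {r : ι → ℝ}
    (hr : ∀ k ∈ T.Fv, 0 < r k ∧ r k ≤ T.r k) (hW : ∀ k ∈ W, r k = T.r k) :
    T.Lift (T.shr R r) U 0 W p p id ∧ T.Same (T.shr R r) 0 id := by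
  have pb : ∀ l, T.lw 0 <:+ l → l <:+ T.top → Tw.Pb T (T.shr R r) l l id := fun l _ hl =>
    (rel_shr h hR hr hl).pb fun _ ha => ⟨ha, fun _ _ => rfl⟩
  exact ⟨⟨(T4_shr h hR hr).1, pt_shr hp R r, .of_forall fun _ => rfl, rfl, le_rfl, subset_rfl,
    fun k hk hF => ⟨hF, rfl, hW k hk⟩, fun _ _ _ _ => rfl, fun _ _ => le_max_left _ _,
    differentiableOn_id, fun _ _ h => h, pb_of (T := T) (T' := T.shr R r) rfl pb⟩, rfl, rfl, rfl, fun _ _ => by simp, pb,
    fun _ _ _ _ => sc_of fun _ _ => rfl⟩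

namespace El

/-- a function of the class is close to its limit along the point after shrinking -/
theorem near (h : T.WF) (hp : T.Pt U p) (hl : l <:+ T.top)
    (hW : ∀ k ∈ W, k ∈ T.Fv ∧ T.Free l k ∧ Ind k g) (hg : T.fr.A l g) {c : ℂ}
    (hc : Tendsto (fun i => g (p i)) U (𝓝 c)) {ε : ℝ} (hε : 0 < ε) :
    ∃ R₀ δ : ℝ, T.R ≤ R₀ ∧ 0 < δ ∧ ∀ R ≥ R₀, ∀ r : ι → ℝ, (∀ k ∈ T.Fv, 0 < r k ∧ r k ≤ T.r k) →
      (∀ k ∈ T.Fv, k ∉ W → r k ≤ δ) → (T.shr R r).fr.In l (closedBall c ε) g := by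
  obtain ⟨gb, h0⟩ := A7_St (T1_ok h hl) hg
  have h1 : T.fr.St l g (gb ∘ upd W 0) := (St_pull (F' := T.fr) (dif_upd W 0)
    (fun l₀ e x hx => upd_mem h (e.trans hl) (fun k hk => ⟨not_mem h (e.trans hl) (hW k hk).1,
      fun h' => ⟨free_mono (hW k hk).2.1 e, by simpa using h.r0 k h'⟩⟩) hx)
    (fun a l₀ e x _ => upd_ind (fun k hk => ind_s h hl (not_mem h hl (hW k hk).1)
      (fun _ => (hW k hk).2.1) (e.subset List.mem_cons_self)) 0 x) h0).congr
    fun x _ => upd_ind (fun k hk => (hW k hk).2.2) 0 x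
  obtain ⟨R₀, hR₀⟩ := C4_near (T1_ok h hl) h1 (ε := ε / 3) (by positivity)
  have e0 : ∀ x ∈ T.D [], (gb ∘ upd W 0) x = gb (upd W 0 (upd T.Fvᶜ 0 x)) := fun x hx =>
    (upd_liou h List.nil_suffix (fun k hk => ⟨List.not_mem_nil, Finset.mem_compl.1 hk⟩)
      h1.A0 0 hx).symm
  have c0 : ContinuousAt gb 0 := ((A1_diff h0.A0).differentiableAt
    ((ok_nil T).isOpen.mem_nhds fun k hk => by simpa using h.r0 k hk)).continuousAt
  obtain ⟨δ, hδ, hd⟩ := Metric.continuousAt_iff.1 c0 (ε / 3) (by positivity)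
  have key : ∀ R ≥ max R₀ T.R, ∀ r : ι → ℝ, (∀ k ∈ T.Fv, 0 < r k ∧ r k ≤ T.r k) → _ :=
    fun R hR r hr => hR₀ (T.shr R r).fr (rel_shr h ((le_max_right _ _).trans hR) hr hl).ok
      (((T4_shr h ((le_max_right _ _).trans hR) hr).2.2 l hl).mono ((le_max_left _ _).trans hR))
  have hr0 : ∀ k ∈ T.Fv, 0 < T.r k ∧ T.r k ≤ T.r k := fun k hk => ⟨h.r0 k hk, le_rfl⟩
  have t0 : Tendsto (fun i => upd W 0 (upd T.Fvᶜ 0 (p i))) U (𝓝 0) :=
    tendsto_pi_nhds.2 fun k => by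
      by_cases h2 : k ∈ W
      · simp [upd, h2]
      · by_cases h3 : k ∈ T.Fv
        · simpa [upd, h2, h3] using hp.z0 k h3
        · simp [upd, h2, h3]
  have c1 : ‖c - gb 0‖ ≤ ε / 3 := by
    refine le_of_tendsto (hc.sub (c0.tendsto.comp t0)).norm ?_
    filter_upwards [T5_mem (l := l) (T4_shr h (le_max_right R₀ _) hr0).1 (pt_shr hp _ _)
      (by rwa [top_shr]), T5_mem h hp List.nil_suffix] with i h2 h3
    have := (key _ le_rfl _ hr0).2.2 _ h2
    rwa [e0 _ h3] at this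
  refine ⟨max R₀ T.R, δ / 2, le_max_right _ _, by positivity, fun R hR r hr hδ' =>
    (key R hR r hr).1.mono ?_⟩
  refine (cthickening_subset_of_subset _ (E₂ := closedBall c (2 * (ε / 3))) ?_).trans ?_
  · rintro _ ⟨x, hx, rfl⟩
    rw [e0 x fun k hk => (hx k hk).trans_le (hr k hk).2]
    have := hd (x := upd W 0 (upd T.Fvᶜ 0 x)) (by
      rw [dist_zero_right, pi_norm_lt_iff hδ]
      intro k
      by_cases h2 : k ∈ W
      · simpa [upd, h2] using hδ
      · by_cases h3 : k ∈ T.Fv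
        · have := (hx k h3).trans_le (hδ' k h3 h2)
          simp only [upd, h2, h3, if_false, Finset.mem_compl, not_true]
          linarith
        · simpa [upd, h2, h3] using hδ)
    rw [← dist_eq_norm, dist_comm] at c1
    exact (dist_triangle _ (gb 0) _).trans (by linarith)
  · rw [cthickening_closedBall (by positivity) (by positivity)]
    exact closedBall_subset_closedBall (by linarith)

/-- **substitution `x k := φ x`** of a variable that is free in `l0` -/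
theorem sub_core (h : T.WF) {l0 l1 : List (ι ⊕ ℕ)} (hl : l0 <:+ T.top) (hk : k ∈ T.Fv)
    (hf : T.Free l0 k) {Ψ : (ι → ℂ) → ι → ℂ} (hd : Differentiable ℂ Ψ)
    (hm : ∀ l, l <:+ l0 → MapsTo Ψ (T'.D l) (T.D l))
    (hs : ∀ a l, a :: l <:+ l0 → ∀ x ∈ T'.D (a :: l), T.s a (Ψ x) = T'.s a x)
    (hr : ∀ x ∈ Rp ι, Ψ x ∈ Rp ι) (h01 : l0 <:+ l1) (ho : T'.fr.Ok l1) {φ : (ι → ℂ) → ℂ} {ρ : ℝ}
    (h0 : 0 ≤ ρ) (hρ : ρ < T.r k) (hφ : T'.fr.In l1 (closedBall 0 ρ) φ) (rφ : RR (T'.D l1) φ)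
    (e : ∀ x ∈ T'.D l1, Φ x = Function.update (Ψ x) k (φ x)) : Rel T T' l0 l1 Φ := by
  refine ⟨ho, fun x hx => ?_, (dif_update hd.differentiableOn (A1_diff hφ.A)).congr e,
    fun x hx h' => ?_, fun g hg => ?_⟩
  · rw [e x hx]
    exact T2_upd h hl (not_mem h hl hk) (fun _ => hf) (hm _ List.suffix_rfl (D_suffix h01 hx))
      fun _ => (mem_closedBall_zero_iff.1 (hφ.maps hx)).trans_lt hρ
  · rw [e x hx]
    exact update_real (hr x h') (rφ x hx h')
  have G := A9_pull' (F := T.fr) (F' := T'.fr.prod (ball (0 : ℂ) (T.r k)))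
    (Φ := fun z => Function.update (Ψ z.1) k z.2)
    (fun l e z hz => T2_upd h (e.trans hl) (not_mem h (e.trans hl) hk) (fun _ => free_mono hf e)
      (hm l e hz.1) fun _ => mem_ball_zero_iff.1 hz.2)
    (fun _ _ => dif_update (hd.comp differentiable_fst).differentiableOn differentiableOn_snd)
    (fun a l e z hz => (ind_s h hl (not_mem h hl hk) (fun _ => hf) (e.subset List.mem_cons_self)
      _ _).trans (hs a l e z.1 hz.1)) hg
  refine A2_congr (C1_comp1 ho isOpen_ball (δ := (T.r k - ρ) / 2) (by linarith) ?_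
    (A4_lift (ho.prod isOpen_ball) h01 G) hφ) fun x hx => ?_
  · rw [cthickening_closedBall (by linarith) h0]
    exact closedBall_subset_ball (by linarith)
  · simp only [Function.comp, e x hx]

end El

end Crest.Agent.N207.O
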