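import Crest.Agent.N207.O.El1

/-!
# Row 207, block O (helper47): the lifts `E2_sub`, `E5_elim`
-/

set_option autoImplicit false
set_option linter.unusedSectionVars false

open Set Filter Topology Metric

noncomputable section

namespace Crest.Agent.N207.O

variable {ι : Type} [Fintype ι] [DecidableEq ι] {α : Type} {U : Ultrafilter α} {T T' : Tw ι}
  {p p' : α → ι → ℂ} {l l' : List (ι ⊕ ℕ)} {W : Finset ι} {k : ι} {j : ℕ}
  {Φ : (ι → ℂ) → ι → ℂ} {x : ι → ℂ} {g : (ι → ℂ) → ℂ}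

namespace El

/-- the tower pulled back along `Φ` -/
def sb (T : Tw ι) (V : Finset ι) (R : ℝ) (r : ι → ℝ) (Φ : (ι → ℂ) → ι → ℂ) : Tw ι :=
  { T with
    Fv := V, R := R, r := r, u := fun j => T.u j ∘ Φ
    s := Sum.elim (fun k x => x k) fun j => T.s (Sum.inr j) ∘ Φ }

theorem suffix_split {β : Type*} {l0 l Q : List β} (h1 : l0 <:+ l) (h2 : l <:+ Q ++ l0) :
    ∃ q, q <:+ Q ∧ l = q ++ l0 := by
  obtain ⟨q, rfl⟩ := h1
  obtain ⟨t, e⟩ := h2
  exact ⟨q, ⟨t, List.append_cancel_right (by simpa using e)⟩, rfl⟩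

theorem sub_main (h : T.WF) (hp : T.Pt U p) (hk : k ∈ T.Fv) (hkW : k ∉ W)
    (hW : ∀ j ∈ W, j ∈ T.Fv ∧ T.lab k ≤ T.lab j) (hV : ∀ j ∈ T.Fv, j ∉ W → T.lab j ≤ T.lab k)
    {V : Finset ι} (V1 : V ⊆ T.Fv) (V2 : ∀ j ∈ T.Fv, j ≠ k → j ∈ V) {φ : (ι → ℂ) → ℂ}
    (hφ : T.fr.A (T.lv (T.lab k)) φ) (rφ : RR (T.D (T.lv (T.lab k))) φ)
    (iφ : ∀ i, i ∈ W ∨ (i ∉ T.Fv ∧ Sum.inl i ∉ T.lv (T.lab k)) ∨ (i = k ∧ k ∉ V) → Ind i φ)
    (φ0 : Tendsto (fun i => φ (p i)) U (𝓝 0)) {z : α → ℝ} (hz : Tendsto z U (𝓝 0))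
    (hz0 : k ∉ V → ∀ i, z i = 0) (e : ∀ᶠ i in U, φ (Function.update (p i) k (z i)) = p i k)
    (hΦ : ∀ x, Φ x = Function.update x k (φ x)) :
    ∃ T' : Tw ι, T.Lift T' U (T.lab k + 1) W p (fun i => Function.update (p i) k (z i)) Φ ∧
      T'.B = T.B ∧ T'.Fv = V ∧ T'.lab = T.lab ∧
      (∀ l, T.lv (T.lab k) <:+ l → l <:+ T.top → Rel T T' l l Φ) ∧
      (∀ a ∈ T.top, ∀ x, T.s a (Φ x) = T'.s a x) ∧
      (k ∈ V → T'.D (T.lv (T.lab k)) ⊆ T.D (T.lv (T.lab k))) := by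
  have l0t := lv_top T (h.lab k hk)
  have rk := h.r0 k hk
  obtain ⟨R, δ, hR, hδ, hn⟩ := near (W := W) h hp l0t
    (fun i hi => ⟨(hW i hi).1, free_lv (hW i hi).2, iφ i (Or.inl hi)⟩) hφ φ0 (half_pos rk)
  obtain ⟨r, hr, r1, r2⟩ : ∃ r : ι → ℝ, (∀ k ∈ T.Fv, 0 < r k ∧ r k ≤ T.r k) ∧
      (∀ k ∈ T.Fv, k ∉ W → r k ≤ δ) ∧ ∀ k ∈ W, r k = T.r k := by
    refine ⟨fun i => if i ∈ W then T.r i else min (T.r i) δ, fun i hi => ?_,
      fun i _ h' => by simp [h'], fun i h' => by simp [h']⟩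
    have := h.r0 i hi
    by_cases h' : i ∈ W <;> simp [h', this, hδ]
  have hIn := hn R le_rfl r hr r1
  obtain ⟨h1, d1, -⟩ := T4_shr h hR hr
  obtain ⟨T', hT⟩ : ∃ T', T' = sb T V R r Φ := ⟨_, rfl⟩
  have eB : T'.B = T.B := by rw [hT]; rfl
  have ep : T'.p = T.p := by rw [hT]; rfl
  have eV : T'.Fv = V := by rw [hT]; rfl
  have eR : T'.R = R := by rw [hT]; rfl
  have er : T'.r = r := by rw [hT]; rfl
  have el : T'.lab = T.lab := by rw [hT]; rfl
  have eρ : T'.ρ = T.ρ := by rw [hT]; rfl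
  have ec : T'.c = T.c := by rw [hT]; rfl
  have eu : ∀ j, T'.u j = T.u j ∘ Φ := by rw [hT]; exact fun _ => rfl
  have es : ∀ j, T'.s (Sum.inr j) = T.s (Sum.inr j) ∘ Φ := by rw [hT]; exact fun _ => rfl
  have eN : ∀ i x, T'.s (Sum.inl i) x = x i := by rw [hT]; exact fun _ _ => rfl
  have elv := lv_congr eB
  have etop := top_congr eB ep
  have hs : ∀ a ∈ T.top, ∀ x, T.s a (Φ x) = T'.s a x := by
    rintro (i | j) ha x
    · rw [h.sN, eN, hΦ, Function.update_of_ne fun e' => h.dj k hk (by rwa [← e'])]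
    · rw [es]; rfl
  have hlin : ∀ l, l <:+ T.top → ∀ γ x, T'.lin l γ x = T.lin l γ (Φ x) := fun l hl γ x =>
    lin_congr (fun a ha => (hs a (hl.subset ha) x).symm) fun _ _ => rfl
  have hE : ∀ j < T.p, ∀ x, T'.E j x = T.E j (Φ x) := fun j hj x => by
    simp only [Tw.E, elv, eρ, eu, hlin _ (lv_top T hj.le), Function.comp]
  obtain ⟨Ψ, hΨ⟩ : ∃ Ψ : (ι → ℂ) → ι → ℂ,
      ∀ x, Ψ x = Function.update x k (if k ∈ V then x k else 0) := ⟨_, fun _ => rfl⟩
  have iΨ : ∀ {g : (ι → ℂ) → ℂ}, Ind k g → ∀ x, g (Φ x) = g (Ψ x) := fun hg x => by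
    rw [hΦ, hΨ, hg, hg]
  have dΨ : Differentiable ℂ Ψ := by
    rw [funext hΨ, ← differentiableOn_univ]
    refine dif_update differentiableOn_id ?_
    split_ifs
    · exact (differentiable_apply k).differentiableOn
    · exact differentiableOn_const _
  have rΨ : ∀ x ∈ Rp ι, Ψ x ∈ Rp ι := fun x hx => by
    rw [hΨ]
    refine update_real hx ?_
    split_ifs
    · exact hx k
    · rfl
  have φΨ : φ ∘ Ψ = φ := funext fun x => by
    by_cases h' : k ∈ V
    · simp [hΨ, h']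
    · exact (congrArg φ (hΨ x)).trans (iφ k (Or.inr (Or.inr ⟨rfl, h'⟩)) _ _)
  have nk := not_mem h l0t hk
  have fk : k ∈ T.Fv → T.Free (T.lv (T.lab k)) k := fun _ => free_lv le_rfl
  have sΨ : ∀ a ∈ T.lv (T.lab k), ∀ x, T.s a (Ψ x) = T'.s a x := fun a ha x => by
    rw [← hs a (l0t.subset ha), iΨ (ind_s h l0t nk fk ha)]
  have iL : ∀ j < T.lab k, ∀ γ, Ind k (T.lin (T.lv j) γ) := fun j hj =>
    ind_lin h (lv_top T (hj.le.trans (h.lab k hk))) (not_mem h (lv_top T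
      (hj.le.trans (h.lab k hk))) hk) fun _ => free_lv hj.le
  have iE : ∀ j < T.lab k, Ind k (T.E j) := fun j hj x w => by
    simp only [Tw.E, iL j hj _ x w, (ind_su h l0t nk fk (inr_mem.2 hj)).2 x w]
  have lo : ∀ l, l <:+ T.lv (T.lab k) → Rel (T.shr R r) T' l l Ψ := fun l hl => by
    have := climb0 (T' := T') (Φ := Ψ) h1 (Q := T.lv (T.lab k)) (l0 := []) (l0' := [])
      (by rwa [top_shr, List.append_nil]) (Rel.nil (fun x hx i hi => ?_) dΨ.differentiableOn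
        fun x _ => rΨ x) eR.ge (List.Sublist.refl _)
      (fun a ha x _ => sΨ a (by simpa using ha) x) (fun j hj x _ => ?_) hl
    · simpa using this
    · rw [hΨ]
      by_cases e' : i = k
      · subst e'
        rw [Function.update_self]
        split_ifs with h'
        · exact er ▸ hx i (eV ▸ h')
        · rw [norm_zero]; exact (hr i hk).1
      · rw [Function.update_of_ne e']
        exact er ▸ hx i (eV ▸ V2 i hi e')
    · rw [hE j ((inr_mem.1 hj).trans_le (h.lab k hk)), iΨ (iE j (inr_mem.1 hj))]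
      simp only [Tw.E, lv_shr]
      rfl
  have base : Rel T T' (T.lv (T.lab k)) (T.lv (T.lab k)) Φ := by
    refine sub_core h l0t hk (fk hk) dΨ (fun l hl => (lo l hl).maps.mono_right (d1 l))
      (fun a l hl x _ => sΨ a (hl.subset List.mem_cons_self) x) rΨ List.suffix_rfl
      (lo _ List.suffix_rfl).ok (half_pos rk).le (half_lt_self rk) (φ := φ) ?_ ?_
      fun x _ => by rw [hΦ, hΨ, Function.update_idem]
    · rw [← φΨ]
      exact In_pull (F := (T.shr R r).fr) dΨ (fun l hl => (lo l hl).maps)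
        (fun a l hl x _ => sΨ a (hl.subset List.mem_cons_self) x) hIn
    · rw [← φΨ]
      exact (lo _ List.suffix_rfl).rr fun x hx => rφ x (d1 _ hx)
  have hi : ∀ l, T.lv (T.lab k) <:+ l → l <:+ T.top → Rel T T' l l Φ := fun l a1 a2 => by
    obtain ⟨Q, hQ⟩ := l0t
    obtain ⟨q, b1, rfl⟩ := suffix_split a1 (hQ ▸ a2)
    exact climb0 h (hQ ▸ List.suffix_rfl) base (eR ▸ hR) (List.Sublist.refl _)
      (fun a ha x _ => hs a (hQ ▸ ha) x) (fun j hj x _ => hE j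
        (inr_mem.1 (show _ ∈ T.top from hQ ▸ List.mem_append_left _ hj)) x) b1
  have cm : ∀ i, i ≠ k → Ind i φ → ∀ x w, Φ (Function.update x i w) = Function.update (Φ x) i w :=
    fun i a1 a2 x w => by rw [hΦ, hΦ, a2, Function.update_comm a1]
  have ind : ∀ j < T.p, ∀ i, Sum.inl i ∉ T.lv j → (i ∉ V ∨ j < T.lab i) →
      Ind i (T.s (Sum.inr j) ∘ Φ) ∧ Ind i (T.u j ∘ Φ) := fun j hj i a1 a2 => by
    rcases lt_or_ge j (T.lab k) with c | c
    · have b := ind_su h l0t nk fk (inr_mem.2 c)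
      have b2 : Ind i (T.s (Sum.inr j)) ∧ Ind i (T.u j) := by
        by_cases e' : i = k
        · exact e' ▸ b
        · exact h.ind j hj i a1 (a2.imp_left fun h' h'' => h' (V2 i h'' e'))
      exact ⟨fun x w => by simp only [Function.comp, hΦ, b.1 _ _, b2.1 _ _],
        fun x w => by simp only [Function.comp, hΦ, b.2 _ _, b2.2 _ _]⟩
    by_cases e' : i = k
    · subst e'
      have b := iφ i (Or.inr (Or.inr ⟨rfl, a2.resolve_right c.not_gt⟩))
      exact ⟨fun x w => by simp only [Function.comp, hΦ, b _ _, Function.update_idem],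
        fun x w => by simp only [Function.comp, hΦ, b _ _, Function.update_idem]⟩
    have b2 := h.ind j hj i a1 (a2.imp_left fun h' h'' => h' (V2 i h'' e'))
    have b : Ind i φ := by
      by_cases c1 : i ∈ T.Fv
      · refine iφ i (Or.inl (by_contra fun c2 => ?_))
        have := hV i c1 c2
        have := a2.resolve_left (not_not.2 (V2 i c1 e'))
        omega
      · exact iφ i (Or.inr (Or.inl ⟨c1, fun h' => a1 ((lv_suffix T c).subset h')⟩))
    exact ⟨fun x w => by simp only [Function.comp, cm i e' b, b2.1 _ _],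
      fun x w => by simp only [Function.comp, cm i e' b, b2.2 _ _]⟩
  have wf : T'.WF := by
    refine ⟨eR ▸ h1.R1, fun i hi => er ▸ (hr i (V1 (eV ▸ hi))).1, etop ▸ h.nd,
      fun i hi => etop ▸ h.dj i (V1 (eV ▸ hi)), fun i hi => ?_, eN, fun j hj x hx => ?_,
      fun j hj => ?_, fun j hj => ?_, fun j hj i a1 a2 => ?_, eρ ▸ h.ρ0, ec ▸ h.c0, ?_, ?_, ?_⟩
    · rw [el, ep]; exact h.lab i (V1 (eV ▸ hi))
    all_goals simp only [ep, elv, eρ, ec, eu, es, eV, el] at *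
    · rw [hE j hj, hlin _ (lv_top T hj.le), Function.comp]
      rcases lt_or_ge j (T.lab k) with c | c
      · rw [iΨ (iE j c), iΨ (iL j c _), iΨ (ind_su h l0t nk fk (inr_mem.2 c)).1]
        exact h.sL j hj _ (d1 _ ((lo _ (lv_suffix T c.le)).maps hx))
      · exact h.sL j hj _ ((hi _ (lv_suffix T c) (lv_top T hj.le)).maps hx)
    · rcases lt_or_ge j (T.lab k) with c | c
      · refine A2_congr ((lo _ (lv_suffix T c.le)).cl _ ((rel_shr h hR hr (lv_top T hj.le)).cl _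
          (h.uA j hj))) fun x _ => ?_
        exact (iΨ (ind_su h l0t nk fk (inr_mem.2 c)).2 x).symm
      · exact (hi _ (lv_suffix T c) (lv_top T hj.le)).cl _ (h.uA j hj)
    · rcases lt_or_ge j (T.lab k) with c | c
      · intro x hx hr'
        rw [Function.comp, iΨ (ind_su h l0t nk fk (inr_mem.2 c)).2 x]
        exact h.uR j hj _ (d1 _ ((lo _ (lv_suffix T c.le)).maps hx)) (rΨ x hr')
      · exact (hi _ (lv_suffix T c) (lv_top T hj.le)).rr (h.uR j hj)
    · exact ind j hj i a1 a2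
    · exact h.ρs
    · exact h.ρp
    · exact h.ρm
  have ev : ∀ᶠ i in U, Φ (Function.update (p i) k (z i)) = p i := by
    filter_upwards [e] with i hi
    rw [hΦ, hi, Function.update_idem, Function.update_eq_self]
  have bo := big_ord0 (T' := T') (p' := fun i => Function.update (p i) k (z i)) hp fun a ha => by
    filter_upwards [ev] with i hi
    rw [← hs a ha, hi]
  have tp := hi _ l0t List.suffix_rfl
  refine ⟨T', ⟨wf, ⟨fun i => update_real (hp.re i) (by simp), fun i hi => ?_, fun i a1 a2 n => ?_,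
    etop ▸ bo.1, etop ▸ bo.2⟩, ev, ep, ?_, eV ▸ V1, fun i a1 a2 => ?_,
    fun i a1 => cm i (fun e' => hkW (e' ▸ a1)) (iφ i (Or.inl a1)),
    fun i _ => el ▸ le_max_left _ _, etop ▸ tp.dif, etop ▸ tp.rea,
    pb_of eB fun l a1 a2 => (hi l a1 a2).pb fun a ha => ⟨ha, fun x _ => hs a (a2.subset ha) x⟩⟩,
    eB, eV, el, hi, hs, fun h' x hx => ?_⟩
  · by_cases e' : i = k
    · subst e'
      simp only [Function.update_self]
      exact (Complex.continuous_ofReal.tendsto' 0 0 rfl).comp hz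
    · simpa [e'] using hp.z0 i (V1 (eV ▸ hi))
  · by_cases e' : i = k
    · subst e'
      simp [hz0 (eV ▸ a1) n]
    · simpa [e'] using hp.un i (fun h' => a1 (eV ▸ V2 i h' e')) (etop ▸ a2) n
  · simp only [Tw.μ, ep, el, eV]
    exact Finset.sum_le_sum_of_subset V1
  · exact ⟨eV ▸ V2 i a2 fun e' => hkW (e' ▸ a1), by rw [el], er ▸ r2 i a1⟩
  · have := d1 _ ((lo _ List.suffix_rfl).maps hx)
    simpa [hΨ, h'] using this

/-- make a function globally independent of the unused coordinates -/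
theorem clean (h : T.WF) (hl : l <:+ T.top) (hg : T.fr.A l g) (hr : RR (T.D l) g) :
    ∃ g' : (ι → ℂ) → ℂ, T.fr.A l g' ∧ RR (T.D l) g' ∧ EqOn g' g (T.D l) ∧
      (∀ i, i ∉ T.Fv → Sum.inl i ∉ l → Ind i g') ∧ ∀ i ∈ T.Fv, Ind i g → Ind i g' := by
  classical
  obtain ⟨N, hN⟩ : ∃ N : Finset ι, ∀ i, i ∈ N ↔ Sum.inl i ∉ l ∧ i ∉ T.Fv :=
    ⟨Finset.univ.filter fun i => Sum.inl i ∉ l ∧ i ∉ T.Fv, by simp⟩
  have e : EqOn (g ∘ upd N 0) g (T.D l) := fun x hx =>
    upd_liou h hl (fun i hi => (hN i).1 hi) hg 0 hx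
  refine ⟨g ∘ upd N 0, A2_congr hg e.symm, fun x hx h' => e hx ▸ hr x hx h', e,
    fun i a b x w => ?_, fun i a b x w => ?_⟩
  · simp only [Function.comp, upd_update' ((hN i).2 ⟨b, a⟩)]
  · simp only [Function.comp, upd_update fun h' => ((hN i).1 h').2 a, b _ _]

end El

open El

theorem E5_elim (h : T.WF) (hp : T.Pt U p) (hk : k ∈ T.Fv) (hkW : k ∉ W)
    (hW : ∀ j ∈ W, j ∈ T.Fv ∧ T.lab k ≤ T.lab j) (hV : ∀ j ∈ T.Fv, j ∉ W → T.lab j ≤ T.lab k)
    {a : (ι → ℂ) → ℂ} (ha : T.fr.A (T.lv (T.lab k)) a) (ra : RR (T.D (T.lv (T.lab k))) a)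
    (ia : Ind k a ∧ ∀ j ∈ W, Ind j a) (e : ∀ᶠ i in U, p i k = a (p i)) :
    ∃ (T' : Tw ι) (p' : α → ι → ℂ) (Φ : (ι → ℂ) → ι → ℂ),
      T.Lift T' U (T.lab k + 1) W p p' Φ ∧ T'.B = T.B ∧ T'.Fv = T.Fv.erase k ∧
        T'.lab = T.lab := by
  have l0t := lv_top T (h.lab k hk)
  obtain ⟨φ, a1, a2, a3, a4, a5⟩ := clean h l0t ha ra
  have e' : ∀ᶠ i in U, p i k = φ (p i) := by
    filter_upwards [e, T5_mem h hp l0t] with i b1 b2 using b1.trans (a3 b2).symm
  obtain ⟨T', b1, b2, b3, b4, -⟩ := sub_main h hp hk hkW hW hV (Finset.erase_subset k _)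
    (fun j hj e => Finset.mem_erase.2 ⟨e, hj⟩) a1 a2 (by
      rintro i (hi | hi | ⟨rfl, -⟩)
      · exact a5 i (hW i hi).1 (ia.2 i hi)
      · exact a4 i hi.1 hi.2
      · exact a5 i hk ia.1) ((hp.z0 k hk).congr' e')
    (z := fun _ => 0) tendsto_const_nhds (fun _ _ => rfl)
    (e'.mono fun i hi => (a5 k hk ia.1 _ _).trans hi.symm) fun _ => rfl
  exact ⟨T', _, _, b1, b2, b3, b4⟩

theorem E2_sub (h : T.WF) (hp : T.Pt U p) (hk : k ∈ T.Fv) (hkW : k ∉ W)
    (hW : ∀ j ∈ W, j ∈ T.Fv ∧ T.lab k ≤ T.lab j) (hV : ∀ j ∈ T.Fv, j ∉ W → T.lab j ≤ T.lab k)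
    {a b : (ι → ℂ) → ℂ} (ha : T.fr.A (T.lv (T.lab k)) a) (hb : T.fr.A (T.lv (T.lab k)) b)
    (ra : RR (T.D (T.lv (T.lab k))) a) (rb : RR (T.D (T.lv (T.lab k))) b)
    (ia : Ind k a ∧ ∀ j ∈ W, Ind j a) (ib : Ind k b ∧ ∀ j ∈ W, Ind j b)
    (b0 : ∀ x ∈ T.D (T.lv (T.lab k)), b x ≠ 0) (a0 : Tendsto (fun i => a (p i)) U (𝓝 0))
    {z : α → ℝ} (hz : Tendsto z U (𝓝 0)) (e : ∀ᶠ i in U, p i k = a (p i) + b (p i) * z i) :
    ∃ (T' : Tw ι) (Φ : (ι → ℂ) → ι → ℂ),
      T.Lift T' U (T.lab k + 1) W p (fun i => Function.update (p i) k (z i)) Φ ∧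
      T.Same T' (T.lab k + 1) Φ ∧ T'.D (T.lv (T.lab k)) ⊆ T.D (T.lv (T.lab k)) ∧
      (∀ c ∈ T.lv (T.lab k), T'.s c = T.s c) ∧
      ∀ x ∈ T'.D (T.lv (T.lab k)), Φ x = Function.update x k (a x + b x * x k) := by
  have l0t := lv_top T (h.lab k hk)
  have ok := T1_ok h l0t
  obtain ⟨A, a1, a2, a3, a4, a5⟩ := clean h l0t ha ra
  obtain ⟨B, b1, b2, b3, b4, b5⟩ := clean h l0t hb rb
  have iA := a5 k hk ia.1
  have iB := b5 k hk ib.1
  have mem := T5_mem h hp l0t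
  have xk : T.fr.A (T.lv (T.lab k)) fun x => x k := Fr.A.of_nil ok
    (differentiable_apply k).differentiableOn ⟨T.r k, fun x hx => (hx k hk).le⟩
  obtain ⟨Φ, hΦ⟩ : ∃ Φ : (ι → ℂ) → ι → ℂ, ∀ x, Φ x = Function.update x k (A x + B x * x k) :=
    ⟨_, fun _ => rfl⟩
  have q1 : ∀ i, i ∈ W ∨ (i ∉ T.Fv ∧ Sum.inl i ∉ T.lv (T.lab k)) ∨ (i = k ∧ k ∉ T.Fv) →
      Ind i fun x => A x + B x * x k := by
    rintro i (hi | hi | ⟨-, hi⟩) x w
    · simp only [a5 i (hW i hi).1 (ia.2 i hi) x w, b5 i (hW i hi).1 (ib.2 i hi) x w,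
        Function.update_of_ne fun e' : k = i => hkW (e' ▸ hi)]
    · simp only [a4 i hi.1 hi.2 x w, b4 i hi.1 hi.2 x w,
        Function.update_of_ne fun e' : k = i => hi.1 (e' ▸ hk)]
    · exact absurd hk hi
  have q2 : Tendsto (fun i => A (p i) + B (p i) * p i k) U (𝓝 0) := by
    obtain ⟨M, hM⟩ := A1_bd ok le_rfl b1
    have t1 : Tendsto (fun i => B (p i) * p i k) U (𝓝 0) := by
      refine squeeze_zero_norm' (mem.mono fun i hi => ?_)
        (by simpa using (hp.z0 k hk).norm.const_mul M)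
      rw [norm_mul]
      exact mul_le_mul_of_nonneg_right (hM _ hi) (norm_nonneg _)
    simpa using (a0.congr' (mem.mono fun i hi => (a3 hi).symm)).add t1
  have q3 : ∀ᶠ i in U, A (Function.update (p i) k (z i)) + B (Function.update (p i) k (z i)) *
      Function.update (p i) k (z i) k = p i k := by
    filter_upwards [e, mem] with i h1 h2
    rw [iA, iB, Function.update_self, a3 h2, b3 h2, h1]
  obtain ⟨T', c1, c2, c3, c4, c5, c6, c7⟩ := sub_main h hp hk hkW hW hV subset_rfl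
    (fun j hj _ => hj) (a1.add ok (b1.mul ok xk)) (fun x hx hr => by
      simp [a2 x hx hr, b2 x hx hr, hr k]) q1 q2 hz (fun h' => absurd hk h') q3 hΦ
  refine ⟨T', Φ, c1, ⟨c2, c3, c4, fun x hx => ?_, fun l d1 d2 => (c5 l d1 d2).pb fun a ha =>
    ⟨ha, fun x _ => c6 a (d2.subset ha) x⟩, fun a l _ d2 => sc_of fun x _ =>
      c6 a (d2.subset List.mem_cons_self) x⟩, c7 hk, fun c hc => funext fun x => ?_,
    fun x hx => by rw [hΦ, a3 (c7 hk hx), b3 (c7 hk hx)]⟩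
  · rw [top_congr c2 c1.pp] at hx
    have hy := ok.isOpen.mem_nhds (D_suffix l0t ((c5 _ l0t List.suffix_rfl).maps hx))
    have n0 : ∀ y ∈ T.D (T.lv (T.lab k)), B y ≠ 0 := fun y hy => b3 hy ▸ b0 y hy
    have n1 := n0 _ (mem_of_mem_nhds hy)
    have ct : ContinuousAt (fun y => Function.update y k ((y k - A y) / B y)) (Φ x) :=
      continuousAt_id.update k (((continuous_apply k).continuousAt.sub
        ((A1_diff a1).differentiableAt hy).continuousAt).div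
        ((A1_diff b1).differentiableAt hy).continuousAt n1)
    have e1 : Function.update (Φ x) k ((Φ x k - A (Φ x)) / B (Φ x)) = x := by
      rw [hΦ, iB] at n1
      rw [hΦ, iA, iB, Function.update_self, Function.update_idem, add_sub_cancel_left,
        mul_div_cancel_left₀ _ n1, Function.update_eq_self]
    have := ct.tendsto
    rw [e1] at this
    intro S hS
    filter_upwards [this hS, hy] with y h1 hy
    have h2 : Φ (Function.update y k ((y k - A y) / B y)) ∈ S := h1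
    rwa [hΦ, iA, iB, Function.update_self, Function.update_idem, mul_div_cancel₀ _ (n0 y hy),
      add_sub_cancel, Function.update_eq_self] at h2
  · rw [← c6 c (l0t.subset hc), hΦ, ind_s h l0t (not_mem h l0t hk) (fun _ => free_lv le_rfl) hc]

end Crest.Agent.N207.O
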