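import Crest.Agent.N207.O.El2

/-!
# Row 207, block O (helper47): the lift `E3_new`
-/

set_option autoImplicit false
set_option linter.unusedSectionVars false

open Set Filter Topology Metric

noncomputable section

namespace Crest.Agent.N207.O

variable {ι : Type} [Fintype ι] [DecidableEq ι] {α : Type} {U : Ultrafilter α} {T T' : Tw ι}
  {p : α → ι → ℂ} {W : Finset ι}

namespace El

/-- the levels below the block `j` -/
def lo (T : Tw ι) : ℕ → List (ι ⊕ ℕ)
  | 0 => []
  | j + 1 => Sum.inr j :: T.lv j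

theorem lv_eq (T : Tw ι) (j : ℕ) : T.lv j = (T.B j).map Sum.inl ++ lo T j := by
  cases j <;> simp [Tw.lv, lo]

theorem suffix_cases {β : Type*} {a : β} {l L : List β} : ∀ {Q : List β}, a :: l <:+ Q ++ L →
    a :: l <:+ L ∨ ∃ q, a :: q <:+ Q ∧ l = q ++ L
  | [], h => Or.inl h
  | b :: Q, h => by
    rcases List.suffix_cons_iff.1 h with h | h
    · cases h; exact Or.inr ⟨Q, List.suffix_rfl, rfl⟩
    · exact (suffix_cases h).imp_right fun ⟨q, h1, h2⟩ => ⟨q, h1.trans (List.suffix_cons _ _), h2⟩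

theorem block_split {l₂ : List (ι ⊕ ℕ)} {j : ℕ} (h : l₂ <:+ T.lv j) :
    ∃ n ≤ j, ∃ b₁ b₂, T.B n = b₁ ++ b₂ ∧ l₂ = b₂.map Sum.inl ++ lo T n := by
  have key : ∀ (b : List ι) (L : List (ι ⊕ ℕ)), l₂ <:+ b.map Sum.inl ++ L →
      (∃ b₁ b₂, b = b₁ ++ b₂ ∧ l₂ = b₂.map Sum.inl ++ L) ∨ l₂ <:+ L.tail := fun b L hb => by
    induction b with
    | nil =>
      rcases L with _ | ⟨c, L⟩
      · exact Or.inr hb
      · exact (List.suffix_cons_iff.1 hb).imp_left fun e => ⟨[], [], rfl, e⟩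
    | cons c b ih =>
      rcases List.suffix_cons_iff.1 hb with e | e
      · exact Or.inl ⟨[], c :: b, rfl, e⟩
      · exact (ih e).imp_left fun ⟨b₁, b₂, e1, e2⟩ => ⟨c :: b₁, b₂, by simp [e1], e2⟩
  induction j with
  | zero =>
    rcases key _ _ (lv_eq T 0 ▸ h) with e | e
    · exact ⟨0, le_rfl, e⟩
    · exact ⟨0, le_rfl, T.B 0, [], by simp, List.suffix_nil.1 e⟩
  | succ j ih =>
    rcases key _ _ (lv_eq T (j + 1) ▸ h) with e | e
    · exact ⟨j + 1, le_rfl, e⟩
    · obtain ⟨n, h1, h2⟩ := ih e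
      exact ⟨n, h1.trans (Nat.le_succ _), h2⟩

end El

open El

theorem E3_new (h : T.WF) (hs : T.Sp) (hp : T.Pt U p) (hW : ∀ k ∈ W, k ∈ T.Fv) {j : ℕ}
    (hj : j ≤ T.p) {l₁ l₂ : List (ι ⊕ ℕ)} (hl : T.lv j = l₁ ++ l₂) {σ : α → ℝ}
    (hσ : Tendsto σ U atTop)
    (h₂ : ∀ b ∈ l₂, Tendsto (fun i => (T.s b (p i)).re / σ i) U (𝓝 0))
    (h₁ : ∀ a ∈ l₁, Tendsto (fun i => σ i / (T.s a (p i)).re) U (𝓝 0))
    (h₃ : j < T.p → Tendsto (fun i => σ i / (T.s (Sum.inr j) (p i)).re) U (𝓝 0)) :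
    ∃ (T' : Tw ι) (k' : ι) (Φ : (ι → ℂ) → ι → ℂ),
      T.Lift T' U 0 W p (fun i => Function.update (p i) k' (σ i)) Φ ∧ T'.Fv = T.Fv ∧
      T'.lab = T.lab ∧ T'.s = T.s ∧ k' ∉ T.Fv ∧ Sum.inl k' ∉ T.top ∧
      T'.lv j = l₁ ++ Sum.inl k' :: l₂ ∧ T'.top.toFinset = insert (Sum.inl k') T.top.toFinset ∧
      ∀ x, Φ x = Function.update x k' 0 := by
  obtain ⟨k, k1, k2⟩ : ∃ k, k ∉ T.Fv ∧ Sum.inl k ∉ T.top := by
    obtain ⟨k, -, hk⟩ := Finset.exists_mem_notMem_of_card_lt_card (t := Finset.univ)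
      ((Finset.card_union_le _ _).trans_lt hs)
    exact ⟨k, by simpa using hk⟩
  obtain ⟨n, n1, b₁, b₂, e1, e2⟩ := block_split (T := T) (j := j) ⟨l₁, hl.symm⟩
  obtain ⟨T', hT⟩ : ∃ T' : Tw ι, T' = { T with
    B := Function.update T.B n (b₁ ++ k :: b₂), c := fun j => Function.update (T.c j) (.inl k) 0 } :=
    ⟨_, rfl⟩
  have eB : T'.B = Function.update T.B n (b₁ ++ k :: b₂) := by rw [hT]
  have ep : T'.p = T.p := by rw [hT]
  have eV : T'.Fv = T.Fv := by rw [hT]
  have eR : T'.R = T.R := by rw [hT]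
  have er : T'.r = T.r := by rw [hT]
  have el : T'.lab = T.lab := by rw [hT]
  have eρ : T'.ρ = T.ρ := by rw [hT]
  have ec : ∀ j, T'.c j = Function.update (T.c j) (.inl k) 0 := by rw [hT]; exact fun _ => rfl
  have eu : T'.u = T.u := by rw [hT]
  have es : T'.s = T.s := by rw [hT]
  have v1 : ∀ m < n, T'.lv m = T.lv m := fun m hm => by
    induction m with
    | zero => simp only [Tw.lv, eB, Function.update_of_ne hm.ne]
    | succ m ih => simp only [Tw.lv, eB, Function.update_of_ne hm.ne, ih (by omega)]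
  have v2 : ∀ m, n ≤ m → ∃ q, T.lv m = q ++ l₂ ∧ T'.lv m = q ++ Sum.inl k :: l₂ := fun m hm => by
    induction hm with
    | refl =>
      have : lo T' n = lo T n := by
        cases n with
        | zero => rfl
        | succ n => simp only [lo, v1 n (Nat.lt_succ_self _)]
      exact ⟨b₁.map Sum.inl, by simp [lv_eq, e1, e2], by simp [lv_eq, eB, e2, this]⟩
    | @step m hm ih =>
      obtain ⟨q, a1, a2⟩ := ih
      have : m + 1 ≠ n := by have : n ≤ m := hm; omega
      exact ⟨(T.B (m + 1)).map Sum.inl ++ Sum.inr m :: q, by simp [Tw.lv, a1],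
        by simp [Tw.lv, eB, Function.update_of_ne this, a2]⟩
  have v3 : ∀ m < n, T.lv m <:+ l₂ := fun m hm => by
    obtain ⟨n, rfl⟩ := Nat.exists_eq_add_of_lt hm
    rw [e2]
    exact (lv_suffix T (Nat.le_add_right _ _)).trans
      ((List.suffix_cons _ _).trans (List.suffix_append _ _))
  obtain ⟨Q, t1, t2⟩ := v2 T.p (n1.trans hj)
  replace t1 : T.top = Q ++ l₂ := t1
  replace t2 : T'.top = Q ++ Sum.inl k :: l₂ := by rw [Tw.top, ep, t2]
  have m1 : ∀ m, ∀ a ∈ T.lv m, a ∈ T'.lv m := fun m a ha => by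
    rcases lt_or_ge m n with c | c
    · rwa [v1 m c]
    · obtain ⟨q, a1, a2⟩ := v2 m c
      rw [a1] at ha
      rw [a2]
      exact (List.sublist_cons_self _ _).append_left q |>.subset ha
  have m2 : ∀ a ∈ T'.top, a = Sum.inl k ∨ a ∈ T.top := fun a ha => by
    rw [t2] at ha
    rw [t1]
    simp only [List.mem_append, List.mem_cons] at ha ⊢
    tauto
  obtain ⟨Φ, hΦ⟩ : ∃ Φ : (ι → ℂ) → ι → ℂ, ∀ x, Φ x = Function.update x k 0 := ⟨_, fun _ => rfl⟩
  have dΦ : Differentiable ℂ Φ := by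
    rw [funext hΦ, ← differentiableOn_univ]
    exact dif_update differentiableOn_id (differentiableOn_const _)
  have rΦ : ∀ x ∈ Rp ι, Φ x ∈ Rp ι := fun x hx => hΦ x ▸ update_real hx rfl
  have is : ∀ a ∈ T.top, Ind k (T.s a) := fun a ha =>
    ind_s h List.suffix_rfl k2 (fun h' => absurd h' k1) ha
  have iu : ∀ m < T.p, ∀ x, T.u m (Φ x) = T.u m x := fun m hm x => by
    rw [hΦ, (ind_su h List.suffix_rfl k2 (fun h' => absurd h' k1) (inr_mem.2 hm)).2]
  have hs' : ∀ a ∈ T.top, ∀ x, T.s a (Φ x) = T'.s a x := fun a ha x => by rw [hΦ, is a ha, es]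
  have hlin : ∀ m ≤ T.p, ∀ γ γ' : ι ⊕ ℕ → ℝ, γ' (.inl k) = 0 → (∀ a, a ≠ .inl k → γ' a = γ a) →
      ∀ x, T'.lin (T'.lv m) γ' x = T.lin (T.lv m) γ (Φ x) := fun m hm γ γ' g1 g2 x => by
    have sb := (lv_top T hm).subset
    rw [← lin_congr (fun a ha => (hs' a (sb ha) x).symm) fun a ha => g2 a fun e => k2 (e ▸ sb ha)]
    rcases lt_or_ge m n with c | c
    · rw [v1 m c]
    · obtain ⟨q, a1, a2⟩ := v2 m c
      rw [a1, a2, Tw.lin, List.toFinset_eq_of_perm _ _ List.perm_middle, List.toFinset_cons,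
        Finset.sum_insert_zero (by simp [g1]), Tw.lin]
  have hE : ∀ m < T.p, ∀ x, T'.E m x = T.E m (Φ x) := fun m hm x => by
    rw [Tw.E, Tw.E, eu, iu m hm, eρ, hlin m hm.le _ _
      (h.ρs m hm _ fun h' => k2 ((lv_top T hm.le).subset h')) fun _ _ => rfl]
  have l2t : l₂ <:+ T.top := ⟨Q, t1.symm⟩
  have low : ∀ l, l <:+ l₂ → Rel T T' l l Φ := fun l hl => by
    simpa using climb0 (T' := T') (Φ := Φ) h (Q := l₂) (l0 := []) (l0' := [])
      (by rwa [List.append_nil]) (Rel.nil (fun x hx i hi => by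
        rw [hΦ, Function.update_of_ne fun e : i = k => k1 (e ▸ hi)]
        exact er ▸ hx i (eV ▸ hi)) dΦ.differentiableOn fun x _ => rΦ x) eR.ge (List.Sublist.refl _)
      (fun a ha x _ => hs' a (l2t.subset (by simpa using ha)) x)
      (fun m hm x _ => hE m (inr_mem.1 (l2t.subset hm)) x) hl
  have hig : ∀ q, q <:+ Q → Rel T T' (q ++ l₂) (q ++ Sum.inl k :: l₂) Φ := fun q hq =>
    climb0 h (t1 ▸ List.suffix_rfl) ((low _ List.suffix_rfl).up (List.suffix_cons _ _)
      (ok_step (low _ List.suffix_rfl).ok (eR ▸ zero_le_one.trans h.R1)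
        ((differentiable_apply k).differentiableOn.congr fun x _ => by rw [es, h.sN])
        fun _ e => by cases e)) eR.ge (List.sublist_cons_self _ _)
      (fun a ha x _ => hs' a (t1 ▸ ha) x) (fun m hm x _ => hE m
        (inr_mem.1 (show _ ∈ T.top from t1 ▸ List.mem_append_left _ hm)) x) hq
  have rel : ∀ m ≤ T.p, Rel T T' (T.lv m) (T'.lv m) Φ := fun m hm => by
    rcases lt_or_ge m n with c | c
    · rw [v1 m c]; exact low _ (v3 m c)
    · obtain ⟨q, a1, a2⟩ := v2 m c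
      obtain ⟨q', a3, a4⟩ := suffix_split (List.suffix_append q l₂) (a1 ▸ t1 ▸ lv_top T hm)
      rw [a1, a2, List.append_cancel_right a4]
      exact hig _ a3
  have wf : T'.WF := by
    refine ⟨eR ▸ h.R1, eV ▸ er ▸ h.r0, ?_, fun i hi h' => ?_, eV ▸ el ▸ ep ▸ h.lab, es ▸ h.sN,
      fun m hm x hx => ?_, fun m hm => ?_, fun m hm x hx hr => ?_, fun m hm i a1 a2 => ?_,
      eρ ▸ h.ρ0, fun m a => ?_, fun m hm a ha => ?_, fun m hm => ?_, fun m m' a1 a2 => ?_⟩
    all_goals simp only [ep, eρ, eu, eV, el] at *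
    · rw [t2, List.nodup_middle, ← t1]
      exact List.nodup_cons.2 ⟨k2, h.nd⟩
    · rcases m2 _ h' with e | e
      · cases e; exact k1 hi
      · exact h.dj i hi e
    · rw [hE m hm, hlin m hm.le (T.c m) _ (by simp [ec]) (fun a ha => by simp [ec, ha]),
        ← hs' _ (inr_mem.2 hm)]
      exact h.sL m hm _ ((rel m hm.le).maps hx)
    · exact A2_congr ((rel m hm.le).cl _ (h.uA m hm)) fun x _ => iu m hm x
    · exact iu m hm x ▸ (rel m hm.le).rr (h.uR m hm) x hx hr
    · exact es ▸ h.ind m hm i (fun h' => a1 (m1 _ _ h')) a2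
    · rw [ec]
      by_cases e : a = .inl k
      · simp [e]
      · simpa [e] using h.c0 m a
    · exact h.ρs m hm a fun h' => ha (m1 _ _ h')
    · exact (h.ρp m hm).imp fun a ha => ⟨m1 _ _ ha.1, ha.2⟩
    · exact (h.ρm m m' a1 a2).imp_right fun ⟨a, ha⟩ => ⟨a, m1 _ _ ha.1, ha.2⟩
  have sp : ∀ a ∈ T.top, ∀ i, T'.s a (Function.update (p i) k (σ i)) = T.s a (p i) :=
    fun a ha i => by rw [es, is a ha]
  have sk : ∀ i, (T'.s (.inl k) (Function.update (p i) k (σ i))).re = σ i := fun i => by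
    simp [es, h.sN]
  have hQ : ∀ a ∈ Q, Tendsto (fun i => σ i / (T.s a (p i)).re) U (𝓝 0) := fun a ha => by
    obtain ⟨t, ht⟩ := lv_top T hj
    have : Q = t ++ l₁ := List.append_cancel_right (bs := l₂) (by rw [← t1, ← ht, hl]; simp)
    rcases List.mem_append.1 (this ▸ ha) with ha | ha
    swap
    · exact h₁ a ha
    obtain ⟨s1, s2, rfl⟩ := List.append_of_mem ha
    have jp : j < T.p := lt_of_le_of_ne hj fun e => by
      have := congrArg List.length ht
      rw [Tw.top, ← e, List.length_append, List.length_append, List.length_cons] at this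
      omega
    have b1 : a :: (s2 ++ T.lv j) <:+ T.top := ⟨s1, by simp [← ht]⟩
    rcases List.suffix_cons_iff.1 (List.suffix_of_suffix_length_le (lv_suffix' T jp) b1
      (by simp)) with e | e
    · rw [← (List.cons.inj e).1]; exact h₃ jp
    · have := (h₃ jp).mul (hp.ord a _ b1 _ (e.subset List.mem_cons_self))
      rw [mul_zero] at this
      refine this.congr' ?_
      filter_upwards [(hp.big _ (inr_mem.2 jp)).eventually_gt_atTop 0] with i hi
      field_simp
  have tp := rel _ le_rfl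
  rw [← ep] at tp
  refine ⟨T', k, Φ, ⟨wf, ⟨fun i => update_real (hp.re i) (by simp), fun i hi => ?_,
    fun i a1 a2 m => ?_, fun a ha => ?_, fun a l hl b hb => ?_⟩, .of_forall fun i => ?_, ep,
    by simp only [Tw.μ, ep, el, eV, le_refl], eV ▸ subset_rfl,
    fun i _ a2 => ⟨eV ▸ a2, by rw [el], by rw [er]⟩, fun i a1 x w => ?_,
    fun i _ => el ▸ le_max_left _ _, dΦ.differentiableOn, fun x _ => rΦ x, fun m _ hm => ?_⟩,
    eV, el, es, k1, k2, ?_, ?_, hΦ⟩
  · simpa [show i ≠ k from fun e => k1 (e ▸ eV ▸ hi)] using hp.z0 i (eV ▸ hi)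
  · have : i ≠ k := fun e => a2 (by simp [t2, e])
    simpa [this] using hp.un i (eV ▸ a1) (fun h' => a2 (by
      rw [Tw.top, ep]; exact m1 _ _ h')) m
  · rcases m2 a ha with rfl | e
    · simpa only [sk] using hσ
    · simpa only [sp a e] using hp.big a e
  · rw [t2] at hl
    rcases suffix_cases hl with e | ⟨q, e, rfl⟩
    · rcases List.suffix_cons_iff.1 e with e | e
      · cases e
        simpa only [sk, sp b (l2t.subset hb)] using h₂ b hb
      · have e' := e.trans l2t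
        simpa only [sp a (e'.subset List.mem_cons_self),
          sp b (e'.subset (List.mem_cons_of_mem _ hb))] using hp.ord a l e' b hb
    · have e' : a :: (q ++ l₂) <:+ T.top := by
        obtain ⟨t, rfl⟩ := e
        exact ⟨t, by simp [t1]⟩
      have ha := e'.subset List.mem_cons_self
      by_cases c : b = .inl k
      · subst c
        simpa only [sk, sp a ha] using hQ a (e.subset List.mem_cons_self)
      · have hb' : b ∈ q ++ l₂ := by simpa [c] using hb
        simpa only [sp a ha, sp b (e'.subset (List.mem_cons_of_mem _ hb'))] using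
          hp.ord a _ e' b hb'
  · rw [hΦ, Function.update_idem, ← hp.un k k1 k2 i, Function.update_eq_self]
  · rw [hΦ, hΦ, Function.update_comm fun e : i = k => k1 (e ▸ hW i a1)]
  · cases m with
    | zero => exact (low [] List.nil_suffix).pb fun _ h => absurd h List.not_mem_nil
    | succ m =>
      have hm' := Nat.le_of_succ_le_succ hm
      exact (rel m hm').pb fun a ha => ⟨m1 _ _ ha, fun x _ => hs' a ((lv_top T hm').subset ha) x⟩
  · obtain ⟨q, a1, a2⟩ := v2 j n1
    rw [a2, List.append_cancel_right (a1.symm.trans hl)]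
  · rw [t1, t2, List.toFinset_eq_of_perm _ _ List.perm_middle, List.toFinset_cons]

end Crest.Agent.N207.O
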