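import Crest.Agent.N207.O.El0
import Crest.Agent.N207.O.Kit2
import Crest.Agent.N207.O.Alg3

/-!
# Row 207, block O (helper81): renormalisation of one level, the common core
-/

set_option autoImplicit false
set_option linter.unusedSectionVars false

open Set Filter Topology Metric

noncomputable section

namespace Crest.Agent.N207.O.En

open Tw

theorem Om_add {R c : ℝ} (hR : 1 ≤ R) (hc : 1 ≤ c) {w v : ℂ} (hw : w ∈ Om (R * (1 + c)))
    (hv : v ∈ Om (R * (1 + c))) : w + c * v ∈ Om R := by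
  have h1 : R ≤ R * (1 + c) := by nlinarith
  have w1 : 1 ≤ ‖w‖ := by linarith [hw.1, Complex.re_le_norm w]
  have v1 : 1 ≤ ‖v‖ := by linarith [hv.1, Complex.re_le_norm v]
  have lw := Real.log_nonneg w1
  have lv := Real.log_nonneg v1
  have re : (w + c * v).re = w.re + c * v.re := by simp
  have v0 : 0 ≤ v.re := by linarith [hv.1]
  have v2 : v.re ≤ c * v.re := by nlinarith
  have a1 : R < (w + c * v).re := by rw [re]; linarith [hw.1]
  refine ⟨a1, ?_⟩
  have n0 : 0 < ‖w + c * v‖ := by linarith [Complex.re_le_norm (w + c * v)]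
  have n1 : ‖w + c * v‖ ≤ (1 + c) * (‖w‖ * ‖v‖) := by
    refine (norm_add_le _ _).trans ?_
    rw [norm_mul, Complex.norm_real, Real.norm_of_nonneg (by linarith)]
    nlinarith [mul_le_mul_of_nonneg_left v1 (norm_nonneg w),
      mul_le_mul_of_nonneg_right w1 (mul_nonneg (by linarith : 0 ≤ c) (norm_nonneg v))]
  have n2 := Real.log_le_log n0 n1
  rw [Real.log_mul (by linarith) (by positivity), Real.log_mul (by linarith) (by linarith)] at n2
  have n3 : Real.log (1 + c) ≤ c := by linarith [Real.log_le_sub_one_of_pos (by linarith : 0 < 1 + c)]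
  rw [re]
  have n4 := mul_le_mul_of_nonneg_left (n2.trans (add_le_add_left n3 _)) (by linarith : 0 ≤ R)
  have n5 := mul_le_mul_of_nonneg_right h1 lw
  have n6 := mul_le_mul_of_nonneg_right h1 lv
  nlinarith [hw.2, hv.2]

theorem Om_sum {β : Type*} (S : Finset β) {C : β → ℝ} (hC : ∀ b ∈ S, 1 ≤ C b) {R : ℝ} (hR : 1 ≤ R) :
    ∃ R', R ≤ R' ∧ ∀ (w : ℂ) (v : β → ℂ), w ∈ Om R' → (∀ b ∈ S, v b ∈ Om R') →
      w + ∑ b ∈ S, C b * v b ∈ Om R := by
  classical
  induction S using Finset.induction_on generalizing R with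
  | empty => exact ⟨R, le_rfl, fun w v hw _ => by simpa using hw⟩
  | insert b S hb ih =>
    have c1 := hC b (Finset.mem_insert_self _ _)
    have h1 : R ≤ R * (1 + C b) := by nlinarith
    obtain ⟨R', h2, h3⟩ := ih (fun b hb => hC b (Finset.mem_insert_of_mem hb)) (hR.trans h1)
    refine ⟨R', h1.trans h2, fun w v hw hv => ?_⟩
    rw [Finset.sum_insert hb, add_comm (C b * v b : ℂ), ← add_assoc]
    exact Om_add hR c1 (h3 w v hw fun b hb => hv b (Finset.mem_insert_of_mem hb))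
      (Om_anti (hR.trans (h1.trans h2)) h2 (hv b (Finset.mem_insert_self _ _)))

variable {ι : Type} [Fintype ι] [DecidableEq ι] {α : Type} {U : Ultrafilter α} {T T' : Tw ι}
  {p p' : α → ι → ℂ} {l l₂ L : List (ι ⊕ ℕ)} {a : ι ⊕ ℕ} {C : ι ⊕ ℕ → ℝ} {R : ℝ}
  {s' : ι ⊕ ℕ → (ι → ℂ) → ℂ} {Φ : (ι → ℂ) → ι → ℂ}

theorem suffix_unique {β : Type*} {a : β} {l l' L : List β} (nd : L.Nodup) (h : a :: l <:+ L)
    (h' : a :: l' <:+ L) : l = l' := by
  have key : ∀ {l l' : List β}, a :: l' <:+ L → a :: l <:+ a :: l' → l = l' := fun h' e => by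
    rcases List.suffix_cons_iff.1 e with e | e
    · exact (List.cons.inj e).2
    · exact absurd (e.subset List.mem_cons_self) (List.nodup_cons.1 (h'.sublist.nodup nd)).1
  rcases List.suffix_or_suffix_of_suffix h h' with e | e
  exacts [key h' e, (key h e).symm]

theorem mon_of_ok {γ : ι ⊕ ℕ → ℝ} (hγ : ∀ a, 0 ≤ γ a) : ∀ {l : List (ι ⊕ ℕ)}, T.fr.Ok l →
    l.Nodup → T.fr.A l fun x => Complex.exp (-T.lin l γ x)
  | [], _, _ => by
    simp only [lin_nil]
    exact ⟨differentiableOn_const _, _, fun _ _ => le_rfl⟩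
  | a :: l, ho, nd => by
    refine A2_congr (A3_mono (Fr.Cl.single ho (mon_of_ok hγ ho.tail nd.of_cons) (γ a))
      (hγ a)) fun x _ => ?_
    simp only [Fr.ex, lin_cons (List.nodup_cons.1 nd).1, smul_eq_mul, ← Complex.exp_add, neg_add]
    rfl

theorem lin_ratio (hp : T.Pt U p) (hl : a :: l <:+ T.top) (γ : ι ⊕ ℕ → ℝ) :
    Tendsto (fun i => (T.lin l γ (p i)).re / (T.s a (p i)).re) U (𝓝 0) := by
  simp only [re_lin, Finset.sum_div, mul_div_assoc]
  have := tendsto_finsetSum l.toFinset fun b hb =>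
    (hp.ord a l hl b (List.mem_toFinset.1 hb)).const_mul (γ b)
  simpa using this

theorem pt_of_ratio (hp : T.Pt U p) (ht : T'.top = T.top) (re : ∀ i, p' i ∈ Rp ι)
    (z0 : ∀ k ∈ T'.Fv, Tendsto (fun i => p' i k) U (𝓝 0))
    (un : ∀ k, k ∉ T'.Fv → Sum.inl k ∉ T'.top → ∀ i, p' i k = 0)
    (hr : ∀ b ∈ T.top, Tendsto (fun i => (T'.s b (p' i)).re / (T.s b (p i)).re) U (𝓝 1)) :
    T'.Pt U p' := by
  refine ⟨re, z0, un, fun b hb => ?_, fun b l hl c hc => ?_⟩
  · rw [ht] at hb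
    refine ((hr b hb).pos_mul_atTop one_pos (hp.big b hb)).congr' ?_
    filter_upwards [(hp.big b hb).eventually_gt_atTop 0] with i hi using div_mul_cancel₀ _ hi.ne'
  · rw [ht] at hl
    have hb := hl.subset List.mem_cons_self
    have hc' := hl.subset (List.mem_cons_of_mem _ hc)
    have := ((hr c hc').mul (hp.ord b l hl c hc)).div (hr b hb) one_ne_zero
    rw [mul_zero, zero_div] at this
    refine this.congr' ?_
    filter_upwards [(hp.big b hb).eventually_gt_atTop 0, (hp.big c hc').eventually_gt_atTop 0]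
      with i h1 h2
    simp only [Pi.div_apply]
    rw [div_mul_div_cancel₀ h2.ne', div_div_div_cancel_right₀ h1.ne']

/-- the renormalised tower -/
def nw (T : Tw ι) (a : ι ⊕ ℕ) (C : ι ⊕ ℕ → ℝ) (s' : ι ⊕ ℕ → (ι → ℂ) → ℂ) (Φ : (ι → ℂ) → ι → ℂ)
    (R : ℝ) : Tw ι :=
  { T with
    R := R
    s := s'
    ρ := fun j b => T.ρ j b + T.ρ j a * C b
    c := fun j b => T.c j b + (if a ∈ (T.lv j).toFinset then T.c j a else 0) * C b +
      if a = Sum.inr j then C b else 0
    u := fun j => T.u j ∘ Φ }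

theorem nw_lv (j : ℕ) : (nw T a C s' Φ R).lv j = T.lv j := 
  congrFun (El.lv_congr (T := T) (T' := nw T a C s' Φ R) rfl) j
theorem nw_top : (nw T a C s' Φ R).top = T.top := nw_lv _

/-- hypotheses of the core -/
structure Core (T : Tw ι) (a : ι ⊕ ℕ) (l₂ : List (ι ⊕ ℕ)) (C : ι ⊕ ℕ → ℝ)
    (s' : ι ⊕ ℕ → (ι → ℂ) → ℂ) (Φ : (ι → ℂ) → ι → ℂ) (R : ℝ) : Prop where
  wf : T.WF
  hl : a :: l₂ <:+ T.top
  C1 : ∀ b ∈ l₂, 1 ≤ C b
  C0 : ∀ b, b ∉ l₂ → C b = 0
  p1 : ∀ b, b ≠ a → ∀ x, T.s b (Φ x) = s' b x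
  p2 : ∀ x, T.s a (Φ x) = s' a x + T.lin l₂ C x
  p3 : ∀ b ∈ l₂, s' b = T.s b
  p4 : ∀ j, Sum.inr j ∈ l₂ → ∀ x, T.u j (Φ x) = T.u j x
  p5 : ∀ l₀, l₀ <:+ l₂ → ∀ x ∈ T.D l₀, Φ x ∈ T.D l₀ ∧
    ∀ g : (ι → ℂ) → ℂ, T.fr.A l₀ g → g (Φ x) = g x
  dif : DifferentiableOn ℂ Φ (T.D l₂)
  rea : ∀ x ∈ T.D l₂, x ∈ Rp ι → Φ x ∈ Rp ι
  sN : ∀ k x, s' (Sum.inl k) x = x k
  ind : ∀ j < T.p, ∀ k, Sum.inl k ∉ T.lv j → (k ∉ T.Fv ∨ j < T.lab k) →
    Ind k (s' (Sum.inr j)) ∧ Ind k (T.u j ∘ Φ)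
  hR : T.R * (1 + ∑ b ∈ l₂.toFinset, C b) ≤ R
  hO : ∀ (w : ℂ) (v : ι ⊕ ℕ → ℂ), w ∈ Om R → (∀ b ∈ l₂.toFinset, v b ∈ Om R) →
    w + ∑ b ∈ l₂.toFinset, C b * v b ∈ Om T.R

namespace Core

variable (H : Core T a l₂ C s' Φ R)
include H

theorem Cn (b : ι ⊕ ℕ) : 0 ≤ C b := by
  by_cases hb : b ∈ l₂
  exacts [zero_le_one.trans (H.C1 b hb), (H.C0 b hb).ge]

theorem RR' : T.R ≤ R := by
  have : 0 ≤ ∑ b ∈ l₂.toFinset, C b := Finset.sum_nonneg fun b _ => H.Cn b
  nlinarith [H.hR, H.wf.R1]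

theorem R0 : 0 ≤ R := by linarith [H.RR', H.wf.R1]

theorem lin2 (x : ι → ℂ) : T.lin l₂ C x = (nw T a C s' Φ R).lin l₂ C x :=
  (El.lin_congr (fun b hb => congrFun (H.p3 b hb) x) fun _ _ => rfl).symm

theorem cases (hL : L <:+ T.top) : L <:+ l₂ ∨ a :: l₂ <:+ L := by
  rcases List.suffix_or_suffix_of_suffix hL H.hl with e | e
  · rcases List.suffix_cons_iff.1 e with e | e
    exacts [Or.inr (by rw [e]), Or.inl e]
  · exact Or.inr e

theorem sub_of_mem (hL : L <:+ T.top) (ha : a ∈ L) : ∀ b ∈ l₂, b ∈ L := by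
  rcases H.cases hL with e | e
  · exact absurd (e.subset ha) (H.wf.not_mem H.hl)
  · exact fun b hb => e.subset (List.mem_cons_of_mem _ hb)

theorem lin_pull (hL : L <:+ T.top) (γ : ι ⊕ ℕ → ℝ) (x : ι → ℂ) : T.lin L γ (Φ x) =
    (nw T a C s' Φ R).lin L (fun b => γ b + (if a ∈ L.toFinset then γ a else 0) * C b) x := by
  by_cases ha : a ∈ L
  · have h1 : T.lin l₂ C x = ∑ b ∈ L.toFinset, (C b : ℂ) * s' b x := by
      rw [H.lin2]
      refine Finset.sum_subset (fun b hb => List.mem_toFinset.2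
        (H.sub_of_mem hL ha b (List.mem_toFinset.1 hb))) fun b _ hb => ?_
      rw [H.C0 b (by simpa using hb)]; simp
    have h2 : ∀ b, (γ b : ℂ) * T.s b (Φ x) =
        γ b * s' b x + if b = a then γ a * T.lin l₂ C x else 0 := fun b => by
      split_ifs with e
      · rw [e, H.p2]; ring
      · rw [H.p1 b e]; ring
    simp only [lin, h2, Finset.sum_add_distrib, Finset.sum_ite_eq', List.mem_toFinset, ha, if_true]
    rw [show ∑ b ∈ l₂.toFinset, (C b : ℂ) * T.s b x = T.lin l₂ C x from rfl, h1, Finset.mul_sum,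
      ← Finset.sum_add_distrib]
    exact Finset.sum_congr rfl fun b _ => by simp only [nw]; push_cast; ring
  · simp only [List.mem_toFinset, ha, if_false, zero_mul, add_zero]
    exact (El.lin_congr (fun b hb => (H.p1 b (by rintro rfl; exact ha hb) x).symm)
      fun _ _ => rfl).symm

theorem E_pull {j : ℕ} (hj : j < T.p) (x : ι → ℂ) : (nw T a C s' Φ R).E j x = T.E j (Φ x) := by
  unfold E
  rw [nw_lv, H.lin_pull (lv_top hj.le), show (nw T a C s' Φ R).u j x = T.u j (Φ x) from rfl]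
  congr 2
  funext b
  split_ifs with e
  · rfl
  · simp only [nw, H.wf.ρs j hj a (by simpa using e)]

theorem low (hL : L <:+ l₂) : El.Rel T (nw T a C s' Φ R) L L id := by
  have h0 : El.Rel T (nw T a C s' Φ R) [] [] id :=
    El.Rel.nil (fun _ hx => hx) differentiableOn_id fun _ _ hx => hx
  have := El.climb0 (Q := l₂) H.wf (by simpa using suffix_tail H.hl) h0 H.RR' List.Sublist.slnil
    (fun b hb x _ => (congrFun (H.p3 b (by simpa using hb)) x).symm) (fun j hj x _ => ?_) hL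
  · simpa using this
  · obtain ⟨l', hl'⟩ := exists_suffix_of_mem hj
    obtain ⟨h1, rfl⟩ := inr_suffix (hl'.trans (suffix_tail H.hl))
    have ha : a ∉ T.lv j := fun e => H.wf.not_mem H.hl ((suffix_tail hl').subset e)
    unfold E
    rw [nw_lv, show (nw T a C s' Φ R).u j x = T.u j (Φ x) from rfl, H.p4 j hj]
    congr 1
    exact El.lin_congr (fun b hb => congrFun (H.p3 b ((suffix_tail hl').subset hb)) x)
      fun b _ => by simp only [nw, H.wf.ρs j h1 a ha]; ring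

theorem rel2 : El.Rel T (nw T a C s' Φ R) l₂ l₂ Φ := by
  have h := H.low List.suffix_rfl
  exact ⟨h.ok, fun x hx => (H.p5 _ List.suffix_rfl x (h.maps hx)).1, H.dif.mono h.maps,
    fun x hx => H.rea x (h.maps hx), fun g hg => A2_congr (h.cl g hg) fun x hx =>
      ((H.p5 _ List.suffix_rfl x (h.maps hx)).2 g hg).symm⟩

theorem sd (hL : a :: l₂ <:+ L) (hL' : L <:+ T.top) {y : ι → ℂ} (hy : y ∈ (nw T a C s' Φ R).Sd L)
    (hD : y ∈ (nw T a C s' Φ R).D L) : Φ y ∈ T.Sd L := by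
  have hD2 := D_suffix (suffix_tail hL) hD
  have pos : ∀ b ∈ L, 0 ≤ (s' b y).re := fun b hb => H.R0.trans (El.s_om hD hb).1.le
  have e2 : (T.s a (Φ y)).re = (s' a y).re + ∑ b ∈ l₂.toFinset, C b * (s' b y).re := by
    rw [H.p2, H.lin2, Complex.add_re, re_lin]; rfl
  have n2 : 0 ≤ ∑ b ∈ l₂.toFinset, C b * (s' b y).re := Finset.sum_nonneg fun b hb =>
    mul_nonneg (H.Cn b) (pos b (hL.subset (List.mem_cons_of_mem _ (List.mem_toFinset.1 hb))))
  refine ⟨H.rel2.rea y hD2 hy.1, ?_⟩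
  obtain ⟨Q, rfl⟩ := hL
  have nd := hL'.sublist.nodup H.wf.nd
  have hy2 : (Q ++ a :: l₂).Pairwise fun b c => R * (s' c y).re < (s' b y).re := hy.2
  have both := hy2.and (List.nodup_iff_pairwise_ne.1 nd)
  have R1 := H.wf.R1
  have gen : ∀ {b c}, c ∈ Q ++ a :: l₂ → c ≠ a → R * (s' c y).re < (s' b y).re →
      T.R * (T.s c (Φ y)).re < (T.s b (Φ y)).re := fun {b c} hc hca h1 => by
    rw [H.p1 c hca]
    refine ((mul_le_mul_of_nonneg_right H.RR' (pos c hc)).trans_lt h1).trans_le ?_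
    by_cases hb : b = a
    · rw [hb, e2]; linarith
    · rw [H.p1 b hb]
  rw [List.pairwise_append] at hy2 ⊢
  have aQ : a ∉ Q := fun e => (List.nodup_append.1 nd).2.2 a e a List.mem_cons_self rfl
  refine ⟨hy2.1.imp_of_mem fun {b c} _ hc h1 => gen (List.mem_append_left _ hc)
    (by rintro rfl; exact aQ hc) h1, ?_, fun b hb c hc => ?_⟩
  · refine List.Pairwise.cons (fun c hc => gen (List.mem_append_right _ (List.mem_cons_of_mem _ hc))
      (by rintro rfl; exact H.wf.not_mem H.hl hc) ((List.pairwise_cons.1 hy2.2.1).1 c hc))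
      ((List.pairwise_cons.1 hy2.2.1).2.imp_of_mem fun {b c} _ hc h1 => gen
        (List.mem_append_right _ (List.mem_cons_of_mem _ hc))
        (by rintro rfl; exact H.wf.not_mem H.hl hc) h1)
  · by_cases hca : c = a
    · subst hca
      have hb' : b ≠ c := by rintro rfl; exact aQ hb
      rw [e2, H.p1 b hb']
      have h1 := hy2.2.2 b hb c List.mem_cons_self
      have h2 : R * ∑ d ∈ l₂.toFinset, C d * (s' d y).re ≤
          (∑ d ∈ l₂.toFinset, C d) * (s' b y).re := by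
        rw [Finset.mul_sum, Finset.sum_mul]
        exact Finset.sum_le_sum fun d hd => by
          have := mul_le_mul_of_nonneg_left (hy2.2.2 b hb d
            (List.mem_cons_of_mem _ (List.mem_toFinset.1 hd))).le (H.Cn d)
          linarith
      have h3 := pos b (List.mem_append_left _ hb)
      have h4 : 0 < R := by linarith [H.RR']
      refine lt_of_mul_lt_mul_left (a := R) ?_ h4.le
      have h5 := mul_lt_mul_of_pos_left (add_lt_add_of_lt_of_le h1 h2) (by linarith : 0 < T.R)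
      have h6 := mul_le_mul_of_nonneg_right H.hR h3
      nlinarith
    · exact gen (List.mem_append_right _ hc) hca (hy2.2.2 b hb c hc)

theorem rel_a : El.Rel T (nw T a C s' Φ R) (a :: l₂) (a :: l₂) Φ := by
  have h2 := H.rel2
  have ho : (nw T a C s' Φ R).fr.Ok (a :: l₂) := by
    refine El.ok_step h2.ok H.R0 ((((El.dif_s H.wf H.hl).comp h2.dif h2.maps).sub
      (El.dif_lin h2.ok C)).congr fun x _ => ?_) ?_
    · rw [Pi.sub_apply, ← H.lin2]; exact eq_sub_of_add_eq (H.p2 x).symm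
    · rintro j rfl
      obtain ⟨hj, rfl⟩ := inr_suffix H.hl
      exact ((El.dif_E H.wf hj).continuousOn.comp h2.dif.continuousOn h2.maps).congr
        fun x _ => H.E_pull hj x
  refine El.Rel.step H.wf H.hl (h2.up (List.suffix_cons _ _) ho)
    (e := (nw T a C s' Φ R).lin l₂ C) (fun x _ => by rw [← H.lin2]; exact H.p2 x)
    (fun x hx => ?_) (fun t ht => ?_) ⟨0, fun x hx => ?_⟩ fun y hy hD =>
      H.sd List.suffix_rfl H.hl hy hD
  · rw [H.p2, H.lin2]
    exact H.hO _ _ (D_cons_cst hx).1 fun b hb =>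
      El.s_om hx (List.mem_cons_of_mem _ (List.mem_toFinset.1 hb))
  · refine A2_congr (A4_lift ho (List.suffix_cons _ _) (mon_of_ok (γ := fun b => t * C b)
      (fun b => mul_nonneg ht (H.Cn b)) h2.ok ((suffix_tail H.hl).sublist.nodup H.wf.nd)))
      fun x _ => ?_
    simp only [lin, Finset.mul_sum]
    congr 2
    exact Finset.sum_congr rfl fun b _ => by push_cast; ring
  · rw [neg_zero]; exact El.re_lin H.R0 H.Cn (D_cons_sub hx)

theorem high (hL : a :: l₂ <:+ L) (hL' : L <:+ T.top) : El.Rel T (nw T a C s' Φ R) L L Φ := by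
  obtain ⟨Q, rfl⟩ := hL
  have nd := hL'.sublist.nodup H.wf.nd
  have aQ : a ∉ Q := fun e => (List.nodup_append.1 nd).2.2 a e a List.mem_cons_self rfl
  refine El.climb H.wf hL' H.rel_a H.R0 (fun b hb => ⟨0, Fr.Cl.zero, fun x _ => ?_⟩)
    (fun j hj x _ => H.E_pull (inr_mem_lv.1 (hL'.subset (List.mem_append_left _ hj))) x)
    (fun q hq y hy hD => H.sd (List.suffix_append _ _) ?_ hy hD) List.suffix_rfl
  · rw [H.p1 b (by rintro rfl; exact aQ hb)]
    exact ⟨by simp [nw], fun h' => El.Om_mono H.wf.R1 H.RR' h'⟩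
  · obtain ⟨t, rfl⟩ := hq
    exact List.IsSuffix.trans ⟨t, by simp⟩ hL'

theorem pb (hL : L <:+ T.top) : Pb T (nw T a C s' Φ R) L L Φ := by
  have sc : ∀ b ∈ L, ∃ (C' : ι ⊕ ℕ → ℝ) (g : (ι → ℂ) → ℂ), (nw T a C s' Φ R).fr.A L g ∧
      RR ((nw T a C s' Φ R).D L) g ∧ ∀ x ∈ (nw T a C s' Φ R).D L,
        T.s b (Φ x) = (nw T a C s' Φ R).lin L C' x + g x := fun b hb =>
    ⟨_, 0, Fr.Cl.zero, fun _ _ _ => rfl, fun x _ => by
      rw [← El.lin_single hb, H.lin_pull hL]; exact (add_zero _).symm⟩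
  rcases H.cases hL with e | e
  · have h := H.low e
    exact ⟨fun x hx => (H.p5 _ e x (h.maps hx)).1, fun g hg => A2_congr (h.cl g hg) fun x hx =>
      ((H.p5 _ e x (h.maps hx)).2 g hg).symm, fun g hg hr x hx hx' => by
        rw [Function.comp, (H.p5 _ e x (h.maps hx)).2 g hg]; exact hr x (h.maps hx) hx', sc⟩
  · have h := H.high e hL
    exact ⟨h.maps, h.cl, fun _ _ hg => h.rr hg, sc⟩

theorem wf' : (nw T a C s' Φ R).WF := by
  have h := H.wf
  refine ⟨h.R1.trans H.RR', h.r0, by rw [nw_top]; exact h.nd, by rw [nw_top]; exact h.dj, h.lab,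
    H.sN, fun j hj x hx => ?_, fun j hj => ?_, fun j hj => ?_, fun j hj k hk => ?_,
    fun j b => add_nonneg (h.ρ0 j b) (mul_nonneg (h.ρ0 j a) (H.Cn b)), fun j b => ?_,
    fun j hj b hb => ?_, fun j hj => ?_, fun j j' h1 h2 => ?_⟩
  · rw [nw_lv] at hx ⊢
    have e := h.sL j hj _ ((H.pb (lv_top hj.le)).maps hx)
    rw [H.E_pull hj, ← sub_eq_iff_eq_add.2 (sub_add_cancel _ _).symm]
    rw [H.lin_pull (lv_top hj.le)] at e
    by_cases ha : a = Sum.inr j
    · subst ha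
      obtain ⟨-, rfl⟩ := inr_suffix H.hl
      rw [H.p2, H.lin2] at e
      have e2 : (nw T (Sum.inr j) C s' Φ R).lin (T.lv j) ((nw T (Sum.inr j) C s' Φ R).c j) x =
          (nw T (Sum.inr j) C s' Φ R).lin (T.lv j) (fun b => T.c j b +
            (if Sum.inr j ∈ (T.lv j).toFinset then T.c j (Sum.inr j) else 0) * C b) x +
          (nw T (Sum.inr j) C s' Φ R).lin (T.lv j) C x := by
        simp only [lin, ← Finset.sum_add_distrib]
        exact Finset.sum_congr rfl fun b _ => by simp only [nw, if_true]; push_cast; ring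
      rw [e2]
      exact (eq_sub_of_add_eq e).trans (by ring)
    · rw [H.p1 _ (Ne.symm ha)] at e
      refine e.trans ?_
      congr 2
      funext b
      simp only [nw, ha, if_false, add_zero]
  · rw [nw_lv]; exact (H.pb (lv_top hj.le)).cl _ (h.uA j hj)
  · rw [nw_lv]; exact (H.pb (lv_top hj.le)).rr _ (h.uA j hj) (h.uR j hj)
  · rw [nw_lv] at hk; exact H.ind j hj k hk
  · have := h.c0 j b
    have := h.c0 j a
    have := H.Cn b
    simp only [nw]
    split_ifs <;> positivity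
  · rw [nw_lv] at hb
    simp only [nw, h.ρs j hj b hb]
    by_cases ha : a ∈ T.lv j
    · rw [H.C0 b fun e => hb (H.sub_of_mem (lv_top (le_of_lt hj)) ha b e)]; ring
    · rw [h.ρs j hj a ha]; ring
  · obtain ⟨b, h1, h2⟩ := h.ρp j hj
    exact ⟨b, by rw [nw_lv]; exact h1,
      add_pos_of_pos_of_nonneg h2 (mul_nonneg (h.ρ0 j a) (H.Cn b))⟩
  · obtain ⟨h3, b, h4, h5⟩ := h.ρm j j' h1 h2
    exact ⟨fun c => add_le_add (h3 c) (mul_le_mul_of_nonneg_right (h3 a) (H.Cn c)), b,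
      by rw [nw_lv]; exact h4,
      add_lt_add_of_lt_of_le h5 (mul_le_mul_of_nonneg_right (h3 a) (H.Cn b))⟩

end Core

end Crest.Agent.N207.O.En
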