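import Crest.Agent.N207.O.En1

/-!
# Row 207, block O (helper81): `E1_norm`
-/

set_option autoImplicit false
set_option linter.unusedSectionVars false

open Set Filter Topology Metric

noncomputable section

namespace Crest.Agent.N207.O

open Tw

variable {ι : Type} [Fintype ι] [DecidableEq ι] {α : Type} {U : Ultrafilter α} {T T' : Tw ι}
  {p p' : α → ι → ℂ} {l l₂ L : List (ι ⊕ ℕ)} {a : ι ⊕ ℕ} {C : ι ⊕ ℕ → ℝ} {R : ℝ} {W : Finset ι}
  {s' : ι ⊕ ℕ → (ι → ℂ) → ℂ} {Φ : (ι → ℂ) → ι → ℂ}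

namespace En

theorem first_ne {β : Type*} {γ : β → ℝ} : ∀ {l : List β}, (∃ b ∈ l, γ b ≠ 0) →
    ∃ l₁ a l₂, l = l₁ ++ a :: l₂ ∧ γ a ≠ 0 ∧ ∀ b ∈ l₁, γ b = 0
  | [], h => by simp at h
  | c :: l, h => by
    by_cases hc : γ c = 0
    · obtain ⟨b, hb, h0⟩ := h
      have hb' : b ∈ l := (List.mem_cons.1 hb).resolve_left (by rintro rfl; exact h0 hc)
      obtain ⟨l₁, a, l₂, rfl, h1, h2⟩ := first_ne ⟨b, hb', h0⟩
      exact ⟨c :: l₁, a, l₂, rfl, h1, fun b hb => (List.mem_cons.1 hb).elim (fun e => e ▸ hc) (h2 b)⟩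
    · exact ⟨[], c, l, rfl, hc, by simp⟩

theorem lin_append_zero {γ : ι ⊕ ℕ → ℝ} (x : ι → ℂ) : ∀ {l₁ : List (ι ⊕ ℕ)}, (l₁ ++ l).Nodup →
    (∀ b ∈ l₁, γ b = 0) → T.lin (l₁ ++ l) γ x = T.lin l γ x
  | [], _, _ => rfl
  | b :: l₁, nd, h => by
    rw [List.cons_append] at nd ⊢
    rw [lin_cons (List.nodup_cons.1 nd).1, h b List.mem_cons_self,
      lin_append_zero x nd.of_cons fun c hc => h c (List.mem_cons_of_mem _ hc)]
    simp

theorem Core.fin (H : Core T a l₂ C s' Φ R) (hp : T.Pt U p)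
    (com : ∀ k ∈ W, ∀ x w, Φ (Function.update x k w) = Function.update (Φ x) k w)
    (opn : ∀ x, Φ x ∈ T.D l₂ → 𝓝 (Φ x) ≤ map Φ (𝓝 x)) (re : ∀ i, p' i ∈ Rp ι)
    (hp' : ∀ᶠ i in U, Φ (p' i) = p i) (pk : ∀ k, Sum.inl k ≠ a → ∀ i, p' i k = p i k) :
    T.Lift (nw T a C s' Φ R) U 0 W p p' Φ ∧ T.Same (nw T a C s' Φ R) 0 Φ := by
  have ha := H.hl.subset List.mem_cons_self
  have hi := H.high H.hl List.suffix_rfl
  have pt : (nw T a C s' Φ R).Pt U p' := by
    refine pt_of_ratio hp nw_top re (fun k hk => ?_) (fun k h1 h2 i => ?_) fun b hb => ?_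
    · simp only [pk k (by rintro rfl; exact H.wf.dj k hk ha)]
      exact hp.z0 k hk
    · rw [nw_top] at h2
      rw [pk k (by rintro rfl; exact h2 ha)]
      exact hp.un k h1 h2 i
    · by_cases e : b = a
      · subst e
        have := (lin_ratio hp H.hl C).const_sub 1
        rw [sub_zero] at this
        refine this.congr' ?_
        filter_upwards [hp', (hp.big b hb).eventually_gt_atTop 0] with i h1 h2
        have e1 : T.lin l₂ C (p' i) = T.lin l₂ C (p i) :=
          El.lin_congr (fun c hc => by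
            rw [← h1, H.p1 c (by rintro rfl; exact H.wf.not_mem H.hl hc), H.p3 c hc]) fun _ _ => rfl
        have e2 := H.p2 (p' i)
        rw [h1, e1] at e2
        rw [show (nw T b C s' Φ R).s b (p' i) = T.s b (p i) - T.lin l₂ C (p i) from
          eq_sub_of_add_eq e2.symm, Complex.sub_re, sub_div, div_self h2.ne']
      · refine tendsto_const_nhds.congr' ?_
        filter_upwards [hp', (hp.big b hb).eventually_gt_atTop 0] with i h1 h2
        rw [show (nw T a C s' Φ R).s b (p' i) = T.s b (p i) from by rw [← h1]; exact (H.p1 b e _).symm,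
          div_self h2.ne']
  refine ⟨⟨H.wf', pt, hp', rfl, le_rfl, Finset.Subset.refl _, fun k _ hk => ⟨hk, rfl, rfl⟩, com,
    fun k _ => le_max_left _ _, by rw [nw_top]; exact hi.dif, by rw [nw_top]; exact hi.rea,
    fun m _ hm => ?_⟩, rfl, rfl, rfl, fun x hx => ?_, fun L _ hL => H.pb hL, fun b L _ hL => ?_⟩
  · rw [El.lw_congr (T := T) (T' := nw T a C s' Φ R) rfl]
    exact H.pb (El.lw_top T hm)
  · rw [nw_top] at hx
    exact opn x (D_suffix (suffix_tail H.hl) (hi.maps hx))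
  · by_cases e : b = a
    · subst e
      obtain rfl := suffix_unique H.wf.nd hL H.hl
      exact ⟨C, 0, Fr.Cl.zero, fun _ _ _ => rfl, fun x _ => by
        rw [H.p2, H.lin2]; exact (add_zero _).symm⟩
    · exact ⟨0, 0, Fr.Cl.zero, fun _ _ _ => rfl, fun x _ => by
        rw [H.p1 b e]; simp [lin, nw]⟩

/-- numerical data -/
structure Num (T : Tw ι) (l₂ : List (ι ⊕ ℕ)) (C : ι ⊕ ℕ → ℝ) (R : ℝ) : Prop where
  C1 : ∀ b ∈ l₂, 1 ≤ C b
  C0 : ∀ b, b ∉ l₂ → C b = 0
  hR : T.R * (1 + ∑ b ∈ l₂.toFinset, C b) ≤ R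
  hO : ∀ (w : ℂ) (v : ι ⊕ ℕ → ℂ), w ∈ Om R → (∀ b ∈ l₂.toFinset, v b ∈ Om R) →
    w + ∑ b ∈ l₂.toFinset, C b * v b ∈ Om T.R

theorem ind_lv (h : T.WF) {j : ℕ} (hj : j < T.p) {k : ι} (h1 : Sum.inl k ∉ T.lv j)
    (h2 : k ∉ T.Fv ∨ j < T.lab k) {b : ι ⊕ ℕ} (hb : b ∈ T.lv j) : Ind k (T.s b) :=
  (h.ind_s (lv_top hj.le) h1 (fun hF _ hj' => (inr_mem_lv.1 hj').trans
    (h2.resolve_left fun e => e hF)) hb).1

theorem core_tied (h : T.WF) {j : ℕ} (hl : Sum.inr j :: l₂ <:+ T.top) (N : Num T l₂ C R) :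
    Core T (Sum.inr j) l₂ C
      (fun b x => if b = Sum.inr j then T.s b x - T.lin l₂ C x else T.s b x) id R := by
  refine ⟨h, hl, N.C1, N.C0, fun b hb x => by simp [hb], fun x => by simp, fun b hb => ?_,
    fun _ _ _ => rfl, fun _ _ _ hx => ⟨hx, fun _ _ => rfl⟩, differentiableOn_id, fun _ _ hx => hx,
    fun k x => by simp [h.sN], fun j' hj k h1 h2 => ⟨fun x w => ?_, (h.ind j' hj k h1 h2).2⟩,
    N.hR, N.hO⟩
  · funext x
    rw [if_neg (by rintro rfl; exact h.not_mem hl hb)]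
  · beta_reduce
    rw [(h.ind j' hj k h1 h2).1 x w]
    split_ifs with e
    · obtain rfl := Sum.inr.inj e
      obtain ⟨-, rfl⟩ := inr_suffix hl
      rw [ind_lin (fun b hb => ind_lv h hj h1 h2 hb) C x w]
    · rfl

/-- the shear of a free coordinate -/
def shear (T : Tw ι) (l₂ : List (ι ⊕ ℕ)) (C : ι ⊕ ℕ → ℝ) (k : ι) (σ : ℂ) (x : ι → ℂ) : ι → ℂ :=
  Function.update x k (x k + σ * T.lin l₂ C x)

theorem shear_com {k k' : ι} (hk : k' ≠ k) (hi : Ind k' (T.lin l₂ C)) (σ : ℂ) (x : ι → ℂ) (w : ℂ) :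
    shear T l₂ C k σ (Function.update x k' w) = Function.update (shear T l₂ C k σ x) k' w := by
  unfold shear
  rw [hi, Function.update_of_ne hk.symm, Function.update_comm hk]

theorem shear_shear {k : ι} (hi : Ind k (T.lin l₂ C)) (σ τ : ℂ) (x : ι → ℂ) :
    shear T l₂ C k σ (shear T l₂ C k τ x) = shear T l₂ C k (τ + σ) x := by
  unfold shear
  rw [hi, Function.update_self, Function.update_idem]
  congr 1; ring

theorem shear_zero (k : ι) (x : ι → ℂ) : shear T l₂ C k 0 x = x := by simp [shear]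

theorem dif_shear (ho : T.fr.Ok l₂) (k : ι) (σ : ℂ) :
    DifferentiableOn ℂ (shear T l₂ C k σ) (T.D l₂) := by
  refine differentiableOn_pi.2 fun k' => ?_
  by_cases e : k' = k
  · subst e
    simp only [shear, Function.update_self]
    exact (differentiableOn_apply _ _).add ((El.dif_lin ho C).const_mul σ)
  · simp only [shear, Function.update_of_ne e]
    exact differentiableOn_apply _ _

theorem core_free (h : T.WF) {k : ι} (hl : Sum.inl k :: l₂ <:+ T.top) (N : Num T l₂ C R) :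
    Core T (Sum.inl k) l₂ C
      (fun b x => if b = Sum.inl k then x k else T.s b (shear T l₂ C k 1 x)) (shear T l₂ C k 1) R := by
  have hF : k ∉ T.Fv := fun hF => h.dj k hF (hl.subset List.mem_cons_self)
  have hk := h.not_mem hl
  have hl' := suffix_tail hl
  have i1 : ∀ b ∈ l₂, Ind k (T.s b) ∧ ∀ j, b = Sum.inr j → Ind k (T.u j) := fun b hb =>
    h.ind_s hl' hk (fun e => absurd e hF) hb
  refine ⟨h, hl, N.C1, N.C0, fun b hb x => by simp [hb], fun x => by simp [h.sN, shear],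
    fun b hb => ?_, fun j hj x => (i1 _ hj).2 j rfl x _, fun l₀ h₀ x hx => ⟨?_, fun g hg => ?_⟩,
    dif_shear (T1_ok h hl') k 1, fun x hx hr k' => ?_, fun k' x => ?_, fun j hj k' h1 h2 => ?_,
    N.hR, N.hO⟩
  · funext x
    rw [if_neg (by rintro rfl; exact hk hb)]
    exact (i1 b hb).1 x _
  · exact T2_upd h (h₀.trans hl') (fun e => hk (h₀.subset e)) (fun e => absurd e hF) hx
      fun e => absurd e hF
  · exact T3_liou h (h₀.trans hl') (fun e => hk (h₀.subset e)) hF (A1_diff hg)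
      (A1_bd (T1_ok h (h₀.trans hl')) le_rfl hg) hx _
  · by_cases e : k' = k
    · subst e
      simp only [shear, Function.update_self, one_mul, Complex.add_im, hr k',
        im_lin fun b hb => T6_real h hl' b hb x hx hr, add_zero]
    · simp only [shear, Function.update_of_ne e, hr k']
  · split_ifs with e
    · rw [Sum.inl.inj e]
    · rw [h.sN, shear, Function.update_of_ne fun e' => e (by rw [e'])]
  · obtain ⟨i2, i3⟩ := h.ind j hj k' h1 h2
    simp only [reduceCtorEq, if_false]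
    by_cases ha : Sum.inl k ∈ T.lv j
    · have sub : ∀ b ∈ l₂, b ∈ T.lv j := by
        obtain ⟨l', hl''⟩ := exists_suffix_of_mem ha
        obtain rfl := suffix_unique h.nd (hl''.trans (lv_top hj.le)) hl
        exact fun b hb => (suffix_tail hl'').subset hb
      have com := shear_com (C := C) (k := k) (k' := k') (by rintro rfl; exact h1 ha)
        (ind_lin (fun b hb => ind_lv h hj h1 h2 (sub b hb)) C) 1
      exact ⟨fun x w => by beta_reduce; rw [com, i2], fun x w => by simp only [Function.comp]; rw [com, i3]⟩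
    · obtain ⟨i4, i5⟩ := h.ind j hj k ha (Or.inl hF)
      exact ⟨fun x w => by simp only [shear]; rw [i4, i4, i2],
        fun x w => by simp only [Function.comp, shear]; rw [i5, i5, i3]⟩

end En

open En

theorem E1_norm (h : T.WF) (hp : T.Pt U p) (hl : l <:+ T.top)
    (hW : ∀ k ∈ W, k ∈ T.Fv ∧ T.Free l k) {γ : ι ⊕ ℕ → ℝ}
    (hγ : Tendsto (fun i => (T.lin l γ (p i)).re) U atTop) :
    ∃ (T' : Tw ι) (p' : α → ι → ℂ) (Φ : (ι → ℂ) → ι → ℂ) (γ' : ι ⊕ ℕ → ℝ),
      T.Lift T' U 0 W p p' Φ ∧ T.Same T' 0 Φ ∧ T'.r = T.r ∧ (∀ a, 0 ≤ γ' a) ∧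
      (∃ a ∈ l, 0 < γ' a) ∧ (∀ x ∈ T'.D l, T.lin l γ (Φ x) = T'.lin l γ' x) ∧
      (∀ k ∈ T.Fv, ∀ x, Φ x k = x k) ∧ ∀ k ∈ T.Fv, ∀ i, p' i k = p i k := by
  have hne : ∃ b ∈ l, γ b ≠ 0 := by
    by_contra hc
    push Not at hc
    have : ∀ i, (T.lin l γ (p i)).re = 0 := fun i => by
      rw [re_lin]; exact Finset.sum_eq_zero fun b hb => by rw [hc b (List.mem_toFinset.1 hb), zero_mul]
    obtain ⟨i, hi⟩ := (hγ.eventually_gt_atTop 0).exists
    exact hi.ne' (this i)
  obtain ⟨l₁, a, l₂, rfl, h1, h2⟩ := first_ne hne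
  have nd := hl.sublist.nodup h.nd
  have hla : a :: l₂ <:+ T.top := (List.suffix_append _ _).trans hl
  have ha : a ∈ T.top := hla.subset List.mem_cons_self
  have hpos : 0 < γ a := by
    refine lt_of_le_of_ne (not_lt.1 fun hc => ?_) h1.symm
    obtain ⟨i, i1, i2, i3⟩ := ((hγ.eventually_gt_atTop 0).and (((hp.big a ha).eventually_gt_atTop
      0).and ((lin_ratio hp hla γ).eventually (gt_mem_nhds (neg_pos.2 hc))))).exists
    rw [lin_append_zero _ nd h2, lin_cons (h.not_mem hla), Complex.add_re, Complex.re_ofReal_mul] at i1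
    rw [div_lt_iff₀ i2] at i3
    linarith
  obtain ⟨C, hC⟩ : ∃ C : ι ⊕ ℕ → ℝ, C = fun b => if b ∈ l₂.toFinset then 1 + |γ b| / γ a else 0 :=
    ⟨_, rfl⟩
  have C1 : ∀ b ∈ l₂, 1 ≤ C b := fun b hb => by
    simp only [hC, List.mem_toFinset, hb, if_true]
    have : 0 ≤ |γ b| / γ a := by positivity
    linarith
  have C0 : ∀ b, b ∉ l₂ → C b = 0 := fun b hb => by simp only [hC, List.mem_toFinset, hb, if_false]
  obtain ⟨R₁, -, hR₁⟩ := Om_sum l₂.toFinset (fun b hb => C1 b (List.mem_toFinset.1 hb)) h.R1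
  obtain ⟨R, hR⟩ : ∃ R, R = max 1 (max R₁ (T.R * (1 + ∑ b ∈ l₂.toFinset, C b))) := ⟨_, rfl⟩
  have R1 : 1 ≤ R := hR ▸ le_max_left _ _
  have R2 : R₁ ≤ R := hR ▸ (le_max_left _ _).trans (le_max_right _ _)
  have N : Num T l₂ C R := ⟨C1, C0, hR ▸ (le_max_right _ _).trans (le_max_right _ _),
    fun w v hw hv => hR₁ w v (Om_anti R1 R2 hw) fun b hb => Om_anti R1 R2 (hv b hb)⟩
  have fin : ∀ {s' Φ}, Core T a l₂ C s' Φ R → ∃ γ' : ι ⊕ ℕ → ℝ, (∀ a, 0 ≤ γ' a) ∧
      (∃ b ∈ l₁ ++ a :: l₂, 0 < γ' b) ∧ ∀ x ∈ (nw T a C s' Φ R).D (l₁ ++ a :: l₂),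
        T.lin (l₁ ++ a :: l₂) γ (Φ x) = (nw T a C s' Φ R).lin (l₁ ++ a :: l₂) γ' x := by
    intro s' Φ H
    refine ⟨fun b => max (γ b + γ a * C b) 0, fun _ => le_max_right _ _, ⟨a, by simp, ?_⟩,
      fun x _ => ?_⟩
    · exact lt_max_of_lt_left (by rw [C0 a (h.not_mem hla)]; linarith)
    · rw [H.lin_pull hl]
      refine El.lin_congr (fun _ _ => rfl) fun b hb => ?_
      rw [if_pos (by simp), max_eq_left]
      by_cases hb2 : b ∈ l₂
      · simp only [hC, List.mem_toFinset, hb2, if_true]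
        rw [mul_add, mul_div_cancel₀ _ h1]
        linarith [neg_abs_le (γ b)]
      · rw [C0 b hb2]
        rcases List.mem_append.1 hb with e | e
        · rw [h2 b e]; simp
        · rw [(List.mem_cons.1 e).resolve_right hb2]; linarith
  rcases a with k | j
  · have H := core_free h hla N
    have hF : k ∉ T.Fv := fun hF => h.dj k hF ha
    have hl' := suffix_tail hla
    have ik : Ind k (T.lin l₂ C) := ind_lin
      (fun b hb => (h.ind_s hl' (h.not_mem hla) (fun e => absurd e hF) hb).1) C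
    obtain ⟨γ', g1, g2, g3⟩ := fin H
    have opn : ∀ x, shear T l₂ C k 1 x ∈ T.D l₂ →
        𝓝 (shear T l₂ C k 1 x) ≤ map (shear T l₂ C k 1) (𝓝 x) := fun x hx => by
      have c : ContinuousAt (shear T l₂ C k (-1)) (shear T l₂ C k 1 x) :=
        (dif_shear (T1_ok h hl') k (-1)).continuousOn.continuousAt ((h.isOpen_D hl').mem_nhds hx)
      have e1 : shear T l₂ C k (-1) (shear T l₂ C k 1 x) = x := by
        rw [shear_shear ik, add_neg_cancel, shear_zero]
      have e2 : shear T l₂ C k 1 ∘ shear T l₂ C k (-1) = id := by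
        funext y; simp only [Function.comp]; rw [shear_shear ik, neg_add_cancel, shear_zero, id]
      have := map_mono (m := shear T l₂ C k 1) c.tendsto
      rwa [map_map, e2, map_id, e1] at this
    have re : ∀ i, Function.update (p i) k ((p i k - T.lin l₂ C (p i)).re : ℂ) ∈ Rp ι := by
      intro i k'
      by_cases e : k' = k
      · subst e; simp
      · simp only [Function.update_of_ne e]; exact hp.re i k'
    have hp' : ∀ᶠ i in U, shear T l₂ C k 1
        (Function.update (p i) k ((p i k - T.lin l₂ C (p i)).re : ℂ)) = p i := by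
      filter_upwards [T5_mem h hp hl'] with i hi
      have e : (((p i k - T.lin l₂ C (p i)).re : ℝ) : ℂ) = p i k + -1 * T.lin l₂ C (p i) :=
        Complex.ext (by simp; ring) (by
          simp [hp.re i k, im_lin fun b hb => T6_real h hl' b hb _ hi (hp.re i)])
      rw [e]
      exact (shear_shear ik 1 (-1) (p i)).trans (by rw [neg_add_cancel, shear_zero])
    have ne : ∀ k' ∈ T.Fv, k' ≠ k := by rintro k' hk' rfl; exact hF hk'
    obtain ⟨L, S⟩ := H.fin (W := W) hp (fun k' hk' => shear_com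
        (ne k' (hW _ hk').1) (ind_lin (fun b hb => (h.ind_s hl
          (fun e => h.dj k' (hW _ hk').1 (hl.subset e)) (fun _ => (hW _ hk').2)
          (List.mem_append_right _ (List.mem_cons_of_mem _ hb))).1) C) 1) opn re hp'
      (fun k' hk' i => Function.update_of_ne (fun e => hk' (by rw [e])) _ _)
    exact ⟨_, _, _, γ', L, S, rfl, g1, g2, g3, fun k' hk' x => Function.update_of_ne (ne k' hk') _ _,
      fun k' hk' i => Function.update_of_ne (ne k' hk') _ _⟩
  · have H := core_tied h hla N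
    obtain ⟨γ', g1, g2, g3⟩ := fin H
    obtain ⟨L, S⟩ := H.fin (W := W) (p' := p) hp (fun _ _ _ _ => rfl) (fun x _ => by simp) hp.re
      (Eventually.of_forall fun _ => rfl) fun _ _ _ => rfl
    exact ⟨_, _, _, γ', L, S, rfl, g1, g2, g3, fun _ _ _ => rfl, fun _ _ _ => rfl⟩

end Crest.Agent.N207.O
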