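import Crest.Agent.N207.O.Fin1
import Crest.Agent.N207.O.El1
import Crest.Agent.N207.O.Ost
import Crest.Agent.N207.J.PLT

/-!
# Row 207, block O (helper63): the weak Lojasiewicz inequality on trees
-/

set_option autoImplicit false
set_option linter.unusedSectionVars false

open Set Filter Topology Metric

noncomputable section

namespace Crest.Agent.N207.O

/-- the initial tower (the statement of `I1_ini`) -/
def INI : Prop := ∀ (α : Type) (U : Ultrafilter α) (n m : ℕ) (θ : α → Fin n → ℝ) (θ₀ : Fin n → ℝ),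
  Tendsto θ U (𝓝 θ₀) → ∀ L : α → Fin m → ℝ, (∀ e, Tendsto (fun i => L i e) U atTop) →
    ∃ (ι : Type) (_ : Fintype ι) (_ : DecidableEq ι) (T : Tw ι) (p : α → ι → ℂ) (κ : Fin n → ι)
      (Λ : Fin m → (ι → ℂ) → ℂ), T.WF ∧ T.Sp ∧ T.Pt U p ∧ (∀ k, κ k ∈ T.Fv) ∧
      (∀ᶠ i in U, (∀ k, (θ i k : ℂ) = θ₀ k + p i (κ k)) ∧ ∀ e, (L i e : ℂ) = Λ e (p i)) ∧
      (∀ e, ∃ (γ : ι ⊕ ℕ → ℝ) (b : (ι → ℂ) → ℂ), T.fr.A T.top b ∧ RR (T.D T.top) b ∧
        ∀ x ∈ T.D T.top, Λ e x = T.lin T.top γ x + b x) ∧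
      ∀ (e : Fin m) (C : ℝ), ∃ R₀ : ℝ, ∀ R ≥ R₀, ∀ r : ι → ℝ,
        (∀ k ∈ T.Fv, 0 < r k ∧ r k ≤ T.r k) → MapsTo (Λ e) ((T.shr R r).D T.top) (J.Om C) ∧
        ∀ (E : Type) [NormedAddCommGroup E] [NormedSpace ℂ E] (N : ℂ → E) (c : ℕ → ℕ → E),
          J.Dul C N c → (T.shr R r).fr.St T.top (fun x => N (Λ e x)) fun _ => c 0 0

variable {α : Type} {U : Ultrafilter α} {Θ V : Type} [Fintype Θ] [Fintype V] [DecidableEq Θ]
  [DecidableEq V]

/-- the initial tower on which the reduced function is in the class -/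
theorem ini_cls (hI : INI) (D : CB.OD Θ V) {θ : α → Θ → ℝ} {L : α → V → ℝ} {r : ℝ} (hr : r < D.ρ)
    (hθ : ∀ i, ‖θ i‖ ≤ r) (hL : ∀ w, Tendsto (fun i => L i w) U atTop) :
    ∃ (ι : Type) (_ : Fintype ι) (_ : DecidableEq ι) (T : Tw ι) (p : α → ι → ℂ) (κ : Θ → ι)
      (Λ : V → (ι → ℂ) → ℂ) (θ₀ : Θ → ℝ), T.WF ∧ T.Sp ∧ T.Pt U p ∧ (∀ k, κ k ∈ T.Fv) ∧
      (∀ᶠ i in U, (∀ k, (θ i k : ℂ) = θ₀ k + p i (κ k)) ∧ ∀ e, (L i e : ℂ) = Λ e (p i)) ∧
      (∀ e, ∃ (γ : ι ⊕ ℕ → ℝ) (b : (ι → ℂ) → ℂ), T.AR T.top b ∧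
        ∀ x ∈ T.D T.top, Λ e x = T.lin T.top γ x + b x) ∧
      T.fr.A T.top fun x => D.f (fun k => θ₀ k + x (κ k)) fun e => Λ e x := by
  obtain ⟨θ₀, h0, hl⟩ := (isCompact_closedBall (0 : Θ → ℝ) r).ultrafilter_le_nhds' (U.map θ)
    (Ultrafilter.mem_map.2 (Eventually.of_forall fun i => by simpa using hθ i))
  have hl' : Tendsto θ U (𝓝 θ₀) := hl
  let e1 := Fintype.equivFin Θ
  let e2 := Fintype.equivFin V
  obtain ⟨ι, _, _, T, p, κ, Λ, h, hs, hp, hκ, hv, hΛ, hN⟩ := hI _ U _ _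
    (fun i k => θ i (e1.symm k)) (fun k => θ₀ (e1.symm k))
    (tendsto_pi_nhds.2 fun k => tendsto_pi_nhds.1 hl' _) (fun i e => L i (e2.symm e))
    fun e => hL _
  choose R₀ hR₀ using fun e => hN e D.C
  obtain ⟨R1, hR1⟩ := (Set.finite_range R₀).bddAbove
  set δ := (D.ρ - r) / 4 with hδ
  have δ0 : 0 < δ := by positivity
  let r1 : ι → ℝ := fun k => min (T.r k) δ
  have hr1 : ∀ k ∈ T.Fv, 0 < r1 k ∧ r1 k ≤ T.r k := fun k hk =>
    ⟨lt_min (h.r0 k hk) δ0, min_le_left _ _⟩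
  have h1 := (T4_shr h (le_max_left T.R R1) hr1).1
  have o1 : (T.shr (max T.R R1) r1).fr.Ok T.top := T1_ok h1 (by rw [Tw.shr_top])
  have hφ : ∀ {R : ℝ}, ∀ x ∈ (T.shr R r1).D [],
      ‖fun k => (θ₀ k : ℂ) + x (κ (e1 k))‖ ≤ r + δ := fun x hx => by
    refine (pi_norm_le_iff_of_nonneg (by linarith [norm_nonneg θ₀, mem_closedBall_zero_iff.1 h0])).2
      fun k => (norm_add_le _ _).trans (add_le_add ?_ ((hx _ (hκ _)).le.trans (min_le_right _ _)))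
    rw [Complex.norm_real]
    exact (norm_le_pi_norm θ₀ k).trans (mem_closedBall_zero_iff.1 h0)
  have hS := st_pair o1 (φ := fun x k => (θ₀ k : ℂ) + x (κ (e1 k)))
    ⟨Differentiable.differentiableOn (by fun_prop), _, hφ⟩
    (g := fun w x => D.N w (Λ (e2 w) x)) (c := fun w => D.co w 0 0) fun w =>
      (hR₀ (e2 w) _ ((hR1 ⟨_, rfl⟩).trans (le_max_right _ _)) r1 hr1).2 _ _ _ (D.dul w)
  obtain ⟨R2, hR2⟩ := C4_near o1 hS δ0
  have hR : T.R ≤ max (max T.R R1) R2 := (le_max_left _ _).trans (le_max_left _ _)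
  obtain ⟨h2, hsub, hSub⟩ := T4_shr h hR hr1
  have o2 : (T.shr (max (max T.R R1) R2) r1).fr.Ok T.top := T1_ok h2 (by rw [Tw.shr_top])
  have hJ := (hR2 _ o2 (((T4_shr h1 (le_max_left _ R2) fun k hk => ⟨(hr1 k hk).1, le_rfl⟩).2.2 _
    (by rw [Tw.shr_top])).mono (le_max_right _ _))).1
  have hA := C2_compD o2 isOpen_ball δ0 (fun y hy => ?_) D.hol ⟨_, D.bd⟩ hJ
  · refine ⟨ι, _, _, T.shr (max (max T.R R1) R2) r1, p, fun k => κ (e1 k), fun e => Λ (e2 e), θ₀,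
      h2, by unfold Tw.Sp; rw [Tw.shr_top]; exact hs, El.pt_shr hp _ _, fun k => hκ _,
      hv.mono fun i hi => ⟨fun k => by simpa using hi.1 (e1 k), fun e => by simpa using hi.2 (e2 e)⟩,
      fun e => ?_, by rw [Tw.shr_top]; exact hA⟩
    obtain ⟨γ, b, b1, b2, b3⟩ := hΛ (e2 e)
    rw [Tw.shr_top]
    exact ⟨γ, b, ⟨b1.restrict (hSub _ List.suffix_rfl), fun x hx => b2 x (hsub _ hx)⟩,
      fun x hx => b3 x (hsub _ hx)⟩
  · have r0 : 0 ≤ r + δ := by linarith [norm_nonneg θ₀, mem_closedBall_zero_iff.1 h0]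
    have k := cthickening_subset_of_subset δ (E₂ := closedBall ((0 : Θ → ℂ), fun w => D.co w 0 0)
      (r + δ)) (by
        rintro _ ⟨x, hx, rfl⟩
        rw [mem_closedBall, Prod.dist_eq, dist_self, dist_zero_right]
        exact max_le (hφ x hx) r0) hy
    rw [cthickening_closedBall δ0.le r0, mem_closedBall] at k
    exact ball_subset_ball' (by linarith)

theorem ost_of (hMF : MF) (hI : INI) : OST := by
  intro Θ V _ _ _ _ D α U θ L r hr hθ hL h0 a ha η hη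
  obtain ⟨ι, _, _, T, p, κ, Λ, θ₀, h, hs, hp, hκ, hv, hΛ, hA⟩ := ini_cls hI D hr hθ hL (U := U)
  have hv' : ∀ᶠ i in U, (fun k => (θ₀ k : ℂ) + p i (κ k)) = (fun k => (θ i k : ℂ)) ∧
      (fun e => Λ e (p i)) = fun e => (L i e : ℂ) :=
    hv.mono fun i hi => ⟨funext fun k => (hi.1 k).symm, funext fun e => (hi.2 e).symm⟩
  obtain ⟨T', p', Φ, c, hM, hc, H⟩ := loj hMF h hs hp hA
    (h0.congr' (hv'.mono fun i hi => by simp only [hi.1, hi.2]))
  have pb := hM.top le_rfl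
  have o' := T1_ok hM.wf List.suffix_rfl
  have hη' : 0 < η * c := mul_pos hη hc
  have a1 : ∀ k, T'.fr.A T'.top ((fun x => x (κ k)) ∘ Φ) := fun k =>
    pb.cl _ (Tw.AR.coord (T1_ok h List.suffix_rfl) (hκ k)).a
  have a2 : ∀ e, ∃ (γ : ι ⊕ ℕ → ℝ) (b : (ι → ℂ) → ℂ), T'.fr.A T'.top b ∧
      ∀ x ∈ T'.D T'.top, (Λ e ∘ Φ) x = T'.lin T'.top γ x + b x := fun e => by
    obtain ⟨γ, b, b1, b2⟩ := hΛ e
    obtain ⟨γ', b', b3, b4⟩ := pb.lin o' γ
    exact ⟨γ', _, (b3.add o' (pb.ar b1)).a, fun x hx => by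
      rw [Function.comp, b2 _ (pb.maps hx), b4 x hx, add_assoc]; rfl⟩
  have k1 : ∀ᶠ i in U, ∀ k, ‖fderiv ℂ ((fun x => x (κ k)) ∘ Φ) (p' i) T'.dir‖ ≤ η * c :=
    eventually_all.2 fun k =>
      (Q2_der hM.wf hM.pt (a1 k)).norm.eventually_le_const (by simpa using hη')
  have k2 : ∀ᶠ i in U, ∀ e,
      ‖fderiv ℂ (Λ e ∘ Φ) (p' i) T'.dir‖ ≤ η * c * Real.exp (a * L i e) :=
    eventually_all.2 fun e => by
      obtain ⟨γ, b, b1, b2⟩ := a2 e
      refine O4_up hM.wf hM.pt b1 b2 (hL e) ?_ ha hη'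
      filter_upwards [hv, hM.hp] with i h1 h2
      rw [Function.comp, h2, h1.2]
  have k3 : ∀ᶠ i in U, ∀ e, (L i e : ℂ) ∈ J.Om D.C :=
    eventually_all.2 fun e => (hL e).eventually (J.eventually_mem_Om _)
  have k4 : ∀ᶠ i in U, ∀ e, ‖D.N e (L i e) - D.co e 0 0‖ < D.ρ := eventually_all.2 fun e => by
    obtain ⟨B, hB⟩ := (D.dul e).est 1
    have t : Tendsto (fun i => B * Real.exp (-((1 : ℕ) : ℝ) * (L i e : ℂ).re / 4)) U (𝓝 0) := by
      simpa using (Real.tendsto_exp_atBot.comp ((tendsto_neg_atTop_atBot.comp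
        (hL e)).atBot_div_const (show (0 : ℝ) < 4 by norm_num))).const_mul B
    filter_upwards [k3, t.eventually_lt_const D.ρ_pos] with i h1 h2
    refine lt_of_le_of_lt ?_ h2
    simpa [J.psum, J.mon_zero] using hB _ (h1 e)
  filter_upwards [H, k1, k2, k3, k4, hv', hM.hp, T5_mem hM.wf hM.pt List.suffix_rfl]
    with i j0 j1 j2 j3 j4 j5 j6 j7
  have hH : DifferentiableAt ℂ (fun z : (Θ → ℂ) × (V → ℂ) => D.f z.1 z.2)
      (fun k => (θ i k : ℂ), fun e => (L i e : ℂ)) := by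
    refine (D.hol.differentiableAt (isOpen_ball.mem_nhds ?_)).comp _
      (differentiableAt_fst.prodMk (differentiableAt_pi.2 fun e =>
        ((D.dul e).diff.differentiableAt ((J.isOpen_Om _).mem_nhds (j3 e))).comp
          (fun k => (θ i k : ℂ), fun e => (L i e : ℂ))
          (f := fun z : (Θ → ℂ) × (V → ℂ) => z.2 e) (by fun_prop)))
    rw [mem_ball, Prod.dist_eq, dist_zero_right, dist_eq_norm]
    refine max_lt (lt_of_le_of_lt ?_ hr) ((pi_norm_lt_iff D.ρ_pos).2 j4)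
    refine (pi_norm_le_iff_of_nonneg ((norm_nonneg _).trans (hθ i))).2 fun k => ?_
    rw [Complex.norm_real]
    exact (norm_le_pi_norm (θ i) k).trans (hθ i)
  have dZ : HasFDerivAt (fun x => ((fun k => (θ₀ k : ℂ) + Φ x (κ k), fun e => Λ e (Φ x)) :
      (Θ → ℂ) × (V → ℂ)))
      ((ContinuousLinearMap.pi fun k => fderiv ℂ ((fun x => x (κ k)) ∘ Φ) (p' i)).prod
        (ContinuousLinearMap.pi fun e => fderiv ℂ (Λ e ∘ Φ) (p' i))) (p' i) := by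
    refine (hasFDerivAt_pi.2 fun k => (hM.wf.dAt_A (a1 k) j7).hasFDerivAt.const_add _).prodMk
      (hasFDerivAt_pi.2 fun e => DifferentiableAt.hasFDerivAt ?_)
    obtain ⟨γ, b, b1, b2⟩ := a2 e
    exact ((hM.wf.fd_lin γ j7).differentiableAt.add (hM.wf.dAt_A b1 j7)).congr_of_eventuallyEq
      (eventually_of_mem ((hM.wf.isOpen_D List.suffix_rfl).mem_nhds j7) b2)
  have e := (HasFDerivAt.comp (p' i) (by simpa only [j6, j5.1, j5.2] using hH.hasFDerivAt) dZ).fderiv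
  simp only [j5.1, j5.2] at j0
  erw [e] at j0
  refine le_of_mul_le_mul_left (j0.trans ((part_le hH).trans ?_)) hc
  rw [← mul_assoc, mul_comm c, mul_add, Finset.mul_sum, Finset.mul_sum]
  exact add_le_add (Finset.sum_le_sum fun k _ => mul_le_mul_of_nonneg_right (j1 k) (norm_nonneg _))
    (Finset.sum_le_sum fun e _ => by
      rw [← mul_assoc]; exact mul_le_mul_of_nonneg_right (j2 e) (norm_nonneg _))

end Crest.Agent.N207.O
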