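import Crest.Agent.N207.O.O4
import Crest.Agent.N207.O.Comp
import Crest.Agent.N207.O.Cj

/-!
# Row 207, block O (helper63): tools for the final assembly
-/

set_option autoImplicit false
set_option linter.unusedSectionVars false

open Set Filter Topology Metric

noncomputable section

namespace Crest.Agent.N207.O

section ST
variable {X κ E E' : Type*} [NormedAddCommGroup X] [NormedSpace ℂ X] [NormedAddCommGroup E]
  [NormedSpace ℂ E] [NormedAddCommGroup E'] [NormedSpace ℂ E'] {F : Fr X κ}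

theorem st_clm (L : E →L[ℂ] E') {gb : X → E} : ∀ {l : List κ} {g : X → E}, F.St l g gb →
    F.St l (fun x => L (g x)) fun x => L (gb x)
  | [], _, h => ⟨A3_clm L h.1, A3_clm L h.2.1, fun _ hx => congrArg L (h.2.2 hx)⟩
  | _ :: _, _, h => by
    obtain ⟨h1, c, g1, γ, h2, h3, h4, h5⟩ := h
    exact ⟨A3_clm L h1, _, _, γ, h2, st_clm L h3, A3_clm L h4, fun x hx => by
      simp only [h5 x hx, map_add, map_smul]⟩

theorem st_add {gb gb' : X → E} : ∀ {l : List κ} {g g' : X → E}, F.Ok l → F.St l g gb →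
    F.St l g' gb' → F.St l (fun x => g x + g' x) fun x => gb x + gb' x
  | [], _, _, hF, h, h' => ⟨A3_add hF h.1 h'.1, A3_add hF h.2.1 h'.2.1, fun _ hx =>
      congrArg₂ (· + ·) (h.2.2 hx) (h'.2.2 hx)⟩
  | a :: l, _, _, hF, h, h' => by
    obtain ⟨h1, c, g1, γ, h2, h3, h4, h5⟩ := h
    obtain ⟨k1, c', g1', γ', k2, k3, k4, k5⟩ := h'
    have m1 := sub_nonneg.2 (min_le_left γ γ')
    have m2 := sub_nonneg.2 (min_le_right γ γ')
    refine ⟨A3_add hF h1 k1, _, _, min γ γ', lt_min h2 k2, st_add hF.1 h3 k3,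
      A3_add hF (A3_mono (A5_ex hF m1 h4) m1) (A3_mono (A5_ex hF m2 k4) m2), fun x hx => ?_⟩
    beta_reduce
    rw [h5 x hx, k5 x hx, smul_add, smul_smul, smul_smul, ← Fr.ex_add, ← Fr.ex_add,
      add_sub_cancel, add_sub_cancel]
    abel

theorem st_sum {I : Type*} {l : List κ} (hF : F.Ok l) (J : Finset I) {g gb : I → X → E}
    (h : ∀ i ∈ J, F.St l (g i) (gb i)) :
    F.St l (fun x => ∑ i ∈ J, g i x) fun x => ∑ i ∈ J, gb i x := by
  classical
  induction J using Finset.induction_on with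
  | empty => simpa using Fr.St.of_nil hF (Fr.Cl.zero' (F := F) (E := E))
  | insert i J hi ih =>
    simp only [Finset.sum_insert hi]
    exact st_add hF (h i (Finset.mem_insert_self _ _))
      (ih fun j hj => h j (Finset.mem_insert_of_mem hj))

theorem st_pair {V : Type*} [Fintype V] [DecidableEq V] {l : List κ} (hF : F.Ok l) {φ : X → E'}
    (hφ : F.A [] φ) {g : V → X → E} {c : V → E} (h : ∀ w, F.St l (g w) fun _ => c w) :
    F.St l (fun x => (φ x, fun w => g w x)) fun x => (φ x, c) := by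
  have k := st_add hF (st_clm (ContinuousLinearMap.inl ℂ E' (V → E)) (Fr.St.of_nil hF hφ))
    (st_clm (ContinuousLinearMap.inr ℂ E' (V → E)) (st_sum hF Finset.univ fun w _ =>
      st_clm (ContinuousLinearMap.single ℂ (fun _ : V => E) w) (h w)))
  simpa [Finset.univ_sum_single] using k

/-- derivative along a real line -/
theorem line_der {f : X → ℂ} {x : X} (hf : DifferentiableAt ℂ f x) (v : X) :
    HasDerivAt (fun t : ℝ => f (x + (t : ℂ) • v)) (fderiv ℂ f x v) 0 := by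
  have h1 : HasDerivAt (fun t : ℂ => x + t • v) v ((0 : ℝ) : ℂ) := by
    simpa using ((hasDerivAt_id (0 : ℂ)).smul_const v).const_add x
  exact (HasFDerivAt.comp_hasDerivAt_of_eq _ hf.hasFDerivAt h1 (by simp)).comp_ofReal

/-- derivative of `f * conj f` along a real line -/
theorem sq_der {f f' : X → ℂ} {x v : X} (hf : DifferentiableAt ℂ f x)
    (hf' : DifferentiableAt ℂ f' x)
    (h : ∀ᶠ t : ℝ in 𝓝 0, f' (x + (t : ℂ) • v) = (starRingEnd ℂ) (f (x + (t : ℂ) • v))) :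
    ‖fderiv ℂ (fun y => f y * f' y) x v‖ ≤ 2 * (‖f x‖ * ‖fderiv ℂ f x v‖) := by
  have h1 : fderiv ℂ f' x v = star (fderiv ℂ f x v) :=
    (line_der hf' v).unique ((line_der hf v).star.congr_of_eventuallyEq h)
  have h2 : f' x = star (f x) := by simpa using h.self_of_nhds
  rw [fderiv_fun_mul hf hf']
  simp only [add_apply, smul_apply, smul_eq_mul, h1, h2]
  refine (norm_add_le _ _).trans (le_of_eq ?_)
  simp only [norm_mul, norm_star]
  ring

/-- the derivative through the partial derivatives -/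
theorem part_le {Θ V : Type*} [Fintype Θ] [Fintype V] [DecidableEq Θ] [DecidableEq V]
    {H : (Θ → ℂ) × (V → ℂ) → ℂ} {θ u : Θ → ℂ} {L v : V → ℂ} (hH : DifferentiableAt ℂ H (θ, L)) :
    ‖fderiv ℂ H (θ, L) (u, v)‖ ≤
      ∑ j, ‖u j‖ * ‖deriv (fun t => H (Function.update θ j t, L)) (θ j)‖ +
        ∑ w, ‖v w‖ * ‖deriv (fun t => H (θ, Function.update L w t)) (L w)‖ := by
  have h1 : ∀ j, deriv (fun t => H (Function.update θ j t, L)) (θ j) =
      fderiv ℂ H (θ, L) (Pi.single j 1, 0) := fun j =>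
    (HasFDerivAt.comp_hasDerivAt_of_eq _ hH.hasFDerivAt
      ((hasDerivAt_update θ j (θ j)).prodMk (hasDerivAt_const _ L)) (by simp)).deriv
  have h2 : ∀ w, deriv (fun t => H (θ, Function.update L w t)) (L w) =
      fderiv ℂ H (θ, L) (0, Pi.single w 1) := fun w =>
    (HasFDerivAt.comp_hasDerivAt_of_eq _ hH.hasFDerivAt
      ((hasDerivAt_const _ θ).prodMk (hasDerivAt_update L w (L w))) (by simp)).deriv
  have e : (u, v) = ∑ j, u j • ((Pi.single j 1, 0) : (Θ → ℂ) × (V → ℂ)) +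
      ∑ w, v w • ((0, Pi.single w 1) : (Θ → ℂ) × (V → ℂ)) := by
    ext k <;> simp [Prod.fst_sum, Prod.snd_sum, Finset.sum_apply, Pi.single_apply]
  rw [e, map_add, map_sum, map_sum]
  refine (norm_add_le _ _).trans (add_le_add ((norm_sum_le _ _).trans (le_of_eq ?_))
    ((norm_sum_le _ _).trans (le_of_eq ?_))) <;> simp only [map_smul, norm_smul, h1, h2]

end ST

/-- monomialisation (the statement of `M_fin`) -/
def MF : Prop := ∀ (ι : Type) [Fintype ι] [DecidableEq ι] (α : Type) (U : Ultrafilter α)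
  (T : Tw ι) (p : α → ι → ℂ) (g : (ι → ℂ) → ℂ), T.WF → T.Sp → T.Pt U p → T.fr.A T.top g →
    RR (T.D T.top) g → ∃ (T' : Tw ι) (p' : α → ι → ℂ) (Φ : (ι → ℂ) → ι → ℂ),
      T.Lift T' U (T.p + 1) ∅ p p' Φ ∧
        (EqOn (g ∘ Φ) 0 (T'.D T'.top) ∨ T'.MU U p' T'.top ∅ (g ∘ Φ))

variable {ι : Type} [Fintype ι] [DecidableEq ι] {α : Type} {U : Ultrafilter α} {T : Tw ι}
  {p : α → ι → ℂ}

/-- the logarithmic derivative estimate for a complex element of the class -/
theorem loj (hMF : MF) (h : T.WF) (hs : T.Sp) (hp : T.Pt U p) {f : (ι → ℂ) → ℂ} (hf : T.fr.A T.top f)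
    (h0 : Tendsto (fun i => f (p i)) U (𝓝 0)) : ∃ (T' : Tw ι) (p' : α → ι → ℂ)
      (Φ : (ι → ℂ) → ι → ℂ) (c : ℝ), T.Lift T' U (T.p + 1) ∅ p p' Φ ∧ 0 < c ∧
      ∀ᶠ i in U, c * ‖f (p i)‖ ≤ ‖fderiv ℂ (f ∘ Φ) (p' i) T'.dir‖ := by
  have hf' := J2_A h List.suffix_rfl hf
  have hO := T1_ok h List.suffix_rfl
  have hg := Fr.A.mul hO hf hf'
  have hn : ∀ i, ‖f (p i) * (starRingEnd ℂ) (f (cj (p i)))‖ = ‖f (p i)‖ * ‖f (p i)‖ := fun i => by
    rw [cj_real (hp.re i), norm_mul, Complex.norm_conj]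
  obtain ⟨T1, p1, Φ, hL, H | H⟩ := hMF _ _ _ _ _ _ h hs hp hg fun x _ hx => by
    rw [cj_real hx, Complex.mul_conj, Complex.ofReal_im]
  · refine ⟨T1, p1, Φ, 1, hL, one_pos, ?_⟩
    filter_upwards [hL.hp, T5_mem hL.wf hL.pt List.suffix_rfl] with i h1 h2
    have := congrArg norm (H h2)
    rw [Function.comp, h1, hn, Pi.zero_apply, norm_zero, mul_self_eq_zero] at this
    rw [this, mul_zero]
    exact norm_nonneg _
  obtain ⟨T2, p2, Ψ, c, hL', hc, H'⟩ := O4_low hL.wf hL.pt H (by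
    refine tendsto_zero_iff_norm_tendsto_zero.2 (Tendsto.congr' (hL.hp.mono fun i hi => ?_)
      (by simpa using h0.norm.mul h0.norm))
    simp only [Function.comp, hi, hn])
  have hM := hL.trans (hL'.mono (Nat.zero_le (T.p + 1)) (Finset.Subset.refl _)) le_rfl
  refine ⟨T2, p2, Φ ∘ Ψ, c / 2, hM, half_pos hc, ?_⟩
  have pb := hM.top le_rfl
  filter_upwards [H', hL.hp, hM.hp, T5_mem hM.wf hM.pt List.suffix_rfl] with i k1 k2 k3 k4
  have k5 : ∀ᶠ t : ℝ in 𝓝 0, p2 i + (t : ℂ) • T2.dir ∈ T2.D T2.top := by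
    refine ContinuousAt.eventually_mem (f := fun t : ℝ => p2 i + (t : ℂ) • T2.dir) (by fun_prop) ?_
    simpa using (hM.wf.isOpen_D List.suffix_rfl).mem_nhds k4
  have k6 := sq_der (v := T2.dir) (hM.wf.dAt_A (pb.cl _ hf) k4) (hM.wf.dAt_A (pb.cl _ hf') k4)
    (k5.mono fun t ht => by
      refine congrArg (fun y => (starRingEnd ℂ) (f y)) (cj_real (hM.rea _ ht fun k => ?_))
      simp only [Pi.add_apply, Pi.smul_apply, Tw.dir, Complex.add_im, hM.pt.re i k]
      split_ifs <;> simp)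
  have k7 := k1.trans k6
  rw [Function.comp_apply, k2, hn, Function.comp_apply (f := f), k3] at k7
  rcases (norm_nonneg (f (p i))).eq_or_lt with z | z
  · rw [← z, mul_zero]; exact norm_nonneg _
  · nlinarith

end Crest.Agent.N207.O
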