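import Crest.Agent.N207.O.Sq

/-!
# Row 207, block O (helper99): insertion of new classes, renormalisation, renumbering
-/

set_option autoImplicit false
set_option linter.unusedSectionVars false

open Set Filter Topology Function

noncomputable section

namespace Crest.Agent.N207.O.Sq

variable {α κ : Type*} [DecidableEq κ] {U : Ultrafilter α} {v s : κ → α → ℝ} {l t : List κ}
  {a k : κ} {γ : κ → ℝ} {y w σ : α → ℝ} {c g : ℝ}

theorem lin_upd (h : a ∉ l) (γ : κ → ℝ) (g : ℝ) (σ : α → ℝ) (i : α) :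
    lin (update v a σ) (a :: l) (update γ a g) i = g * σ i + lin v l γ i := by
  rw [lin_cons h, update_self, update_self, lin_congr (s := v) (γ' := γ)
    (fun b hb => update_of_ne (ne_of_mem_of_not_mem hb h) _ _)
    fun b hb => update_of_ne (ne_of_mem_of_not_mem hb h) _ _]

theorem lin_ite (h : l ⊆ t) (i : α) :
    lin v t (fun a => if a ∈ l then γ a else 0) i = lin v l γ i := by
  rw [lin_subset h fun a _ hn => if_neg hn]
  exact lin_congr (fun a ha => if_pos ha) (fun _ _ => rfl) i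

theorem Rep.mono (h : Rep U v l y) (hl : l ⊆ t) (e : ∀ a ∈ l, s a = v a) : Rep U s t y := by
  obtain ⟨γ, c, h⟩ := h
  exact ⟨fun a => if a ∈ l then γ a else 0, c, h.congr fun i => by
    rw [lin_ite hl, lin_congr (fun _ _ => rfl) e]⟩

theorem Ord.upd (h : Ord U v l) (hk : k ∉ l) (σ : α → ℝ) : Ord U (update v k σ) l :=
  h.congr fun a ha => by rw [update_of_ne (ne_of_mem_of_not_mem ha hk)]

theorem Ord.ins {l₂ : List κ} : ∀ {l₁ : List κ}, Ord U v (l₁ ++ l₂) → Gap U v l₁ l₂ σ →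
    k ∉ l₁ ++ l₂ → Ord U (update v k σ) (l₁ ++ k :: l₂)
  | [], h, G, hk => ⟨by rw [update_self]; exact G.big, fun b hb => by
      rw [update_self, update_of_ne (ne_of_mem_of_not_mem hb hk)]; exact G.lo b hb, h.upd hk σ⟩
  | a :: l₁, h, G, hk => by
    have h' := h.upd hk σ
    refine ⟨h'.1, fun b hb => ?_, ins h.2.2 ⟨G.big, G.lo, fun b hb => G.hi b (by simp [hb])⟩
      fun e => hk (List.mem_cons_of_mem _ e)⟩
    by_cases e : b = k
    · rw [e, update_self, update_of_ne (ne_of_mem_of_not_mem List.mem_cons_self hk)]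
      exact G.hi a (by simp)
    · exact h'.2.1 b (by simpa [e] using hb)

theorem Ord.ins1 (h : Ord U v l) (w : α → ℝ) (hk : k ∉ l) : ∃ s t, Ord U s t ∧
    (∀ a ∈ l, s a = v a) ∧ l ⊆ t ∧ (∀ a ∈ t, a ∈ l ∨ a = k) ∧
    (∀ P : κ → Bool, P k = false → t.filter P = l.filter P) ∧ Rep U s t w := by
  rcases h.cls w with r | ⟨γ, η, σ, l₁, l₂, rfl, -, G, e⟩
  · exact ⟨v, l, h, fun _ _ => rfl, fun _ h => h, fun _ h => Or.inl h, fun _ _ => rfl, r⟩
  · have o := h.ins G hk
    refine ⟨_, _, o, fun a ha => update_of_ne (ne_of_mem_of_not_mem ha hk) _ _,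
      fun a ha => by simp at ha ⊢; tauto, fun a ha => by simp at ha ⊢; tauto,
      fun P hP => by simp [hP], update γ k η, 0, ?_⟩
    refine tendsto_const_nhds.congr fun i => ?_
    have : lin (update v k σ) (l₁ ++ k :: l₂) (update γ k η) i =
        lin (update v k σ) (k :: (l₁ ++ l₂)) (update γ k η) i := by
      unfold lin; congr 1; ext a; simp
    rw [this, lin_upd hk, e i]; ring

theorem Ord.insMany (h : Ord U v l) {β : Type*} {f : β → κ} (hf : Injective f)
    (hl : ∀ x, f x ∉ l) (y : β → α → ℝ) (S : Finset β) : ∃ s t, Ord U s t ∧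
    (∀ a ∈ l, s a = v a) ∧ l ⊆ t ∧ (∀ a ∈ t, a ∈ l ∨ ∃ x ∈ S, a = f x) ∧
    (∀ P : κ → Bool, (∀ x, P (f x) = false) → t.filter P = l.filter P) ∧
    ∀ x ∈ S, Rep U s t (y x) := by
  classical
  induction S using Finset.induction_on with
  | empty => exact ⟨v, l, h, fun _ _ => rfl, fun _ h => h, fun _ h => Or.inl h, fun _ _ => rfl,
      by simp⟩
  | insert x S hx ih =>
    obtain ⟨s, t, a1, a2, a3, a4, a5, a6⟩ := ih
    obtain ⟨s', t', b1, b2, b3, b4, b5, b6⟩ := a1.ins1 (y x) (k := f x) fun e =>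
      (a4 _ e).elim (hl x) fun ⟨z, hz, e⟩ => hx (hf e ▸ hz)
    refine ⟨s', t', b1, fun a ha => (b2 a (a3 ha)).trans (a2 a ha), fun a ha => b3 (a3 ha),
      fun a ha => ?_, fun P hP => (b5 P (hP x)).trans (a5 P hP), fun z hz => ?_⟩
    · rcases b4 a ha with c | c
      · exact (a4 a c).imp_right fun ⟨z, hz, e⟩ => ⟨z, Finset.mem_insert_of_mem hz, e⟩
      · exact Or.inr ⟨x, Finset.mem_insert_self _ _, c⟩
    · rcases Finset.mem_insert.1 hz with rfl | hz
      · exact b6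
      · exact (a6 z hz).mono b3 b2

theorem Ord.top_of_pos (h : Ord U v l) (hp : ∀ b ∈ l, 0 < γ b) :
    (∀ a ∈ l, γ a = 0) ∨ Tendsto (lin v l γ) U atTop := by
  cases l with
  | nil => simp
  | cons b l => exact Or.inr (top_of_div h.1 h.lin_div (hp b (by simp)))

theorem ratio_small (hv : Tendsto w U atTop) (h1 : Tendsto (fun i => σ i / w i) U (𝓝 1))
    (hy : Tendsto (fun i => y i / w i) U (𝓝 g)) : Tendsto (fun i => y i / σ i) U (𝓝 g) := by
  have := h1.inv₀ one_ne_zero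
  simpa using div_trans hv hy (c := 1) (by simpa using this)

/-- **renormalisation**: finitely many positive combinations get nonnegative coefficients -/
theorem Ord.rn {β : Type*} [Finite β] : ∀ {t : List κ}, Ord U v t → ∀ γ : β → κ → ℝ,
    (∀ x, (∀ a ∈ t, γ x a = 0) ∨ Tendsto (lin v t (γ x)) U atTop) →
    ∃ (s : κ → α → ℝ) (Φ : (κ → ℝ) → κ → ℝ), Ord U s t ∧
      (∀ a ∈ t, Tendsto (fun i => s a i / v a i) U (𝓝 1)) ∧
      (∀ δ i, lin v t δ i = lin s t (Φ δ) i) ∧ ∀ x, ∀ a ∈ t, 0 ≤ Φ (γ x) a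
  | [], _, _, _ => ⟨v, id, trivial, by simp, fun _ _ => rfl, by simp⟩
  | a :: l, h, γ, hγ => by
    have h0 : ∀ x, 0 ≤ γ x a := fun x => (hγ x).elim (fun k => (k a (by simp)).ge) h.head_nonneg
    obtain ⟨N, hN⟩ : ∃ N : ℝ, ∀ x, 0 < γ x a → ∀ b ∈ l, 0 < γ x b + N * γ x a := by
      refine Eventually.exists (f := atTop) (eventually_all.2 fun x => ?_)
      by_cases c : 0 < γ x a
      · simp only [c, forall_true_left]
        refine (eventually_all_finite l.finite_toSet).2 fun b _ => ?_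
        exact (tendsto_atTop_add_const_left _ _ (tendsto_id.atTop_mul_const c)).eventually_gt_atTop 0
      · simp [c]
    obtain ⟨s, Φ, a1, a2, a3, a4⟩ := rn h.2.2 (fun x b => γ x b + N * γ x a) fun x => by
      rcases (h0 x).eq_or_lt with c | c
      · simp only [← c, mul_zero, add_zero]
        exact (hγ x).imp (fun k b hb => k b (by simp [hb])) fun k => by
          rwa [h.lin_cons0 c.symm] at k
      · exact h.2.2.top_of_pos (hN x c)
    set σ : α → ℝ := fun i => v a i - lin v l (fun _ => N) i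
    have r : Tendsto (fun i => σ i / v a i) U (𝓝 1) := by
      have := (div_self' h.1).sub (lin_small (γ := fun _ => N) h.2.1)
      rw [sub_zero] at this
      exact this.congr fun i => by simp only [σ, sub_div]
    have ne : ∀ b ∈ l, b ≠ a := fun b hb => ne_of_mem_of_not_mem hb h.notMem
    refine ⟨update s a σ, fun δ => update (Φ fun b => δ b + N * δ a) a (δ a),
      ⟨by rw [update_self]; exact top_of_div h.1 r one_pos, fun b hb => ?_, a1.upd h.notMem σ⟩,
      fun b hb => ?_, fun δ i => ?_, fun x b hb => ?_⟩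
    · rw [update_self, update_of_ne (ne b hb)]
      exact ratio_small h.1 r (by simpa using div_trans (h.2.2.big b hb) (a2 b hb) (h.2.1 b hb))
    · rcases List.mem_cons.1 hb with rfl | hb
      · rwa [update_self]
      · rw [update_of_ne (ne b hb)]; exact a2 b hb
    · rw [lin_upd h.notMem, ← a3, lin_cons h.notMem]
      simp only [σ, lin, add_mul, Finset.sum_add_distrib, mul_sub, Finset.mul_sum]
      rw [Finset.sum_congr rfl fun b _ => show δ a * (N * v b i) = N * δ a * v b i by ring]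
      ring
    · rcases List.mem_cons.1 hb with rfl | hb
      · simp only [update_self]; exact h0 x
      · simp only [update_of_ne (ne b hb)]; exact a4 x b hb

/-- every representation of `y` has nonnegative coefficients -/
def Pos (U : Ultrafilter α) (s : κ → α → ℝ) (t : List κ) (y : α → ℝ) : Prop :=
  ∀ γ c, Tendsto (fun i => y i - lin s t γ i) U (𝓝 c) → ∀ a ∈ t, 0 ≤ γ a

theorem Ord.rn2 {β : Type*} [Finite β] (h : Ord U v t) (y : β → α → ℝ)
    (hr : ∀ x, Rep U v t (y x)) (hy : ∀ x, Tendsto (y x) U atTop) :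
    ∃ s : κ → α → ℝ, Ord U s t ∧ (∀ a ∈ t, Tendsto (fun i => s a i / v a i) U (𝓝 1)) ∧
      (∀ δ, ∃ δ', ∀ i, lin v t δ i = lin s t δ' i) ∧ ∀ x, Pos U s t (y x) := by
  choose γ c hc using hr
  obtain ⟨s, Φ, a1, a2, a3, a4⟩ := h.rn γ fun x => Or.inr
    (((hy x).atTop_add (hc x).neg).congr fun i => by ring)
  refine ⟨s, a1, a2, fun δ => ⟨_, a3 δ⟩, fun x δ d hd a ha => ?_⟩
  have := a1.uniq (γ := fun a => δ a - Φ (γ x) a) (((hc x).sub hd).congr fun i => by
    rw [lin_sub, a3]; ring) a ha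
  linarith [a4 x a ha]

/-- the tied levels -/
def tl (ι : Type*) : ℕ → List (ι ⊕ ℕ)
  | 0 => []
  | p + 1 => Sum.inr p :: tl ι p

theorem mem_tl {ι : Type*} {a : ι ⊕ ℕ} : ∀ {p : ℕ}, a ∈ tl ι p ↔ ∃ j < p, a = Sum.inr j
  | 0 => by simp [tl]
  | p + 1 => by
    simp only [tl, List.mem_cons, mem_tl (p := p), Nat.lt_succ_iff_lt_or_eq, or_and_right,
      exists_or, exists_eq_left, or_comm]

theorem lin_tl {ι : Type*} [DecidableEq ι] {s : ι ⊕ ℕ → α → ℝ} (γ : ι ⊕ ℕ → ℝ) (i : α) :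
    ∀ p, lin s (tl ι p) γ i = ∑ j ∈ Finset.range p, γ (Sum.inr j) * s (Sum.inr j) i
  | 0 => by simp [tl, lin]
  | p + 1 => by rw [tl, lin_cons (by simp [mem_tl]), lin_tl γ i p, Finset.sum_range_succ, add_comm]

theorem Ord.reidx (ι : Type*) [DecidableEq ι] (hv : ∀ a i, 0 < v a i) : ∀ {t : List κ},
    Ord U v t → ∃ s : ι ⊕ ℕ → α → ℝ, Ord U s (tl ι t.length) ∧ (∀ a i, 0 < s a i) ∧
      (∀ b ∈ tl ι t.length, ∃ c ∈ t, s b = v c) ∧
      ∀ γ, ∃ γ', ∀ i, lin v t γ i = lin s (tl ι t.length) γ' i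
  | [], _ => ⟨fun _ _ => 1, trivial, fun _ _ => one_pos, by simp [tl], fun _ => ⟨0, fun _ => rfl⟩⟩
  | a :: l, h => by
    obtain ⟨s, a1, a2, a3, a4⟩ := reidx ι hv h.2.2
    have hn : (Sum.inr l.length : ι ⊕ ℕ) ∉ tl ι l.length := by simp [mem_tl]
    refine ⟨update s (Sum.inr l.length) (v a), ⟨by rw [update_self]; exact h.1, fun b hb => ?_,
      a1.upd hn _⟩, fun b i => ?_, fun b hb => ?_, fun γ => ?_⟩
    · obtain ⟨c, hc, e⟩ := a3 b hb
      rw [update_self, update_of_ne (ne_of_mem_of_not_mem hb hn), e]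
      exact h.2.1 c hc
    · by_cases e : b = Sum.inr l.length
      · rw [e, update_self]; exact hv a i
      · rw [update_of_ne e]; exact a2 b i
    · rcases List.mem_cons.1 hb with rfl | hb
      · exact ⟨a, by simp, update_self _ _ _⟩
      · obtain ⟨c, hc, e⟩ := a3 b hb
        exact ⟨c, by simp [hc], by rw [update_of_ne (ne_of_mem_of_not_mem hb hn), e]⟩
    · obtain ⟨γ', e⟩ := a4 γ
      exact ⟨update γ' _ (γ a), fun i => by
        rw [lin_cons h.notMem, e]; exact (lin_upd hn _ _ _ _).symm⟩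

theorem Ord.tl_lt {ι : Type*} [DecidableEq ι] {s : ι ⊕ ℕ → α → ℝ} {j j' : ℕ} (hj : j < j') :
    ∀ {p : ℕ}, Ord U s (tl ι p) → j' < p →
      Tendsto (fun i => s (Sum.inr j) i / s (Sum.inr j') i) U (𝓝 0)
  | 0, _, h => absurd h (Nat.not_lt_zero _)
  | p + 1, h, hp => by
    rcases Nat.lt_succ_iff_lt_or_eq.1 hp with c | rfl
    · exact tl_lt hj h.2.2 c
    · exact h.2.1 _ (mem_tl.2 ⟨j, hj, rfl⟩)

theorem Ord.tl_top {ι : Type*} [DecidableEq ι] {s : ι ⊕ ℕ → α → ℝ} {γ : ι ⊕ ℕ → ℝ} :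
    ∀ {p : ℕ}, Ord U s (tl ι p) → Tendsto (lin s (tl ι p) γ) U atTop → ∃ J < p,
      0 < γ (Sum.inr J) ∧ lin s (tl ι p) γ = lin s (tl ι (J + 1)) γ ∧ Ord U s (tl ι (J + 1))
  | 0, _, k => absurd (k.congr fun i => lin_nil i)
      (not_tendsto_atTop_of_tendsto_nhds tendsto_const_nhds)
  | p + 1, h, k => by
    rcases (Ord.head_nonneg h k).eq_or_lt with c | c
    · have e := Ord.lin_cons0 h c.symm
      obtain ⟨J, a1, a2, a3, a4⟩ := tl_top h.2.2 (e ▸ k)
      exact ⟨J, a1.trans (Nat.lt_succ_self _), a2, e.trans a3, a4⟩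
    · exact ⟨p, Nat.lt_succ_self _, c, rfl, h⟩

/-- the classes of finitely many sequences -/
theorem exists_classes {β : Type*} [Fintype β] (U : Ultrafilter α) (y : β → α → ℝ) :
    ∃ p : ℕ, ∀ (ι : Type) [DecidableEq ι], ∃ s : ι ⊕ ℕ → α → ℝ, Ord U s (tl ι p) ∧
      (∀ a i, 0 < s a i) ∧ ∀ x, Rep U s (tl ι p) (y x) := by
  classical
  obtain ⟨v, t, a1, -, -, -, -, a6⟩ := Ord.insMany (U := U) (v := fun (_ : β) _ => (0 : ℝ))
    (l := []) trivial injective_id (by simp) y Finset.univ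
  have e : ∀ a ∈ t, v a =ᶠ[U] fun i => max (v a i) 1 := fun a ha =>
    ((a1.big a ha).eventually_ge_atTop 1).mono fun i hi => (max_eq_left hi).symm
  refine ⟨t.length, fun ι _ => ?_⟩
  obtain ⟨s, b1, b2, -, b4⟩ := Ord.reidx ι (fun a i => one_pos.trans_le (le_max_right _ _))
    (a1.congr e)
  refine ⟨s, b1, b2, fun x => ?_⟩
  obtain ⟨γ, c, hc⟩ := a6 x (Finset.mem_univ _)
  obtain ⟨γ', e'⟩ := b4 γ
  refine ⟨γ', c, hc.congr' ?_⟩
  filter_upwards [(eventually_all_finite t.finite_toSet).2 e] with i hi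
  rw [← e']
  exact congrArg _ (Finset.sum_congr rfl fun a ha =>
    congrArg _ (hi a (List.mem_toFinset.1 ha)))

end Crest.Agent.N207.O.Sq

end
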