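import Crest.Agent.N207.O.Kit2
import Crest.Agent.N207.O.Sq2

/-!
# Row 207, block O (helper99): the initial tower, part 1: the data at the level of sequences
-/

set_option autoImplicit false
set_option linter.unusedSectionVars false

open Set Filter Topology Function

noncomputable section

namespace Crest.Agent.N207.O.Ini

open Sq

variable {ι : Type} [Fintype ι] [DecidableEq ι] {α : Type} {U : Ultrafilter α}

theorem lv_congr {T T' : Tw ι} : ∀ {j : ℕ}, (∀ i ≤ j, T.B i = T'.B i) → T.lv j = T'.lv j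
  | 0, h => by simp only [Tw.lv, h 0 le_rfl]
  | j + 1, h => by
    simp only [Tw.lv, h _ le_rfl, lv_congr fun i hi => h i (hi.trans j.le_succ)]

/-- a list with the right tied levels is the list of a tower -/
theorem parse : ∀ (t : List (ι ⊕ ℕ)) (p : ℕ), t.filter Sum.isRight = tl ι p →
    ∃ B : ℕ → List ι, ∀ T : Tw ι, (∀ j ≤ p, T.B j = B j) → T.lv p = t
  | [], 0, _ => ⟨fun _ => [], fun T h => by simp [Tw.lv, h 0 le_rfl]⟩
  | [], p + 1, h => by simp [tl] at h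
  | Sum.inl k :: t, p, h => by
    obtain ⟨B, hB⟩ := parse t p (by simpa using h)
    refine ⟨update B p (k :: B p), fun T hT => ?_⟩
    rw [← hB { T with B := B } fun _ _ => rfl]
    have e := hT p le_rfl
    rw [update_self] at e
    cases p with
    | zero => simp [Tw.lv, e]
    | succ p =>
      have : T.lv p = Tw.lv { T with B := B } p := lv_congr fun i hi => by
        rw [hT i (by omega), update_of_ne (by omega)]
      simp [Tw.lv, e, this]
  | Sum.inr j :: t, 0, h => by simp [tl] at h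
  | Sum.inr j :: t, p + 1, h => by
    obtain ⟨rfl, h'⟩ : j = p ∧ t.filter Sum.isRight = tl ι p := by simpa [tl] using h
    obtain ⟨B, hB⟩ := parse t j h'
    refine ⟨update B (j + 1) [], fun T hT => ?_⟩
    have e := hT _ le_rfl
    rw [update_self] at e
    simp [Tw.lv, e, hB T fun i hi => by rw [hT i (by omega), update_of_ne (by omega)]]

theorem filter_tl : ∀ p, (tl ι p).filter Sum.isRight = tl ι p
  | 0 => rfl
  | p + 1 => by simp [tl, filter_tl p]

/-- the data of a tower at the level of sequences -/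
structure SD (U : Ultrafilter α) (p : ℕ) (lv : ℕ → List (ι ⊕ ℕ)) (ρ c : ℕ → ι ⊕ ℕ → ℝ)
    (s : ι ⊕ ℕ → α → ℝ) (W : ℕ → α → ℝ) : Prop where
  ord : Ord U s (lv p)
  ρ0 : ∀ j a, 0 ≤ ρ j a
  c0 : ∀ j a, 0 ≤ c j a
  ρs : ∀ j < p, ∀ a, a ∉ lv j → ρ j a = 0
  cs : ∀ j < p, ∀ a, a ∉ lv j → c j a = 0
  ρp : ∀ j < p, ∃ a ∈ lv j, 0 < ρ j a
  ρm : ∀ j j', j < j' → j' < p → (∀ a, ρ j a ≤ ρ j' a) ∧ ∃ a ∈ lv j', ρ j a < ρ j' a
  W0 : ∀ j i, 0 < W j i
  Ws : ∀ j < p, ∀ i, W j i = s (Sum.inr j) i + lin s (lv j) (c j) i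
  Wl : ∀ j < p, ∃ u, Tendsto (fun i => Real.log (W j i) - lin s (lv j) (ρ j) i) U (𝓝 u)

/-- coefficients of `∑ g j W j` -/
def cv (c : ℕ → ι ⊕ ℕ → ℝ) (J : ℕ) (g : ℕ → ℝ) (a : ι ⊕ ℕ) : ℝ :=
  ∑ j ∈ Finset.range (J + 1), g j * ((Pi.single (Sum.inr j) 1 : ι ⊕ ℕ → ℝ) a + c j a)

/-- the data of one length -/
structure LD (U : Ultrafilter α) (p : ℕ) (ρ c : ℕ → ι ⊕ ℕ → ℝ) (W : ℕ → α → ℝ) (y : α → ℝ)
    (J : ℕ) (g : ℕ → ℝ) (b : ℝ) : Prop where
  Jp : J < p
  g0 : 0 < g J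
  lim : Tendsto (fun i => y i - ∑ j ∈ Finset.range (J + 1), g j * W j i) U (𝓝 b)
  dom : ∀ a, 4 * ρ J a ≤ cv c J g a

section
variable {κ : Type*} [DecidableEq κ] {v : κ → α → ℝ} {t : List κ} {y z : α → ℝ} {a : κ}

theorem lin_single (ha : a ∈ t) (i : α) : lin v t (Pi.single a 1) i = v a i := by
  rw [lin, Finset.sum_eq_single a (fun b _ hb => by simp [Pi.single_eq_of_ne hb])
    fun h => absurd (List.mem_toFinset.2 ha) h]
  simp

theorem lin_cmul (r : ℝ) (γ : κ → ℝ) (i : α) : lin v t (fun a => r * γ a) i = r * lin v t γ i := by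
  simp [lin, Finset.mul_sum, mul_assoc]

theorem rep_sub (h : Rep U v t y) (h' : Rep U v t z) (r : ℝ) : Rep U v t fun i => y i - r * z i := by
  obtain ⟨γ, c, h⟩ := h
  obtain ⟨γ', c', h'⟩ := h'
  exact ⟨fun a => γ a - r * γ' a, _, (h.sub (h'.const_mul r)).congr fun i => by
    rw [lin_sub, lin_cmul]; ring⟩

theorem rep_lin (γ : κ → ℝ) : Rep U v t (lin v t γ) := ⟨γ, 0, by simp⟩

theorem restr (v : κ → α → ℝ) (δ : κ → ℝ) (h : ∀ a ∈ t, 0 ≤ δ a) : ∃ δ' : κ → ℝ,
    (∀ a, 0 ≤ δ' a) ∧ (∀ a ∉ t, δ' a = 0) ∧ ∀ i, lin v t δ i = lin v t δ' i :=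
  ⟨fun a => if a ∈ t then δ a else 0, fun a => by
    dsimp only
    split_ifs with ha
    exacts [h a ha, le_rfl], fun a ha => if_neg ha, fun i => (lin_ite (List.Subset.refl t) i).symm⟩

theorem exists_pos {γ : κ → ℝ} {c : ℝ} (hy : Tendsto y U atTop)
    (h : Tendsto (fun i => y i - lin v t γ i) U (𝓝 c)) (h0 : ∀ a, 0 ≤ γ a) : ∃ a, 0 < γ a := by
  by_contra! hn
  simp only [lin_zero fun a _ => (hn a).antisymm (h0 a), sub_zero] at h
  exact not_tendsto_atTop_of_tendsto_nhds h hy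
end

theorem log_div {W : α → ℝ} (h : Tendsto W U atTop) :
    Tendsto (fun i => Real.log (W i) / W i) U (𝓝 0) := by
  simpa [comp_def] using (Real.tendsto_pow_log_div_mul_add_atTop 1 0 1 one_ne_zero).comp h

theorem log_sub {W V : α → ℝ} (hW : ∀ i, 0 < W i) (hV : ∀ i, 0 < V i)
    (h : Tendsto (fun i => V i / W i) U (𝓝 0)) :
    Tendsto (fun i => Real.log (W i) - 1 * Real.log (V i)) U atTop :=
  (tendsto_neg_atBot_atTop.comp (Real.tendsto_log_nhdsGT_zero.comp (tendsto_nhdsWithin_iff.2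
    ⟨h, Eventually.of_forall fun i => div_pos (hV i) (hW i)⟩))).congr fun i => by
    simp [Real.log_div (hV i).ne' (hW i).ne']

theorem data {m : ℕ} {L : Fin m → α → ℝ} (hL : ∀ e, Tendsto (L e) U atTop) : ∃ p : ℕ,
    ∀ (ι : Type) [Fintype ι] [DecidableEq ι] (fr : Fin p → ι), Injective fr →
    ∃ (B : ℕ → List ι) (ρ c : ℕ → ι ⊕ ℕ → ℝ) (s : ι ⊕ ℕ → α → ℝ) (W : ℕ → α → ℝ),
      ∀ T : Tw ι, T.B = B → SD U p T.lv ρ c s W ∧ (∀ k, Sum.inl k ∈ T.lv p → k ∈ range fr) ∧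
        ∀ e, ∃ J g b, LD U p ρ c W (L e) J g b := by
  obtain ⟨p, hp⟩ := exists_classes U L
  refine ⟨p, fun ι _ _ fr hfr => ?_⟩
  obtain ⟨v₀, o₀, pos, rL⟩ := hp ι
  set W : ℕ → α → ℝ := fun j => v₀ (Sum.inr j) with hW
  have mj : ∀ j < p, (Sum.inr j : ι ⊕ ℕ) ∈ tl ι p := fun j hj => mem_tl.2 ⟨j, hj, rfl⟩
  have Wt : ∀ j < p, Tendsto (W j) U atTop := fun j hj => o₀.big _ (mj j hj)
  obtain ⟨v, t, o, ev, st, mt, ft, rw'⟩ := o₀.insMany (f := fun j : Fin p => Sum.inl (fr j))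
    (Sum.inl_injective.comp hfr) (by simp [mem_tl]) (fun j i => Real.log (W j i)) Finset.univ
  have rw : ∀ j < p, Rep U v t fun i => Real.log (W j i) := fun j hj =>
    rw' ⟨j, hj⟩ (Finset.mem_univ _)
  obtain ⟨B, hB⟩ := parse t p ((ft _ fun _ => rfl).trans (filter_tl p))
  choose γ b hb using rL
  choose J J1 J2 J3 J4 using fun e => o₀.tl_top (γ := γ e)
    (((hL e).atTop_add (hb e).neg).congr fun i => by ring)
  have yt : ∀ e, Tendsto (fun i => lin v₀ (tl ι p) (γ e) i - 4 * Real.log (W (J e) i)) U atTop :=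
    fun e => by
      have := (Ord.lin_div (γ := γ e) (J4 e)).sub ((log_div (Wt _ (J1 e))).const_mul 4)
      rw [mul_zero, sub_zero] at this
      exact top_of_div (Wt _ (J1 e)) (this.congr fun i => by rw [J3 e, tl]; ring) (J2 e)
  obtain ⟨s, os, rs, tr, ps⟩ := o.rn2 (β := (Fin p × Fin p) ⊕ Fin p ⊕ Fin m) (Sum.elim
    (fun q i => Real.log (W q.2 i) - (if q.1 < q.2 then 1 else 0) * Real.log (W q.1 i))
    (Sum.elim (fun j => W j) fun e i => lin v₀ (tl ι p) (γ e) i - 4 * Real.log (W (J e) i)))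
    (by
      rintro (q | j | e)
      · exact rep_sub (rw _ q.2.2) (rw _ q.1.2) _
      · exact Rep.mono ⟨Pi.single (Sum.inr j) 1, 0, by simp [lin_single (mj j j.2), hW]⟩ st ev
      · exact rep_sub ((rep_lin _).mono st ev) (rw _ (J1 e)) 4)
    (by
      rintro (q | j | e)
      · by_cases c : q.1 < q.2
        · simp only [Sum.elim_inl, if_pos c]
          exact log_sub (pos _) (pos _) (o₀.tl_lt c q.2.2)
        · simp only [Sum.elim_inl, if_neg c, zero_mul, sub_zero]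
          exact Real.tendsto_log_atTop.comp (Wt _ q.2.2)
      · exact Wt _ j.2
      · exact yt e)
  have Wr : ∀ j < p, Tendsto (fun i => W j i / s (Sum.inr j) i) U (𝓝 1) := fun j hj =>
    ratio_small (Wt j hj) (by simpa only [ev _ (mj j hj)] using rs _ (st (mj j hj)))
      (div_self' (Wt j hj))
  have e1 : ∀ j, ∃ (ρ : ι ⊕ ℕ → ℝ) (u : ℝ), (∀ a, 0 ≤ ρ a) ∧ (j < p → (∀ a ∉ t, ρ a = 0) ∧
      Tendsto (fun i => Real.log (W j i) - lin s t ρ i) U (𝓝 u)) := fun j => by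
    by_cases hj : j < p
    · obtain ⟨δ, u, h⟩ := rw j hj
      obtain ⟨δ', e⟩ := tr δ
      simp only [e] at h
      obtain ⟨ρ, a1, a2, a3⟩ := restr s δ' (ps (Sum.inl (⟨j, hj⟩, ⟨j, hj⟩)) δ' u (by simpa using h))
      exact ⟨ρ, u, a1, fun _ => ⟨a2, by simpa only [a3] using h⟩⟩
    · exact ⟨0, 0, fun _ => le_rfl, fun h => absurd h hj⟩
  have e2 : ∀ j, ∃ c : ι ⊕ ℕ → ℝ, (∀ a, 0 ≤ c a) ∧ (j < p → (∀ a ∉ t, c a = 0) ∧
      ∀ i, W j i = lin s t c i) := fun j => by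
    by_cases hj : j < p
    · obtain ⟨δ', e⟩ := tr (Pi.single (Sum.inr j) 1)
      simp only [lin_single (st (mj j hj)), ev _ (mj j hj)] at e
      obtain ⟨ρ, a1, a2, a3⟩ := restr s δ' (ps (Sum.inr (Sum.inl ⟨j, hj⟩)) δ' 0 (by simp [hW, e]))
      exact ⟨ρ, a1, fun _ => ⟨a2, fun i => (e i).trans (a3 i)⟩⟩
    · exact ⟨0, fun _ => le_rfl, fun h => absurd h hj⟩
  choose ρ u ρ0 hρ using e1
  choose c c0 hc using e2
  refine ⟨B, ρ, fun j => update (c j) (Sum.inr j) 0, s, W, fun T hT => ?_⟩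
  have et : T.lv p = t := hB T fun j _ => by rw [hT]
  have sf : ∀ j < p, Sum.inr j :: T.lv j <:+ t := fun j hj => et ▸ Tw.inr_lv_suffix hj
  have nm : ∀ j, Sum.inr j ∉ T.lv j := fun j h => lt_irrefl _ (Tw.inr_mem_lv.1 h)
  have ρs : ∀ j < p, ∀ a, a ∉ T.lv j → ρ j a = 0 := fun j hj a ha => by
    have k := os.supp (sf j hj) (hρ j hj).2 (g := 0)
      (by simpa using div_trans (Wt j hj) (log_div (Wt j hj)) (Wr j hj))
    by_cases h1 : a ∈ t
    · by_cases h2 : a = Sum.inr j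
      · rw [h2]; exact k.2
      · exact k.1 a h1 (by simp [h2, ha])
    · exact (hρ j hj).1 a h1
  have k2 : ∀ j < p, (∀ a, a ∉ Sum.inr j :: T.lv j → c j a = 0) ∧ c j (Sum.inr j) = 1 :=
    fun j hj => by
      have k := os.supp (sf j hj) (y := W j) (γ := c j) (c := 0) (by simp [(hc j hj).2]) (Wr j hj)
      exact ⟨fun a ha => by_cases (fun h1 => k.1 a h1 ha) ((hc j hj).1 a), k.2⟩
  have k3 : ∀ j < p, ∀ a, (Pi.single (Sum.inr j) 1 : ι ⊕ ℕ → ℝ) a +
      update (c j) (Sum.inr j) 0 a = c j a := fun j hj a => by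
    by_cases h : a = Sum.inr j
    · simp [h, (k2 j hj).2]
    · simp [h]
  refine ⟨⟨et ▸ os, ρ0, fun j a => ?_, ρs, fun j hj a ha => ?_, fun j hj => ?_,
    fun j j' h hj => ?_, fun j => pos _, fun j hj i => ?_, fun j hj => ⟨u j, ?_⟩⟩,
    fun k hk => ?_, fun e => ⟨J e, fun j => γ e (Sum.inr j), b e, J1 e, J2 e, ?_, fun a => ?_⟩⟩
  · by_cases h : a = Sum.inr j
    · simp [h]
    · simp [h, c0]
  · by_cases h : a = Sum.inr j
    · simp [h]
    · rw [update_of_ne h]; exact (k2 j hj).1 a (by simp [h, ha])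
  · obtain ⟨a, ha⟩ := exists_pos (Real.tendsto_log_atTop.comp (Wt j hj)) (hρ j hj).2 (ρ0 j)
    exact ⟨a, by_contra fun hn => ha.ne' (ρs j hj a hn), ha⟩
  · have hj0 := h.trans hj
    have k : Tendsto (fun i => Real.log (W j' i) - 1 * Real.log (W j i) -
        lin s t (fun a => ρ j' a - ρ j a) i) U (𝓝 (u j' - u j)) :=
      ((hρ j' hj).2.sub (hρ j hj0).2).congr fun i => by rw [lin_sub]; ring
    have k1 : ∀ a, 0 ≤ ρ j' a - ρ j a := fun a => by
      by_cases ha : a ∈ t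
      · exact ps (Sum.inl (⟨j, hj0⟩, ⟨j', hj⟩)) _ _ (by simpa [h] using k) a ha
      · rw [(hρ j hj0).1 a ha, (hρ j' hj).1 a ha, sub_zero]
    obtain ⟨a, ha⟩ := exists_pos (log_sub (pos _) (pos _) (o₀.tl_lt h hj)) k k1
    exact ⟨fun a => sub_nonneg.1 (k1 a), a, by_contra fun hn => by
      rw [ρs j' hj a hn] at ha; linarith [ρ0 j a], sub_pos.1 ha⟩
  · rw [(hc j hj).2, lin_subset (sf j hj).subset fun a _ => (k2 j hj).1 a, lin_cons (nm j),
      (k2 j hj).2, one_mul]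
    exact congrArg _ (lin_congr (fun a ha =>
      (update_of_ne (ne_of_mem_of_not_mem ha (nm j)) _ _).symm) (fun _ _ => rfl) i)
  · simpa only [lin_subset (suffix_tail (sf j hj)).subset fun a _ => ρs j hj a] using (hρ j hj).2
  · rcases mt _ (et ▸ hk) with h | ⟨j, -, h⟩
    · simp [mem_tl] at h
    · exact ⟨j, (Sum.inl.inj h).symm⟩
  · exact (hb e).congr fun i => by rw [J3 e, lin_tl]
  · have e3 : cv (fun j => update (c j) (Sum.inr j) 0) (J e) (fun j => γ e (Sum.inr j)) =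
        fun a => ∑ j ∈ Finset.range (J e + 1), γ e (Sum.inr j) * c j a := funext fun a =>
      Finset.sum_congr rfl fun j hj => by
        rw [k3 j (by have := Finset.mem_range.1 hj; have := J1 e; omega)]
    rw [e3]
    by_cases ha : a ∈ t
    · refine sub_nonneg.1 (ps (Sum.inr (Sum.inr e)) (fun a => ∑ j ∈ Finset.range (J e + 1),
        γ e (Sum.inr j) * c j a - 4 * ρ (J e) a) _ ((((hρ _ (J1 e)).2).const_mul (-4)).congr
          fun i => ?_) a ha)
      have : lin s t (fun a => ∑ j ∈ Finset.range (J e + 1), γ e (Sum.inr j) * c j a) i =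
          lin v₀ (tl ι p) (γ e) i := by
        rw [J3 e, lin_tl, lin]
        simp only [Finset.sum_mul]
        rw [Finset.sum_comm]
        refine Finset.sum_congr rfl fun j hj => ?_
        have := (hc j (by have := Finset.mem_range.1 hj; have := J1 e; omega)).2 i
        simp only [hW] at this
        rw [this, lin, Finset.mul_sum]
        simp only [mul_assoc]
      simp only [Sum.elim_inr]
      rw [lin_sub, lin_cmul, this]; ring
    · rw [(hρ _ (J1 e)).1 a ha, mul_zero]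
      exact Finset.sum_nonneg fun j hj => by
        rw [(hc j (by have := Finset.mem_range.1 hj; have := J1 e; omega)).1 a ha, mul_zero]

end Crest.Agent.N207.O.Ini

end
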