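import Crest.Agent.N207.O.Ini1
import Crest.Agent.N207.O.Alg3
import Crest.Agent.N207.J.Dul

/-!
# Row 207, block O (helper99): the initial tower, part 2: Dulac series of a length
-/

set_option autoImplicit false
set_option linter.unusedSectionVars false

open Set Filter Topology Function

noncomputable section

namespace Crest.Agent.N207.O.Ini

variable {ι : Type} [Fintype ι] [DecidableEq ι] {T : Tw ι} {l l' : List (ι ⊕ ℕ)}
  {γ γ' : ι ⊕ ℕ → ℝ}

/-- a positive combination of points of `Om R` lies in `J.Om C` -/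
theorem om {κ : Type*} (S : Finset κ) {γ : κ → ℝ} (hγ : ∀ a ∈ S, 0 ≤ γ a) {a₀ : κ} (h0 : a₀ ∈ S)
    (hp : 0 < γ a₀) (B C : ℝ) : ∃ R₀ : ℝ, ∀ R ≥ R₀, ∀ (w : κ → ℂ) (b : ℂ),
      (∀ a ∈ S, w a ∈ Om R) → ‖b‖ ≤ B → ∑ a ∈ S, (γ a : ℂ) * w a + b ∈ J.Om C := by
  set G := ∑ a ∈ S, γ a
  have G0 : 0 ≤ G := Finset.sum_nonneg hγ
  set K := Real.log (1 + G + |B|)
  have K0 : 0 ≤ K := Real.log_nonneg (by linarith [abs_nonneg B])
  set δ := 1 / (2 * (|C| + 1)) with hδ
  have δ0 : 0 < δ := by positivity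
  have ev : ∀ᶠ R : ℝ in atTop, 0 < R ∧ 2 * ((|C| + 1) * (1 + K) + B) ≤ γ a₀ * R ∧
      ∀ a ∈ S, 0 < γ a → 1 ≤ δ * γ a * R := by
    refine (eventually_gt_atTop 0).and (((tendsto_id.const_mul_atTop hp).eventually_ge_atTop _).and
      ((eventually_all_finset S).2 fun a _ => ?_))
    by_cases c : 0 < γ a
    · exact ((tendsto_id.const_mul_atTop (mul_pos δ0 c)).eventually_ge_atTop 1).mono
        fun _ h _ => h
    · simp [c]
  obtain ⟨R₀, hR⟩ := eventually_atTop.1 ev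
  refine ⟨R₀, fun R hR₀ w b hw hb => ?_⟩
  obtain ⟨R0, R1, R2⟩ := hR R hR₀
  set y := ∑ a ∈ S, γ a * (w a).re
  have y1 : ∀ a ∈ S, γ a * (w a).re ≤ y := fun a ha => Finset.single_le_sum
    (f := fun a => γ a * (w a).re) (fun a ha => mul_nonneg (hγ a ha) (R0.trans (hw a ha).1).le) ha
  have y2 : γ a₀ * R < y := (mul_lt_mul_of_pos_left (hw a₀ h0).1 hp).trans_le (y1 a₀ h0)
  have y0 : 0 < y := (mul_pos hp R0).trans y2
  have e1 : 1 ≤ Real.exp (δ * y) := Real.one_le_exp (by positivity)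
  have n1 : ∀ a ∈ S, ‖(γ a : ℂ) * w a‖ ≤ γ a * Real.exp (δ * y) := fun a ha => by
    rw [norm_mul, Complex.norm_real, Real.norm_eq_abs, abs_of_nonneg (hγ a ha)]
    rcases (hγ a ha).eq_or_lt with c | c
    · simp [← c]
    · refine mul_le_mul_of_nonneg_left ((Real.le_exp_log _).trans (Real.exp_le_exp.2 ?_)) c.le
      have a1 := (hw a ha).2
      have a2 := R0.trans (hw a ha).1
      have a3 := mul_le_mul_of_nonneg_right (R2 a ha c) a2.le
      have a4 := mul_le_mul_of_nonneg_left (y1 a ha) (mul_pos δ0 R0).le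
      exact le_of_mul_le_mul_left (by nlinarith) R0
  have n2 : 1 + ‖∑ a ∈ S, (γ a : ℂ) * w a + b‖ ≤ (1 + G + |B|) * Real.exp (δ * y) := by
    have := (norm_add_le _ b).trans (add_le_add ((norm_sum_le _ _).trans (Finset.sum_le_sum n1))
      (hb.trans (le_abs_self B)))
    rw [← Finset.sum_mul] at this
    nlinarith [abs_nonneg B]
  have n3 : Real.log (1 + ‖∑ a ∈ S, (γ a : ℂ) * w a + b‖) ≤ K + δ * y := by
    refine (Real.log_le_log (by positivity) n2).trans_eq ?_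
    rw [Real.log_mul (by positivity) (Real.exp_ne_zero _), Real.log_exp]
  have n4 : 0 ≤ Real.log (1 + ‖∑ a ∈ S, (γ a : ℂ) * w a + b‖) :=
    Real.log_nonneg (le_add_of_nonneg_right (norm_nonneg _))
  have n5 : (∑ a ∈ S, (γ a : ℂ) * w a + b).re = y + b.re := by simp [y]
  have n6 := (abs_le.1 ((Complex.abs_re_le_norm b).trans hb)).1
  have n7 : (|C| + 1) * (δ * y) = y / 2 := by rw [hδ]; field_simp
  show C * _ < _
  rw [n5]
  nlinarith [le_abs_self C, mul_le_mul_of_nonneg_left n3 (show 0 ≤ |C| + 1 by positivity)]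

theorem clin_subset (h : l ⊆ l') (h0 : ∀ a, a ∉ l → γ a = 0) (x : ι → ℂ) :
    T.lin l' γ x = T.lin l γ x :=
  (Finset.sum_subset (fun a ha => List.mem_toFinset.2 (h (List.mem_toFinset.1 ha)))
    fun a _ hn => by rw [h0 a (by simpa using hn)]; simp).symm

theorem clin_comb (r r' : ℝ) (x : ι → ℂ) :
    T.lin l (fun a => r * γ a - r' * γ' a) x = r * T.lin l γ x - r' * T.lin l γ' x := by
  simp [Tw.lin, Finset.mul_sum, sub_mul, mul_assoc]

theorem A_exp {X κ : Type*} [NormedAddCommGroup X] [NormedSpace ℂ X] {F : Fr X κ} {b : X → ℂ}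
    (h : F.A [] b) (z : ℂ) : F.A [] fun x => Complex.exp (z * b x) := by
  obtain ⟨h1, C, hC⟩ := h
  refine ⟨(h1.const_mul z).cexp, Real.exp (‖z‖ * C), fun x hx => ?_⟩
  rw [Complex.norm_exp]
  refine Real.exp_le_exp.2 ((Complex.re_le_norm _).trans ?_)
  rw [norm_mul]
  exact mul_le_mul_of_nonneg_left (hC x hx) (norm_nonneg _)

/-- a length on the tower -/
def Lam (T : Tw ι) (J : ℕ) (g : ℕ → ℝ) (b : (ι → ℂ) → ℂ) (x : ι → ℂ) : ℂ :=
  ∑ j ∈ Finset.range (J + 1), (g j : ℂ) * Complex.exp (T.E j x) + b x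

/-- hypotheses on the length -/
structure LT (T : Tw ι) (J : ℕ) (g : ℕ → ℝ) (b : (ι → ℂ) → ℂ) : Prop where
  wf : T.WF
  cs : ∀ j < T.p, ∀ a, a ∉ T.lv j → T.c j a = 0
  uA : ∀ j < T.p, T.fr.A [] (T.u j)
  bA : T.fr.A [] b
  Jp : J < T.p
  g0 : 0 < g J
  dom : ∀ a, 4 * T.ρ J a ≤ cv T.c J g a

namespace LT

variable {J : ℕ} {g : ℕ → ℝ} {b : (ι → ℂ) → ℂ} (h : LT T J g b)
include h

theorem sf : Sum.inr J :: T.lv J <:+ T.top := Tw.inr_lv_suffix h.Jp

theorem cv0 (a : ι ⊕ ℕ) : 0 ≤ cv T.c J g a := le_trans (by linarith [h.wf.ρ0 J a]) (h.dom a)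

theorem cv_top : cv T.c J g (Sum.inr J) = g J := by
  rw [cv, Finset.sum_range_succ, Finset.sum_eq_zero fun j hj => ?_,
    h.cs J h.Jp _ (by simp [Tw.inr_mem_lv])]
  · simp
  · have := Finset.mem_range.1 hj
    rw [h.cs j (this.trans h.Jp) _ (by simp [Tw.inr_mem_lv, this.le])]
    simp [this.ne']

theorem lam_lin (hl : Sum.inr J :: T.lv J <:+ l) {x : ι → ℂ} (hx : x ∈ T.D l) :
    Lam T J g b x = T.lin l (cv T.c J g) x + b x := by
  unfold Lam
  congr 1
  simp only [Tw.lin, cv, Complex.ofReal_sum, Finset.sum_mul]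
  rw [Finset.sum_comm]
  refine Finset.sum_congr rfl fun j hj => ?_
  have hj' : j ≤ J := Nat.lt_succ_iff.1 (Finset.mem_range.1 hj)
  have jp := hj'.trans_lt h.Jp
  have s1 : T.lv j <:+ l := (Tw.lv_suffix hj').trans (suffix_tail hl)
  have m1 : Sum.inr j ∈ l := hl.subset (by
    rcases hj'.eq_or_lt with e | e
    · simp [e]
    · simp [Tw.inr_mem_lv, e])
  have e := h.wf.sL j jp x (Tw.D_suffix s1 hx)
  rw [← clin_subset s1.subset (h.cs j jp), eq_sub_iff_add_eq] at e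
  rw [← e, Tw.lin]
  simp only [Complex.ofReal_mul, Complex.ofReal_add, mul_assoc, add_mul, ← Finset.mul_sum,
    Finset.sum_add_distrib]
  congr 2
  rw [Finset.sum_eq_single (Sum.inr j) (fun b _ hb => by simp [Pi.single_eq_of_ne hb])
    fun h => absurd (List.mem_toFinset.2 m1) h]
  simp

theorem unit : ∃ k : (ι → ℂ) → ℂ, T.fr.A (T.lv J) k ∧
    ∀ x, Lam T J g b x = Complex.exp (T.lin (T.lv J) (T.ρ J) x) * k x := by
  have sJ := suffix_tail h.sf
  have ok := T1_ok h.wf sJ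
  refine ⟨fun x => ∑ j ∈ Finset.range (J + 1), (g j : ℂ) * (Complex.exp (-T.lin (T.lv J)
    (fun a => (1 : ℝ) * T.ρ J a - (1 : ℝ) * T.ρ j a) x) * Complex.exp (1 * T.u j x)) +
    Complex.exp (-T.lin (T.lv J) (T.ρ J) x) * b x, Fr.Cl.add ok (Fr.Cl.sum ok _ fun j hj => ?_)
      ((T7_mon h.wf sJ (h.wf.ρ0 J)).mul ok (A4_lift ok List.nil_suffix h.bA)), fun x => ?_⟩
  · have hj' : j ≤ J := Nat.lt_succ_iff.1 (Finset.mem_range.1 hj)
    refine Fr.Cl.const_mul _ ((T7_mon h.wf sJ fun a => ?_).mul ok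
      (A4_lift ok List.nil_suffix (A_exp (h.uA j (hj'.trans_lt h.Jp)) 1)))
    rcases hj'.eq_or_lt with e | e
    · simp [e]
    · linarith [(h.wf.ρm j J e h.Jp).1 a]
  · rw [mul_add, ← mul_assoc, ← Complex.exp_add, add_neg_cancel, Complex.exp_zero, one_mul,
      Finset.mul_sum, Lam]
    congr 1
    refine Finset.sum_congr rfl fun j hj => ?_
    have hj' : j ≤ J := Nat.lt_succ_iff.1 (Finset.mem_range.1 hj)
    rw [clin_comb, clin_subset (Tw.lv_suffix hj').subset (h.wf.ρs j (hj'.trans_lt h.Jp)),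
      mul_left_comm, ← Complex.exp_add, ← Complex.exp_add, Tw.E]
    congr 2
    push_cast; ring

theorem mon {q j : ℕ} (hj : j ≤ 2 * q) :
    T.fr.Cl (Sum.inr J :: T.lv J) (q * g J / 2) fun x => N207.J.mon q j (Lam T J g b x) := by
  obtain ⟨k, k1, k2⟩ := h.unit
  have ok := T1_ok h.wf h.sf
  have a1 := T7_mon h.wf (suffix_tail h.sf) (γ := fun a => q / 2 * cv T.c J g a - j * T.ρ J a)
    fun a => by
      have : (j : ℝ) ≤ 2 * q := by exact_mod_cast hj
      nlinarith [h.dom a, h.wf.ρ0 J a, mul_le_mul_of_nonneg_left (h.dom a) (Nat.cast_nonneg q)]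
  have a2 := ((a1.mul ok.1 (A4_lift ok.1 List.nil_suffix (A_exp h.bA (-(q : ℂ) / 2)))).mul ok.1
    (k1.pow ok.1 j)).up ok
  refine A2_congr (A5_ex ok (t := q * g J / 2) (by have := h.g0; positivity) a2) fun x hx => ?_
  have e := h.lam_lin List.suffix_rfl hx
  rw [Tw.lin_cons (h.wf.not_mem h.sf), h.cv_top] at e
  simp only [N207.J.mon, Fr.ex, smul_eq_mul, clin_comb]
  conv_rhs => rw [k2 x, mul_pow, ← k2 x, e, ← Complex.exp_nat_mul]
  simp only [← mul_assoc, ← Complex.exp_add]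
  congr 2
  simp only [Tw.fr]
  push_cast; ring

theorem re_ge : ∃ B : ℝ, ∀ x ∈ T.D (Sum.inr J :: T.lv J),
    g J * (T.s (Sum.inr J) x).re - B ≤ (Lam T J g b x).re := by
  obtain ⟨B, hB⟩ := h.bA.2
  refine ⟨B, fun x hx => ?_⟩
  rw [h.lam_lin List.suffix_rfl hx, Tw.lin_cons (h.wf.not_mem h.sf), h.cv_top, Complex.add_re,
    Complex.add_re, Complex.re_ofReal_mul, Tw.re_lin]
  have : 0 ≤ ∑ a ∈ (T.lv J).toFinset, cv T.c J g a * (T.s a x).re :=
    Finset.sum_nonneg fun a ha => mul_nonneg (h.cv0 a) (by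
      linarith [h.wf.R1, (Tw.D_cst hx (List.mem_cons_of_mem _ (List.mem_toFinset.1 ha))).1.1])
  linarith [(abs_le.1 ((Complex.abs_re_le_norm _).trans
    (hB x (Tw.D_suffix List.nil_suffix hx)))).1]

theorem st {C : ℝ} (hm : MapsTo (Lam T J g b) (T.D (Sum.inr J :: T.lv J)) (N207.J.Om C)) {E : Type}
    [NormedAddCommGroup E] [NormedSpace ℂ E] {N : ℂ → E} {c : ℕ → ℕ → E} (hN : N207.J.Dul C N c) :
    T.fr.St T.top (fun x => N (Lam T J g b x)) fun _ => c 0 0 := by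
  have ok := T1_ok h.wf h.sf
  have g0 := h.g0
  obtain ⟨B, hB⟩ := h.re_ge
  have dL : DifferentiableOn ℂ (Lam T J g b) (T.D (Sum.inr J :: T.lv J)) :=
    ((Tw.diff_lin (fun _ ha => ok.diff_mem ha) _).add
      (h.bA.1.mono (Tw.D_suffix List.nil_suffix))).congr fun x hx => h.lam_lin List.suffix_rfl hx
  have a1 : T.fr.A (Sum.inr J :: T.lv J) fun x =>
      T.fr.ex (Sum.inr J) (-(g J / 2)) x • (N (Lam T J g b x) - c 0 0) := by
    refine A6_series ok (β := fun q => -(g J / 2) + ((q + 1 : ℕ) : ℝ) * g J / 2)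
      (T := fun q x => T.fr.ex (Sum.inr J) (-(g J / 2)) x • ∑ j ∈ Finset.range (2 * (q + 1) + 1),
        N207.J.mon (q + 1) j (Lam T J g b x) • c (q + 1) j) (fun q => by
          push_cast; nlinarith [mul_nonneg (Nat.cast_nonneg (α := ℝ) q) g0.le]) ?_
      (fun q => Fr.Cl.ex_smul ok _ (Fr.Cl.sum ok _ fun j hj => A3_clm
        (ContinuousLinearMap.toSpanSingleton ℂ (c (q + 1) j))
        (h.mon (Nat.lt_succ_iff.1 (Finset.mem_range.1 hj)))))
      ((ok.diff_ex _).smul ((hN.diff.comp dL hm).sub_const _)) fun K => ?_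
    · exact tendsto_atTop_add_const_left _ _ (((tendsto_natCast_atTop_atTop.comp
        (tendsto_add_atTop_nat 1)).atTop_mul_const g0).atTop_div_const two_pos)
    · obtain ⟨N₀, hN₀⟩ := exists_nat_ge (4 * K / g J + 2)
      refine ⟨N₀, fun n hn => ?_⟩
      obtain ⟨A, hA⟩ := hN.est (n + 1)
      refine ⟨|A| * Real.exp ((n + 1) * B / 4), fun x hx => ?_⟩
      have e := (hA _ (hm hx)).trans (mul_le_mul_of_nonneg_right (le_abs_self A) (Real.exp_pos _).le)
      rw [N207.J.psum, Finset.sum_range_succ'] at e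
      simp only [mul_zero, zero_add, Finset.range_one, Finset.sum_singleton, N207.J.mon_zero,
        one_smul] at e
      rw [← Finset.smul_sum, ← smul_sub, norm_smul, Fr.norm_ex, sub_sub, add_comm (c 0 0)]
      refine (mul_le_mul_of_nonneg_left e (Real.exp_pos _).le).trans ?_
      rw [mul_left_comm, mul_assoc, ← Real.exp_add, ← Real.exp_add]
      refine mul_le_mul_of_nonneg_left (Real.exp_le_exp.2 ?_) (abs_nonneg _)
      have r0 := ok.re hx
      have r1 := hB x hx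
      have n1 : 4 * K / g J + 2 ≤ n := hN₀.trans (by exact_mod_cast hn)
      rw [← le_sub_iff_add_le, div_le_iff₀ g0] at n1
      have n0 : (0 : ℝ) ≤ n + 1 := by positivity
      simp only [Tw.fr] at r0 ⊢
      push_cast
      nlinarith [mul_le_mul_of_nonneg_left r1 n0, mul_le_mul_of_nonneg_right n1 r0,
        mul_nonneg g0.le r0]
  have e : ∀ x, N (Lam T J g b x) = c 0 0 + T.fr.ex (Sum.inr J) (g J / 2) x •
      T.fr.ex (Sum.inr J) (-(g J / 2)) x • (N (Lam T J g b x) - c 0 0) := fun x => by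
    rw [smul_smul, ← Fr.ex_add, add_neg_cancel, Fr.ex_zero, one_smul, add_sub_cancel]
  refine Fr.St.lift (T1_ok h.wf List.suffix_rfl) h.sf ⟨A2_congr (Fr.Cl.add ok (Fr.Cl.const ok _)
    (A3_mono (A5_ex ok (half_pos g0).le a1) (half_pos g0).le)) fun x _ => (e x).symm,
    fun _ => c 0 0, _, g J / 2, half_pos g0, Fr.St.of_nil ok.1 (Fr.Cl.const (l := []) ?_ _), a1,
    fun x _ => e x⟩
  exact ok.suffix List.nil_suffix

end LT

end Crest.Agent.N207.O.Ini

end
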