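import Crest.Agent.N207.O.Tw
import Crest.Agent.N207.O.Alg1

/-!
# Row 207, block O (helper81): tower kit, part 1 (T1, T2, T3, T4, T6)
-/

set_option autoImplicit false
set_option linter.unusedSectionVars false

open Set Filter Topology Metric

noncomputable section

namespace Crest.Agent.N207.O

theorem suffix_append_cases {β : Type*} {a : β} {l C : List β} :
    ∀ {A : List β}, a :: l <:+ A ++ C → a :: l <:+ C ∨ a ∈ A
  | [], h => Or.inl h
  | b :: A, h => by
    rcases List.suffix_cons_iff.1 h with h | h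
    · exact Or.inr (by rw [(List.cons.inj h).1]; exact List.mem_cons_self)
    · exact (suffix_append_cases h).imp id (List.mem_cons_of_mem _)

theorem exists_suffix_of_mem {β : Type*} {a : β} {l : List β} (h : a ∈ l) : ∃ l', a :: l' <:+ l := by
  obtain ⟨s, t, rfl⟩ := List.append_of_mem h
  exact ⟨t, List.suffix_append _ _⟩

theorem suffix_tail {β : Type*} {a : β} {l L : List β} (h : a :: l <:+ L) : l <:+ L :=
  (List.suffix_cons a l).trans h

theorem RC_subset {ι : Type*} {G S : Set (ι → ℂ)} : RC G S ⊆ S := fun _ ⟨y, _, hx⟩ =>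
  connectedComponentIn_subset S y hx

theorem mem_RC {ι : Type*} {G S : Set (ι → ℂ)} {y : ι → ℂ} (hG : y ∈ G) (hS : y ∈ S) :
    y ∈ RC G S := ⟨y, hG, mem_connectedComponentIn hS⟩

theorem isOpen_RC {ι : Type*} [Fintype ι] {G S : Set (ι → ℂ)} (hS : IsOpen S) : IsOpen (RC G S) := by
  have : RC G S = ⋃ y ∈ G, connectedComponentIn S y := by ext x; simp [RC]
  rw [this]
  exact isOpen_biUnion fun y _ => hS.connectedComponentIn

theorem RC_mono {ι : Type*} {G S G' S' : Set (ι → ℂ)} (hS : S ⊆ S')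
    (hG : ∀ y ∈ G, y ∈ S → y ∈ G') : RC G S ⊆ RC G' S' := fun _ ⟨y, hy, hx⟩ =>
  ⟨y, hG y hy (connectedComponentIn_nonempty_iff.1 ⟨_, hx⟩), connectedComponentIn_mono y hS hx⟩

theorem isOpen_Om {R : ℝ} (hR : 0 ≤ R) : IsOpen (Om R) := by
  refine isOpen_iff_mem_nhds.2 fun w hw => ?_
  have h0 : w ≠ 0 := by rintro rfl; exact absurd hw.1 (by simpa using hR)
  have h1 : ContinuousAt (fun w : ℂ => R * (1 + Real.log ‖w‖)) w :=
    continuousAt_const.mul (continuousAt_const.add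
      (continuous_norm.continuousAt.log (norm_ne_zero_iff.2 h0)))
  filter_upwards [continuousAt_const.eventually_lt Complex.continuous_re.continuousAt hw.1,
    h1.eventually_lt Complex.continuous_re.continuousAt hw.2] with z h2 h3 using ⟨h2, h3⟩

theorem Om_anti {R R' : ℝ} (h1 : 1 ≤ R') (hR : R ≤ R') : Om R' ⊆ Om R := fun w hw => by
  have h2 : 0 ≤ Real.log ‖w‖ := Real.log_nonneg (by linarith [hw.1, Complex.re_le_norm w])
  exact ⟨hR.trans_lt hw.1, (mul_le_mul_of_nonneg_right hR (by linarith)).trans_lt hw.2⟩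

theorem Fr.Ok.diff_mem {X κ : Type*} [NormedAddCommGroup X] [NormedSpace ℂ X] {F : Fr X κ}
    {l : List κ} (h : F.Ok l) {a : κ} (ha : a ∈ l) : DifferentiableOn ℂ (F.s a) (F.D l) := by
  obtain ⟨l', hl'⟩ := exists_suffix_of_mem ha
  exact (h.suffix hl').diff.mono (h.subset hl')

/-- restriction of the class to smaller domains -/
theorem Fr.Cl.restr {X κ E : Type*} [NormedAddCommGroup X] [NormedSpace ℂ X] [NormedAddCommGroup E]
    [NormedSpace ℂ E] {F F' : Fr X κ} (hs : F'.s = F.s) :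
    ∀ {l : List κ} {b : ℝ} {g : X → E}, (∀ l₀, l₀ <:+ l → F'.D l₀ ⊆ F.D l₀) → F.Cl l b g →
      F'.Cl l b g
  | [], _, _, hD, h => ⟨h.1.mono (hD _ List.suffix_rfl), h.2.mono (hD _ List.suffix_rfl)⟩
  | a :: l, _, _, hD, h => by
    obtain ⟨h1, c, h2, h3, h4⟩ := h
    refine ⟨h1.mono (hD _ List.suffix_rfl), c, fun t => Fr.Cl.restr hs
      (fun l₀ h₀ => hD l₀ (h₀.trans (List.suffix_cons a l))) (h2 t), h3, fun K => ?_⟩
    obtain ⟨S, C, h5, h6⟩ := h4 K
    refine ⟨S, C, h5, fun x hx => ?_⟩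
    simp only [Fr.ex, hs]
    exact h6 x (hD _ List.suffix_rfl hx)

variable {ι : Type} [Fintype ι] [DecidableEq ι] {α : Type} {U : Ultrafilter α} {T : Tw ι}
  {p : α → ι → ℂ} {l : List (ι ⊕ ℕ)} {W : Finset ι} {k : ι} {g : (ι → ℂ) → ℂ} {a : ι ⊕ ℕ}

namespace Tw

theorem inr_suffix {j : ℕ} : ∀ {n : ℕ}, Sum.inr j :: l <:+ T.lv n → j < n ∧ l = T.lv j
  | 0, h => by
    have := h.subset List.mem_cons_self
    simp [lv] at this
  | n + 1, h => by
    rcases suffix_append_cases h with h | h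
    · rcases List.suffix_cons_iff.1 h with h | h
      · obtain ⟨h1, h2⟩ := List.cons.inj h
        obtain rfl : j = n := Sum.inr.inj h1
        exact ⟨Nat.lt_succ_self _, h2⟩
      · exact ⟨(inr_suffix h).1.trans (Nat.lt_succ_self _), (inr_suffix h).2⟩
    · simp at h

theorem inr_lv_suffix {j : ℕ} : ∀ {n : ℕ}, j < n → Sum.inr j :: T.lv j <:+ T.lv n
  | 0, h => absurd h (Nat.not_lt_zero _)
  | n + 1, h => by
    rcases Nat.lt_succ_iff_lt_or_eq.1 h with h | rfl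
    · exact ((inr_lv_suffix h).trans (List.suffix_cons _ _)).trans (List.suffix_append _ _)
    · exact List.suffix_append _ _

theorem lv_suffix {j n : ℕ} (h : j ≤ n) : T.lv j <:+ T.lv n := by
  rcases h.lt_or_eq with h | rfl
  · exact suffix_tail (inr_lv_suffix h)
  · exact List.suffix_rfl

theorem lv_top {j : ℕ} (h : j ≤ T.p) : T.lv j <:+ T.top := lv_suffix h

theorem inr_mem_lv {j n : ℕ} : Sum.inr j ∈ T.lv n ↔ j < n :=
  ⟨fun h => by obtain ⟨l, hl⟩ := exists_suffix_of_mem h; exact (inr_suffix hl).1,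
    fun h => (inr_lv_suffix h).subset List.mem_cons_self⟩

theorem D_cons_sub : T.D (a :: l) ⊆ T.D l := fun _ hx => (RC_subset hx).1

theorem D_cons_cst {x : ι → ℂ} (hx : x ∈ T.D (a :: l)) : T.cst a x := (RC_subset hx).2

theorem D_suffix {l₀ : List (ι ⊕ ℕ)} : ∀ {l : List (ι ⊕ ℕ)}, l₀ <:+ l → T.D l ⊆ T.D l₀
  | [], h => by rw [List.suffix_nil.1 h]
  | _ :: _, h => by
    rcases List.suffix_cons_iff.1 h with h | h
    · rw [h]
    · exact D_cons_sub.trans (D_suffix h)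

theorem D_cst {x : ι → ℂ} (hx : x ∈ T.D l) (ha : a ∈ l) : T.cst a x := by
  obtain ⟨l', hl'⟩ := exists_suffix_of_mem ha
  exact D_cons_cst (D_suffix hl' hx)

theorem D_nil {x : ι → ℂ} (hx : x ∈ T.D l) (hk : k ∈ T.Fv) : ‖x k‖ < T.r k :=
  D_suffix List.nil_suffix hx k hk

theorem lin_cons (ha : a ∉ l) (γ : ι ⊕ ℕ → ℝ) (x : ι → ℂ) :
    T.lin (a :: l) γ x = γ a * T.s a x + T.lin l γ x := by
  unfold lin
  rw [List.toFinset_cons, Finset.sum_insert (by simpa using ha)]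

theorem lin_nil (γ : ι ⊕ ℕ → ℝ) (x : ι → ℂ) : T.lin [] γ x = 0 := by simp [lin]

theorem diff_lin {S : Set (ι → ℂ)} (h : ∀ a ∈ l, DifferentiableOn ℂ (T.s a) S) (γ : ι ⊕ ℕ → ℝ) :
    DifferentiableOn ℂ (T.lin l γ) S :=
  DifferentiableOn.fun_sum fun a ha => (h a (List.mem_toFinset.1 ha)).const_mul _

theorem im_lin {x : ι → ℂ} (h : ∀ a ∈ l, (T.s a x).im = 0) (γ : ι ⊕ ℕ → ℝ) :
    (T.lin l γ x).im = 0 := by
  unfold lin
  rw [Complex.im_sum]
  exact Finset.sum_eq_zero fun a ha => by simp [h a (List.mem_toFinset.1 ha)]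

theorem re_lin (γ : ι ⊕ ℕ → ℝ) (x : ι → ℂ) :
    (T.lin l γ x).re = ∑ a ∈ l.toFinset, γ a * (T.s a x).re := by
  unfold lin
  rw [Complex.re_sum]
  exact Finset.sum_congr rfl fun a _ => by simp

theorem ind_lin (h : ∀ a ∈ l, Ind k (T.s a)) (γ : ι ⊕ ℕ → ℝ) : Ind k (T.lin l γ) := fun x w =>
  Finset.sum_congr rfl fun a ha => by rw [h a (List.mem_toFinset.1 ha)]

theorem WF.not_mem (h : T.WF) (hl : a :: l <:+ T.top) : a ∉ l :=
  (List.nodup_cons.1 (hl.sublist.nodup h.nd)).1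

theorem WF.diff_E (h : T.WF) {j : ℕ} (hj : j < T.p) (hO : T.fr.Ok (T.lv j)) :
    DifferentiableOn ℂ (T.E j) (T.D (T.lv j)) :=
  (diff_lin (fun _ ha => hO.diff_mem ha) _).add (A1_diff (h.uA j hj))

theorem WF.diff_s (h : T.WF) (hl : a :: l <:+ T.top) (hO : T.fr.Ok l) :
    DifferentiableOn ℂ (T.s a) (T.D l) := by
  rcases a with k | j
  · exact (differentiableOn_apply k _).congr fun x _ => h.sN k x
  · obtain ⟨hj, rfl⟩ := inr_suffix hl
    exact (((h.diff_E hj hO).cexp).sub (diff_lin (fun _ ha => hO.diff_mem ha) _)).congr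
      fun x hx => h.sL j hj x hx

theorem WF.isOpen_S (h : T.WF) (hl : a :: l <:+ T.top) (hO : T.fr.Ok l) :
    IsOpen {x | x ∈ T.D l ∧ T.cst a x} := by
  have h1 : IsOpen (T.D l ∩ T.s a ⁻¹' Om T.R) :=
    (h.diff_s hl hO).continuousOn.isOpen_inter_preimage hO.isOpen
      (isOpen_Om (by linarith [h.R1]))
  rcases a with k | j
  · convert h1 using 1
    ext x; simp [cst]
  · obtain ⟨hj, rfl⟩ := inr_suffix hl
    have h2 : IsOpen (T.D (T.lv j) ∩ T.E j ⁻¹' {w | |w.im| < Real.pi / 2}) :=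
      (h.diff_E hj hO).continuousOn.isOpen_inter_preimage hO.isOpen
        (isOpen_lt (by fun_prop) continuous_const)
    convert h1.inter h2 using 1
    ext x; simp [cst]

theorem isOpen_D_nil (T : Tw ι) : IsOpen (T.D []) := by
  have : T.D [] = ⋂ k ∈ T.Fv, {x : ι → ℂ | ‖x k‖ < T.r k} := by ext x; simp [D]
  rw [this]
  exact isOpen_biInter_finset fun k _ => isOpen_lt (by fun_prop) continuous_const

theorem convex_D_nil (T : Tw ι) : Convex ℝ (T.D []) := by
  have : T.D [] = ⋂ k ∈ T.Fv, (LinearMap.proj k : (ι → ℂ) →ₗ[ℝ] ℂ) ⁻¹' ball 0 (T.r k) := by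
    ext x; simp [D]
  rw [this]
  exact convex_iInter₂ fun k _ => (convex_ball _ _).linear_preimage _

end Tw

open Tw

theorem T1_ok (h : T.WF) : ∀ {l : List (ι ⊕ ℕ)}, l <:+ T.top → T.fr.Ok l
  | [], _ => T.isOpen_D_nil
  | _ :: _, hl => by
    have hO := T1_ok h (suffix_tail hl)
    exact ⟨hO, isOpen_RC (h.isOpen_S hl hO), D_cons_sub, (h.diff_s hl hO).mono D_cons_sub,
      fun x hx => (zero_le_one.trans h.R1).trans (D_cons_cst (T := T) hx).1.1.le⟩

theorem Tw.WF.isOpen_D (h : T.WF) (hl : l <:+ T.top) : IsOpen (T.D l) := (T1_ok h hl).isOpen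

/-- the scales of `l` ignore a coordinate that is free for `l` -/
theorem Tw.WF.ind_s (h : T.WF) (hl : l <:+ T.top) (hk : Sum.inl k ∉ l)
    (hf : k ∈ T.Fv → T.Free l k) (ha : a ∈ l) :
    Ind k (T.s a) ∧ ∀ j, a = Sum.inr j → Ind k (T.u j) := by
  rcases a with k' | j
  · have : k' ≠ k := by rintro rfl; exact hk ha
    exact ⟨fun x w => by rw [h.sN, h.sN, Function.update_of_ne this], fun _ e => by cases e⟩
  · obtain ⟨l', hl'⟩ := exists_suffix_of_mem ha
    obtain ⟨hj, rfl⟩ := inr_suffix (hl'.trans hl)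
    have := h.ind j hj k (fun hc => hk ((suffix_tail hl').subset hc))
      (by by_cases hF : k ∈ T.Fv; exacts [Or.inr (hf hF j ha), Or.inl hF])
    exact ⟨this.1, fun _ e => by cases e; exact this.2⟩

theorem Tw.WF.ind_E (h : T.WF) (hl : l <:+ T.top) (hk : Sum.inl k ∉ l)
    (hf : k ∈ T.Fv → T.Free l k) {j : ℕ} (ha : Sum.inr j ∈ l) : Ind k (T.E j) := by
  obtain ⟨l', hl'⟩ := exists_suffix_of_mem ha
  obtain ⟨-, rfl⟩ := inr_suffix (hl'.trans hl)
  intro x w
  unfold E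
  rw [(h.ind_s hl hk hf ha).2 j rfl,
    ind_lin (fun b hb => (h.ind_s hl hk hf ((suffix_tail hl').subset hb)).1)]

theorem Tw.WF.cst_upd (h : T.WF) (hl : l <:+ T.top) (hk : Sum.inl k ∉ l)
    (hf : k ∈ T.Fv → T.Free l k) (ha : a ∈ l) {x : ι → ℂ} (hx : T.cst a x) (w : ℂ) :
    T.cst a (Function.update x k w) :=
  ⟨by rw [(h.ind_s hl hk hf ha).1]; exact hx.1, fun j e => by
    subst e; rw [h.ind_E hl hk hf ha]; exact hx.2 j rfl⟩

theorem T2_upd (h : T.WF) : ∀ {l : List (ι ⊕ ℕ)}, l <:+ T.top → Sum.inl k ∉ l →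
    (k ∈ T.Fv → T.Free l k) → ∀ {x : ι → ℂ}, x ∈ T.D l → ∀ {w : ℂ}, (k ∈ T.Fv → ‖w‖ < T.r k) →
    Function.update x k w ∈ T.D l
  | [], _, _, _, x, hx, w, hw => fun k' hk' => by
    by_cases e : k' = k
    · subst e; rw [Function.update_self]; exact hw hk'
    · rw [Function.update_of_ne e]; exact hx k' hk'
  | a :: l, hl, hk, hf, x, hx, w, hw => by
    have key : ∀ z ∈ {x | x ∈ T.D l ∧ T.cst a x}, ∀ v : ℂ, (k ∈ T.Fv → ‖v‖ < T.r k) →
        Function.update z k v ∈ {x | x ∈ T.D l ∧ T.cst a x} := fun z hz v hv =>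
      ⟨T2_upd h (suffix_tail hl) (fun hc => hk (List.mem_cons_of_mem _ hc))
        (fun hF j hj => hf hF j (List.mem_cons_of_mem _ hj)) hz.1 hv,
        h.cst_upd hl hk hf List.mem_cons_self hz.2 v⟩
    obtain ⟨y, hy, hxy⟩ := hx
    have hyS := connectedComponentIn_nonempty_iff.1 ⟨_, hxy⟩
    have hc : Continuous fun z : ι → ℂ => Function.update z k w :=
      continuous_id.update k continuous_const
    have h0 : (fun z : ι → ℂ => Function.update z k w) '' {x | x ∈ T.D l ∧ T.cst a x} ⊆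
        {x | x ∈ T.D l ∧ T.cst a x} := by rintro _ ⟨z, hz, rfl⟩; exact key z hz w hw
    have h1 := connectedComponentIn_mono _ h0
      (hc.continuousOn.mapsTo_connectedComponentIn hyS hxy)
    have hV : Convex ℝ {v : ℂ | k ∈ T.Fv → ‖v‖ < T.r k} := by
      by_cases hF : k ∈ T.Fv
      · rw [show {v : ℂ | k ∈ T.Fv → ‖v‖ < T.r k} = ball 0 (T.r k) by ext v; simp [hF]]
        exact convex_ball _ _
      · rw [show {v : ℂ | k ∈ T.Fv → ‖v‖ < T.r k} = univ by ext v; simp [hF]]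
        exact convex_univ
    have h2 := (hV.isPreconnected.image (fun v => Function.update y k v)
      (continuous_const.update k continuous_id).continuousOn).subset_connectedComponentIn
      (x := y) ⟨y k, fun hF => D_nil hyS.1 hF, Function.update_eq_self k y⟩
      (F := {x | x ∈ T.D l ∧ T.cst a x}) (by rintro _ ⟨v, hv, rfl⟩; exact key y hyS v hv)
      ⟨w, hw, rfl⟩
    exact ⟨y, hy, by rw [connectedComponentIn_eq h2]; exact h1⟩

theorem T3_liou' {E : Type*} [NormedAddCommGroup E] [NormedSpace ℂ E] {g : (ι → ℂ) → E}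
    (h : T.WF) (hl : l <:+ T.top) (hk : Sum.inl k ∉ l) (hf : k ∉ T.Fv)
    (hg : DifferentiableOn ℂ g (T.D l)) (hb : Bd (T.D l) g) {x : ι → ℂ} (hx : x ∈ T.D l) (w : ℂ) :
    g (Function.update x k w) = g x := by
  have hm : ∀ v, Function.update x k v ∈ T.D l := fun v =>
    T2_upd h hl hk (fun hF => absurd hF hf) hx fun hF => absurd hF hf
  have hd : Differentiable ℂ fun v => g (Function.update x k v) := fun v =>
    (hg.differentiableAt ((h.isOpen_D hl).mem_nhds (hm v))).comp v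
      (hasDerivAt_update x k v).differentiableAt
  obtain ⟨C, hC⟩ := hb
  have := hd.apply_eq_apply_of_bounded (isBounded_iff_forall_norm_le.2
    ⟨C, by rintro _ ⟨v, rfl⟩; exact hC _ (hm v)⟩) w (x k)
  rwa [Function.update_eq_self] at this

theorem T3_liou (h : T.WF) (hl : l <:+ T.top) (hk : Sum.inl k ∉ l) (hf : k ∉ T.Fv)
    (hg : DifferentiableOn ℂ g (T.D l)) (hb : Bd (T.D l) g) {x : ι → ℂ} (hx : x ∈ T.D l) (w : ℂ) :
    g (Function.update x k w) = g x := T3_liou' h hl hk hf hg hb hx w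

theorem Tw.shr_lv (T : Tw ι) (R : ℝ) (r : ι → ℝ) : ∀ j, (T.shr R r).lv j = T.lv j
  | 0 => rfl
  | j + 1 => by simp only [lv, Tw.shr_lv T R r j]; rfl

theorem Tw.shr_top (T : Tw ι) (R : ℝ) (r : ι → ℝ) : (T.shr R r).top = T.top := T.shr_lv R r _

theorem Tw.shr_E (T : Tw ι) (R : ℝ) (r : ι → ℝ) (j : ℕ) : (T.shr R r).E j = T.E j := by
  funext x; simp only [E, T.shr_lv]; rfl

theorem Tw.shr_D (T : Tw ι) {R : ℝ} (h1 : 1 ≤ R) (hR : T.R ≤ R) {r : ι → ℝ}
    (hr : ∀ k ∈ T.Fv, r k ≤ T.r k) : ∀ l, (T.shr R r).D l ⊆ T.D l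
  | [] => fun _ hx k hk => (hx k hk).trans_le (hr k hk)
  | a :: l => by
    refine RC_mono (fun x hx => ⟨T.shr_D h1 hR hr l hx.1, Om_anti h1 hR hx.2.1, fun j e => ?_⟩)
      fun y hy hS => ⟨hy.1, hy.2.imp_of_mem fun {b c} _ hc hbc => lt_of_le_of_lt ?_ hbc⟩
    · rw [← T.shr_E R r]; exact hx.2.2 j e
    · have : (T.shr R r).cst c y := by
        rcases List.mem_cons.1 hc with rfl | hc
        exacts [hS.2, D_cst hS.1 hc]
      exact mul_le_mul_of_nonneg_right hR (by linarith [show R < (T.s c y).re from this.1.1])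

theorem T4_shr (h : T.WF) {R : ℝ} (hR : T.R ≤ R) {r : ι → ℝ}
    (hr : ∀ k ∈ T.Fv, 0 < r k ∧ r k ≤ T.r k) :
    (T.shr R r).WF ∧ (∀ l, (T.shr R r).D l ⊆ T.D l) ∧
      ∀ l, l <:+ T.top → (T.shr R r).fr.Sub T.fr R l := by
  have h1 : 1 ≤ R := h.R1.trans hR
  have hD := T.shr_D h1 hR fun k hk => (hr k hk).2
  refine ⟨⟨h1, fun k hk => (hr k hk).1, ?_, ?_, h.lab, h.sN, fun j hj x hx => ?_, fun j hj => ?_,
    fun j hj => ?_, fun j hj k hk => ?_, h.ρ0, h.c0, fun j hj a ha => ?_, fun j hj => ?_,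
    fun j j' h2 h3 => ?_⟩, hD, fun l _ => ?_⟩
  · rw [T.shr_top]; exact h.nd
  · rw [T.shr_top]; exact h.dj
  · rw [T.shr_lv] at hx ⊢
    rw [T.shr_E]; exact h.sL j hj x (hD _ hx)
  · rw [T.shr_lv]; exact Fr.Cl.restr (F := T.fr) (F' := (T.shr R r).fr) rfl (fun l₀ _ => hD l₀) (h.uA j hj)
  · rw [T.shr_lv]; exact fun x hx => h.uR j hj x (hD _ hx)
  · rw [T.shr_lv] at hk; exact h.ind j hj k hk
  · rw [T.shr_lv] at ha; exact h.ρs j hj a ha
  · rw [T.shr_lv]; exact h.ρp j hj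
  · rw [T.shr_lv]; exact h.ρm j j' h2 h3
  · induction l with
    | nil => exact hD []
    | cons a l ih =>
      exact ⟨ih (suffix_tail ‹_›), hD _, rfl, fun x hx => (D_cons_cst (T := T.shr R r) hx).1.1.le⟩

theorem Tw.WF.real_head (h : T.WF) (hl : a :: l <:+ T.top) (ih : ∀ b ∈ l, RR (T.D l) (T.s b)) :
    RR (T.D l) (T.s a) ∧ ∀ j, a = Sum.inr j → RR (T.D l) (T.E j) := by
  rcases a with k | j
  · exact ⟨fun x _ hx => by rw [h.sN]; exact hx k, fun _ e => by cases e⟩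
  · obtain ⟨hj, rfl⟩ := inr_suffix hl
    have hE : RR (T.D (T.lv j)) (T.E j) := fun x hx hr => by
      unfold E
      rw [Complex.add_im, im_lin fun b hb => ih b hb x hx hr, h.uR j hj x hx hr, add_zero]
    refine ⟨fun x hx hr => ?_, fun _ e => by cases e; exact hE⟩
    rw [h.sL j hj x hx, Complex.sub_im, im_lin fun b hb => ih b hb x hx hr, Complex.exp_im,
      hE x hx hr]
    simp

theorem T6_real (h : T.WF) : ∀ {l : List (ι ⊕ ℕ)}, l <:+ T.top → ∀ a ∈ l, RR (T.D l) (T.s a)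
  | [], _, _, ha => by simp at ha
  | b :: l, hl, a, ha => by
    have ih := T6_real h (suffix_tail hl)
    rcases List.mem_cons.1 ha with rfl | ha
    · exact fun x hx => (h.real_head hl ih).1 x (D_cons_sub hx)
    · exact fun x hx => ih a ha x (D_cons_sub hx)

end Crest.Agent.N207.O
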