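import Crest.Agent.N207.O.Qg
import Crest.Agent.N207.O.Cn2

/-!
# Row 207, block O (helper81): deep restrictions of a well formed tower are good
-/

set_option autoImplicit false

namespace Crest.Agent.N207.O

theorem Q1_good {ι : Type} [Fintype ι] [DecidableEq ι] {T : Tw ι} (h : T.WF) :
    ∃ R₀ : ℝ, T.R ≤ R₀ ∧ ∀ R ≥ R₀, ∀ r : ι → ℝ,
      (∀ k ∈ T.Fv, 0 < r k ∧ r k ≤ T.r k) → (T.shr R r).Good := by
  obtain ⟨R₀, -, H⟩ := cn_deep h
  exact good_of h ⟨R₀, fun R hR r hr l hl => H R hR r hr l (by rwa [T.shr_top])⟩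

end Crest.Agent.N207.O
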