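import Crest.Agent.N207.O.Kit2
import Crest.Agent.N207.O.El2
import Crest.Agent.N207.O.Q1

/-!
# Row 207, block O (helper84): algebra of real class functions and of lifts
-/

set_option autoImplicit false
set_option linter.unusedSectionVars false

open Set Filter Topology Metric

noncomputable section

namespace Crest.Agent.N207.O

variable {ι : Type} [Fintype ι] [DecidableEq ι] {α : Type} {U : Ultrafilter α} {T T' T'' : Tw ι}
  {p p' p'' : α → ι → ℂ} {l l' l'' : List (ι ⊕ ℕ)} {W W' : Finset ι} {k : ι}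
  {g g' : (ι → ℂ) → ℂ} {Φ Ψ : (ι → ℂ) → ι → ℂ} {n m : ℕ}

namespace Tw

/-- real elements of the class -/
structure AR (T : Tw ι) (l : List (ι ⊕ ℕ)) (g : (ι → ℂ) → ℂ) : Prop where
  a : T.fr.A l g
  r : RR (T.D l) g

theorem AR.congr (h : T.AR l g) (e : ∀ x ∈ T.D l, g x = g' x) : T.AR l g' :=
  ⟨A2_congr h.a e, fun x hx hr => e x hx ▸ h.r x hx hr⟩

theorem AR.add (hO : T.fr.Ok l) (h : T.AR l g) (h' : T.AR l g') : T.AR l fun x => g x + g' x :=
  ⟨A3_add hO h.a h'.a, fun x hx hr => by simp [h.r x hx hr, h'.r x hx hr]⟩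

theorem AR.mul (hO : T.fr.Ok l) (h : T.AR l g) (h' : T.AR l g') : T.AR l fun x => g x * g' x :=
  ⟨Fr.A.mul hO h.a h'.a, fun x hx hr => by simp [h.r x hx hr, h'.r x hx hr]⟩

theorem AR.const (hO : T.fr.Ok l) (c : ℝ) : T.AR l fun _ => (c : ℂ) :=
  ⟨Fr.Cl.const hO _, fun _ _ _ => Complex.ofReal_im c⟩

theorem AR.neg (h : T.AR l g) : T.AR l fun x => -g x :=
  ⟨Fr.Cl.neg h.a, fun x hx hr => by simp [h.r x hx hr]⟩

theorem AR.exp (hO : T.fr.Ok l) (h : T.AR l g) : T.AR l fun x => Complex.exp (g x) :=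
  ⟨C3_exp hO h.a, fun x hx hr => by simp [Complex.exp_im, h.r x hx hr]⟩

theorem AR.pow (hO : T.fr.Ok l) (h : T.AR l g) : ∀ n : ℕ, T.AR l fun x => g x ^ n
  | 0 => (AR.const hO 1).congr fun _ _ => by simp
  | n + 1 => ((AR.pow hO h n).mul hO h).congr fun _ _ => (pow_succ _ _).symm

theorem AR.sum {I : Type*} (hO : T.fr.Ok l) (J : Finset I) {f : I → (ι → ℂ) → ℂ}
    (h : ∀ i ∈ J, T.AR l (f i)) : T.AR l fun x => ∑ i ∈ J, f i x :=
  ⟨Fr.Cl.sum hO J fun i hi => (h i hi).a, fun x hx hr => by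
    rw [Complex.im_sum]; exact Finset.sum_eq_zero fun i hi => (h i hi).r x hx hr⟩

theorem AR.lift (hO : T.fr.Ok l) (hl : l' <:+ l) (h : T.AR l' g) : T.AR l g :=
  ⟨A4_lift hO hl h.a, fun x hx hr => h.r x (D_suffix hl hx) hr⟩

theorem AR.coord (hO : T.fr.Ok l) (hk : k ∈ T.Fv) : T.AR l fun x => x k :=
  ⟨Fr.A.of_nil hO (differentiable_apply k).differentiableOn
    ⟨T.r k, fun _ hx => (hx k hk).le⟩, fun _ _ hr => hr k⟩

theorem AR.mon (h : T.WF) (hl : l <:+ T.top) {γ : ι ⊕ ℕ → ℝ} (hγ : ∀ a, 0 ≤ γ a) :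
    T.AR l fun x => Complex.exp (-T.lin l γ x) :=
  ⟨T7_mon h hl hγ, fun x hx hr => by
    simp [Complex.exp_im, im_lin (fun a ha => T6_real h hl a ha x hx hr) γ]⟩

theorem AR.dif (h : T.AR l g) : DifferentiableOn ℂ g (T.D l) := A1_diff h.a

theorem AR.bd (hO : T.fr.Ok l) (h : T.AR l g) : Bd (T.D l) g := A1_bd hO le_rfl h.a

/-- limits along the ultrafilter exist -/
theorem AR.ulim (hO : T.fr.Ok l) (h : T.AR l g) {q : α → ι → ℂ} (hq : ∀ᶠ i in U, q i ∈ T.D l) :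
    ∃ c, Tendsto (fun i => g (q i)) U (𝓝 c) := by
  obtain ⟨C, hC⟩ := h.bd hO
  obtain ⟨c, -, hc⟩ := (isCompact_closedBall (0 : ℂ) C).ultrafilter_le_nhds'
    (U.map fun i => g (q i)) (Ultrafilter.mem_map.2 (hq.mono fun i hi => by simpa using hC _ hi))
  exact ⟨c, hc⟩

theorem Pb.ar (h : Pb T T' l l' Φ) (hg : T.AR l g) : T'.AR l' (g ∘ Φ) :=
  ⟨h.cl g hg.a, h.rr g hg.a hg.r⟩

theorem lin_add (γ γ' : ι ⊕ ℕ → ℝ) (x : ι → ℂ) :
    T.lin l (γ + γ') x = T.lin l γ x + T.lin l γ' x := by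
  simp [lin, add_mul, Finset.sum_add_distrib]

theorem lin_sub (γ γ' : ι ⊕ ℕ → ℝ) (x : ι → ℂ) :
    T.lin l (γ - γ') x = T.lin l γ x - T.lin l γ' x := by
  simp [lin, sub_mul, Finset.sum_sub_distrib]

theorem lin_smul (t : ℝ) (γ : ι ⊕ ℕ → ℝ) (x : ι → ℂ) :
    T.lin l (t • γ) x = t * T.lin l γ x := by
  simp [lin, Finset.mul_sum, mul_assoc]

theorem lin_zero {γ : ι ⊕ ℕ → ℝ} (h : ∀ a ∈ l, γ a = 0) (x : ι → ℂ) : T.lin l γ x = 0 :=
  Finset.sum_eq_zero fun a ha => by simp [h a (List.mem_toFinset.1 ha)]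

theorem lin_ext (h : l' ⊆ l) (γ : ι ⊕ ℕ → ℝ) (x : ι → ℂ) :
    T.lin l (fun a => if a ∈ l'.toFinset then γ a else 0) x = T.lin l' γ x := by
  unfold lin
  rw [← Finset.sum_subset (s₁ := l'.toFinset) (fun a ha => by simpa using h (by simpa using ha))
    fun a _ ha => by simp only [if_neg ha, Complex.ofReal_zero, zero_mul]]
  exact Finset.sum_congr rfl fun a ha => by simp only [if_pos ha]

theorem Pb.lin (h : Pb T T' l l' Φ) (hO : T'.fr.Ok l') (γ : ι ⊕ ℕ → ℝ) :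
    ∃ (γ' : ι ⊕ ℕ → ℝ) (b : (ι → ℂ) → ℂ), T'.AR l' b ∧
      ∀ x ∈ T'.D l', T.lin l γ (Φ x) = T'.lin l' γ' x + b x := by
  choose! C b h1 h2 h3 using h.sc
  refine ⟨fun c => ∑ a ∈ l.toFinset, γ a * C a c, fun x => ∑ a ∈ l.toFinset, γ a * b a x,
    AR.sum hO _ fun a ha => (AR.const hO _).mul hO
      ⟨h1 a (List.mem_toFinset.1 ha), h2 a (List.mem_toFinset.1 ha)⟩, fun x hx => ?_⟩
  have : T'.lin l' (fun c => ∑ a ∈ l.toFinset, γ a * C a c) x =
      ∑ a ∈ l.toFinset, γ a * T'.lin l' (C a) x := by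
    simp only [Tw.lin, Finset.mul_sum, Complex.ofReal_sum, Finset.sum_mul, Complex.ofReal_mul,
      mul_assoc]
    exact Finset.sum_comm
  rw [this, ← Finset.sum_add_distrib]
  exact Finset.sum_congr rfl fun a ha => by rw [h3 a (List.mem_toFinset.1 ha) x hx, mul_add]

theorem Pb.trans (h : Pb T T' l l' Φ) (h' : Pb T' T'' l' l'' Ψ) (hO : T''.fr.Ok l'') :
    Pb T T'' l l'' (Φ ∘ Ψ) where
  maps := h.maps.comp h'.maps
  cl g hg := h'.cl _ (h.cl g hg)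
  rr g hg hr := h'.rr _ (h.cl g hg) (h.rr g hg hr)
  sc a ha := by
    obtain ⟨C, b, h1, h2, h3⟩ := h.sc a ha
    obtain ⟨C', b', h4, h5⟩ := h'.lin hO C
    have h6 := h4.add hO (h'.ar ⟨h1, h2⟩)
    exact ⟨C', _, h6.a, h6.r, fun x hx => by
      rw [Function.comp, h3 _ (h'.maps hx), h5 x hx, add_assoc]; rfl⟩

theorem lw_top (h : m ≤ T.p + 1) : T.lw m <:+ T.top := by
  cases m with
  | zero => exact List.nil_suffix
  | succ m => exact lv_top (by omega)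

theorem lw_mono (h : m ≤ n) : T.lw m <:+ T.lw n := by
  cases m with
  | zero => exact List.nil_suffix
  | succ m => cases n with
    | zero => omega
    | succ n => exact lv_suffix (by omega)

theorem lv_congr (h : T'.B = T.B) : T'.lv = T.lv := by
  funext j
  induction j with
  | zero => simp only [lv, h]
  | succ j ih => simp only [lv, h, ih]

theorem lw_congr (h : T'.B = T.B) : T'.lw = T.lw := by
  funext j; cases j with
  | zero => rfl
  | succ j => simp only [lw, lv_congr h]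

theorem top_congr (h : T'.B = T.B) (hp : T'.p = T.p) : T'.top = T.top := by
  simp only [top, lv_congr h, hp]

theorem Lift.top (h : T.Lift T' U n W p p' Φ) (hn : n ≤ T.p + 1) : Pb T T' T.top T'.top Φ := by
  have := h.pb (T.p + 1) hn le_rfl
  rwa [show T'.lw (T.p + 1) = T'.top by rw [← h.pp]; rfl] at this

theorem Lift.lv (h : T.Lift T' U n W p p' Φ) (hn : n ≤ m + 1) (hm : m ≤ T.p) :
    Pb T T' (T.lv m) (T'.lv m) Φ := h.pb (m + 1) hn (by omega)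

theorem Lift.mono (h : T.Lift T' U n W p p' Φ) (hn : n ≤ m) (hW : W' ⊆ W) :
    T.Lift T' U m W' p p' Φ :=
  { h with
    pas := fun k hk => h.pas k (hW hk)
    com := fun k hk => h.com k (hW hk)
    lab := fun k hk => (h.lab k hk).trans (max_le_max le_rfl (by omega))
    pb := fun j hj => h.pb j (hn.trans hj) }

theorem Lift.trans (h : T.Lift T' U n W p p' Φ) (h' : T'.Lift T'' U n W p' p'' Ψ)
    (hn : n ≤ T.p + 1) : T.Lift T'' U n W p p'' (Φ ∘ Ψ) where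
  wf := h'.wf
  pt := h'.pt
  hp := by filter_upwards [h.hp, h'.hp] with i h1 h2; rw [Function.comp, h2, h1]
  pp := h'.pp.trans h.pp
  mu := h'.mu.trans h.mu
  sub := h'.sub.trans h.sub
  pas k hk hF := by
    obtain ⟨a1, a2, a3⟩ := h.pas k hk hF
    obtain ⟨b1, b2, b3⟩ := h'.pas k hk a1
    exact ⟨b1, b2.trans a2, b3.trans a3⟩
  com k hk x w := by simp only [Function.comp, h'.com k hk, h.com k hk]
  lab k hk := (h'.lab k hk).trans (max_le (h.lab k (h'.sub hk)) (le_max_right _ _))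
  dif := h.dif.comp h'.dif (h'.top (h.pp ▸ hn)).maps
  rea x hx hr := h.rea _ ((h'.top (h.pp ▸ hn)).maps hx) (h'.rea x hx hr)
  pb j h1 h2 := (h.pb j h1 h2).trans (h'.pb j h1 (h.pp ▸ h2))
    (T1_ok h'.wf (lw_top (by rw [h'.pp, h.pp]; exact h2)))

theorem Same.mono (h : T.Same T' n Φ) (hn : n ≤ m) : T.Same T' m Φ :=
  { h with
    pb := fun l h1 => h.pb l ((lw_mono hn).trans h1)
    sc := fun a l h1 => h.sc a l ((lw_mono hn).trans h1) }

/-- a shape preserving lift to a good tower -/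
structure Stp (T T' : Tw ι) (U : Ultrafilter α) (n : ℕ) (W : Finset ι) (p p' : α → ι → ℂ)
    (Φ : (ι → ℂ) → ι → ℂ) : Prop where
  lf : T.Lift T' U n W p p' Φ
  sm : T.Same T' n Φ
  gd : T'.Good

theorem Same.trans (h : T.Same T' n Φ) (h' : T'.Same T'' n Ψ) (hp : T'.p = T.p)
    (hp' : T''.p = T'.p) (hw : T''.WF) (hn : n ≤ T.p + 1) : T.Same T'' n (Φ ∘ Ψ) := by
  have e1 := top_congr h.B hp
  have e2 := top_congr h'.B hp'
  have e3 := lw_congr h.B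
  refine ⟨h'.B.trans h.B, h'.Fv.trans h.Fv, h'.lab.trans h.lab, fun x hx => ?_, fun l h1 h2 => ?_,
    fun a l h1 h2 => ?_⟩
  · have := (h'.pb T'.top (lw_top (hp ▸ hn)) List.suffix_rfl).maps (e2 ▸ hx)
    exact (h.opn _ this).trans (map_mono (h'.opn x hx))
  · exact (h.pb l h1 h2).trans (h'.pb l (e3 ▸ h1) (e1 ▸ h2)) (T1_ok hw (e2 ▸ e1 ▸ h2))
  · have hO := T1_ok hw (l := a :: l) (e2 ▸ e1 ▸ h2)
    obtain ⟨C, b, a1, a2, a3⟩ := h.sc a l h1 h2
    obtain ⟨C', b', b1, b2, b3⟩ := h'.sc a l (e3 ▸ h1) (e1 ▸ h2)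
    have P := h'.pb (a :: l) (e3 ▸ h1.trans (List.suffix_cons _ _)) (e1 ▸ h2)
    obtain ⟨C'', b'', c1, c2⟩ := (h'.pb l (e3 ▸ h1) (e1 ▸ suffix_tail h2)).lin hO.tail C
    have d := (AR.add hO ⟨b1, b2⟩ (c1.lift hO (List.suffix_cons _ _))).add hO (P.ar ⟨a1, a2⟩)
    refine ⟨C' + C'', _, d.a, d.r, fun x hx => ?_⟩
    rw [Function.comp, a3 _ (P.maps hx), b3 x hx, c2 x (D_cons_sub hx), lin_add]
    simp only [Function.comp]; ring

theorem Stp.trans (h : Stp T T' U n W p p' Φ) (h' : Stp T' T'' U n W p' p'' Ψ)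
    (hn : n ≤ T.p + 1) : Stp T T'' U n W p p'' (Φ ∘ Ψ) :=
  ⟨h.lf.trans h'.lf hn, h.sm.trans h'.sm h.lf.pp h'.lf.pp h'.gd.wf hn, h'.gd⟩

theorem Stp.mono (h : Stp T T' U n W p p' Φ) (hn : n ≤ m) (hW : W' ⊆ W) :
    Stp T T' U m W' p p' Φ := ⟨h.lf.mono hn hW, h.sm.mono hn, h.gd⟩

theorem Stp.top (h : Stp T T' U n W p p' Φ) : T'.top = T.top := top_congr h.sm.B h.lf.pp

theorem Stp.lv (h : Stp T T' U n W p p' Φ) : T'.lv = T.lv := lv_congr h.sm.B

theorem Stp.refl (h : T.Good) (hp : T.Pt U p) : Stp T T U n W p p id :=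
  have := E0_shr (W := W) h.wf hp le_rfl (fun k hk => ⟨h.wf.r0 k hk, le_rfl⟩) fun _ _ => rfl
  Stp.mono ⟨this.1, this.2, h⟩ (Nat.zero_le _) Finset.Subset.rfl

/-- every well formed tower becomes good after shrinking -/
theorem exists_good (h : T.WF) (hp : T.Pt U p) (W : Finset ι) :
    ∃ R, T.R ≤ R ∧ Stp T (T.shr R T.r) U 0 W p p id := by
  obtain ⟨R, h1, h2⟩ := Q1_good h
  have h3 : ∀ k ∈ T.Fv, 0 < T.r k ∧ T.r k ≤ T.r k := fun k hk => ⟨h.r0 k hk, le_rfl⟩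
  have := E0_shr (W := W) h hp h1 h3 fun _ _ => rfl
  exact ⟨R, h1, this.1, this.2, h2 R le_rfl _ h3⟩

theorem Lift.fix (h : T.Lift T' U n W p p' Φ) (hs : T.Same T' n Φ) (hn : n ≤ T.p + 1) :
    ∃ R, (∀ l, (T'.shr R T'.r).D l ⊆ T'.D l) ∧ Stp T (T'.shr R T'.r) U n W p p' Φ := by
  obtain ⟨R, h1, h2⟩ := exists_good h.wf h.pt W
  have h3 := h2.mono (Nat.zero_le n) Finset.Subset.rfl
  exact ⟨R, T'.shr_D (h.wf.R1.trans h1) h1 fun _ _ => le_rfl, h.trans h3.lf hn,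
    hs.trans h3.sm h.pp h3.lf.pp h3.gd.wf hn, h3.gd⟩

/-- shape preserving lifts are dominant -/
theorem Stp.dom (h : Stp T T' U n W p p' Φ) (hT : T.Good) (hl : l <:+ T.top)
    (hP : Pb T T' l l Φ) (hg : T.AR l g) (h0 : EqOn (g ∘ Φ) 0 (T'.D l)) : EqOn g 0 (T.D l) := by
  obtain ⟨i, hi⟩ := (T5_mem h.gd.wf h.lf.pt List.suffix_rfl).exists
  have hs : T'.D T'.top ⊆ T'.D l := D_suffix (h.top ▸ hl)
  refine T8_id (hT.wf.isOpen_D hl) (hT.cn l hl) hg.dif (hP.maps (hs hi)) (h.sm.opn _ hi ?_)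
  exact Filter.mem_map.2 (Filter.mem_of_superset
    ((h.gd.wf.isOpen_D List.suffix_rfl).mem_nhds hi) fun x hx => h0 (hs hx))

end Tw

end Crest.Agent.N207.O
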