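import Crest.Agent.N207.O.Unt2

/-!
# Row 207, block O (helper88): un-tying a variable, `E4_untie`
-/

set_option autoImplicit false
set_option linter.unusedSectionVars false

open Set Filter Topology Metric Function

noncomputable section

namespace Crest.Agent.N207.O

variable {ι : Type} [Fintype ι] [DecidableEq ι] {α : Type} {U : Ultrafilter α} {T : Tw ι}
  {p : α → ι → ℂ} {W : Finset ι} {k : ι}

namespace Unt

open El Fr

variable {β : ι ⊕ ℕ → ℝ} {t R M : ℝ} {v : (ι → ℂ) → ℂ}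

/-- the new points -/
def np (T : Tw ι) (k : ι) (t : ℝ) (p : α → ι → ℂ) (i : α) : ι → ℂ :=
  update (p i) k ((p i k / mm T k t (p i)).re : ℂ)

theorem mm_ne (x : ι → ℂ) : mm T k t x ≠ 0 :=
  mul_ne_zero (Complex.exp_ne_zero _) (Complex.exp_ne_zero _)

theorem Ctx.np_eq (c : Ctx T k β) (hp : T.Pt U p) : ∀ᶠ i in U,
    np T k t p i k = p i k / mm T k t (p i) ∧ Ph T k t (np T k t p i) = p i := by
  filter_upwards [T5_mem c.wf hp c.lo] with i hi
  have h1 : np T k t p i k = p i k / mm T k t (p i) := by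
    rw [np, update_self]
    exact Complex.conj_eq_iff_re.1 (by
      rw [map_div₀, Complex.conj_eq_iff_im.2 (hp.re i k),
        Complex.conj_eq_iff_im.2 (c.mm_im hi (hp.re i))])
  refine ⟨h1, ?_⟩
  rw [Ph, h1, np, c.ind_mm, update_idem, mul_div_cancel₀ _ (mm_ne _), update_eq_self]

theorem Ctx.lin_le (c : Ctx T k β) (hp : T.Pt U p) {ε : ℝ} (hε : 0 < ε) : ∀ᶠ i in U,
    (T.lin (T.lv (T.lab k)) (T.ρ (T.lab k)) (p i)).re ≤ ε * (T.s (Sum.inr (T.lab k)) (p i)).re := by
  have := tendsto_finsetSum (T.lv (T.lab k)).toFinset fun b hb =>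
    (hp.ord _ _ c.l0 b (List.mem_toFinset.1 hb)).const_mul (T.ρ (T.lab k) b)
  simp only [mul_zero, Finset.sum_const_zero] at this
  filter_upwards [this.eventually (gt_mem_nhds hε),
    (hp.big _ (c.l0.subset List.mem_cons_self)).eventually_gt_atTop 0] with i h1 h2
  rw [Tw.re_lin, ← div_le_iff₀ h2, Finset.sum_div]
  simpa only [mul_div_assoc] using h1.le

theorem Ctx.pt (c : Ctx T k β) (hp : T.Pt U p) (y : Tay T k v M) (ht : 0 < t)
    (hB : ∀ᶠ i in U, ‖p i k‖ ≤ Real.exp (-(t * (T.s (Sum.inr (T.lab k)) (p i)).re))) :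
    (unt T k (t / 2) β R).Pt U (np T k (t / 2) p) := by
  have hj := hp.big _ (c.l0.subset List.mem_cons_self)
  have hb : ∀ᶠ i in U, ‖T.s (Sum.inr (T.lab k)) (p i) -
      T.s (Sum.inr (T.lab k)) (update (p i) k 0)‖ ≤ M := by
    filter_upwards [T5_mem c.wf hp c.lo, hB, c.lin_le hp ht] with i h1 h2 h3
    rw [y.eq _ h1, norm_mul, norm_mul, Complex.norm_exp, ← mul_assoc]
    have h4 : Real.exp (T.lin (T.lv (T.lab k)) (T.ρ (T.lab k)) (p i)).re * ‖p i k‖ ≤ 1 := by
      refine (mul_le_mul_of_nonneg_left h2 (Real.exp_pos _).le).trans ?_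
      rw [← Real.exp_add, Real.exp_le_one_iff]; linarith
    calc _ ≤ 1 * M := by gcongr; exact y.bd _ h1
      _ = M := one_mul _
  have key := big_ord (T' := unt T k (t / 2) β R) (p' := np T k (t / 2) p) hp fun a ha => by
    have h0 : Tendsto (fun i => |β a| * M / (T.s a (p i)).re) U (𝓝 0) :=
      tendsto_const_nhds.div_atTop (hp.big a ha)
    rw [tendsto_iff_norm_sub_tendsto_zero]
    refine squeeze_zero' (.of_forall fun _ => norm_nonneg _) ?_ h0
    filter_upwards [c.np_eq (t := t / 2) hp, hb, (hp.big a ha).eventually_gt_atTop 0]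
      with i h1 h2 h3
    have e := c.s_Ph (t := t / 2) (R := R) ha (np T k (t / 2) p i)
    rw [bb, h1.2, np, update_idem] at e
    rw [div_sub_one h3.ne', norm_div, Real.norm_of_nonneg h3.le, ← Complex.sub_re, np]
    gcongr
    refine (Complex.abs_re_le_norm _).trans ?_
    rw [e, sub_add_cancel_left, norm_neg, norm_mul, Complex.norm_real, Real.norm_eq_abs]
    gcongr
  refine ⟨fun i => rp_upd (hp.re i) (Complex.ofReal_im _), fun k' hk' => ?_,
    fun k' h1 h2 i => ?_, by rw [unt_top]; exact key.1, by rw [unt_top]; exact key.2⟩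
  · by_cases e : k' = k
    swap
    · simpa only [np, update_of_ne e] using hp.z0 k' hk'
    subst e
    have h0 : Tendsto (fun i => Real.exp (-(t / 4 * (T.s (Sum.inr (T.lab k')) (p i)).re) +
        t / 2 * M)) U (𝓝 0) := Real.tendsto_exp_atBot.comp (tendsto_atBot_add_const_right _ _
      (tendsto_neg_atTop_atBot.comp (hj.const_mul_atTop (by linarith))))
    refine squeeze_zero_norm' ?_ h0
    filter_upwards [c.np_eq (t := t / 2) hp, hb, hB, c.lin_le hp (show 0 < t / 4 by linarith)]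
      with i h1 h2 h3 h4
    have h5 := (Complex.abs_re_le_norm _).trans h2
    rw [Complex.sub_re, abs_le] at h5
    rw [h1.1, norm_div, mm, norm_mul, Complex.norm_exp, Complex.norm_exp, ← Real.exp_add,
      div_le_iff₀ (Real.exp_pos _), ← Real.exp_add]
    refine h3.trans (Real.exp_le_exp.2 ?_)
    simp only [Complex.neg_re, Complex.re_ofReal_mul]
    nlinarith
  · have e : k' ≠ k := by rintro rfl; exact h1 c.hk
    rw [np, update_of_ne e]
    exact hp.un k' h1 (by rwa [unt_top] at h2) i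

end Unt

open Unt El in
/-- un-tie -/
theorem E4_untie (h : T.WF) (hp : T.Pt U p) (hk : k ∈ T.Fv) (hkW : k ∉ W) (hj : T.lab k < T.p)
    (hW : ∀ j ∈ W, j ∈ T.Fv ∧ T.lab k < T.lab j) (hB : T.Bey U p (T.lab k) k) :
    ∃ (T' : Tw ι) (p' : α → ι → ℂ) (Φ : (ι → ℂ) → ι → ℂ),
      T.Lift T' U (T.lab k + 2) W p p' Φ ∧ T'.B = T.B ∧ T'.Fv = T.Fv ∧
        T'.lab = Function.update T.lab k (T.lab k + 1) := by
  obtain ⟨t, ht, hB⟩ := hB.1 hj
  obtain ⟨β, c⟩ := exists_ctx h hk hj
  obtain ⟨v, M, y⟩ := c.tay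
  have B0 := c.Bc0 y
  have R1 := h.R1
  set R := (T.R + 1) * (Bc T k β M + 2) with hR
  have h1 : T.R ≤ R := by nlinarith
  have h2 : 0 < t / 2 := by linarith
  have H := c.rel y h1 h2 le_rfl c.l0 List.suffix_rfl
  have ne : ∀ j ∈ W, j ≠ k := fun j hj e => hkW (e ▸ hj)
  refine ⟨unt T k (t / 2) β R, np T k (t / 2) p, Ph T k (t / 2),
    ⟨c.wf' y h1 h2 le_rfl, c.pt hp y ht hB, (c.np_eq hp).mono fun _ h => h.2, rfl, ?_, subset_rfl,
      fun j hj hF => ⟨hF, ?_, ?_⟩, fun j hj => ?_, fun j _ => ?_, by rw [unt_top]; exact H.dif,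
      by rw [unt_top]; exact H.rea,
      pb_of (T := T) (T' := unt T k (t / 2) β R) rfl fun l hl hl' => ?_⟩, rfl, rfl, rfl⟩
  · refine Finset.sum_le_sum fun j _ => ?_
    change T.p + 1 - update T.lab k (T.lab k + 1) j ≤ _
    by_cases e : j = k
    · subst e; rw [update_self]; omega
    · rw [update_of_ne e]
  · exact update_of_ne (ne j hj) _ _
  · exact update_of_ne (ne j hj) _ _
  · exact (c.ind_mm' (ne j hj) (not_mem h c.lo (hW j hj).1) (Or.inr (hW j hj).2)).2.1
  · change update T.lab k (T.lab k + 1) j ≤ _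
    by_cases e : j = k
    · subst e; rw [update_self]; omega
    · rw [update_of_ne e]; exact le_max_left _ _
  · have h3 : Sum.inr (T.lab k) :: T.lv (T.lab k) <:+ l := (lv_succ_suffix T _).trans hl
    have G := c.rel y h1 h2 le_rfl h3 hl'
    refine ⟨G.maps, G.cl, fun _ _ hg => G.rr hg, fun a ha => ⟨Pi.single a 1,
      fun x => β a * bb T k (t / 2) x, (A4_lift G.ok h3 (c.bb_A y h1 h2)).const_mul _,
      fun x hx hr => ?_, fun x _ => ?_⟩⟩
    · rw [Complex.im_ofReal_mul, c.bb_rr h1 h2 x (D_suffix h3 hx) hr, mul_zero]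
    · rw [lin_single ha]; exact c.s_Ph (hl'.subset ha) x

end Crest.Agent.N207.O
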