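import Crest.Agent.N207.O.Lf1
import Crest.Agent.N207.O.Unt3

/-!
# Row 207, block O (helper84): passive variables, units, contexts, escapes
-/

set_option autoImplicit false
set_option linter.unusedSectionVars false

open Set Filter Topology Metric

noncomputable section

namespace Crest.Agent.N207.O

variable {ι : Type} [Fintype ι] [DecidableEq ι] {α : Type} {U : Ultrafilter α} {T T' T'' : Tw ι}
  {p p' p'' : α → ι → ℂ} {l l' l'' : List (ι ⊕ ℕ)} {W W' : Finset ι} {k : ι}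
  {g g' : (ι → ℂ) → ℂ} {Φ Ψ : (ι → ℂ) → ι → ℂ} {n m : ℕ} {w : ι → ℝ} {x : ι → ℂ}

theorem upd_empty (w : ι → ℝ) (x : ι → ℂ) : upd ∅ w x = x := by funext k; simp [upd]

theorem upd_insert (W : Finset ι) (k : ι) (w : ι → ℝ) (x : ι → ℂ) :
    upd (insert k W) w x = Function.update (upd W w x) k (w k) := by
  funext j
  by_cases h : j = k
  · subst h; simp [upd]
  · simp [upd, h]

theorem upd_update (hk : k ∉ W) (w : ι → ℝ) (x : ι → ℂ) (t : ℂ) :
    upd W w (Function.update x k t) = Function.update (upd W w x) k t := by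
  funext j
  by_cases h : j = k
  · subst h; simp [upd, hk]
  · simp [upd, h]

theorem upd_of_not (hk : k ∉ W) (w : ι → ℝ) (x : ι → ℂ) : upd W w x k = x k := by simp [upd, hk]

theorem upd_com (h : ∀ k ∈ W, ∀ x t, Φ (Function.update x k t) = Function.update (Φ x) k t)
    (w : ι → ℝ) (x : ι → ℂ) : Φ (upd W w x) = upd W w (Φ x) := by
  induction W using Finset.induction_on with
  | empty => simp only [upd_empty]
  | insert k W _ ih =>
    rw [upd_insert, upd_insert, h k (Finset.mem_insert_self _ _),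
      ih fun j hj => h j (Finset.mem_insert_of_mem hj)]

theorem upd_ind {β : Type*} {f : (ι → ℂ) → β} (h : ∀ k ∈ W, Ind k f) (w : ι → ℝ) (x : ι → ℂ) :
    f (upd W w x) = f x := by
  induction W using Finset.induction_on with
  | empty => simp only [upd_empty]
  | insert k W _ ih =>
    rw [upd_insert, h k (Finset.mem_insert_self _ _),
      ih fun j hj => h j (Finset.mem_insert_of_mem hj)]

theorem ind_upd {β : Type*} (f : (ι → ℂ) → β) (hk : k ∈ W) (w : ι → ℝ) :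
    Ind k (f ∘ upd W w) := fun x t => by
  simp only [Function.comp]; congr 1; funext j
  by_cases h : j = k
  · subst h; simp [upd, hk]
  · simp [upd, h]

theorem upd_real (hx : x ∈ Rp ι) (W : Finset ι) (w : ι → ℝ) : upd W w x ∈ Rp ι := fun k => by
  unfold upd; split_ifs
  · simp
  · exact hx k

theorem diff_upd (W : Finset ι) (w : ι → ℝ) : Differentiable ℂ (upd W w) :=
  differentiable_pi.2 fun k => by
    unfold upd; split_ifs
    · exact differentiable_const _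
    · exact differentiable_apply k

namespace Tw

/-- `k` is a finite variable ignored by the scales of `l` -/
def Fre (T : Tw ι) (l : List (ι ⊕ ℕ)) (k : ι) : Prop := k ∈ T.Fv ∧ T.Free l k

theorem Fre.suffix (h : T.Fre l k) (hl : l' <:+ l) : T.Fre l' k :=
  ⟨h.1, fun j hj => h.2 j (hl.subset hj)⟩

theorem fre_lv (hk : k ∈ T.Fv) (hm : m ≤ T.lab k) : T.Fre (T.lv m) k :=
  ⟨hk, fun _ hj => (inr_mem_lv.1 hj).trans_le hm⟩

theorem Fre.mem (h : T.WF) (hl : l <:+ T.top) (hk : T.Fre l k) (hx : x ∈ T.D l) {t : ℂ}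
    (ht : ‖t‖ < T.r k) : Function.update x k t ∈ T.D l :=
  T2_upd h hl (fun e => h.dj k hk.1 (hl.subset e)) (fun _ => hk.2) hx fun _ => ht

theorem Fre.ind (h : T.WF) (hl : l <:+ T.top) (hk : T.Fre l k) {a : ι ⊕ ℕ} (ha : a ∈ l) :
    Ind k (T.s a) := (h.ind_s hl (fun e => h.dj k hk.1 (hl.subset e)) (fun _ => hk.2) ha).1

theorem Fre.lin (h : T.WF) (hl : l <:+ T.top) (hk : T.Fre l k) (γ : ι ⊕ ℕ → ℝ) :
    Ind k (T.lin l γ) := ind_lin (fun _ ha => hk.ind h hl ha) γ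

theorem upd_mem (h : T.WF) (hl : l <:+ T.top) (hW : ∀ k ∈ W, T.Fre l k)
    (hw : ∀ k ∈ W, |w k| < T.r k) (hx : x ∈ T.D l) : upd W w x ∈ T.D l := by
  induction W using Finset.induction_on with
  | empty => rwa [upd_empty]
  | insert k W _ ih =>
    rw [upd_insert]
    exact (hW k (Finset.mem_insert_self _ _)).mem h hl
      (ih (fun j hj => hW j (Finset.mem_insert_of_mem hj))
        fun j hj => hw j (Finset.mem_insert_of_mem hj))
      (by simpa using hw k (Finset.mem_insert_self _ _))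

theorem lin_upd (h : T.WF) (hl : l <:+ T.top) (hW : ∀ k ∈ W, T.Fre l k) (γ : ι ⊕ ℕ → ℝ)
    (w : ι → ℝ) (x : ι → ℂ) : T.lin l γ (upd W w x) = T.lin l γ x :=
  upd_ind (fun k hk => (hW k hk).lin h hl γ) w x

theorem AR.upd (h : T.WF) (hl : l <:+ T.top) (hW : ∀ k ∈ W, T.Fre l k)
    (hw : ∀ k ∈ W, |w k| < T.r k) (hg : T.AR l g) : T.AR l (g ∘ upd W w) :=
  ⟨A9_pull (T1_ok h hl) (fun _ h0 _ hx => upd_mem h (h0.trans hl)
      (fun k hk => (hW k hk).suffix h0) hw hx) (diff_upd W w).differentiableOn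
      (fun _ _ h0 x _ => upd_ind
        (fun k hk => (hW k hk).ind h hl (h0.subset List.mem_cons_self)) w x) hg.a,
    fun _ hx hr => hg.r _ (upd_mem h hl hW hw hx) (upd_real hr W w)⟩

theorem ev_upd (h : T.WF) (hp : T.Pt U p) (hl : l <:+ T.top) (hW : ∀ k ∈ W, T.Fre l k)
    (hw : ∀ k ∈ W, |w k| < T.r k) : ∀ᶠ i in U, upd W w (p i) ∈ T.D l :=
  (T5_mem h hp hl).mono fun _ hi => upd_mem h hl hW hw hi

theorem Lift.coord (h : T.Lift T' U n W p p' Φ) (hk : k ∈ W) (x : ι → ℂ) : Φ x k = x k := by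
  have := congrFun (h.com k hk x (x k)) k
  rwa [Function.update_eq_self, Function.update_self] at this

theorem Lift.ind {β : Type*} {f : (ι → ℂ) → β} (h : T.Lift T' U n W p p' Φ) (hk : k ∈ W)
    (hf : Ind k f) : Ind k (f ∘ Φ) := fun x t => by simp only [Function.comp, h.com k hk, hf _ _]

theorem Lift.fre (h : T.Lift T' U n W p p' Φ) (hk : k ∈ W) (hF : k ∈ T.Fv) (hm : m ≤ T.lab k) :
    T'.Fre (T'.lv m) k := fre_lv (h.pas k hk hF).1 ((h.pas k hk hF).2.1 ▸ hm)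

theorem Stp.fre (h : Stp T T' U n W p p' Φ) (hk : T.Fre l k) : T'.Fre l k :=
  ⟨h.sm.Fv ▸ hk.1, fun j hj => h.sm.lab ▸ hk.2 j hj⟩

theorem Lift.rad (h : T.Lift T' U n W p p' Φ) (hW : ∀ k ∈ W, k ∈ T.Fv)
    (hw : ∀ k ∈ W, |w k| < T.r k) : ∀ k ∈ W, |w k| < T'.r k :=
  fun k hk => (h.pas k hk (hW k hk)).2.2 ▸ hw k hk

theorem Lift.val {β : Type*} (h : T.Lift T' U n W p p' Φ) (f : (ι → ℂ) → β) (w : ι → ℝ) :
    (fun i => f (upd W w (p i))) =ᶠ[U] fun i => (f ∘ Φ) (upd W w (p' i)) :=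
  h.hp.mono fun i hi => by simp only [Function.comp, upd_com h.com, hi]

theorem UU.congr (h : T.WF) (hp : T.Pt U p) (hl : l <:+ T.top) (hW : ∀ k ∈ W, T.Fre l k)
    (hu : T.UU U p W g) (e : ∀ x ∈ T.D l, g x = g' x) : T.UU U p W g' := by
  obtain ⟨w, c, h1, h2, h3⟩ := hu
  exact ⟨w, c, h1, h2, h3.congr' ((ev_upd h hp hl hW h1).mono fun i hi => e _ hi)⟩

theorem UU.exp_mul (h : T.WF) (hp : T.Pt U p) (hl : l <:+ T.top) (hW : ∀ k ∈ W, T.Fre l k)
    (hu : T.UU U p W g) {b : (ι → ℂ) → ℂ} (hb : T.AR l b) :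
    T.UU U p W fun x => Complex.exp (-b x) * g x := by
  obtain ⟨w, c, h1, h2, h3⟩ := hu
  obtain ⟨β, hβ⟩ := hb.ulim (T1_ok h hl) (ev_upd h hp hl hW h1)
  exact ⟨w, _, h1, mul_ne_zero (Complex.exp_ne_zero _) h2,
    ((Complex.continuous_exp.tendsto _).comp hβ.neg).mul h3⟩

theorem UU.pull (h : T.Lift T' U n W p p' Φ) (hW : ∀ k ∈ W, k ∈ T.Fv) (hu : T.UU U p W g) :
    T'.UU U p' W (g ∘ Φ) := by
  obtain ⟨w, c, h1, h2, h3⟩ := hu
  exact ⟨w, c, h.rad hW h1, h2, h3.congr' (h.val g w)⟩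

theorem MU.congr (hu : T.MU U p l W g) (e : ∀ x ∈ T.D l, g x = g' x) : T.MU U p l W g' := by
  obtain ⟨γ, h, h1, h2, h3, h4⟩ := hu
  exact ⟨γ, h, h1, h2, h3, fun x hx => e x hx ▸ h4 x hx⟩

theorem MU.of_unit (hg : T.AR l g) (hu : T.UU U p W g) : T.MU U p l W g :=
  ⟨0, g, hg.a, hg.r, hu, fun x _ => by simp [lin_zero (l := l) (γ := 0) fun _ _ => rfl]⟩

theorem MU.exp_mul (h : T.WF) (hp : T.Pt U p) (hl : l <:+ T.top) (hW : ∀ k ∈ W, T.Fre l k)
    (hu : T.MU U p l W g) {b : (ι → ℂ) → ℂ} (hb : T.AR l b) (γ : ι ⊕ ℕ → ℝ) :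
    T.MU U p l W fun x => Complex.exp (-(T.lin l γ x + b x)) * g x := by
  obtain ⟨δ, u, h1, h2, h3, h4⟩ := hu
  have hO := T1_ok h hl
  have h5 := (hb.neg.exp hO).mul hO ⟨h1, h2⟩
  refine ⟨γ + δ, _, h5.a, h5.r, h3.exp_mul h hp hl hW hb, fun x hx => ?_⟩
  simp only [h4 x hx, lin_add, neg_add, Complex.exp_add]; ring

/-- multiplication by a pulled back monomial -/
theorem MU.mon_mul (h : T'.WF) (hp : T'.Pt U p') (hl : l' <:+ T'.top) (hP : Pb T T' l l' Φ)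
    (hW : ∀ k ∈ W, T'.Fre l' k) (hu : T'.MU U p' l' W g) (γ : ι ⊕ ℕ → ℝ) :
    T'.MU U p' l' W fun x => Complex.exp (-T.lin l γ (Φ x)) * g x := by
  obtain ⟨γ', b, h1, h2⟩ := hP.lin (T1_ok h hl) γ
  exact (hu.exp_mul h hp hl hW h1 γ').congr fun x hx => by rw [h2 x hx]

theorem MU.pull (h : T.Lift T' U n W p p' Φ) (hl : l' <:+ T'.top) (hP : Pb T T' l l' Φ)
    (hF : ∀ k ∈ W, k ∈ T.Fv) (hW : ∀ k ∈ W, T'.Fre l' k) (hu : T.MU U p l W g) :
    T'.MU U p' l' W (g ∘ Φ) := by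
  obtain ⟨γ, u, h1, h2, h3, h4⟩ := hu
  exact ((MU.of_unit (hP.ar ⟨h1, h2⟩) (h3.pull h hF)).mon_mul h.wf h.pt hl hP hW γ).congr
    fun x hx => (h4 _ (hP.maps hx)).symm

/-- the setting of the monomialisation -/
structure Ctx (T : Tw ι) (U : Ultrafilter α) (p : α → ι → ℂ) (m : ℕ) (W : Finset ι) : Prop where
  gd : T.Good
  sp : T.Sp
  pt : T.Pt U p
  le : m ≤ T.p
  pas : ∀ k ∈ W, k ∈ T.Fv ∧ m ≤ T.lab k
  act : ∀ k ∈ T.Fv, k ∉ W → T.lab k ≤ m

theorem Sp.of_sub (h : T.Sp) (hB : T'.B = T.B) (hp : T'.p = T.p) (hF : T'.Fv ⊆ T.Fv) : T'.Sp := by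
  unfold Sp at h ⊢
  rw [top_congr hB hp]
  exact lt_of_le_of_lt (Nat.add_le_add_right (Finset.card_le_card hF) _) h

theorem Ctx.stp (h : Ctx T U p m W) (s : Stp T T' U n W' p p' Φ) : Ctx T' U p' m W :=
  ⟨s.gd, h.sp.of_sub s.sm.B s.lf.pp s.lf.sub, s.lf.pt, s.lf.pp ▸ h.le,
    fun k hk => s.sm.Fv ▸ s.sm.lab ▸ h.pas k hk, fun k hk => s.sm.lab ▸ h.act k (s.sm.Fv ▸ hk)⟩

theorem Ctx.top (h : Ctx T U p m W) : T.lv m <:+ T.top := lv_top h.le

theorem Ctx.ok (h : Ctx T U p m W) : T.fr.Ok (T.lv m) := T1_ok h.gd.wf h.top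

theorem Ctx.fre (h : Ctx T U p m W) : ∀ k ∈ W, T.Fre (T.lv m) k :=
  fun k hk => fre_lv (h.pas k hk).1 (h.pas k hk).2

theorem Ctx.insert (h : Ctx T U p m W) (hk : k ∈ T.Fv) (hm : T.lab k = m) :
    Ctx T U p m (insert k W) :=
  { h with
    pas := fun j hj => (Finset.mem_insert.1 hj).elim (fun e => e ▸ ⟨hk, hm.ge⟩) (h.pas j)
    act := fun j hj hW => h.act j hj fun e => hW (Finset.mem_insert_of_mem e) }

theorem Stp.pb (s : Stp T T' U (m + 1) W p p' Φ) (hm : m ≤ T.p) :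
    Pb T T' (T.lv m) (T.lv m) Φ := s.sm.pb _ List.suffix_rfl (lv_top hm)

/-- escape: the measure drops or a variable is beyond the cut -/
def Esc (T : Tw ι) (U : Ultrafilter α) (p : α → ι → ℂ) (m : ℕ) (W : Finset ι) : Prop :=
  ∃ (T' : Tw ι) (p' : α → ι → ℂ) (Φ : (ι → ℂ) → ι → ℂ), T.Lift T' U (m + 1) W p p' Φ ∧ T'.Sp ∧
    (T'.μ < T.μ ∨ ∃ k ∈ T'.Fv, k ∉ W ∧ T'.lab k = m ∧ T'.Bey U p' m k)

theorem Esc.pull (h : T.Lift T' U (m + 1) W p p' Φ) (hm : m ≤ T.p) (e : Esc T' U p' m W) :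
    Esc T U p m W := by
  obtain ⟨T'', p'', Ψ, h1, h2, h3⟩ := e
  exact ⟨T'', p'', _, h.trans h1 (by omega), h2, h3.imp (fun h4 => h4.trans_le h.mu) id⟩

theorem Esc.mono (e : Esc T U p m W) (hW : W' ⊆ W) : Esc T U p m W' := by
  obtain ⟨T', p', Φ, h1, h2, h3⟩ := e
  exact ⟨T', p', Φ, h1.mono le_rfl hW, h2,
    h3.imp id fun ⟨k, a, b, c⟩ => ⟨k, a, fun e => b (hW e), c⟩⟩

theorem Esc.succ (e : Esc T U p m W) (h : Ctx T U p (m + 1) W) : Esc T U p (m + 1) W := by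
  obtain ⟨T', p', Φ, h1, h2, h3 | ⟨k, a, b, c, d⟩⟩ := e
  · exact ⟨T', p', Φ, h1.mono (by omega) Finset.Subset.rfl, h2, Or.inl h3⟩
  have hp : T'.lab k < T'.p := by rw [c, h1.pp]; exact h.le
  obtain ⟨T'', p'', Ψ, l1, l2, l3, l4⟩ := E4_untie (W := W) h1.wf h1.pt a b hp (fun j hj => by
    obtain ⟨a1, a2, -⟩ := h1.pas j hj (h.pas j hj).1
    exact ⟨a1, by rw [c, a2]; exact (h.pas j hj).2⟩) (c ▸ d)
  rw [c] at l1
  refine ⟨T'', p'', _, (h1.mono (by omega) Finset.Subset.rfl).trans l1 (by have := h.le; omega),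
    h2.of_sub l2 l1.pp l1.sub, Or.inl (lt_of_lt_of_le ?_ h1.mu)⟩
  unfold μ
  rw [l3, l4, l1.pp]
  refine Finset.sum_lt_sum (fun j _ => ?_) ⟨k, a, by rw [Function.update_self]; omega⟩
  by_cases e : j = k
  · subst e; rw [Function.update_self]; omega
  · rw [Function.update_of_ne e]

theorem mu_erase (hk : k ∈ T.Fv) (h : T.WF) (hp : T'.p = T.p) (hF : T'.Fv = T.Fv.erase k)
    (hl : T'.lab = T.lab) : T'.μ < T.μ := by
  unfold μ
  rw [hF, hl, hp, ← Finset.sum_erase_add _ _ hk]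
  have := h.lab k hk
  omega

end Tw

end Crest.Agent.N207.O
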