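import Crest.Agent.N207.O.Lf2
import Crest.Agent.N207.O.Cl1
import Crest.Agent.N207.O.Cj
import Crest.Agent.N207.O.En2

/-!
# Row 207, block O (helper84): normalisation of monomials, the leading term step
-/

set_option autoImplicit false
set_option linter.unusedSectionVars false

open Set Filter Topology Metric

noncomputable section

namespace Crest.Agent.N207.O

variable {ι : Type} [Fintype ι] [DecidableEq ι] {α : Type} {U : Ultrafilter α} {T T' T'' : Tw ι}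
  {p p' p'' : α → ι → ℂ} {l l' l'' : List (ι ⊕ ℕ)} {W W' : Finset ι} {k : ι}
  {g g' : (ι → ℂ) → ℂ} {Φ Ψ : (ι → ℂ) → ι → ℂ} {n m : ℕ} {w : ι → ℝ} {x : ι → ℂ}

namespace Tw

/-- the monomial `exp (-lin γ)` tends to zero -/
abbrev Big (T : Tw ι) (U : Ultrafilter α) (p : α → ι → ℂ) (l : List (ι ⊕ ℕ)) (γ : ι ⊕ ℕ → ℝ) :
    Prop := Tendsto (fun i => (T.lin l γ (p i)).re) U atTop

theorem Big.iff {γ : ι ⊕ ℕ → ℝ} :
    T.Big U p l γ ↔ Tendsto (fun i => Complex.exp (-T.lin l γ (p i))) U (𝓝 0) := by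
  simp only [Complex.tendsto_exp_nhds_zero_iff, Complex.neg_re, tendsto_neg_atBot_iff]

theorem Stp.pb0 (s : Stp T T' U 0 W p p' Φ) (hl : l <:+ T.top) : Pb T T' l l Φ :=
  s.sm.pb l List.nil_suffix hl

theorem norm1 (h : T.WF) (hp : T.Pt U p) (hl : l <:+ T.top) (hW : ∀ k ∈ W, T.Fre l k)
    {γ : ι ⊕ ℕ → ℝ} (hγ : T.Big U p l γ) :
    ∃ (T' : Tw ι) (p' : α → ι → ℂ) (Φ : (ι → ℂ) → ι → ℂ) (γ' : ι ⊕ ℕ → ℝ),
      Stp T T' U 0 W p p' Φ ∧ (∀ a, 0 ≤ γ' a) ∧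
      ∀ x ∈ T'.D l, T.lin l γ (Φ x) = T'.lin l γ' x := by
  obtain ⟨T', p', Φ, γ', h1, h2, -, h3, -, h4, -⟩ := E1_norm h hp hl hW hγ
  obtain ⟨R, h5, h6⟩ := h1.fix h2 (Nat.zero_le _)
  exact ⟨_, p', Φ, γ', h6, h3, fun x hx => h4 x (h5 l hx)⟩

theorem Big.pull (h : T.Lift T' U n W p p' Φ) (hl : l' <:+ T'.top) {γ γ' : ι ⊕ ℕ → ℝ}
    {b : (ι → ℂ) → ℂ} (hb : T'.AR l' b) (e : ∀ x ∈ T'.D l', T.lin l γ (Φ x) = T'.lin l' γ' x + b x)
    (hγ : T.Big U p l γ) : T'.Big U p' l' γ' := by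
  have hm := T5_mem h.wf h.pt hl
  obtain ⟨β, hβ⟩ := hb.ulim (T1_ok h.wf hl) hm
  refine (hγ.atTop_add ((Complex.continuous_re.tendsto _).comp hβ).neg).congr' ?_
  filter_upwards [hm, h.hp] with i h1 h2
  rw [← h2, e _ h1]; simp

theorem norm_fam {I : Type*} (J : Finset I) (h : T.Good) (hp : T.Pt U p) (hl : l <:+ T.top)
    (hW : ∀ k ∈ W, T.Fre l k) (δ : I → ι ⊕ ℕ → ℝ)
    (hδ : ∀ j ∈ J, (∀ a ∈ l, δ j a = 0) ∨ T.Big U p l (δ j)) :
    ∃ (T' : Tw ι) (p' : α → ι → ℂ) (Φ : (ι → ℂ) → ι → ℂ), Stp T T' U 0 W p p' Φ ∧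
      ∀ j ∈ J, T'.AR l fun x => Complex.exp (-T.lin l (δ j) (Φ x)) := by
  classical
  induction J using Finset.induction_on with
  | empty => exact ⟨T, p, id, Stp.refl h hp, by simp⟩
  | insert j J _ ih =>
    obtain ⟨T', p', Φ, s, H⟩ := ih fun i hi => hδ i (Finset.mem_insert_of_mem hi)
    have hl' : l <:+ T'.top := s.top ▸ hl
    have hO := T1_ok s.gd.wf hl'
    rcases hδ j (Finset.mem_insert_self _ _) with h0 | h0
    · exact ⟨T', p', Φ, s, fun i hi => (Finset.mem_insert.1 hi).elim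
        (fun e => e ▸ (AR.const hO 1).congr fun x _ => by simp [lin_zero h0]) (H i)⟩
    obtain ⟨γ, b, h1, h2⟩ := (s.pb0 hl).lin hO (δ j)
    obtain ⟨T'', p'', Ψ, γ', s', h3, h4⟩ := norm1 s.gd.wf s.lf.pt hl' (fun k hk => s.fre (hW k hk))
      (h0.pull s.lf hl' h1 h2)
    have hl'' : l <:+ T''.top := s'.top ▸ hl'
    have P := s'.pb0 hl'
    refine ⟨T'', p'', _, s.trans s' (Nat.zero_le _), fun i hi => (Finset.mem_insert.1 hi).elim
      (fun e => e ▸ ?_) fun hi => P.ar (H i hi)⟩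
    refine ((AR.mon s'.gd.wf hl'' h3).mul (T1_ok s'.gd.wf hl'') (P.ar (h1.neg.exp hO))).congr
      fun x hx => ?_
    simp only [Function.comp]
    rw [h2 _ (P.maps hx), h4 x hx, neg_add, Complex.exp_add]

theorem exists_min {I : Type*} (hp : T.Pt U p) (hl : l <:+ T.top) (δ : I → ι ⊕ ℕ → ℝ)
    {J : Finset I} (hJ : J.Nonempty) :
    ∃ j0 ∈ J, ∀ j ∈ J, (∀ a ∈ l, (δ j - δ j0) a = 0) ∨ T.Big U p l (δ j - δ j0) := by
  have : ∀ᶠ i in U, ∃ j0 ∈ (J : Set I), ∀ j ∈ J,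
      (T.lin l (δ j0) (p i)).re ≤ (T.lin l (δ j) (p i)).re :=
    .of_forall fun i => J.exists_min_image (fun j => (T.lin l (δ j) (p i)).re) hJ
  obtain ⟨j0, h0, h1⟩ := (Ultrafilter.eventually_exists_mem_iff J.finite_toSet).1 this
  refine ⟨j0, h0, fun j hj => (L2_tri hp hl (δ j - δ j0)).imp id fun h => h.elim id fun h => ?_⟩
  obtain ⟨i, a, b⟩ := (h1.and (h.eventually_lt_atBot 0)).exists
  rw [lin_sub, Complex.sub_re] at b
  linarith [a j hj]

theorem big_cons (hp : T.Pt U p) {a : ι ⊕ ℕ} (hl : a :: l <:+ T.top) {γ : ι ⊕ ℕ → ℝ}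
    (h0 : 0 < γ a) : T.Big U p (a :: l) γ := by
  simp only [Big, Tw.re_lin_val]
  exact Sq.top_of_div (hp.sq hl).1 (hp.sq hl).lin_div h0

/-- a unit plus a small term is a unit -/
theorem mu_small (h : T.Good) (hp : T.Pt U p) (hl : l <:+ T.top) (hW : ∀ k ∈ W, T.Fre l k)
    {u v : (ι → ℂ) → ℂ} (hu : T.AR l u) (hv : T.AR l v) (hU : T.UU U p W u) {γ δ : ι ⊕ ℕ → ℝ}
    (hδ : T.Big U p l δ) (e : ∀ x ∈ T.D l,
      g x = Complex.exp (-T.lin l γ x) * (u x + Complex.exp (-T.lin l δ x) * v x)) :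
    ∃ (T' : Tw ι) (p' : α → ι → ℂ) (Φ : (ι → ℂ) → ι → ℂ), Stp T T' U 0 W p p' Φ ∧
      T'.MU U p' l W (g ∘ Φ) := by
  obtain ⟨T', p', Φ, s, H⟩ := norm_fam {()} h hp hl hW (fun _ => δ) fun _ _ => Or.inr hδ
  have hl' : l <:+ T'.top := s.top ▸ hl
  have hO := T1_ok s.gd.wf hl'
  have P := s.pb0 hl
  have h1 := (P.ar hu).add hO ((H () (by simp)).mul hO (P.ar hv))
  have h2 : T.UU U p W fun x => u x + Complex.exp (-T.lin l δ x) * v x := by
    obtain ⟨w, c, a1, a2, a3⟩ := hU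
    obtain ⟨β, hβ⟩ := hv.ulim (T1_ok h.wf hl) (ev_upd h.wf hp hl hW a1)
    refine ⟨w, c, a1, a2, ?_⟩
    simpa only [lin_upd h.wf hl hW, zero_mul, add_zero] using a3.add ((Big.iff.1 hδ).mul hβ)
  exact ⟨T', p', Φ, s, ((MU.of_unit h1 (h2.pull s.lf fun k hk => (hW k hk).1)).mon_mul s.gd.wf
    s.lf.pt hl' P (fun k hk => s.fre (hW k hk)) γ).congr fun x hx => (e _ (P.maps hx)).symm⟩

/-- the leading term step -/
theorem lead_step (h : Ctx T U p m W) {a : ι ⊕ ℕ} (h1 : T.lw m <:+ l) (h2 : a :: l <:+ T.lv m)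
    (ih : ∀ c, T.AR l c → ¬ EqOn c 0 (T.D l) → Esc T U p m W ∨
      ∃ (T' : Tw ι) (p' : α → ι → ℂ) (Φ : (ι → ℂ) → ι → ℂ), Stp T T' U m W p p' Φ ∧
        T'.MU U p' l W (c ∘ Φ))
    (hg : T.AR (a :: l) g) (h0 : ¬ EqOn g 0 (T.D (a :: l))) : Esc T U p m W ∨
      ∃ (T' : Tw ι) (p' : α → ι → ℂ) (Φ : (ι → ℂ) → ι → ℂ), Stp T T' U m W p p' Φ ∧
        T'.MU U p' (a :: l) W (g ∘ Φ) := by
  have hl := h2.trans h.top
  obtain ⟨t, γ, c, g1, a1, a2, a3, a4, a5, a6, a7⟩ := J3_lead h.gd hl hg.a hg.r h0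
  refine (ih c ⟨a2, a3⟩ a4).imp id ?_
  rintro ⟨T', p', Φ, s, δ, u, b1, b2, b3, b4⟩
  have hl' : a :: l <:+ T'.top := s.top ▸ hl
  have hO := T1_ok s.gd.wf hl'
  have ha := s.gd.wf.not_mem hl'
  have hW : ∀ k ∈ W, T'.Fre (a :: l) k := fun k hk => s.fre ((h.fre k hk).suffix h2)
  have P := s.sm.pb (a :: l) (h1.trans (List.suffix_cons _ _)) hl
  obtain ⟨C, b, c1, c2, c3⟩ := s.sm.sc a l h1 hl
  have hb : T'.AR (a :: l) b := ⟨c1, c2⟩
  have e1 : ∀ (r : ℝ) (β : ι ⊕ ℕ → ℝ) (x), T'.lin (a :: l) (Function.update β a r) x =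
      r * T'.s a x + T'.lin l β x := fun r β x => by
    rw [lin_cons ha, Function.update_self]
    congr 1
    exact Finset.sum_congr rfl fun z hz => by
      rw [Function.update_of_ne fun e : z = a => ha (e ▸ List.mem_toFinset.1 hz)]
  obtain ⟨T'', p'', Ψ, s', hM⟩ := mu_small (g := fun x => c (Φ x) + T.fr.ex a γ (Φ x) * g1 (Φ x))
    s.gd s.lf.pt hl' hW (AR.lift hO (List.suffix_cons _ _) ⟨b1, b2⟩)
    ((((AR.const hO γ).mul hO hb).neg.exp hO).mul hO (P.ar ⟨a5, a6⟩)) b3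
    (γ := Function.update δ a 0) (δ := Function.update (γ • C - δ) a γ)
    (big_cons s.lf.pt hl' (by rwa [Function.update_self])) fun x hx => by
      have e2 : T.fr.ex a γ (Φ x) = Complex.exp (-(γ * T.s a (Φ x))) := rfl
      have e3 : c (Φ x) = _ := b4 x (D_cons_sub hx)
      rw [e1, e1, e2, e3, c3 x hx, lin_sub, lin_smul, mul_add (Complex.exp _), ← mul_assoc,
        ← mul_assoc, ← Complex.exp_add, ← Complex.exp_add]
      simp only [Complex.ofReal_zero, zero_mul, zero_add, Function.comp]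
      congr 3; ring
  have s2 := s.trans (s'.mono (Nat.zero_le m) Finset.Subset.rfl) (by have := h.le; omega)
  have hl'' : a :: l <:+ T''.top := s'.top ▸ hl'
  have P2 := s2.sm.pb (a :: l) (h1.trans (List.suffix_cons _ _)) hl
  refine ⟨T'', p'', _, s2, (hM.mon_mul s'.gd.wf s'.lf.pt hl'' P2 (fun k hk => s'.fre (hW k hk))
    (Pi.single a t)).congr fun x hx => ?_⟩
  have e4 : ∀ y, T.lin (a :: l) (Pi.single a t) y = t * T.s a y := fun y => by
    rw [lin_cons (h.gd.wf.not_mem hl), Pi.single_eq_same, lin_zero fun z hz =>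
      Pi.single_eq_of_ne (fun e : z = a => h.gd.wf.not_mem hl (e ▸ hz)) _, add_zero]
  rw [e4]
  exact (a7 _ (P2.maps hx)).symm

theorem liou_all (h : T.WF) (hg : T.AR [] g) (J : Finset ι) (hJ : ∀ k ∈ J, k ∉ T.Fv)
    (y : ι → ℂ) (hx : x ∈ T.D []) :
    (fun k => if k ∈ J then y k else x k) ∈ T.D [] ∧ g (fun k => if k ∈ J then y k else x k) = g x := by
  induction J using Finset.induction_on with
  | empty => simpa using hx
  | insert k J _ ih =>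
    obtain ⟨h1, h2⟩ := ih fun j hj => hJ j (Finset.mem_insert_of_mem hj)
    have hk := hJ k (Finset.mem_insert_self _ _)
    have e : (fun j => if j ∈ insert k J then y j else x j) =
        Function.update (fun j => if j ∈ J then y j else x j) k (y k) := by
      funext j
      by_cases e : j = k
      · subst e; simp
      · simp [e]
    rw [e]
    exact ⟨T2_upd h List.nil_suffix (by simp) (fun e => absurd e hk) h1 fun e => absurd e hk,
      (T3_liou h List.nil_suffix (by simp) hk hg.dif hg.a.2 h1 _).trans h2⟩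

/-- the bottom of the tower -/
theorem base_nil (h : T.WF) (hW : W = T.Fv) (hg : T.AR [] g) (h0 : ¬ EqOn g 0 (T.D [])) :
    T.UU U p W g := by
  obtain ⟨x, h1, h2, h3⟩ : ∃ x ∈ T.D [], x ∈ Rp ι ∧ g x ≠ 0 := by
    by_contra! H
    exact h0 (T9_idR h List.nil_suffix hg.dif H)
  have e : ∀ k, ((x k).re : ℂ) = x k := fun k => Complex.ext rfl (by simpa using (h2 k).symm)
  refine ⟨fun k => (x k).re, g x, fun k hk => (Complex.abs_re_le_norm _).trans_lt (h1 k (hW ▸ hk)),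
    h3, tendsto_const_nhds.congr fun i => ?_⟩
  rw [← (liou_all h hg Wᶜ (fun k hk => hW ▸ Finset.mem_compl.1 hk) (p i) h1).2]
  congr 1; funext k
  by_cases hk : k ∈ W <;> simp [upd, hk, e]

/-- the statement of the monomialisation -/
def MS (T : Tw ι) (U : Ultrafilter α) (p : α → ι → ℂ) (m : ℕ) (W : Finset ι)
    (g : (ι → ℂ) → ℂ) : Prop :=
  Esc T U p m W ∨ ∃ (T' : Tw ι) (p' : α → ι → ℂ) (Φ : (ι → ℂ) → ι → ℂ),
    Stp T T' U (m + 1) W p p' Φ ∧ T'.MU U p' (T.lv m) W (g ∘ Φ)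

/-- no active variable of the top label -/
theorem step_U (h : Ctx T U p m W) (hV : ∀ k ∈ T.Fv, k ∉ W → T.lab k < m)
    (ih : ∀ j, m = j + 1 → Ctx T U p j W → ∀ g, T.AR (T.lv j) g → ¬ EqOn g 0 (T.D (T.lv j)) →
      MS T U p j W g) (hg : T.AR (T.lv m) g) (h0 : ¬ EqOn g 0 (T.D (T.lv m))) :
    MS T U p m W g := by
  have key : ∀ q : List (ι ⊕ ℕ), q ++ T.lw m <:+ T.lv m → ∀ c, T.AR (q ++ T.lw m) c →
      ¬ EqOn c 0 (T.D (q ++ T.lw m)) → Esc T U p m W ∨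
      ∃ (T' : Tw ι) (p' : α → ι → ℂ) (Φ : (ι → ℂ) → ι → ℂ), Stp T T' U m W p p' Φ ∧
        T'.MU U p' (q ++ T.lw m) W (c ∘ Φ) := by
    intro q
    induction q with
    | nil =>
      intro _ c hc c0
      cases m with
      | zero =>
        refine Or.inr ⟨T, p, id, Stp.refl h.gd h.pt, MU.of_unit hc (base_nil h.gd.wf ?_ hc c0)⟩
        exact Finset.Subset.antisymm (fun k hk => (h.pas k hk).1) fun k hk =>
          by_contra fun e => Nat.not_lt_zero _ (hV k hk e)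
      | succ j =>
        exact (ih j rfl ⟨h.gd, h.sp, h.pt, by have := h.le; omega, fun k hk =>
          ⟨(h.pas k hk).1, by have := (h.pas k hk).2; omega⟩,
          fun k hk e => by have := hV k hk e; omega⟩ c hc c0).imp (fun e => e.succ h) id
    | cons a q ihq =>
      intro hq c hc c0
      exact lead_step h (List.suffix_append _ _) hq (ihq (suffix_tail hq)) hc c0
  obtain ⟨q, hq⟩ : T.lw m <:+ T.lv m := lw_mono (Nat.le_succ m)
  refine (key q (hq ▸ List.suffix_rfl) g (hq ▸ hg) (hq ▸ h0)).imp id ?_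
  rintro ⟨T', p', Φ, s, H⟩
  exact ⟨T', p', Φ, s.mono (Nat.le_succ m) Finset.Subset.rfl, hq ▸ H⟩

end Tw

end Crest.Agent.N207.O
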