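import Mathlib

/-!
# Row 207, block O (helper84): one variable lemmas on Taylor coefficients along a filter
-/

set_option autoImplicit false

open Set Filter Topology Metric

noncomputable section

namespace Crest.Agent.N207.O

variable {α : Type*} {F : Filter α} {φ P : α → ℂ → ℂ} {ρ : ℝ}

theorem cauchy_ball {f : ℂ → ℂ} {B R : ℝ} (hd : DifferentiableOn ℂ f (ball 0 ρ))
    (hb : ∀ t ∈ ball (0 : ℂ) ρ, ‖f t‖ ≤ B) (h0 : 0 < R) (hR : R < ρ) (n : ℕ) :
    ‖iteratedDeriv n f 0‖ ≤ n.factorial * B / R ^ n :=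
  Complex.norm_iteratedDeriv_le_of_forall_mem_sphere_norm_le n h0
    (hd.diffContOnCl_ball (closedBall_subset_ball hR))
    fun z hz => hb z (sphere_subset_closedBall.trans (closedBall_subset_ball hR) hz)

theorem der_sub (hρ : 0 < ρ) (hd : ∀ᶠ i in F, DifferentiableOn ℂ (φ i) (ball 0 ρ))
    (hP : ∀ᶠ i in F, DifferentiableOn ℂ (P i) (ball 0 ρ)) {ε : α → ℝ} (hε : Tendsto ε F (𝓝 0))
    (hb : ∀ᶠ i in F, ∀ t ∈ ball (0 : ℂ) ρ, ‖φ i t - P i t‖ ≤ ε i) (n : ℕ) :
    Tendsto (fun i => iteratedDeriv n (φ i) 0 - iteratedDeriv n (P i) 0) F (𝓝 0) := by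
  refine squeeze_zero_norm' (a := fun i => n.factorial * ε i / (ρ / 2) ^ n) ?_
    (by simpa using (hε.const_mul (n.factorial : ℝ)).div_const ((ρ / 2) ^ n))
  filter_upwards [hd, hP, hb] with i h1 h2 h3
  have := cauchy_ball (h1.sub h2) h3 (half_pos hρ) (half_lt_self hρ) n
  rwa [iteratedDeriv_sub
    (h1.analyticAt (ball_mem_nhds _ hρ)).contDiffAt
    (h2.analyticAt (ball_mem_nhds _ hρ)).contDiffAt] at this

theorem ord_zero {B : ℝ} (hd : ∀ᶠ i in F, DifferentiableOn ℂ (φ i) (ball 0 ρ))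
    (hb : ∀ᶠ i in F, ∀ t ∈ ball (0 : ℂ) ρ, ‖φ i t‖ ≤ B) {w : ℂ} (hw : ‖w‖ < ρ)
    (h0 : ∀ n : ℕ, Tendsto (fun i => iteratedDeriv n (φ i) 0 / (n.factorial : ℂ)) F (𝓝 0)) :
    Tendsto (fun i => φ i w) F (𝓝 0) := by
  obtain ⟨R, h1, h2⟩ := exists_between hw
  have hR : 0 < R := (norm_nonneg w).trans_lt h1
  have hs : Summable fun n : ℕ => B * (‖w‖ / R) ^ n :=
    (summable_geometric_of_lt_one (by positivity) ((div_lt_one hR).2 h1)).mul_left B
  have key := tendsto_tsum_of_dominated_convergence (𝓕 := F) (g := fun _ : ℕ => (0 : ℂ))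
    (f := fun i (n : ℕ) => iteratedDeriv n (φ i) 0 / (n.factorial : ℂ) * w ^ n) hs
    (fun n => by simpa using (h0 n).mul_const (w ^ n)) (by
      filter_upwards [hd, hb] with i h3 h4 n
      have h5 := cauchy_ball h3 h4 hR h2 n
      have h6 : (0 : ℝ) < n.factorial := by exact_mod_cast n.factorial_pos
      rw [norm_mul, norm_div, norm_pow, Complex.norm_natCast, div_pow, ← mul_div_right_comm,
        div_le_iff₀ h6]
      calc _ ≤ n.factorial * B / R ^ n * ‖w‖ ^ n := by gcongr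
        _ = _ := by ring)
  rw [tsum_zero] at key
  refine key.congr' (hd.mono fun i hi => ?_)
  have := Complex.taylorSeries_eq_on_ball' (z := w) (by simpa using hw) hi
  simp only [sub_zero] at this
  exact Eq.trans (tsum_congr fun n => by rw [div_eq_inv_mul]) this

theorem der_poly (κ : ℕ → ℂ) (c : ℂ) (d n : ℕ) :
    iteratedDeriv n (fun t : ℂ => ∑ j ∈ Finset.range d, κ j * (c + t) ^ j) 0 =
      ∑ j ∈ Finset.range d, κ j * (j.descFactorial n * c ^ (j - n)) := by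
  rw [iteratedDeriv_fun_sum fun j _ => by fun_prop]
  refine Finset.sum_congr rfl fun j _ => ?_
  rw [iteratedDeriv_const_mul_field, iteratedDeriv_comp_const_add n (fun z : ℂ => z ^ j) c]
  simp only [add_zero, iteratedDeriv_pow]

theorem poly_ord {κ : ℕ → ℂ} {c : ℂ} (hc : c ≠ 0) {e : ℕ}
    (h : (κ (e + 1) ≠ 0 ∧ κ e = 0) ∨ (κ (e + 1) = 0 ∧ ∃ j ≤ e, κ j ≠ 0)) :
    ∃ n ≤ e, ∑ j ∈ Finset.range (e + 2), κ j * (j.descFactorial n * c ^ (j - n)) ≠ 0 := by
  classical
  have hd : ∀ j n : ℕ, n ≤ j → (j.descFactorial n : ℂ) ≠ 0 := fun j n h => by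
    exact_mod_cast (Nat.descFactorial_pos.2 h).ne'
  rcases h with ⟨h1, h2⟩ | ⟨h1, h2⟩
  · refine ⟨e, le_rfl, ?_⟩
    rw [Finset.sum_eq_single (e + 1) (fun j hj hne => ?_) fun h => absurd (by simp) h]
    · exact mul_ne_zero h1 (mul_ne_zero (hd _ _ (by omega)) (pow_ne_zero _ hc))
    · have := Finset.mem_range.1 hj
      rcases (show j = e ∨ j < e by omega) with rfl | h
      · rw [h2, zero_mul]
      · simp [Nat.descFactorial_of_lt h]
  · obtain ⟨j, h3, h4⟩ := h2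
    have h5 : κ (Nat.findGreatest (fun j => κ j ≠ 0) e) ≠ 0 :=
      Nat.findGreatest_spec (P := fun j => κ j ≠ 0) h3 h4
    have h6 := Nat.findGreatest_le (P := fun j => κ j ≠ 0) e
    refine ⟨_, h6, ?_⟩
    rw [Finset.sum_eq_single (Nat.findGreatest (fun j => κ j ≠ 0) e) (fun i hi hne => ?_)
      fun h => absurd (Finset.mem_range.2 (by omega)) h]
    · exact mul_ne_zero h5 (mul_ne_zero (hd _ _ le_rfl) (pow_ne_zero _ hc))
    · have := Finset.mem_range.1 hi
      rcases lt_or_gt_of_ne hne with h | h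
      · simp [Nat.descFactorial_of_lt h]
      · rcases (show i = e + 1 ∨ i ≤ e by omega) with rfl | h7
        · rw [h1, zero_mul]
        · rw [not_not.1 (Nat.findGreatest_is_greatest h h7), zero_mul]

end Crest.Agent.N207.O
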