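import Crest.Agent.N207.O.Tay

/-!
# Row 207, block O (helper28): the root of a derivative in a free variable (C7)
-/

set_option autoImplicit false
set_option linter.unusedSectionVars false

open Set Filter Topology Metric Complex
open Crest.Agent.N250.H

noncomputable section

namespace Crest.Agent.N207.O

open Fr

section
variable {X X' κ E : Type*} [NormedAddCommGroup X] [NormedSpace ℂ X] [NormedAddCommGroup X']
  [NormedSpace ℂ X'] [NormedAddCommGroup E] [NormedSpace ℂ E] {F : Fr X κ} {F' : Fr X' κ}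
  {l : List κ}

theorem root_cl (hF : F.Ok l) {ρ : ℝ} (hρ : 0 < ρ) {f : X × ℂ → ℂ}
    (hf : (F.prod (ball (0 : ℂ) (3 * ρ))).A l f)
    (hI : (F.prod (ball (0 : ℂ) (3 * ρ))).In l (closedBall 0 (ρ / 16)) fun z => f z - z.2) :
    F.A l fun x => (2 * Real.pi * I : ℂ)⁻¹ •
      ∮ w in C(0, ρ), w * deriv (fun w => f (x, w)) w * (f (x, w))⁻¹ := by
  set U : Set ℂ := ball 0 (2 * ρ) \ closedBall 0 (ρ / 2) with hU
  have hUo : IsOpen U := isOpen_ball.sdiff isClosed_closedBall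
  have hO := ok_prod hUo hF
  have hUn : ∀ w ∈ U, ρ / 2 < ‖w‖ ∧ ‖w‖ < 2 * ρ := fun w hw => by simpa [hU, and_comm] using hw
  have h1 : (F.prod U).A l fun z => z.2 :=
    A.of_nil hO differentiableOn_snd ⟨2 * ρ, fun z hz => (hUn _ hz.2).2.le⟩
  have h2 : (F.prod U).A l fun z => deriv (fun w => f (z.1, w)) z.2 := by
    simpa only [iteratedDeriv_one] using cl_iteratedDeriv hF le_rfl hf 1 (U' := U) hρ
      fun y hy => ball_subset_ball' (by rw [dist_zero_right]; linarith [(hUn y hy).2])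
  have hne : ∀ q ∈ ((F.prod U).prod (ball (0 : ℂ) (ρ / 8))).D [], ρ / 4 ≤ ‖q.1.2 + q.2‖ := by
    intro q hq
    have := norm_sub_le (q.1.2 + q.2) q.2
    rw [add_sub_cancel_right] at this
    linarith [(hUn _ hq.1.2).1, mem_ball_zero_iff.1 hq.2]
  have h3 : (F.prod U).A l fun z => (f z)⁻¹ := by
    have := C0_comp (G := fun q : (X × ℂ) × ℂ => (q.1.2 + q.2)⁻¹) hO isOpen_ball
      (δ := ρ / 16) (by positivity) (K := closedBall 0 (ρ / 16))
      (fun y hy => ball_subset_ball' (ε₂ := ρ / 8) (by rw [mem_closedBall] at hy; linarith))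
      (A.of_nil (ok_prod isOpen_ball hO) (DifferentiableOn.inv (by fun_prop) fun q hq =>
        norm_pos_iff.1 (lt_of_lt_of_le (by positivity) (hne q hq))) ⟨(ρ / 4)⁻¹, fun q hq => by
          rw [norm_inv]; exact inv_anti₀ (by positivity) (hne q hq)⟩)
      (sub_in Subset.rfl (sub_prod (sdiff_subset.trans (ball_subset_ball (by linarith)))
        (sub_refl hF)) hI)
    simpa only [add_sub_cancel] using this
  exact Cl.slice ((linOp_circ hρ (U := U) (fun w hw => by
    have : ‖w‖ = ρ := by simpa using hw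
    simp only [hU, Set.mem_sdiff, mem_ball_zero_iff, mem_closedBall_zero_iff, this]
    constructor <;> linarith) (univ : Set ℂ)).cl hUo hF le_rfl
      (A.mul hO (A.mul hO h1 h2) h3)) (mem_univ 0)

theorem st_pull {Ψ : X' → X} {gb : X → E} (hd : Differentiable ℂ Ψ) :
    ∀ {l : List κ} {g : X → E}, (∀ l₀, l₀ <:+ l → MapsTo Ψ (F'.D l₀) (F.D l₀)) →
    (∀ a l₀, a :: l₀ <:+ l → ∀ x ∈ F'.D (a :: l₀), F.s a (Ψ x) = F'.s a x) →
    F.St l g gb → F'.St l (g ∘ Ψ) (gb ∘ Ψ)
  | [], _, hm, hs, h => ⟨A9_pull' hm (fun _ _ => hd.differentiableOn) hs h.1,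
      A9_pull' hm (fun _ _ => hd.differentiableOn) hs h.2.1,
      fun _ hx => h.2.2 (hm _ List.suffix_rfl hx)⟩
  | a :: l, _, hm, hs, h => by
    obtain ⟨h1, c, g1, γ, h2, h3, h4, h5⟩ := h
    refine ⟨A9_pull' hm (fun _ _ => hd.differentiableOn) hs h1, c ∘ Ψ, g1 ∘ Ψ, γ, h2,
      st_pull hd (fun l₀ h => hm l₀ (h.trans (List.suffix_cons _ _)))
        (fun a l₀ h => hs a l₀ (h.trans (List.suffix_cons _ _))) h3,
      A9_pull' hm (fun _ _ => hd.differentiableOn) hs h4, fun x hx => ?_⟩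
    simpa only [Fr.ex, hs a l List.suffix_rfl x hx, Function.comp] using
      h5 _ (hm _ List.suffix_rfl hx)

end

variable {ι : Type} [Fintype ι] [DecidableEq ι] {α : Type} {U : Ultrafilter α} {T : Tw ι}
  {p : α → ι → ℂ} {l : List (ι ⊕ ℕ)} {W : Finset ι} {k : ι} {g : (ι → ℂ) → ℂ}

namespace Ty

theorem upd_insert (w : ι → ℝ) (x : ι → ℂ) :
    upd (insert k W) w x = Function.update (upd W w x) k (w k) := by
  funext i
  by_cases e : i = k
  · subst e; simp [upd]
  · simp [upd, e]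

theorem upd_ind {β : Type*} {g : (ι → ℂ) → β} (h : ∀ k ∈ W, Ind k g) (w : ι → ℝ) (x : ι → ℂ) :
    g (upd W w x) = g x := by
  induction W using Finset.induction_on with
  | empty => rfl
  | insert k W _ ih =>
    rw [upd_insert, h k (Finset.mem_insert_self _ _),
      ih fun i hi => h i (Finset.mem_insert_of_mem hi)]

theorem upd_mem (h : T.WF) (hl : l <:+ T.top) (hW : ∀ k ∈ W, k ∈ T.Fv ∧ T.Free l k) {x : ι → ℂ}
    (hx : x ∈ T.D l) : upd W 0 x ∈ T.D l := by
  induction W using Finset.induction_on with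
  | empty => exact hx
  | insert k W _ ih =>
    have := hW k (Finset.mem_insert_self _ _)
    rw [upd_insert]
    exact upd_D h hl this.1 this.2 (ih fun i hi => hW i (Finset.mem_insert_of_mem hi))
      (by simpa using h.r0 k this.1)

theorem dif_upd (W : Finset ι) (w : ι → ℝ) : Differentiable ℂ (upd W w) :=
  differentiable_pi.2 fun i => by
    unfold upd
    split_ifs
    · exact differentiable_const _
    · exact differentiable_apply i

theorem exists_min (h : T.WF) : ∃ m : ℝ, 0 < m ∧ ∀ k ∈ T.Fv, m ≤ T.r k := by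
  have : ∀ᶠ m in 𝓝[>] (0 : ℝ), ∀ k ∈ T.Fv, m ≤ T.r k := (eventually_all_finset _).2 fun k hk =>
    nhdsWithin_le_nhds ((ge_mem_nhds (h.r0 k hk)))
  obtain ⟨m, h1, h2⟩ := (this.and self_mem_nhdsWithin).exists
  exact ⟨m, h2, h1⟩

/-- after shrinking, a function of the class with a parameter hardly depends on the point -/
theorem near_prod {Y E : Type*} [NormedAddCommGroup Y] [NormedSpace ℂ Y] [NormedAddCommGroup E]
    [NormedSpace ℂ E] (h : T.WF) (hl : l <:+ T.top) {V : Set Y} (hV : IsOpen V)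
    {G : (ι → ℂ) × Y → E} (hG : (T.fr.prod V).A l G)
    (hW : ∀ k ∈ W, k ∈ T.Fv ∧ T.Free l k ∧ ∀ y, Ind k fun x => G (x, y)) {ε : ℝ} (hε : 0 < ε) :
    ∃ R₀ δ : ℝ, T.R ≤ R₀ ∧ 0 < δ ∧ ∀ R ≥ R₀, ∀ r : ι → ℝ, (∀ k ∈ T.Fv, 0 < r k ∧ r k ≤ T.r k) →
      (∀ k ∈ T.Fv, k ∉ W → r k ≤ δ) → ∀ V' ⊆ V, IsOpen V' → ∀ K : Set E,
        ∀ x ∈ (T.shr R r).D l, (∀ y ∈ V', G (x, y) ∈ K) →
          ((T.shr R r).fr.prod V').In l (cthickening ε K) G := by
  have hO := ok_prod hV (T1_ok h hl)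
  obtain ⟨gb, h0⟩ := A7_St hO hG
  have h1 : (T.fr.prod V).St l G (gb ∘ fun z => (upd W 0 z.1, z.2)) :=
    (st_pull (F := T.fr.prod V) (F' := T.fr.prod V) (((dif_upd W 0).comp differentiable_fst).prodMk differentiable_snd)
      (fun l₀ e z hz => ⟨upd_mem h (e.trans hl)
        (fun k hk => ⟨(hW k hk).1, free_suffix (hW k hk).2.1 e⟩) hz.1, hz.2⟩)
      (fun a l₀ e z _ => upd_ind (fun k hk => ind_s h hl (hW k hk).1 (hW k hk).2.1
        (e.subset List.mem_cons_self)) 0 z.1) h0).congr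
      fun z _ => upd_ind (g := fun x => G (x, z.2)) (fun k hk => (hW k hk).2.2 z.2) 0 z.1
  obtain ⟨R₀, hR₀⟩ := C4_near hO h1 (ε := ε / 3) (by positivity)
  obtain ⟨M, hM0, hM⟩ := h0.A0.2.pos
  obtain ⟨m, hm0, hm⟩ := exists_min h
  set N := 6 * M / ε + 2 with hN
  have hN2 : 2 ≤ N := le_add_of_nonneg_left (by positivity)
  refine ⟨max R₀ T.R, m / (2 + 2 * N), le_max_right _ _, by positivity,
    fun R hR r hr hδ V' hV' hVo K x hx hK => ?_⟩
  obtain ⟨w1, w2, w3⟩ := T4_shr h ((le_max_right _ _).trans hR) hr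
  have hO' := T1_ok w1 (l := l) (by rwa [Tw.shr_top])
  obtain ⟨k1, -, k3⟩ := hR₀ ((T.shr R r).fr.prod V') (ok_prod hVo hO')
    (sub_prod hV' (sub_mono ((le_max_left _ _).trans hR) (w3 l hl)))
  refine k1.mono ((cthickening_subset_of_subset _ (E₂ := cthickening (2 * (ε / 3)) K) ?_).trans
    ((cthickening_cthickening_subset (by positivity) (by positivity) K).trans
      (cthickening_mono (by linarith) K)))
  rintro _ ⟨⟨x', y⟩, ⟨hx', hy⟩, rfl⟩
  refine mem_cthickening_of_dist_le _ _ _ _ (hK y hy) ?_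
  have hs : ∀ z ∈ (T.shr R r).D [], ∀ k ∈ T.Fv, ‖upd W 0 z k‖ ≤ m / (2 + 2 * N) := by
    intro z hz k hk
    by_cases e : k ∈ W
    · simp only [upd, e, if_true, Pi.zero_apply, ofReal_zero, norm_zero]; positivity
    · simpa only [upd, e, if_false] using (hz k hk).le.trans (hδ k hk e)
  have hx0 : x ∈ (T.shr R r).D [] := Tw.D_suffix List.nil_suffix hx
  have hin : ∀ t ∈ ball (0 : ℂ) N,
      (upd W 0 x + t • (upd W 0 x' - upd W 0 x), y) ∈ (T.fr.prod V).D [] := by
    refine fun t ht => ⟨fun k hk => lt_of_lt_of_le ?_ (hm k hk), hV' hy⟩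
    have a1 := hs x hx0 k hk
    have a2 := (norm_sub_le _ _).trans (add_le_add (hs x' hx' k hk) a1)
    have a3 := mul_le_mul (mem_ball_zero_iff.1 ht).le a2 (norm_nonneg _) (by positivity)
    have a4 : m / (2 + 2 * N) * (2 + 2 * N) = m := div_mul_cancel₀ _ (by positivity)
    have a5 : 0 < m / (2 + 2 * N) := by positivity
    refine (norm_add_le _ _).trans_lt ?_
    simp only [Pi.smul_apply, Pi.sub_apply, norm_smul]
    nlinarith
  have a6 := lip_le (f := fun t : ℂ => gb (upd W 0 x + t • (upd W 0 x' - upd W 0 x), y))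
    (h0.A0.1.comp (f := fun t : ℂ => (upd W 0 x + t • (upd W 0 x' - upd W 0 x), y))
      (by fun_prop) hin) (fun t ht => hM _ (hin t ht)) (z := 1)
    (by rw [mem_ball_zero_iff, norm_one]; linarith)
  simp only [one_smul, add_sub_cancel, zero_smul, add_zero, sub_zero, norm_one, mul_one] at a6
  have a7 : 2 * M / N ≤ ε / 3 := by
    rw [div_le_iff₀ (by positivity), hN]
    have : ε / 3 * (6 * M / ε) = 2 * M := by field_simp; ring
    nlinarith
  have a8 := k3 (x, y) ⟨hx, hy⟩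
  rw [← dist_eq_norm] at a6 a8
  exact (dist_triangle_right _ _ (gb (upd W 0 x, y))).trans (by
    simp only [Function.comp] at a8 ⊢; linarith)

end Ty

open Ty

theorem C7_root (h : T.WF) (hp : T.Pt U p) (hl : l <:+ T.top) (hk : k ∈ T.Fv) (hkW : k ∉ W)
    (hf : T.Free l k) (hW : ∀ k ∈ W, k ∈ T.Fv ∧ T.Free l k ∧ Ind k g) (hg : T.fr.A l g)
    (hr : RR (T.D l) g) {e : ℕ} {c : ℂ} (hc : c ≠ 0)
    (h0 : Tendsto (fun i => tc k e g (p i)) U (𝓝 0))
    (h1 : Tendsto (fun i => tc k (e + 1) g (p i)) U (𝓝 c)) :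
    ∃ (R : ℝ) (r : ι → ℝ) (ψ : (ι → ℂ) → ℂ), T.R ≤ R ∧ (∀ k ∈ T.Fv, 0 < r k ∧ r k ≤ T.r k) ∧
      (∀ k ∈ W, r k = T.r k) ∧ (T.shr R r).fr.A l ψ ∧ RR ((T.shr R r).D l) ψ ∧ Ind k ψ ∧
      (∀ k ∈ W, Ind k ψ) ∧ Tendsto (fun i => ψ (p i)) U (𝓝 0) ∧ ∀ x ∈ (T.shr R r).D l,
        iteratedDeriv e (fun w => g (Function.update x k w)) (ψ x) = 0 := by
  have hO := T1_ok h hl
  have hr0 := h.r0 k hk
  set c' : ℂ := ((e + 1).factorial : ℂ) * c with hc'
  have hfac : ∀ n : ℕ, (n.factorial : ℂ) ≠ 0 := fun n => by exact_mod_cast n.factorial_ne_zero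
  have hc0 : c' ≠ 0 := mul_ne_zero (hfac _) hc
  have hci : c.im = 0 := by
    refine tendsto_nhds_unique ((continuous_im.tendsto c).comp h1) (tendsto_const_nhds.congr' ?_)
    filter_upwards [T5_mem h hp hl] with i hi
    exact ((C5_tay h hl hk hf hg hr (e + 1)).1.2 _ hi (hp.re i)).symm
  set f : (ι → ℂ) × ℂ → ℂ := fun z =>
    c'⁻¹ * iteratedDeriv e (fun w => g (Function.update z.1 k w)) z.2 with hf'
  have hfA : (T.fr.prod (ball (0 : ℂ) (T.r k / 2))).A l f :=
    Cl.const_mul _ (cl_iteratedDeriv hO le_rfl (cl_upd h hl hk hf hg) e (half_pos hr0)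
      fun y hy => ball_subset_ball' (by rw [mem_ball] at hy; linarith))
  have hOV := ok_prod (U := ball (0 : ℂ) (T.r k / 2)) isOpen_ball hO
  have hD : (T.fr.prod (ball (0 : ℂ) (T.r k / 2))).A l fun z => f z - z.2 :=
    Cl.sub hOV hfA (A.of_nil hOV differentiableOn_snd
      ⟨_, fun z hz => (mem_ball_zero_iff.1 hz.2).le⟩)
  obtain ⟨M, hM0, hM⟩ := (A1_bd hOV le_rfl (cl_ds hO le_rfl hfA 2)).pos
  have hWf : ∀ j ∈ W, ∀ x v, (fun w => f (Function.update x j v, w)) = fun w => f (x, w) := by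
    intro j hj x v
    have : j ≠ k := fun e => hkW (e ▸ hj)
    simp only [hf', Function.update_comm this, (hW j hj).2.2 _ v]
  set ρ := min (T.r k / 6) (1 / (1152 * M)) with hρ
  have hρ0 : 0 < ρ := by positivity
  have hρ1 : ball (0 : ℂ) (3 * ρ) ⊆ ball 0 (T.r k / 2) :=
    ball_subset_ball (by linarith [min_le_left (T.r k / 6) (1 / (1152 * M))])
  have hρ2 : ρ * (1152 * M) ≤ 1 := (le_div_iff₀ (by positivity)).1 (min_le_right _ _)
  obtain ⟨R, δ, hR, hδ, H⟩ := near_prod (W := W) h hl isOpen_ball hD (fun j hj =>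
    ⟨(hW j hj).1, (hW j hj).2.1, fun y x v => congrArg (· - y) (congrFun (hWf j hj x v) y)⟩)
    (ε := ρ / 32) (by positivity)
  set r : ι → ℝ := fun j => if j ∈ W then T.r j else min δ (T.r j) with hrr
  have hr1 : ∀ j ∈ T.Fv, 0 < r j ∧ r j ≤ T.r j := fun j hj => by
    have := h.r0 j hj
    by_cases e : j ∈ W <;> simp [hrr, e, this, hδ]
  obtain ⟨w1, w2, w3⟩ := T4_shr h hR hr1
  have hl' : l <:+ (T.shr R r).top := by rwa [Tw.shr_top]
  have hmem : ∀ᶠ i in U, p i ∈ (T.shr R r).D l := T5_mem w1 (by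
    have e := T.shr_top R r
    exact ⟨hp.re, hp.z0, e ▸ hp.un, e ▸ hp.big, e ▸ hp.ord⟩) hl'
  have t0 : Tendsto (fun i => f (p i, 0)) U (𝓝 0) := by
    have := h0.const_mul (c'⁻¹ * e.factorial)
    rw [mul_zero] at this
    refine this.congr fun i => ?_
    simp only [hf', tc]; field_simp [hfac]
  have t1 : Tendsto (fun i => deriv (fun w => f (p i, w)) 0 - 1) U (𝓝 0) := by
    have := (h1.const_mul (c'⁻¹ * (e + 1).factorial)).sub_const 1
    rw [mul_assoc, ← hc', inv_mul_cancel₀ hc0, sub_self] at this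
    refine this.congr fun i => ?_
    simp only [hf', tc, deriv_const_mul_field', iteratedDeriv_succ]; field_simp [hfac]
  obtain ⟨i, a1, a2, a3⟩ := (hmem.and ((t0.norm.eventually_le_const (u := ρ / 128)
    (by simpa using hρ0)).and (t1.norm.eventually_le_const (u := 1 / 384) (by simp)))).exists
  have hI := H R le_rfl r hr1 (fun j _ hj => by simp [hrr, hj]) _ hρ1 isOpen_ball
    (closedBall 0 (ρ / 32)) _ a1 fun y hy => by
      have e1 := ds_expand (fun w => f (p i, w)) 2 y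
      simp only [Finset.sum_range_succ, Finset.sum_range_zero, ds_succ 0, ds_zero, dslope_same,
        pow_zero, pow_one, smul_eq_mul, one_mul, zero_add] at e1
      have b1 := hM (p i, y) ⟨w2 l a1, hρ1 hy⟩
      have b2 := (mem_ball_zero_iff.1 hy).le
      rw [mem_closedBall_zero_iff, show f (p i, y) - y = f (p i, 0) +
        y * (deriv (fun w => f (p i, w)) 0 - 1) + y ^ 2 * ds 2 (fun w => f (p i, w)) y by
          rw [e1]; ring]
      refine norm_add₃_le.trans ?_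
      rw [norm_mul y, norm_mul (y ^ 2), norm_pow]
      have b3 := mul_le_mul b2 a3 (norm_nonneg _) (by positivity)
      have b4 := mul_le_mul (pow_le_pow_left₀ (norm_nonneg _) b2 2) b1 (norm_nonneg _)
        (by positivity)
      nlinarith
  rw [cthickening_closedBall (by positivity) (by positivity),
    show ρ / 32 + ρ / 32 = ρ / 16 by ring] at hI
  have hA := sub_cl (sub_prod hρ1 (w3 l hl)) hfA
  set ψ : (ι → ℂ) → ℂ := fun x => (2 * Real.pi * I : ℂ)⁻¹ •
    ∮ w in C(0, ρ), w * deriv (fun w => f (x, w)) w * (f (x, w))⁻¹ with hψ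
  have hrt := fun x (hx : x ∈ (T.shr R r).D l) => root1 hρ0 (slice_diff (A1_diff hA) hx)
    (fun w hw => (mem_closedBall_zero_iff.1 (in_maps hI (x := (x, w)) ⟨hx, hw⟩)).trans
      (by linarith)) (w₀ := ψ x) rfl
  refine ⟨R, r, ψ, hR, hr1, fun j hj => by simp [hrr, hj], root_cl (T1_ok w1 hl') hρ0 hA hI,
    fun x hx hx' => (hrt x hx).2.2 fun w hw hw0 => ?_, fun x v => ?_, fun j hj x v => ?_, ?_,
    fun x hx => ?_⟩
  · have := iter_real isOpen_ball (slice_upd h hl hk hf hg (w2 l hx))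
      (slice_real h hl hk hf hr (w2 l hx) hx') e w (ball_subset_ball (by linarith) (hρ1 hw)) hw0
    simp [hf', hc', this, hci]
  · simp only [hψ, hf', Function.update_idem]
  · simp only [hψ, fun w => congrFun (hWf j hj x v) w]
  · refine squeeze_zero_norm' (hmem.mono fun i hi => (hrt _ hi).2.1) ?_
    simpa using t0.norm.const_mul 2
  · exact (mul_eq_zero.1 (hrt x hx).1).resolve_left (inv_ne_zero hc0)

end Crest.Agent.N207.O
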