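import Crest.Agent.N207.O.Mon1
import Crest.Agent.N207.O.One
import Crest.Agent.N207.O.El3
import Crest.Agent.N207.O.Root

/-!
# Row 207, block O (helper84): new levels, substitutions, the Tschirnhaus step
-/

set_option autoImplicit false
set_option linter.unusedSectionVars false

open Set Filter Topology Metric

noncomputable section

namespace Crest.Agent.N207.O

variable {ι : Type} [Fintype ι] [DecidableEq ι] {α : Type} {U : Ultrafilter α} {T T' T'' : Tw ι}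
  {p p' p'' : α → ι → ℂ} {l l' l'' : List (ι ⊕ ℕ)} {W W' : Finset ι} {k : ι}
  {g g' : (ι → ℂ) → ℂ} {Φ Ψ : (ι → ℂ) → ι → ℂ} {n m : ℕ} {w : ι → ℝ} {x : ι → ℂ}

namespace Tw

theorem MS.pull (s : Stp T T' U (m + 1) W p p' Φ) (hm : m ≤ T.p) (H : MS T' U p' m W (g ∘ Φ)) :
    MS T U p m W g := by
  refine H.imp (fun e => e.pull s.lf hm) ?_
  rintro ⟨T'', p'', Ψ, s', H⟩
  exact ⟨T'', p'', _, s.trans s' (by omega), s.lv ▸ H⟩

theorem MS.mon (h : Ctx T U p m W) (hP : Pb T' T l (T.lv m) Ψ) (γ : ι ⊕ ℕ → ℝ)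
    (H : MS T U p m W g') (e : ∀ x ∈ T.D (T.lv m),
      g x = Complex.exp (-T'.lin l γ (Ψ x)) * g' x) : MS T U p m W g := by
  refine H.imp id ?_
  rintro ⟨T'', p'', Φ, s, H⟩
  have h' := h.stp s
  have hl : T.lv m <:+ T''.top := s.lv ▸ h'.top
  have P := s.pb h.le
  exact ⟨T'', p'', Φ, s, (H.mon_mul s.gd.wf s.lf.pt hl (hP.trans P (T1_ok s.gd.wf hl))
    (fun k hk => s.fre (h.fre k hk)) γ).congr fun x hx => (e _ (P.maps hx)).symm⟩

theorem Lift.pval (h : T.Lift T' U n W p p' Φ) (hk : k ∈ W) : ∀ᶠ i in U, p' i k = p i k :=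
  h.hp.mono fun i hi => by rw [← hi, h.coord hk]

/-- the value of `k` defines a new archimedean class: insert it and remove `k` -/
theorem esc_new (h : Ctx T U p m W) (hk : k ∈ T.Fv) (hkW : k ∉ W) (hm : T.lab k = m)
    {γ : ι ⊕ ℕ → ℝ} {ε η : ℝ} {σ : α → ℝ} {l₁ l₂ : List (ι ⊕ ℕ)} (hl : T.lv m = l₁ ++ l₂)
    (hσ : Tendsto σ U atTop) (h₂ : ∀ b ∈ l₂, Tendsto (fun i => (T.s b (p i)).re / σ i) U (𝓝 0))
    (h₁ : ∀ a ∈ l₁, Tendsto (fun i => σ i / (T.s a (p i)).re) U (𝓝 0))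
    (h₃ : m < T.p → Tendsto (fun i => σ i / (T.s (Sum.inr m) (p i)).re) U (𝓝 0))
    (e : ∀ᶠ i in U, p i k = (ε : ℂ) * Complex.exp (-(T.lin (T.lv m) γ (p i) + (η * σ i : ℝ))) ∧
      ε ≠ 0) : Esc T U p m W := by
  have hi := h.insert hk hm
  obtain ⟨T1, k', Φ, L1, f1, b1, s1, n1, n2, v1, t1, -⟩ :=
    E3_new h.gd.wf h.sp h.pt (fun j hj => (hi.pas j hj).1) h.le hl hσ h₂ h₁ h₃
  have n3 : Sum.inl k' ∉ T.lv m := fun e => n2 (h.top.subset e)
  have e1 : ∀ i, T1.lin (T1.lv m) (Function.update γ (Sum.inl k') η)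
      (Function.update (p i) k' (σ i)) = T.lin (T.lv m) γ (p i) + (η * σ i : ℝ) := fun i => by
    have : (T1.lv m).toFinset = insert (Sum.inl k') (T.lv m).toFinset := by
      rw [v1, hl]; ext z; simp only [List.mem_toFinset, List.mem_append, List.mem_cons,
        Finset.mem_insert]; tauto
    unfold lin
    rw [this, Finset.sum_insert (by simpa using n3), L1.wf.sN, Function.update_self,
      Function.update_self, add_comm, Complex.ofReal_mul, s1]
    congr 1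
    refine Finset.sum_congr rfl fun z hz => ?_
    have hz := List.mem_toFinset.1 hz
    rw [Function.update_of_ne fun e : z = Sum.inl k' => n3 (e ▸ hz),
      (h.gd.wf.ind_s h.top n3 (fun e => absurd e n1) hz).1]
  have t2 : T1.lv m <:+ T1.top := lv_top (L1.pp ▸ h.le)
  have hF : ∀ j ∈ insert k W, T1.Fre (T1.lv m) j :=
    fun j hj => L1.fre hj (hi.pas j hj).1 (hi.pas j hj).2
  obtain ⟨-, -, hε⟩ := e.exists
  have hε' : (ε : ℂ) ≠ 0 := by exact_mod_cast hε
  obtain ⟨T2, p2, Ψ, γ', s, g0, e2⟩ := norm1 L1.wf L1.pt t2 hF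
    (γ := Function.update γ (Sum.inl k') η) (Big.iff.2 (by
      have := (h.pt.z0 k hk).const_mul (ε : ℂ)⁻¹
      rw [mul_zero] at this
      refine this.congr' (e.mono fun i hi => ?_)
      simp only [e1, hi.1, inv_mul_cancel_left₀ hε']))
  have l2 : T2.lab k = m := by rw [s.sm.lab, b1, hm]
  have F2 : T2.Fv = T.Fv := s.sm.Fv.trans f1
  have t3 : T1.lv m <:+ T2.top := s.top ▸ t2
  have hA := (AR.const (T1_ok s.gd.wf t3) ε).mul (T1_ok s.gd.wf t3) (AR.mon s.gd.wf t3 g0)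
  have hI : ∀ j ∈ insert k W, Ind j fun x => (ε : ℂ) * Complex.exp (-T2.lin (T1.lv m) γ' x) :=
    fun j hj x t => by simp only [(s.fre (hF j hj)).lin s.gd.wf t3 γ' x t]
  obtain ⟨T3, p3, Θ, L3, B3, F3, b3⟩ := E5_elim (W := W) s.gd.wf s.lf.pt (F2 ▸ hk) hkW
    (fun j hj => ⟨F2 ▸ (h.pas j hj).1, by rw [l2, s.sm.lab, b1]; exact (h.pas j hj).2⟩)
    (fun j hj e => by rw [l2, s.sm.lab, b1]; exact h.act j (F2 ▸ hj) e)
    (a := fun x => (ε : ℂ) * Complex.exp (-T2.lin (T1.lv m) γ' x))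
    (by rw [l2, s.lv]; exact hA.a) (by rw [l2, s.lv]; exact hA.r)
    ⟨hI k (Finset.mem_insert_self _ _), fun j hj => hI j (Finset.mem_insert_of_mem hj)⟩ (by
      filter_upwards [e, s.lf.hp, s.lf.pval (Finset.mem_insert_self _ _),
        L1.pval (Finset.mem_insert_self _ _), T5_mem s.gd.wf s.lf.pt t3] with i a1 a2 a3 a4 a5
      rw [a3, a4, a1.1, ← e2 _ a5, a2, e1])
  rw [l2] at L3
  have L := ((L1.trans s.lf (Nat.zero_le _)).mono (Nat.zero_le (m + 1))
    (Finset.subset_insert _ _))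
  refine ⟨T3, p3, _, L.trans L3 (by have := h.le; omega), ?_,
    Or.inl ((mu_erase (F2 ▸ hk) s.gd.wf L3.pp F3 b3).trans_le L.mu)⟩
  have := h.sp
  unfold Sp at this ⊢
  rw [F3, F2, top_congr B3 L3.pp, s.top, t1, Finset.card_erase_of_mem hk]
  have c1 : (Finset.univ.filter fun j => Sum.inl j ∈ insert (Sum.inl k') T.top.toFinset) ⊆
      insert k' (Finset.univ.filter fun j => Sum.inl j ∈ T.top.toFinset) := fun j hj => by
    simpa using hj
  have c2 := (Finset.card_le_card c1).trans (Finset.card_insert_le _ _)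
  have c3 := Finset.card_pos.2 ⟨k, hk⟩
  omega

theorem subst1 (h : Ctx T U p m W) (hk : k ∈ T.Fv) (hkW : k ∉ W) (hm : T.lab k = m)
    {a b : (ι → ℂ) → ℂ} (ha : T.AR (T.lv m) a) (hb : T.AR (T.lv m) b)
    (ia : ∀ j ∈ insert k W, Ind j a) (ib : ∀ j ∈ insert k W, Ind j b)
    (b0 : ∀ x, b x ≠ 0) (a0 : Tendsto (fun i => a (p i)) U (𝓝 0))
    {z : α → ℝ} (hz : Tendsto z U (𝓝 0)) (e : ∀ᶠ i in U, p i k = a (p i) + b (p i) * z i) :
    ∃ (T' : Tw ι) (Φ : (ι → ℂ) → ι → ℂ),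
      Stp T T' U (m + 1) W p (fun i => Function.update (p i) k (z i)) Φ ∧
      T'.D (T.lv m) ⊆ T.D (T.lv m) ∧
      ∀ x ∈ T'.D (T.lv m), ∀ t ∈ ball (0 : ℂ) (T'.r k),
        Φ (Function.update x k t) = Function.update x k (a x + b x * t) := by
  subst hm
  obtain ⟨T', Φ, h1, h2, h3, -, h4⟩ := E2_sub h.gd.wf h.pt hk hkW h.pas h.act ha.a hb.a ha.r hb.r
    ⟨ia k (Finset.mem_insert_self _ _), fun j hj => ia j (Finset.mem_insert_of_mem hj)⟩
    ⟨ib k (Finset.mem_insert_self _ _), fun j hj => ib j (Finset.mem_insert_of_mem hj)⟩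
    (fun x _ => b0 x) a0 hz e
  obtain ⟨R, h5, s⟩ := h1.fix h2 (by have := h.le; omega)
  refine ⟨_, Φ, s, (h5 _).trans h3, fun x hx t ht => ?_⟩
  rw [h4 _ (h5 _ ((s.fre (fre_lv hk le_rfl)).mem s.gd.wf (s.top ▸ h.top) hx
    (mem_ball_zero_iff.1 ht))), ia k (Finset.mem_insert_self _ _),
    ib k (Finset.mem_insert_self _ _), Function.update_idem, Function.update_self]

theorem AR.slice (h : T.WF) (hl : l <:+ T.top) (hk : T.Fre l k) (hg : T.AR l g) (hx : x ∈ T.D l) :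
    DifferentiableOn ℂ (fun t => g (Function.update x k t)) (ball 0 (T.r k)) :=
  Ty.slice_upd h hl hk.1 hk.2 hg.a hx

theorem AR.tc (h : T.WF) (hl : l <:+ T.top) (hk : T.Fre l k) (hg : T.AR l g) (d : ℕ) :
    T.AR l (tc k d g) :=
  have := (C5_tay h hl hk.1 hk.2 hg.a hg.r d).1
  ⟨this.1, this.2⟩

/-- uniform Lipschitz estimate along the filter -/
theorem AR.lip (h : T.WF) (hl : l <:+ T.top) (hk : T.Fre l k) (hg : T.AR l g) :
    ∃ C : ℝ, 0 ≤ C ∧ ∀ x ∈ T.D l, ∀ s t : ℂ, ‖s‖ ≤ T.r k / 2 → ‖t‖ ≤ T.r k / 2 →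
      ‖g (Function.update x k s) - g (Function.update x k t)‖ ≤ C * ‖s - t‖ := by
  obtain ⟨C, hC⟩ := C6_lip h hl hk.1 hk.2 hg.a
  have := h.r0 k hk.1
  refine ⟨|C|, abs_nonneg C, fun x hx s t hs ht => ?_⟩
  have h1 := hC _ (hk.mem h hl hx (t := t) (by linarith)) s (by rwa [Function.update_self]) hs
  rw [Function.update_idem, Function.update_self] at h1
  exact h1.trans (by gcongr; exact le_abs_self C)

theorem AR.lim0 (h : T.WF) (hl : l <:+ T.top) (hk : T.Fre l k) (hg : T.AR l g) {q : α → ι → ℂ}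
    (hq : ∀ᶠ i in U, q i ∈ T.D l) (h0 : Tendsto (fun i => q i k) U (𝓝 0)) {c : ℂ}
    (hc : Tendsto (fun i => g (Function.update (q i) k 0)) U (𝓝 c)) :
    Tendsto (fun i => g (q i)) U (𝓝 c) := by
  obtain ⟨C, -, hC⟩ := hg.lip h hl hk
  have r0 := half_pos (h.r0 k hk.1)
  have : Tendsto (fun i => g (q i) - g (Function.update (q i) k 0)) U (𝓝 0) := by
    refine squeeze_zero_norm' ?_ (by simpa using h0.norm.const_mul C)
    filter_upwards [hq, h0.norm.eventually_le_const (show ‖(0 : ℂ)‖ < T.r k / 2 by rwa [norm_zero])]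
      with i a1 a2
    simpa using hC _ a1 (q i k) 0 a2 (by rw [norm_zero]; exact r0.le)
  simpa using this.add hc

theorem tc_upd (hk : k ∉ W) (d : ℕ) : tc k d (g ∘ upd W w) x = tc k d g (upd W w x) := by
  simp only [tc, Function.comp, upd_update hk]

/-- the Tschirnhaus step -/
theorem tsch (h : Ctx T U p m W) (hk : k ∈ T.Fv) (hkW : k ∉ W) (hm : T.lab k = m)
    (hg : T.AR (T.lv m) g) (hw : ∀ j ∈ W, |w j| < T.r j) {e : ℕ} {c : ℂ} (hc : c ≠ 0)
    (h0 : Tendsto (fun i => tc k e g (upd W w (p i))) U (𝓝 0))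
    (h1 : Tendsto (fun i => tc k (e + 1) g (upd W w (p i))) U (𝓝 c)) :
    ∃ (T' : Tw ι) (p' : α → ι → ℂ) (Φ : (ι → ℂ) → ι → ℂ), Stp T T' U (m + 1) W p p' Φ ∧
      Tendsto (fun i => tc k (e + 1) (g ∘ Φ) (upd W w (p' i))) U (𝓝 c) ∧
      ∀ x ∈ T'.D (T.lv m), tc k e (g ∘ Φ) (upd W w x) = 0 := by
  have hf := fre_lv hk hm.ge
  have hG := hg.upd h.gd.wf h.top h.fre hw
  obtain ⟨R, r, ψ, a1, a2, a3, a4, a5, a6, a7, a8, a9⟩ := C7_root h.gd.wf h.pt h.top hk hkW hf.2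
    (fun j hj => ⟨(h.fre j hj).1, (h.fre j hj).2, ind_upd g hj w⟩) hG.a hG.r hc
    (by simpa only [tc_upd hkW] using h0) (by simpa only [tc_upd hkW] using h1)
  obtain ⟨L, S⟩ := E0_shr h.gd.wf h.pt a1 a2 a3
  obtain ⟨R', b1, s1⟩ := L.fix S (Nat.zero_le _)
  have h' := h.stp s1
  have hψ : ((T.shr R r).shr R' r).AR (T.lv m) ψ :=
    ⟨Fr.Cl.restr (F := (T.shr R r).fr) (F' := ((T.shr R r).shr R' r).fr) rfl (fun l₀ _ => b1 l₀) a4, fun x hx => a5 x (b1 _ hx)⟩
  have hm1 := T5_mem h'.gd.wf h'.pt (s1.top ▸ h.top)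
  have e1 : ∀ᶠ i in U, (((p i k - ψ (p i)).re : ℝ) : ℂ) = p i k - ψ (p i) :=
    hm1.mono fun i hi => Complex.ext rfl (by simp [h.pt.re i k, hψ.r _ hi (h.pt.re i)])
  obtain ⟨T2, Φ, s2, d2, f2⟩ := subst1 h' hk hkW hm (a := ψ) (b := fun _ => ((1 : ℝ) : ℂ))
    (s1.lv ▸ hψ) (AR.const h'.ok 1) (fun j hj => (Finset.mem_insert.1 hj).elim (· ▸ a6) (a7 j))
    (fun _ _ _ _ => rfl) (by simp) a8 (z := fun i => (p i k - ψ (p i)).re)
    (by simpa [Function.comp_def] using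
      (Complex.continuous_re.tendsto _).comp ((h.pt.z0 k hk).sub a8))
    (e1.mono fun i hi => by rw [hi]; simp)
  rw [s1.lv] at d2 f2
  have s := (s1.mono (Nat.zero_le _) Finset.Subset.rfl).trans s2 (by have := h.le; omega)
  have t2 : T.lv m <:+ T2.top := s.top ▸ h.top
  have key : ∀ x ∈ T2.D (T.lv m), ∀ n, tc k n (g ∘ Φ) (upd W w x) =
      iteratedDeriv n (fun t => (g ∘ upd W w) (Function.update x k (ψ x + t))) 0 /
        (n.factorial : ℂ) := fun x hx n => by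
    unfold tc
    congr 1
    refine Filter.EventuallyEq.iteratedDeriv_eq n (mem_of_superset
      (ball_mem_nhds _ (s.gd.wf.r0 k (s.fre hf).1)) fun t ht => ?_)
    have := f2 _ (upd_mem s.gd.wf t2 (fun j hj => s.fre (h.fre j hj))
      (s.lf.rad (fun j hj => (h.pas j hj).1) hw) hx) t ht
    simp only [mem_ofPred_eq, Function.comp, this, upd_ind a7, upd_update hkW, Complex.ofReal_one,
      one_mul]
  refine ⟨T2, _, Φ, s, ?_, fun x hx => ?_⟩
  · obtain ⟨C, -, hC⟩ := hG.lip h.gd.wf h.top hf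
    have r0 := h.gd.wf.r0 k hk
    have hm0 := T5_mem h.gd.wf h.pt h.top
    have hs := a8.norm.eventually (gt_mem_nhds (show ‖(0 : ℂ)‖ < T.r k / 4 by simpa using r0))
    have := der_sub (F := U) (ρ := T.r k / 4)
      (φ := fun i t => (g ∘ upd W w) (Function.update (p i) k (ψ (p i) + t)))
      (P := fun i t => (g ∘ upd W w) (Function.update (p i) k t)) (by positivity)
      (by
        filter_upwards [hm0, hs] with i c1 c2
        refine (hG.slice h.gd.wf h.top hf c1).comp (by fun_prop) fun t ht => ?_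
        rw [mem_ball_zero_iff] at ht ⊢
        linarith [norm_add_le (ψ (p i)) t])
      (hm0.mono fun i c1 => (hG.slice h.gd.wf h.top hf c1).mono (ball_subset_ball (by linarith)))
      (ε := fun i => C * ‖ψ (p i)‖) (by simpa using a8.norm.const_mul C) (by
        filter_upwards [hm0, hs] with i c1 c2 t ht
        rw [mem_ball_zero_iff] at ht
        simpa using hC _ c1 (ψ (p i) + t) t (by linarith [norm_add_le (ψ (p i)) t]) (by linarith))
      (e + 1)
    have := (this.div_const ((e + 1).factorial : ℂ)).add h1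
    rw [zero_div, zero_add] at this
    refine this.congr' ((T5_mem s.gd.wf s.lf.pt t2).mono fun i hi => ?_)
    beta_reduce
    rw [key _ hi, ← tc_upd hkW]
    simp only [a6 _ _, Function.update_idem, tc]
    ring
  · rw [key x hx, iteratedDeriv_comp_const_add e
      (fun s => (g ∘ upd W w) (Function.update x k s)) (ψ x)]
    simp only [add_zero, a9 x (b1 _ (d2 hx)), zero_div]

end Tw

end Crest.Agent.N207.O
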