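import Crest.Agent.N207.O.Mon2

/-!
# Row 207, block O (helper84): the blow up step and the monomialisation theorem
-/

set_option autoImplicit false
set_option linter.unusedSectionVars false

open Set Filter Topology Metric

noncomputable section

namespace Crest.Agent.N207.O

variable {ι : Type} [Fintype ι] [DecidableEq ι] {α : Type} {U : Ultrafilter α} {T T' T'' : Tw ι}
  {p p' p'' : α → ι → ℂ} {l l' l'' : List (ι ⊕ ℕ)} {W W' : Finset ι} {k : ι}
  {g g' : (ι → ℂ) → ℂ} {Φ Ψ : (ι → ℂ) → ι → ℂ} {n m : ℕ} {w : ι → ℝ} {x : ι → ℂ}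
  {Fv : Finset ι} {Lb : ι → ℕ}

namespace Tw

/-- monomialisation for all towers of a given shape -/
def MI (U : Ultrafilter α) (Fv : Finset ι) (Lb : ι → ℕ) (m : ℕ) (W : Finset ι) : Prop :=
  ∀ (T : Tw ι) (p : α → ι → ℂ), T.Fv = Fv → T.lab = Lb → Ctx T U p m W →
    ∀ g, T.AR (T.lv m) g → ¬ EqOn g 0 (T.D (T.lv m)) → MS T U p m W g

/-- monomialisation of functions that are regular of order `d` in `k` -/
def RO (U : Ultrafilter α) (Fv : Finset ι) (Lb : ι → ℕ) (m : ℕ) (W : Finset ι) (k : ι) (d : ℕ) :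
    Prop :=
  ∀ (T : Tw ι) (p : α → ι → ℂ), T.Fv = Fv → T.lab = Lb → Ctx T U p m W →
    ∀ g, T.AR (T.lv m) g → T.UU U p W (tc k d g) → MS T U p m W g

theorem multi (IH : MI U T.Fv T.lab m W) (h : Ctx T U p m W) (a : ℕ → (ι → ℂ) → ℂ)
    (ha : ∀ j, T.AR (T.lv m) (a j)) (d : ℕ) : Esc T U p m W ∨
    ∃ (T' : Tw ι) (p' : α → ι → ℂ) (Φ : (ι → ℂ) → ι → ℂ), Stp T T' U (m + 1) W p p' Φ ∧
      ∀ j < d, EqOn (a j ∘ Φ) 0 (T'.D (T.lv m)) ∨ T'.MU U p' (T.lv m) W (a j ∘ Φ) := by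
  induction d with
  | zero => exact Or.inr ⟨T, p, id, Stp.refl h.gd h.pt, by simp⟩
  | succ d ih =>
    rcases ih with ih | ⟨T', p', Φ, s, H⟩
    · exact Or.inl ih
    by_cases h0 : EqOn (a d ∘ Φ) 0 (T'.D (T.lv m))
    · exact Or.inr ⟨T', p', Φ, s, fun j hj =>
        (Nat.lt_succ_iff_lt_or_eq.1 hj).elim (H j) fun e => e ▸ Or.inl h0⟩
    have h' := h.stp s
    rcases IH T' p' s.sm.Fv s.sm.lab h' _ (s.lv ▸ (s.pb h.le).ar (ha d)) (s.lv ▸ h0) with
      e | ⟨T'', p'', Ψ, s', H'⟩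
    · exact Or.inl (e.pull s.lf h.le)
    have P := s'.pb h'.le
    rw [s.lv] at H' P
    have s2 := s.trans s' (by have := h.le; omega)
    refine Or.inr ⟨T'', p'', _, s2, fun j hj =>
      (Nat.lt_succ_iff_lt_or_eq.1 hj).elim (fun hj => (H j hj).imp (fun e x hx => e (P.maps hx))
        fun e => MU.pull (g := a j ∘ Φ) s'.lf (s2.top ▸ h.top) P (fun k hk => (h'.pas k hk).1)
          (fun k hk => s2.fre (h.fre k hk)) e) fun e => e ▸ Or.inr H'⟩

theorem ord_drop (h : T.WF) (hp : T.Pt U p) (hl : l <:+ T.top) (hk : T.Fre l k)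
    (hW : ∀ j ∈ W, T.Fre l j) (hw : ∀ j ∈ W, |w j| < T.r j) {e : ℕ} {F : ℕ → (ι → ℂ) → ℂ}
    (hF : ∀ j, T.AR l (F j)) {c : ℝ} (hc : c ≠ 0) (hg : T.AR l g)
    (he : ∀ x ∈ T.D l, g x = ∑ j ∈ Finset.range (e + 2), F j x * (c + x k) ^ j)
    (hu : ∀ j, ∃ ε : α → ℝ, Tendsto ε U (𝓝 0) ∧ ∀ᶠ i in U, ∀ t ∈ ball (0 : ℂ) (T.r k),
      ‖F j (Function.update (upd W w (p i)) k t) - F j (upd W w (p i))‖ ≤ ε i)
    (hx : ((∃ κ ≠ 0, Tendsto (fun i => F (e + 1) (upd W w (p i))) U (𝓝 κ)) ∧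
        Tendsto (fun i => F e (upd W w (p i))) U (𝓝 0)) ∨
      (Tendsto (fun i => F (e + 1) (upd W w (p i))) U (𝓝 0) ∧
        ∃ j ≤ e, ∃ κ ≠ 0, Tendsto (fun i => F j (upd W w (p i))) U (𝓝 κ))) :
    ∃ n ≤ e, T.UU U p W (tc k n g) := by
  have hq := ev_upd h hp hl hW hw
  choose κ hκ using fun j => (hF j).ulim (T1_ok h hl) hq
  choose ε ε0 hε using hu
  obtain ⟨n, h1, h2⟩ := poly_ord (κ := κ) (c := c) (by exact_mod_cast hc) (e := e) (hx.imp
    (fun ⟨⟨a, a1, a2⟩, a3⟩ => ⟨tendsto_nhds_unique (hκ _) a2 ▸ a1, tendsto_nhds_unique (hκ _) a3⟩)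
    fun ⟨a3, j, hj, a, a1, a2⟩ =>
      ⟨tendsto_nhds_unique (hκ _) a3, j, hj, tendsto_nhds_unique (hκ _) a2 ▸ a1⟩)
  have r0 := h.r0 k hk.1
  have := der_sub (F := U) (ρ := T.r k) (φ := fun i t => g (Function.update (upd W w (p i)) k t))
    (P := fun i t => ∑ j ∈ Finset.range (e + 2), F j (upd W w (p i)) * (c + t) ^ j) r0
    (hq.mono fun i hi => hg.slice h hl hk hi) (.of_forall fun i => by fun_prop)
    (ε := fun i => ∑ j ∈ Finset.range (e + 2), ε j i * (|c| + T.r k) ^ j)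
    (by simpa using tendsto_finsetSum (Finset.range (e + 2)) fun j _ =>
      (ε0 j).mul_const ((|c| + T.r k) ^ j)) (by
      filter_upwards [hq, (Finset.eventually_all (Finset.range (e + 2))).2 fun j _ => hε j]
        with i a1 a2 t ht
      have ht' := mem_ball_zero_iff.1 ht
      rw [he _ (hk.mem h hl a1 ht'), ← Finset.sum_sub_distrib]
      refine (norm_sum_le _ _).trans (Finset.sum_le_sum fun j hj => ?_)
      rw [Function.update_self, ← sub_mul, norm_mul, norm_pow]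
      have b1 := a2 j hj t ht
      have b2 : ‖(c : ℂ) + t‖ ≤ |c| + T.r k :=
        (norm_add_le _ _).trans (by rw [Complex.norm_real, Real.norm_eq_abs]; linarith)
      exact mul_le_mul b1 (by gcongr) (by positivity) ((norm_nonneg _).trans b1)) n
  simp only [der_poly] at this
  have h3 := this.add (tendsto_finsetSum (Finset.range (e + 2)) fun j _ =>
    (hκ j).mul_const ((j.descFactorial n : ℂ) * (c : ℂ) ^ (j - n)))
  simp only [sub_add_cancel, zero_add] at h3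
  exact ⟨n, h1, w, _, hw, div_ne_zero h2 (by exact_mod_cast n.factorial_ne_zero), h3.div_const _⟩

/-- the blow up step -/
theorem blow (h : Ctx T U p m W) (hk : k ∈ T.Fv) (hkW : k ∉ W) (hm : T.lab k = m) {e : ℕ}
    (IH : ∀ n ≤ e, RO U T.Fv T.lab m W k n) {A u : ℕ → (ι → ℂ) → ℂ} {J : Finset ℕ}
    {δ : ℕ → ι ⊕ ℕ → ℝ} (hJ : ∀ j ∈ J, j < e + 2) (he : e + 1 ∈ J)
    (hu : ∀ j, T.AR (T.lv m) (u j)) (hU : ∀ j ∈ J, T.UU U p W (u j))
    (hA : ∀ j ∈ J, ∀ x ∈ T.D (T.lv m), A j x = Complex.exp (-T.lin (T.lv m) (δ j) x) * u j x)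
    (hA0 : ∀ j < e + 2, j ∉ J → ∀ x ∈ T.D (T.lv m), A j x = 0)
    (hg : ∀ x ∈ T.D (T.lv m), g x = ∑ j ∈ Finset.range (e + 2), A j x * x k ^ j)
    (hw : ∀ j ∈ W, |w j| < T.r j) {c : ℂ} (hc : c ≠ 0)
    (h1 : Tendsto (fun i => u (e + 1) (upd W w (p i))) U (𝓝 c))
    (h0 : ∀ x ∈ T.D (T.lv m), A e (upd W w x) = 0)
    {γ : ι ⊕ ℕ → ℝ} {c0 : ℝ} {z : α → ℝ} (c0n : c0 ≠ 0) (hz : Tendsto z U (𝓝 0))
    (hγ : T.Big U p (T.lv m) γ)
    (hv : ∀ᶠ i in U, p i k = Complex.exp (-T.lin (T.lv m) γ (p i)) * ((c0 : ℂ) + z i)) :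
    MS T U p m W g := by
  have hi := h.insert hk hm
  have hf := fre_lv hk hm.ge
  obtain ⟨j0, a1, a2⟩ := exists_min h.pt h.top (fun j : ℕ => δ j + (j : ℝ) • γ) ⟨_, he⟩
  set β : ℕ → ι ⊕ ℕ → ℝ := fun j => (δ j + (j : ℝ) • γ) - (δ j0 + (j0 : ℝ) • γ) with hβ
  obtain ⟨T1, p1, Φ, s1, H1⟩ := norm_fam (Finset.insertNone J) h.gd h.pt h.top hi.fre
    (fun o => o.elim γ β) fun o ho => by
      cases o with
      | none => exact Or.inr hγ
      | some j => exact a2 j (by simpa using ho)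
  have c1 := h.stp s1
  have t1 : T.lv m <:+ T1.top := s1.top ▸ h.top
  have O1 := T1_ok s1.gd.wf t1
  have P1 := s1.pb0 h.top
  set M : (ι → ℂ) → ℂ := fun x => Complex.exp (-T.lin (T.lv m) γ (Φ x)) with hM
  have MA : T1.AR (T.lv m) M := H1 none (by simp)
  have hI : ∀ (γ : ι ⊕ ℕ → ℝ), ∀ j ∈ insert k W, ∀ x t, T.lin (T.lv m) γ
      (Φ (Function.update x j t)) = T.lin (T.lv m) γ (Φ x) :=
    fun γ j hj => s1.lf.ind hj ((hi.fre j hj).lin h.gd.wf h.top γ)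
  have MI : ∀ j ∈ insert k W, Ind j M := fun j hj x t => by simp only [hM, hI γ j hj]
  have M0 : Tendsto (fun i => M (p1 i)) U (𝓝 0) :=
    (Big.iff.1 hγ).congr' (s1.lf.hp.mono fun i hi => by simp only [hM, hi])
  obtain ⟨T2, Ψ, s2, d2, f2⟩ := subst1 c1 (s1.fre hf).1 hkW (s1.sm.lab ▸ hm)
    (a := fun x => c0 * M x) (b := M) (s1.lv ▸ (AR.const O1 c0).mul O1 MA) (s1.lv ▸ MA)
    (fun j hj x t => by simp only [MI j hj x t]) MI (fun _ => Complex.exp_ne_zero _)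
    (by simpa using M0.const_mul (c0 : ℂ)) hz (by
      filter_upwards [hv, s1.lf.hp, s1.lf.pval (Finset.mem_insert_self _ _)] with i b1 b2 b3
      rw [b3, b1, hM]; simp only [b2]; ring)
  rw [s1.lv] at d2 f2
  have s := (s1.mono (Nat.zero_le _) (Finset.subset_insert _ _)).trans s2 (by have := h.le; omega)
  have c2 := h.stp s
  have t2 : T.lv m <:+ T2.top := s.top ▸ h.top
  have O2 := T1_ok s.gd.wf t2
  have P := s.pb h.le
  have P2 := s2.pb c1.le
  rw [s1.lv] at P2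
  have f3 := s.fre hf
  have f4 : ∀ x ∈ T2.D (T.lv m), Ψ x = Function.update x k (c0 * M x + M x * x k) := fun x hx => by
    simpa using f2 x hx (x k) (mem_ball_zero_iff.2 (D_nil hx f3.1))
  set G : ℕ → (ι → ℂ) → ℂ := fun j y =>
    if j ∈ J then Complex.exp (-T.lin (T.lv m) (β j) y) * u j y else 0 with hG
  have GA : ∀ j, T1.AR (T.lv m) (G j ∘ Φ) := fun j => by
    by_cases hj : j ∈ J
    · simpa only [hG, Function.comp_def, if_pos hj, Option.elim_some] using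
        (H1 (some j) (by simpa using hj)).mul O1 (P1.ar (hu j))
    · simpa only [hG, Function.comp_def, if_neg hj, Complex.ofReal_zero] using AR.const O1 0
  have HA : T2.AR (T.lv m) fun x =>
      ∑ j ∈ Finset.range (e + 2), ((G j ∘ Φ) ∘ Ψ) x * ((c0 : ℂ) + x k) ^ j :=
    AR.sum O2 _ fun j _ => (P2.ar (GA j)).mul O2
      (((AR.const O2 c0).add O2 (AR.coord O2 f3.1)).pow O2 j)
  have hval : ∀ (w : ι → ℝ) (j : ℕ), j ∈ J →
      (fun i => Complex.exp (-T.lin (T.lv m) (β j) (p i)) * u j (upd W w (p i))) =ᶠ[U]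
        fun i => ((G j ∘ Φ) ∘ Ψ) (upd W w (Function.update (p1 i) k (z i))) := fun w j hj =>
    Filter.EventuallyEq.trans (.of_forall fun i => by
      simp only [hG, if_pos hj, lin_upd h.gd.wf h.top h.fre]) (s.lf.val (G j) w)
  have key : ∀ w : ι → ℝ, (∀ j ∈ W, |w j| < T.r j) → ∀ j, ∃ ε : α → ℝ, Tendsto ε U (𝓝 0) ∧
      ∀ᶠ i in U, ∀ t ∈ ball (0 : ℂ) (T2.r k),
        ‖((G j ∘ Φ) ∘ Ψ) (Function.update (upd W w (Function.update (p1 i) k (z i))) k t) -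
          ((G j ∘ Φ) ∘ Ψ) (upd W w (Function.update (p1 i) k (z i)))‖ ≤ ε i := fun w hw j => by
    obtain ⟨C, C0, hC⟩ := (GA j).lip s1.gd.wf t1 (s1.fre hf)
    have r1 := half_pos (s1.gd.wf.r0 k (s1.fre hf).1)
    have b0 : Tendsto (fun i => ‖M (p1 i)‖ * (|c0| + T2.r k)) U (𝓝 0) := by
      simpa using M0.norm.mul_const (|c0| + T2.r k)
    refine ⟨fun i => C * (2 * (‖M (p1 i)‖ * (|c0| + T2.r k))),
      by simpa using (b0.const_mul 2).const_mul C, ?_⟩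
    filter_upwards [ev_upd s.gd.wf s.lf.pt t2 (fun j hj => s.fre (h.fre j hj))
      (s.lf.rad (fun j hj => (h.pas j hj).1) hw), b0.eventually_le_const r1] with i b1 b2 t ht
    have b3 : M (upd W w (Function.update (p1 i) k (z i))) = M (p1 i) := by
      rw [upd_ind fun j hj => MI j (Finset.mem_insert_of_mem hj),
        MI k (Finset.mem_insert_self _ _)]
    have b4 : ∀ t : ℂ, ‖t‖ < T2.r k →
        ‖c0 * M (p1 i) + M (p1 i) * t‖ ≤ ‖M (p1 i)‖ * (|c0| + T2.r k) := fun t ht => by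
      rw [mul_comm, ← mul_add, norm_mul]
      exact mul_le_mul_of_nonneg_left ((norm_add_le _ _).trans
        (by rw [Complex.norm_real, Real.norm_eq_abs]; linarith)) (norm_nonneg _)
    have b5 := b4 t (mem_ball_zero_iff.1 ht)
    have b6 := b4 _ (D_nil b1 f3.1)
    rw [Function.comp_apply (g := Ψ), Function.comp_apply (g := Ψ), f2 _ b1 t ht, f4 _ b1, b3]
    exact (hC _ (d2 b1) _ _ (b5.trans b2) (b6.trans b2)).trans
      (mul_le_mul_of_nonneg_left ((norm_sub_le _ _).trans (by linarith)) C0)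
  have hW2 : ∀ j ∈ W, T2.Fre (T.lv m) j := fun j hj => s.fre (h.fre j hj)
  obtain ⟨n, n1, n2⟩ : ∃ n ≤ e, T2.UU U (fun i => Function.update (p1 i) k (z i)) W (tc k n fun x =>
      ∑ j ∈ Finset.range (e + 2), ((G j ∘ Φ) ∘ Ψ) x * ((c0 : ℂ) + x k) ^ j) := by
    rcases a2 _ he with b | b
    · refine ord_drop s.gd.wf s.lf.pt t2 f3 hW2 (s.lf.rad (fun j hj => (h.pas j hj).1) hw)
        (fun j => P2.ar (GA j)) c0n HA (fun _ _ => rfl) (key w hw) (Or.inl ⟨⟨c, hc, ?_⟩, ?_⟩)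
      · exact (h1.congr fun i => by simp [lin_zero (γ := β (e + 1)) b]).congr' (hval w _ he)
      · by_cases hj : e ∈ J
        · refine (tendsto_const_nhds.congr' ?_).congr' (hval w _ hj)
          filter_upwards [T5_mem h.gd.wf h.pt h.top, ev_upd h.gd.wf h.pt h.top h.fre hw]
            with i b1 b2
          rw [(mul_eq_zero.1 ((hA e hj _ b2).symm.trans (h0 _ b1))).resolve_left
            (Complex.exp_ne_zero _), mul_zero]
        · simpa only [hG, Function.comp_def, if_neg hj] using tendsto_const_nhds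
    · obtain ⟨w', c', b1, b2, b3⟩ := hU j0 a1
      have b4 : ∀ a ∈ T.lv m, β j0 a = 0 := fun a _ => by simp [hβ]
      have b5 : j0 ≠ e + 1 := by
        rintro rfl
        have : Tendsto (fun _ : α => (0 : ℝ)) U atTop :=
          b.congr fun i => by rw [lin_zero (γ := β (e + 1)) b4, Complex.zero_re]
        exact not_tendsto_const_atTop _ _ this
      obtain ⟨ξ, hξ⟩ := (hu (e + 1)).ulim h.ok (ev_upd h.gd.wf h.pt h.top h.fre b1)
      refine ord_drop s.gd.wf s.lf.pt t2 f3 hW2 (s.lf.rad (fun j hj => (h.pas j hj).1) b1)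
        (fun j => P2.ar (GA j)) c0n HA (fun _ _ => rfl) (key w' b1)
        (Or.inr ⟨?_, j0, by have := hJ j0 a1; omega, c', b2, ?_⟩)
      · exact Tendsto.congr' (hval w' _ he) (by simpa only [zero_mul] using (Big.iff.1 b).mul hξ)
      · exact (b3.congr fun i => by simp [lin_zero b4]).congr' (hval w' _ a1)
  refine MS.pull s h.le (MS.mon (l := T.lv m) c2 (by rw [s.lv]; exact P) (δ j0 + (j0 : ℝ) • γ)
    (IH n n1 T2 _ s.sm.Fv s.sm.lab c2 _ (s.lv ▸ HA) n2) fun x hx => ?_)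
  rw [s.lv] at hx
  have hy := P.maps hx
  have e1 : (Φ ∘ Ψ) x k = Complex.exp (-T.lin (T.lv m) γ ((Φ ∘ Ψ) x)) * (c0 + x k) := by
    rw [Function.comp_apply, s1.lf.coord (Finset.mem_insert_self _ _), f4 x hx,
      Function.update_self, hI γ k (Finset.mem_insert_self _ _)]
    simp only [hM]; ring
  rw [Function.comp_apply, hg _ hy, Finset.mul_sum]
  refine Finset.sum_congr rfl fun j hj => ?_
  rw [e1, show ((G j ∘ Φ) ∘ Ψ) x = G j ((Φ ∘ Ψ) x) from rfl]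
  by_cases hj' : j ∈ J
  · simp only [hG, if_pos hj', hA j hj' _ hy, hβ, lin_sub, lin_add, lin_smul, mul_pow,
      ← Complex.exp_nat_mul]
    have e2 : ∀ a b a0 b0 : ℂ, Complex.exp (-a) * Complex.exp (j * -b) =
        Complex.exp (-(a0 + b0)) * Complex.exp (-(a + ((j : ℝ) : ℂ) * b - (a0 + b0))) :=
      fun a b a0 b0 => by
        rw [← Complex.exp_add, ← Complex.exp_add]; congr 1; push_cast; ring
    linear_combination (u j ((Φ ∘ Ψ) x) * (c0 + x k) ^ j) * e2 (T.lin (T.lv m) (δ j) ((Φ ∘ Ψ) x))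
      (T.lin (T.lv m) γ ((Φ ∘ Ψ) x)) (T.lin (T.lv m) (δ j0) ((Φ ∘ Ψ) x))
      (((j0 : ℝ) : ℂ) * T.lin (T.lv m) γ ((Φ ∘ Ψ) x))
  · simp only [hG, if_neg hj', hA0 j (Finset.mem_range.1 hj) hj' _ hy, zero_mul, mul_zero]

end Tw

end Crest.Agent.N207.O
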