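import Crest.Agent.N207.O.Unt2

/-!
# Row 207, block O (helper47): derivatives along `T.dir` at the ultrafilter point
-/

set_option autoImplicit false
set_option linter.unusedSectionVars false

open Set Filter Topology Metric

noncomputable section

namespace Crest.Agent.N207.O

variable {ι : Type} [Fintype ι] [DecidableEq ι] {α : Type} {U : Ultrafilter α} {T : Tw ι}
  {p : α → ι → ℂ} {l : List (ι ⊕ ℕ)} {a : ι ⊕ ℕ} {j : ℕ} {x y : ι → ℂ} {g : (ι → ℂ) → ℂ}

open El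

namespace Qd

/-- value of the head scale -/
def hd (T : Tw ι) (x : ι → ℂ) : List (ι ⊕ ℕ) → ℝ
  | [] => 1
  | a :: _ => (T.s a x).re

/-- a disc of polynomial size in the direction `T.dir` stays in the domain -/
def Dsc (T : Tw ι) (U : Ultrafilter α) (p : α → ι → ℂ) (l : List (ι ⊕ ℕ)) : Prop :=
  ∃ (ρ : α → ℝ) (C : ℝ) (N : ℕ), 0 ≤ C ∧ ∀ᶠ i in U, 0 < ρ i ∧ ρ i ≤ 1 ∧
    (ρ i)⁻¹ ≤ C * hd T (p i) l ^ N ∧ ∀ t : ℂ, ‖t‖ < ρ i → p i + t • T.dir ∈ T.D l ∧
      ∀ b ∈ l, ‖T.s b (p i + t • T.dir) - T.s b (p i)‖ ≤ 1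

theorem norm_lin_le {f : ι ⊕ ℕ → ℂ} (δ : ι ⊕ ℕ → ℝ) {M : ℝ} (h : ∀ b ∈ l, ‖f b‖ ≤ M) :
    ‖∑ b ∈ l.toFinset, (δ b : ℂ) * f b‖ ≤ (∑ b ∈ l.toFinset, |δ b|) * M := by
  rw [Finset.sum_mul]
  refine norm_sum_le_of_le _ fun b hb => ?_
  rw [norm_mul, Complex.norm_real, Real.norm_eq_abs]
  exact mul_le_mul_of_nonneg_left (h b (List.mem_toFinset.1 hb)) (abs_nonneg _)

theorem lin_sub_le (δ : ι ⊕ ℕ → ℝ) (h : ∀ b ∈ l, ‖T.s b y - T.s b x‖ ≤ 1) :
    ‖T.lin l δ y - T.lin l δ x‖ ≤ ∑ b ∈ l.toFinset, |δ b| := by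
  simpa only [Tw.lin, ← Finset.sum_sub_distrib, ← mul_sub, mul_one] using norm_lin_le δ h

theorem ev_val (h : T.WF) (hp : T.Pt U p) (hl : a :: l <:+ T.top) : ∀ᶠ i in U,
    1 ≤ (T.s a (p i)).re ∧ hd T (p i) l ≤ (T.s a (p i)).re ∧ 0 ≤ hd T (p i) l ∧
      ∀ b ∈ a :: l, ‖T.s b (p i)‖ ≤ (T.s a (p i)).re := by
  filter_upwards [(hp.big a (hl.subset List.mem_cons_self)).eventually_ge_atTop 1,
    hp.ev_Sd 1 hl, T5_mem h hp hl] with i h1 h2 h3
  have h0 : ∀ b ∈ a :: l, 0 ≤ (T.s b (p i)).re := fun b hb => by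
    linarith [(s_om h3 hb).1, h.R1]
  have h4 : ∀ b ∈ l, (T.s b (p i)).re ≤ (T.s a (p i)).re := fun b hb => by
    simpa using (List.rel_of_pairwise_cons h2 hb).le
  refine ⟨h1, ?_, ?_, fun b hb => ?_⟩
  · cases l with
    | nil => exact h1
    | cons b l => exact h4 b List.mem_cons_self
  · cases l with
    | nil => exact zero_le_one
    | cons b l => exact h0 b (by simp)
  · rw [← Complex.abs_re_eq_norm.2 (T6_real h hl b hb _ h3 (hp.re i)), abs_of_nonneg (h0 b hb)]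
    rcases List.mem_cons.1 hb with rfl | hb
    · exact le_rfl
    · exact h4 b hb

theorem dir_one {k : ι} (hk : Sum.inl k ∈ T.top) : T.dir k = 1 := by simp [Tw.dir, hk]

theorem dir_zero (h : T.WF) {k : ι} (hk : k ∈ T.Fv) : T.dir k = 0 := by simp [Tw.dir, h.dj k hk]

theorem move (h : T.WF) (hl : a :: l <:+ T.top) : ∃ K : ℝ, 1 ≤ K ∧ ∀ (x : ι → ℂ) (t : ℂ) (M : ℝ),
    1 ≤ M → ‖t‖ ≤ 1 → x ∈ T.D l → x + t • T.dir ∈ T.D l → (∀ b ∈ a :: l, ‖T.s b x‖ ≤ M) →
    (∀ b ∈ l, ‖T.s b (x + t • T.dir) - T.s b x‖ ≤ 1) →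
    ‖T.s a (x + t • T.dir) - T.s a x‖ ≤ K * M := by
  rcases a with k | j
  · refine ⟨1, le_rfl, fun x t M h1 h2 _ _ _ _ => ?_⟩
    simp only [h.sN, Pi.add_apply, Pi.smul_apply, dir_one (hl.subset List.mem_cons_self)]
    simpa using h2.trans h1
  obtain ⟨rfl, hj⟩ := suffix_inr hl
  obtain ⟨B, hB⟩ := A1_bd (T1_ok h (lv_top T hj.le)) le_rfl (h.uA j hj)
  obtain ⟨S, hS⟩ : ∃ S, S = ∑ b ∈ (T.lv j).toFinset, |T.c j b| := ⟨_, rfl⟩
  obtain ⟨K, hK⟩ : ∃ K, K = Real.exp (∑ b ∈ (T.lv j).toFinset, |T.ρ j b| + 2 * B) := ⟨_, rfl⟩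
  have S0 : 0 ≤ S := hS ▸ Finset.sum_nonneg fun _ _ => abs_nonneg _
  have K0 : 0 < K := hK ▸ Real.exp_pos _
  refine ⟨(K + 1) * (1 + S) + S, by nlinarith, fun x t M h1 _ hx hy h4 h5 => ?_⟩
  generalize x + t • T.dir = y at *
  have a1 := hS ▸ lin_sub_le (T.c j) h5
  have a2 : ‖T.lin (T.lv j) (T.c j) x‖ ≤ S * M :=
    hS ▸ norm_lin_le (T.c j) fun b hb => h4 b (List.mem_cons_of_mem _ hb)
  have a3 : ‖Complex.exp (T.E j x)‖ ≤ (1 + S) * M := by
    rw [← sub_add_cancel (Complex.exp _) (T.lin (T.lv j) (T.c j) x), ← h.sL j hj x hx]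
    linarith [norm_add_le (T.s (.inr j) x) (T.lin (T.lv j) (T.c j) x), h4 _ List.mem_cons_self]
  have a4 : ‖Complex.exp (T.E j y)‖ ≤ K * ‖Complex.exp (T.E j x)‖ := by
    rw [Complex.norm_exp, Complex.norm_exp, hK, ← Real.exp_add, Real.exp_le_exp]
    have b1 := (Complex.re_le_norm _).trans (lin_sub_le (T.ρ j) h5)
    have b2 := (Complex.re_le_norm _).trans (hB y hy)
    have b3 := (Complex.re_le_norm (-T.u j x)).trans (norm_neg (T.u j x) ▸ hB x hx)
    simp only [Tw.E, Complex.add_re, Complex.sub_re, Complex.neg_re] at b1 b3 ⊢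
    linarith
  have e : T.s (.inr j) y - T.s (.inr j) x = Complex.exp (T.E j y) - Complex.exp (T.E j x) -
      (T.lin (T.lv j) (T.c j) y - T.lin (T.lv j) (T.c j) x) := by
    rw [h.sL j hj x hx, h.sL j hj y hy]; ring
  rw [e]
  have a5 := norm_sub_le (Complex.exp (T.E j y)) (Complex.exp (T.E j x))
  have a6 := mul_le_mul_of_nonneg_left a3 K0.le
  refine (norm_sub_le _ _).trans ?_
  nlinarith

theorem dif_line {S : Set (ι → ℂ)} (hg : DifferentiableOn ℂ g S) {r : ℝ} {v : ι → ℂ}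
    (hm : ∀ t : ℂ, ‖t‖ < r → x + t • v ∈ S) :
    DifferentiableOn ℂ (fun t : ℂ => g (x + t • v)) (ball 0 r) :=
  hg.comp (by fun_prop) fun t ht => hm t (mem_ball_zero_iff.1 ht)

theorem dsc (h : T.WF) (hp : T.Pt U p) (hl : l <:+ T.top) : Dsc T U p l := by
  induction l with
  | nil =>
    refine ⟨fun _ => 1, 1, 0, zero_le_one, (T5_mem h hp hl).mono fun i hi =>
      ⟨one_pos, le_rfl, by simp, fun t _ => ⟨fun k hk => ?_, by simp⟩⟩⟩
    simpa [dir_zero h hk] using hi k hk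
  | cons a l ih =>
    obtain ⟨ρ, C, N, C0, H⟩ := ih (suffix_tail hl)
    obtain ⟨K, K1, hK⟩ := move h hl
    refine ⟨fun i => ρ i / (K * (T.s a (p i)).re), K * C, N + 1, by positivity, ?_⟩
    filter_upwards [H, ev_val h hp hl, T5_mem h hp hl, hp.ev_Sd T.R hl,
      (hp.big a (hl.subset List.mem_cons_self)).eventually (ev_Om (2 * T.R + 1))]
      with i ⟨r0, r1, r2, r3⟩ ⟨v1, v2, v3, v4⟩ hm hs ho
    have hre : ((T.s a (p i)).re : ℂ) = T.s a (p i) :=
      Complex.ext rfl (T6_real h hl a List.mem_cons_self _ hm (hp.re i)).symm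
    rw [hre] at ho
    simp only [hd]
    generalize (T.s a (p i)).re = M at *
    have M1 : 1 ≤ K * M := by nlinarith
    have r4 : ρ i / (K * M) ≤ ρ i := div_le_self r0.le M1
    have b1 : ∀ t : ℂ, ‖t‖ < ρ i / (K * M) → ‖T.s a (p i + t • T.dir) - T.s a (p i)‖ ≤ 1 := by
      intro t ht
      have := Complex.dist_le_div_mul_dist_of_mapsTo_ball (R₂ := K * M)
        (dif_line (dif_s h hl) fun t ht => (r3 t ht).1) (fun t ht => by
          have ht := mem_ball_zero_iff.1 ht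
          simpa [dist_eq_norm] using hK _ t M v1 (ht.le.trans r1) (D_cons hm).1 (r3 t ht).1 v4
            (r3 t ht).2) (mem_ball_zero_iff.2 (ht.trans_le r4))
      simp only [dist_eq_norm, zero_smul, add_zero, sub_zero] at this
      refine this.trans ?_
      rw [lt_div_iff₀ (by positivity)] at ht
      rw [div_mul_eq_mul_div, div_le_one r0]
      linarith
    refine ⟨by positivity, r4.trans r1, ?_, fun t ht => ⟨?_, fun b hb => ?_⟩⟩
    · rw [inv_div, div_eq_mul_inv]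
      have := r2.trans (mul_le_mul_of_nonneg_left (pow_le_pow_left₀ v3 v2 N) C0)
      refine (mul_le_mul_of_nonneg_left this (by positivity)).trans (le_of_eq (by ring))
    · have hS : IsPreconnected ((fun t : ℂ => p i + t • T.dir) '' ball 0 (ρ i / (K * M))) :=
        (convex_ball _ _).isPreconnected.image _ (by fun_prop)
      refine maps_step (Φ := id) (G := {p i}) h hl continuousOn_id (fun z hz => ?_)
        (fun z hz => ?_) (fun z hz _ => by rw [hz]; exact ⟨hp.re i, hs⟩)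
        ⟨p i, rfl, hS.subset_connectedComponentIn ⟨0, mem_ball_self (by positivity), by simp⟩
          Subset.rfl ⟨t, mem_ball_zero_iff.2 ht, rfl⟩⟩
      · obtain ⟨s, hs, rfl⟩ := RC_sub hz
        exact (r3 s ((mem_ball_zero_iff.1 hs).trans_le r4)).1
      · obtain ⟨s, hs, rfl⟩ := RC_sub hz
        simpa using Unt.Om_add h.R1 zero_le_one le_rfl ho (b1 s (mem_ball_zero_iff.1 hs))
    · rcases List.mem_cons.1 hb with rfl | hb
      · exact b1 t ht
      · exact (r3 t (ht.trans_le r4)).2 b hb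

theorem hasDerivAt_line (hg : DifferentiableAt ℂ g x) (v : ι → ℂ) :
    HasDerivAt (fun t : ℂ => g (x + t • v)) (fderiv ℂ g x v) 0 := by
  have h1 : HasDerivAt (fun t : ℂ => x + t • v) v 0 := by
    simpa using ((hasDerivAt_id (0 : ℂ)).smul_const v).const_add x
  exact HasFDerivAt.comp_hasDerivAt_of_eq 0 hg.hasFDerivAt h1 (by simp)

theorem cauchy {S : Set (ι → ℂ)} (hS : IsOpen S) (hg : DifferentiableOn ℂ g S) {r M : ℝ}
    (hr : 0 < r) {v : ι → ℂ} (hm : ∀ t : ℂ, ‖t‖ < r → x + t • v ∈ S ∧ ‖g (x + t • v) - g x‖ ≤ M) :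
    ‖fderiv ℂ g x v‖ ≤ M * r⁻¹ := by
  have hx : x ∈ S := by simpa using (hm 0 (by simpa using hr)).1
  rw [← (hasDerivAt_line (hg.differentiableAt (hS.mem_nhds hx)) v).deriv]
  exact Complex.norm_deriv_le_div_of_mapsTo_ball (dif_line hg fun t ht => (hm t ht).1)
    (fun t ht => by simpa [dist_eq_norm] using (hm t (mem_ball_zero_iff.1 ht)).2) hr

theorem der_zero (h : T.WF) (hp : T.Pt U p) (hl : l <:+ T.top) (hg : T.fr.A l g) :
    Tendsto (fun i => fderiv ℂ g (p i) T.dir) U (𝓝 0) := by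
  induction l generalizing g with
  | nil =>
    obtain ⟨ρ, C, N, C0, H⟩ := dsc h hp hl
    refine tendsto_const_nhds.congr' ?_
    filter_upwards [H, T5_mem h hp hl] with i ⟨r0, _, _, r3⟩ hm
    have := cauchy (T1_ok h hl).isOpen (A1_diff hg) r0 (M := 0) fun t ht => ⟨(r3 t ht).1, by
      have e : upd T.Fvᶜ 0 (p i + t • T.dir) = upd T.Fvᶜ 0 (p i) := funext fun k => by
        by_cases hk : k ∈ T.Fv <;> simp [upd, hk, dir_zero h]
      have q := fun {y} (hy : y ∈ T.D []) => upd_liou h hl (W := T.Fvᶜ)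
        (fun k hk => ⟨List.not_mem_nil, Finset.mem_compl.1 hk⟩) hg 0 hy
      rw [← q (r3 t ht).1, e, q hm, sub_self, norm_zero]⟩
    exact (norm_le_zero_iff.1 (by simpa using this)).symm
  | cons a l ih =>
    obtain ⟨ρ, C, N, C0, H⟩ := dsc h hp hl
    have ok := T1_ok h hl
    obtain ⟨c, g1, γ, γ0, h1, h2, h3⟩ := hg.proj ok
    obtain ⟨B, B0, hB⟩ := (A1_bd ok le_rfl h2).pos
    have d1 : DifferentiableOn ℂ (fun x => T.fr.ex a γ x • g1 x) (T.D (a :: l)) :=
      (ok.diff_ex γ).smul (A1_diff h2)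
    have t1 : Tendsto (fun i => fderiv ℂ (fun x => T.fr.ex a γ x • g1 x) (p i) T.dir) U (𝓝 0) := by
      have t2 := ((tendsto_rpow_mul_exp_neg_mul_atTop_nhds_zero N γ γ0).comp
        (hp.big a (hl.subset List.mem_cons_self))).const_mul (2 * B * Real.exp γ * C)
      rw [mul_zero] at t2
      refine squeeze_zero_norm' ?_ t2
      filter_upwards [H, T5_mem h hp hl] with i ⟨r0, _, r2, r3⟩ hm
      have b : ∀ y ∈ T.D (a :: l), ‖T.s a y - T.s a (p i)‖ ≤ 1 → ‖T.fr.ex a γ y • g1 y‖ ≤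
          B * Real.exp γ * Real.exp (-γ * (T.s a (p i)).re) := fun y hy hs => by
        rw [norm_smul, Fr.norm_ex, mul_comm, mul_assoc, ← Real.exp_add]
        refine mul_le_mul (hB y hy) (Real.exp_le_exp.2 ?_) (Real.exp_pos _).le B0.le
        have := (Complex.re_le_norm _).trans ((norm_sub_rev _ _).trans_le hs)
        rw [Complex.sub_re] at this
        change -(γ * (T.s a y).re) ≤ _
        nlinarith
      refine (cauchy ok.isOpen d1 r0 (M := 2 * (B * Real.exp γ * Real.exp (-γ * (T.s a (p i)).re)))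
        fun t ht => ⟨(r3 t ht).1, (norm_sub_le _ _).trans ?_⟩).trans ?_
      · linarith [b _ (r3 t ht).1 ((r3 t ht).2 a List.mem_cons_self), b _ hm (by simp)]
      · refine (mul_le_mul_of_nonneg_left r2 (by positivity)).trans (le_of_eq ?_)
        simp only [hd, Function.comp, Real.rpow_natCast]
        ring
    have := (ih (suffix_tail hl) h1).add t1
    rw [add_zero] at this
    refine this.congr' ?_
    filter_upwards [T5_mem h hp hl] with i hm
    have n := ok.isOpen.mem_nhds hm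
    rw [funext h3, fderiv_fun_add (((A1_diff h1).mono ok.sub).differentiableAt n)
      (d1.differentiableAt n)]
    rfl

theorem der_up (h : T.WF) (hp : T.Pt U p) (ha : a ∈ T.top) : ∃ (C : ℝ) (N : ℕ),
    ∀ᶠ i in U, ‖fderiv ℂ (T.s a) (p i) T.dir‖ ≤ C * (T.s a (p i)).re ^ N := by
  obtain ⟨l, hl⟩ := exists_suffix ha
  obtain ⟨ρ, C, N, -, H⟩ := dsc h hp hl
  refine ⟨C, N, H.mono fun i ⟨r0, _, r2, r3⟩ => ?_⟩
  exact (cauchy (T1_ok h hl).isOpen (T1_ok h hl).diff r0 (M := 1) fun t ht =>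
    ⟨(r3 t ht).1, (r3 t ht).2 a List.mem_cons_self⟩).trans (by simpa [hd] using r2)

/-- real part of the derivative of a scale -/
def dv (T : Tw ι) (x : ι → ℂ) (a : ι ⊕ ℕ) : ℝ := (fderiv ℂ (T.s a) x T.dir).re

/-- real part of the derivative of the monomial part of a tie -/
def Xv (T : Tw ι) (x : ι → ℂ) (j : ℕ) : ℝ := ∑ b ∈ (T.lv j).toFinset, T.ρ j b * dv T x b

theorem dv_inl (h : T.WF) {k : ι} (hk : Sum.inl k ∈ T.top) (x : ι → ℂ) : dv T x (.inl k) = 1 := by
  rw [dv, funext (h.sN k), (hasFDerivAt_apply (𝕜 := ℂ) k x).fderiv]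
  simp [dir_one hk]

theorem dv_inr (h : T.WF) (hj : j < T.p) (hx : x ∈ T.D (T.lv j)) (hr : x ∈ Rp ι) :
    dv T x (.inr j) = ((T.s (.inr j) x).re + (T.lin (T.lv j) (T.c j) x).re) *
      (Xv T x j + (fderiv ℂ (T.u j) x T.dir).re) - ∑ b ∈ (T.lv j).toFinset, T.c j b * dv T x b := by
  have ok := T1_ok h (lv_top T hj.le)
  have n := ok.isOpen.mem_nhds hx
  have d : ∀ γ : ι ⊕ ℕ → ℝ, HasFDerivAt (T.lin (T.lv j) γ)
      (∑ b ∈ (T.lv j).toFinset, (γ b : ℂ) • fderiv ℂ (T.s b) x) x := fun γ =>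
    HasFDerivAt.fun_sum fun b hb =>
      ((dif_mem ok (List.mem_toFinset.1 hb)).differentiableAt n).hasFDerivAt.const_mul _
  have d2 := ((((d (T.ρ j)).add ((A1_diff (h.uA j hj)).differentiableAt n).hasFDerivAt).cexp.sub
    (d (T.c j))).congr_of_eventuallyEq (mem_of_superset n (h.sL j hj))).fderiv
  have e : (T.s (.inr j) x).re + (T.lin (T.lv j) (T.c j) x).re = (Complex.exp (T.E j x)).re := by
    rw [h.sL j hj x hx]; simp
  have e2 : (Complex.exp (T.E j x)).im = 0 := by rw [Complex.exp_im, rr_E h hj x hx hr]; simp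
  rw [dv, d2, e]
  change (Complex.exp (T.E j x) * _ - _ : ℂ).re = _
  simp [e2, Xv, dv, Complex.re_sum]

theorem low (h : T.WF) (hp : T.Pt U p) (hl : l <:+ T.top) : ∀ᶠ i in U, ∀ a ∈ l,
    1 ≤ dv T (p i) a ∧ ∀ j, a = .inr j → dv T (p i) a ≤ 4 * (T.s a (p i)).re * Xv T (p i) j := by
  induction l with
  | nil => exact .of_forall fun _ _ h => absurd h List.not_mem_nil
  | cons a l ih =>
    have ih := ih (suffix_tail hl)
    have ha := hl.subset List.mem_cons_self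
    simp only [List.forall_mem_cons]
    refine Eventually.and ?_ ih
    rcases a with k | j
    · exact .of_forall fun i => ⟨(dv_inl h ha _).ge, fun _ e => by cases e⟩
    obtain ⟨rfl, hj⟩ := suffix_inr hl
    obtain ⟨b0, b1, b2⟩ := h.ρp j hj
    obtain ⟨S, hS⟩ : ∃ S, S = ∑ b ∈ (T.lv j).toFinset, T.c j b := ⟨_, rfl⟩
    have S0 : 0 ≤ S := hS ▸ Finset.sum_nonneg fun _ _ => h.c0 _ _
    have u0 := (Complex.continuous_re.tendsto' 0 0 rfl).comp
      (der_zero h hp (suffix_tail hl) (h.uA j hj))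
    filter_upwards [ih, T5_mem h hp hl, hp.ev_Sd (16 * (S + 1)) hl,
      u0.eventually (Icc_mem_nhds (neg_lt_zero.2 (half_pos b2)) (half_pos b2)),
      (hp.big _ ha).eventually_ge_atTop (4 * (S + 1) / T.ρ j b0)] with i ih hm hs hu hb
    have hx := (D_cons hm).1
    have v0 : ∀ b ∈ T.lv j, 0 ≤ (T.s b (p i)).re := fun b hb => by
      linarith [(s_om hx hb).1, h.R1]
    have v1 : ∀ b ∈ T.lv j, 16 * (S + 1) * (T.s b (p i)).re ≤ (T.s (.inr j) (p i)).re :=
      fun b hb => (List.rel_of_pairwise_cons hs hb).le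
    have d0 : ∀ b ∈ (T.lv j).toFinset, 0 ≤ dv T (p i) b := fun b hb =>
      zero_le_one.trans (ih b (List.mem_toFinset.1 hb)).1
    have X0 : T.ρ j b0 ≤ Xv T (p i) j := (le_mul_of_one_le_right b2.le (ih b0 b1).1).trans
      (Finset.single_le_sum (fun b hb => mul_nonneg (h.ρ0 j b) (d0 b hb)) (List.mem_toFinset.2 b1))
    rw [div_le_iff₀ b2] at hb
    have l0 := re_lin (zero_le_one.trans h.R1) (h.c0 j) hx
    have e := dv_inr h hj hx (hp.re i)
    generalize (T.s (.inr j) (p i)).re = M at *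
    have M0 : 0 < M := by nlinarith
    have MX : 4 * (S + 1) ≤ M * Xv T (p i) j := hb.trans (mul_le_mul_of_nonneg_left X0 M0.le)
    have l1 : (T.lin (T.lv j) (T.c j) (p i)).re ≤ S * (M / (S + 1)) := by
      simp only [Tw.lin, Complex.re_sum, Complex.re_ofReal_mul, hS, Finset.sum_mul]
      refine Finset.sum_le_sum fun b hb => mul_le_mul_of_nonneg_left ?_ (h.c0 _ _)
      rw [← hS, le_div_iff₀ (by positivity)]
      nlinarith [v0 b (List.mem_toFinset.1 hb), v1 b (List.mem_toFinset.1 hb)]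
    have l2 : S * (M / (S + 1)) ≤ M := by
      rw [← mul_div_assoc, div_le_iff₀ (by positivity)]; nlinarith
    have c0 : 0 ≤ ∑ b ∈ (T.lv j).toFinset, T.c j b * dv T (p i) b :=
      Finset.sum_nonneg fun b hb => mul_nonneg (h.c0 _ _) (d0 b hb)
    have c1 : ∑ b ∈ (T.lv j).toFinset, T.c j b * dv T (p i) b ≤
        S * (M * Xv T (p i) j / (4 * (S + 1))) := by
      rw [hS, Finset.sum_mul, ← hS]
      refine Finset.sum_le_sum fun b hb => mul_le_mul_of_nonneg_left ?_ (h.c0 _ _)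
      have hb := List.mem_toFinset.1 hb
      rw [le_div_iff₀ (by positivity)]
      rcases b with k | m
      · rw [dv_inl h ((suffix_tail hl).subset hb), one_mul]; exact MX
      have hm := inr_mem.1 hb
      have x1 : Xv T (p i) m ≤ Xv T (p i) j := by
        have sb : (T.lv m).toFinset ⊆ (T.lv j).toFinset := fun c hc =>
          List.mem_toFinset.2 ((lv_suffix T hm.le).subset (List.mem_toFinset.1 hc))
        exact (Finset.sum_le_sum fun c hc => mul_le_mul_of_nonneg_right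
          ((h.ρm m j hm hj).1 c) (d0 c (sb hc))).trans (Finset.sum_le_sum_of_subset_of_nonneg sb
            fun c hc _ => mul_nonneg (h.ρ0 j c) (d0 c hc))
      have x2 := ((ih _ hb).2 m rfl).trans (mul_le_mul_of_nonneg_left x1
        (mul_nonneg (by norm_num) (v0 _ hb)))
      have x3 := mul_le_mul_of_nonneg_right (v1 _ hb) (b2.le.trans X0)
      nlinarith
    have c2 : S * (M * Xv T (p i) j / (4 * (S + 1))) ≤ M * Xv T (p i) j / 4 := by
      rw [← mul_div_assoc, div_le_div_iff₀ (by positivity) (by norm_num)]; nlinarith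
    simp only [Function.comp] at hu
    generalize (T.lin (T.lv j) (T.c j) (p i)).re = L at *
    generalize (fderiv ℂ (T.u j) (p i) T.dir).re = w at *
    refine ⟨?_, fun m e' => ?_⟩
    · nlinarith [mul_le_mul (le_add_of_nonneg_right l0 : M ≤ M + L)
        (show Xv T (p i) j / 2 ≤ Xv T (p i) j + w by linarith [hu.1]) (by linarith) (by linarith)]
    · cases e'
      nlinarith [mul_le_mul (show M + L ≤ 2 * M by linarith)
        (show Xv T (p i) j + w ≤ 2 * Xv T (p i) j by linarith [hu.2]) (by linarith [hu.1])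
        (by linarith)]

end Qd

theorem Q2_der (h : T.WF) (hp : T.Pt U p) (hg : T.fr.A T.top g) :
    Tendsto (fun i => fderiv ℂ g (p i) T.dir) U (𝓝 0) := Qd.der_zero h hp List.suffix_rfl hg

theorem Q3_ders (h : T.WF) (hp : T.Pt U p) {a : ι ⊕ ℕ} (ha : a ∈ T.top) : ∃ (C : ℝ) (N : ℕ),
    ∀ᶠ i in U, 1 ≤ (fderiv ℂ (T.s a) (p i) T.dir).re ∧
      ‖fderiv ℂ (T.s a) (p i) T.dir‖ ≤ C * (T.s a (p i)).re ^ N := by
  obtain ⟨C, N, H⟩ := Qd.der_up h hp ha
  exact ⟨C, N, ((Qd.low h hp List.suffix_rfl).mono fun i hi => (hi a ha).1).and H⟩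

end Crest.Agent.N207.O
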