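import Crest.Agent.N207.O.Lf1
import Crest.Agent.N207.O.Cl1
import Crest.Agent.N207.O.En2
import Crest.Agent.N207.O.Qd

/-!
# Row 207, block O (helper63): derivatives of small monomials and of large logarithms
-/

set_option autoImplicit false
set_option linter.unusedSectionVars false

open Set Filter Topology Metric Asymptotics

noncomputable section

namespace Crest.Agent.N207.O

variable {ι : Type} [Fintype ι] [DecidableEq ι] {α : Type} {U : Ultrafilter α} {T : Tw ι}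
  {p : α → ι → ℂ} {g : (ι → ℂ) → ℂ}

theorem Tw.WF.dAt_s (h : T.WF) {a : ι ⊕ ℕ} (ha : a ∈ T.top) {x : ι → ℂ} (hx : x ∈ T.D T.top) :
    DifferentiableAt ℂ (T.s a) x :=
  ((T1_ok h List.suffix_rfl).diff_mem ha).differentiableAt
    ((h.isOpen_D List.suffix_rfl).mem_nhds hx)

theorem Tw.WF.dAt_A (h : T.WF) (hg : T.fr.A T.top g) {x : ι → ℂ} (hx : x ∈ T.D T.top) :
    DifferentiableAt ℂ g x :=
  (A1_diff hg).differentiableAt ((h.isOpen_D List.suffix_rfl).mem_nhds hx)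

theorem Tw.WF.fd_lin (h : T.WF) (γ : ι ⊕ ℕ → ℝ) {x : ι → ℂ} (hx : x ∈ T.D T.top) :
    HasFDerivAt (T.lin T.top γ) (∑ a ∈ T.top.toFinset, (γ a : ℂ) • fderiv ℂ (T.s a) x) x :=
  HasFDerivAt.fun_sum fun a ha =>
    (h.dAt_s (List.mem_toFinset.1 ha) hx).hasFDerivAt.const_mul (γ a : ℂ)

theorem upd_empty4 (w : ι → ℝ) (x : ι → ℂ) : upd ∅ w x = x := by
  funext k; simp [upd]

/-- logarithmic derivative of a small monomial times a unit -/
theorem O4_low (h : T.WF) (hp : T.Pt U p) (hm : T.MU U p T.top ∅ g)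
    (h0 : Tendsto (fun i => g (p i)) U (𝓝 0)) : ∃ (T' : Tw ι) (p' : α → ι → ℂ)
      (Φ : (ι → ℂ) → ι → ℂ) (c : ℝ), T.Lift T' U 0 ∅ p p' Φ ∧ 0 < c ∧
      ∀ᶠ i in U, c * ‖g (p i)‖ ≤ ‖fderiv ℂ (g ∘ Φ) (p' i) T'.dir‖ := by
  obtain ⟨γ, u, hu, -, ⟨w, c, -, hc, hl⟩, he⟩ := hm
  simp only [upd_empty4] at hl
  have hD := T5_mem h hp List.suffix_rfl
  have hγ : Tendsto (fun i => (T.lin T.top γ (p i)).re) U atTop := by
    have key : ¬ ∀ᶠ i in U, (T.lin T.top γ (p i)).re ≤ 0 := fun H => by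
      refine hc (tendsto_nhds_unique hl (squeeze_zero_norm' ?_ (tendsto_zero_iff_norm_tendsto_zero.1 h0)))
      filter_upwards [H, hD] with i h1 h2
      rw [he _ h2, norm_mul, Complex.norm_exp]
      exact le_mul_of_one_le_left (norm_nonneg _) (Real.one_le_exp (by simpa using h1))
    rcases L2_tri hp List.suffix_rfl γ with H | H | H
    · exact (key (Eventually.of_forall fun i => by rw [Tw.lin_zero H]; simp)).elim
    · exact H
    · exact (key (H.eventually_le_atBot 0)).elim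
  obtain ⟨T', p', Φ, γ', hL, hS, -, g0, ⟨a, ha, ga⟩, hlin, -⟩ :=
    E1_norm (W := ∅) h hp List.suffix_rfl (by simp) hγ
  have ht : T'.top = T.top := Tw.top_congr hS.B hL.pp
  have pb := hL.top (Nat.zero_le _)
  rw [← ht] at ha hlin
  have hu' : T'.fr.A T'.top (u ∘ Φ) := pb.cl u hu
  have hlow : ∀ᶠ i in U, ∀ b ∈ T'.top.toFinset, 1 ≤ (fderiv ℂ (T'.s b) (p' i) T'.dir).re :=
    (eventually_all_finset _).2 fun b hb => by
      obtain ⟨C, N, H⟩ := Q3_ders hL.wf hL.pt (List.mem_toFinset.1 hb)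
      exact H.mono fun i hi => hi.1
  have hc0 : 0 < ‖c‖ := norm_pos_iff.2 hc
  have h1 : ∀ᶠ i in U, ‖c‖ / 2 ≤ ‖u (p i)‖ := hl.norm.eventually_const_le (by linarith)
  have h2 : ∀ᶠ i in U, ‖fderiv ℂ (u ∘ Φ) (p' i) T'.dir‖ ≤ γ' a / 2 * (‖c‖ / 2) :=
    (Q2_der hL.wf hL.pt hu').norm.eventually_le_const (by simp only [norm_zero]; positivity)
  refine ⟨T', p', Φ, γ' a / 2, hL, half_pos ga, ?_⟩
  filter_upwards [hlow, h1, h2, hL.hp, T5_mem hL.wf hL.pt List.suffix_rfl] with i k1 k2 k3 k4 k5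
  have e : ∀ x ∈ T'.D T'.top, (g ∘ Φ) x = Complex.exp (-T'.lin T'.top γ' x) * (u ∘ Φ) x :=
    fun x hx => by rw [Function.comp, he _ (pb.maps hx), ← hlin x hx, ht]; rfl
  have e' : g ∘ Φ =ᶠ[𝓝 (p' i)] fun x => Complex.exp (-T'.lin T'.top γ' x) * (u ∘ Φ) x :=
    eventually_of_mem ((hL.wf.isOpen_D List.suffix_rfl).mem_nhds k5) e
  have d := (((hL.wf.fd_lin γ' k5).neg.cexp).mul (hL.wf.dAt_A hu' k5).hasFDerivAt)
  set m : ℂ := ∑ b ∈ T'.top.toFinset, (γ' b : ℂ) * fderiv ℂ (T'.s b) (p' i) T'.dir with hm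
  have hv : fderiv ℂ (g ∘ Φ) (p' i) T'.dir = Complex.exp (-T'.lin T'.top γ' (p' i)) *
      (fderiv ℂ (u ∘ Φ) (p' i) T'.dir - u (p i) * m) := by
    rw [e'.fderiv_eq]
    erw [d.fderiv]
    simp [k4, hm]
    ring
  have hm1 : γ' a ≤ ‖m‖ := by
    refine le_trans ?_ (Complex.re_le_norm m)
    rw [hm, Complex.re_sum]
    refine le_trans ?_ (Finset.single_le_sum (f := fun b => ((γ' b : ℂ) *
      fderiv ℂ (T'.s b) (p' i) T'.dir).re) (fun b hb => ?_) (List.mem_toFinset.2 ha))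
    · simpa using le_mul_of_one_le_right ga.le (k1 a (List.mem_toFinset.2 ha))
    · simpa using mul_nonneg (g0 b) (zero_le_one.trans (k1 b hb))
  have e1 := e _ k5
  simp only [Function.comp, k4] at e1
  rw [hv, e1, norm_mul, norm_mul, mul_left_comm]
  refine mul_le_mul_of_nonneg_left ?_ (norm_nonneg _)
  have h3 := norm_sub_norm_le (u (p i) * m) (fderiv ℂ (u ∘ Φ) (p' i) T'.dir)
  rw [norm_sub_rev, norm_mul] at h3
  nlinarith [mul_le_mul_of_nonneg_left hm1 (norm_nonneg (u (p i)))]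

/-- derivative of a large logarithmic quantity -/
theorem O4_up (h : T.WF) (hp : T.Pt U p) {γ : ι ⊕ ℕ → ℝ} {b Λ : (ι → ℂ) → ℂ}
    (hb : T.fr.A T.top b) (he : ∀ x ∈ T.D T.top, Λ x = T.lin T.top γ x + b x) {L : α → ℝ}
    (hL : Tendsto L U atTop) (hv : ∀ᶠ i in U, Λ (p i) = L i) {a η : ℝ} (ha : 0 < a) (hη : 0 < η) :
    ∀ᶠ i in U, ‖fderiv ℂ Λ (p i) T.dir‖ ≤ η * Real.exp (a * L i) := by
  have hD := T5_mem h hp List.suffix_rfl
  obtain ⟨B, hB⟩ := A1_bd (T1_ok h List.suffix_rfl) le_rfl hb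
  have hre : ∀ᶠ i in U, |(T.lin T.top γ (p i)).re - L i| ≤ B := by
    filter_upwards [hD, hv] with i h1 h2
    have := congrArg Complex.re (h2.symm.trans (he _ h1))
    simp only [Complex.ofReal_re, Complex.add_re] at this
    rw [this, sub_add_cancel_left, abs_neg]
    exact (Complex.abs_re_le_norm _).trans (hB _ h1)
  have hγ : Tendsto (fun i => (T.lin T.top γ (p i)).re) U atTop :=
    tendsto_atTop_mono' _ (hre.mono fun i hi => by linarith [(abs_le.1 hi).1])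
      (tendsto_atTop_add_const_right _ (-B) hL)
  have hO : (fun i => (T.lin T.top γ (p i)).re) =O[U] L := by
    refine IsBigO.of_bound 2 ?_
    filter_upwards [hre, hL.eventually_ge_atTop B, hL.eventually_ge_atTop 0] with i h1 h2 h3
    rw [Real.norm_eq_abs, Real.norm_of_nonneg h3, abs_le]
    constructor <;> linarith [(abs_le.1 h1).1, (abs_le.1 h1).2]
  have hpw : ∀ N : ℕ, (fun i => L i ^ N) =o[U] fun i => Real.exp (a * L i) := fun N =>
    (isLittleO_pow_exp_pos_mul_atTop N ha).comp_tendsto hL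
  have h1 : ∀ c ∈ T.top.toFinset, (fun i => (γ c : ℂ) * fderiv ℂ (T.s c) (p i) T.dir) =o[U]
      fun i => Real.exp (a * L i) := fun c hc => by
    by_cases h0 : γ c = 0
    · simp [h0]
    have hc := List.mem_toFinset.1 hc
    obtain ⟨C, N, H⟩ := Q3_ders h hp hc
    obtain ⟨C', H'⟩ := L3_top hp List.suffix_rfl hγ hc h0
    have k1 : (fun i => (T.s c (p i)).re) =O[U] fun i => (T.lin T.top γ (p i)).re := by
      refine IsBigO.of_bound |C'| ?_
      filter_upwards [H', (hp.big c hc).eventually_ge_atTop 0] with i h1 h2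
      rw [Real.norm_of_nonneg h2, Real.norm_eq_abs, ← abs_mul]
      exact h1.trans (le_abs_self _)
    have k2 : (fun i => fderiv ℂ (T.s c) (p i) T.dir) =O[U] fun i => (T.s c (p i)).re ^ N := by
      refine IsBigO.of_bound |C| (H.mono fun i hi => hi.2.trans ?_)
      rw [Real.norm_eq_abs, ← abs_mul]
      exact le_abs_self _
    exact ((k2.trans ((k1.trans hO).pow N)).trans_isLittleO (hpw N)).const_mul_left _
  have h2 : (fun i => fderiv ℂ b (p i) T.dir) =o[U] fun i => Real.exp (a * L i) :=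
    ((Q2_der h hp hb).isBigO_one ℝ).trans_isLittleO (by simpa using hpw 0)
  filter_upwards [((IsLittleO.sum h1).add h2).bound hη, hD] with i k1 k2
  have e' : Λ =ᶠ[𝓝 (p i)] fun x => T.lin T.top γ x + b x :=
    eventually_of_mem ((h.isOpen_D List.suffix_rfl).mem_nhds k2) he
  rw [e'.fderiv_eq]
  erw [((h.fd_lin γ k2).add (h.dAt_A hb k2).hasFDerivAt).fderiv]
  simpa using k1

end Crest.Agent.N207.O
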