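import Mathlib

/-! Phragmén–Lindelöf with a comparison function (row 207, block O). -/

namespace Crest.Agent.N207.O

open Set Metric

/-- Maximum principle for a bounded scalar holomorphic function on an unbounded set whose
closure stays away from a point. -/
theorem max_unbdd_pos {G : Set ℂ} {s0 : ℂ} {d : ℝ} (hd : 0 < d)
    (hs0 : ∀ s ∈ closure G, d ≤ ‖s - s0‖) {F : ℂ → ℂ} (hF : DiffContOnCl ℂ F G) {B C : ℝ}
    (hB0 : 0 < B) (hB : ∀ s ∈ frontier G, ‖F s‖ ≤ B) (hC : ∀ s ∈ G, ‖F s‖ ≤ C) {s : ℂ}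
    (hs : s ∈ G) : ‖F s‖ ≤ B := by
  have hCc : ∀ z ∈ closure G, ‖F z‖ ≤ C := fun z hz =>
    le_on_closure (f := fun z => ‖F z‖) (g := fun _ => C) hC hF.continuousOn.norm
      continuousOn_const hz
  have key : ∀ n : ℕ, ‖F s‖ ^ n ≤ B ^ n / d * ‖s - s0‖ := by
    intro n
    set R : ℝ := ‖s - s0‖ + 1 + |C| ^ n / (B ^ n / d) with hR
    have hq : 0 < B ^ n / d := by positivity
    have hq2 : 0 ≤ |C| ^ n / (B ^ n / d) := by positivity
    have hR0 : 0 < R := by have := norm_nonneg (s - s0); linarith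
    have hne : ∀ z ∈ closure G, z - s0 ≠ 0 := fun z hz h => by
      have := hs0 z hz; rw [h, norm_zero] at this; linarith
    have hD : DiffContOnCl ℂ (fun z => F z ^ n / (z - s0)) (G ∩ ball s0 R) := by
      refine ⟨?_, ?_⟩
      · refine DifferentiableOn.div ((hF.differentiableOn.mono inter_subset_left).pow n)
          (by fun_prop) fun z hz => hne z (subset_closure hz.1)
      · refine ContinuousOn.div
          ((hF.continuousOn.mono (closure_mono inter_subset_left)).pow n) (by fun_prop)
          fun z hz => hne z (closure_mono inter_subset_left hz)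
    have hsU : s ∈ G ∩ ball s0 R := ⟨hs, by rw [mem_ball, dist_eq_norm]; linarith⟩
    have h1 := Complex.norm_le_of_forall_mem_frontier_norm_le
      (isBounded_ball.subset inter_subset_right) hD (C := B ^ n / d) ?_ (subset_closure hsU)
    · have h2 : 0 < ‖s - s0‖ := lt_of_lt_of_le hd (hs0 s (subset_closure hs))
      simp only [norm_div, norm_pow] at h1
      rwa [div_le_iff₀ h2] at h1
    · intro z hz
      rcases frontier_inter_subset G (ball s0 R) hz with h | h
      · have hz1 : z ∈ closure G := frontier_subset_closure h.1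
        simp only [norm_div, norm_pow]
        exact div_le_div₀ (by positivity) (pow_le_pow_left₀ (norm_nonneg _) (hB z h.1) n) hd
          (hs0 z hz1)
      · have hzR : ‖z - s0‖ = R := by
          have := h.2; rw [frontier_ball s0 hR0.ne', mem_sphere, dist_eq_norm] at this
          exact this
        simp only [norm_div, norm_pow, hzR]
        rw [div_le_iff₀ hR0]
        have h3 : ‖F z‖ ^ n ≤ |C| ^ n :=
          pow_le_pow_left₀ (norm_nonneg _) ((hCc z h.1).trans (le_abs_self C)) n
        have h4 : |C| ^ n = B ^ n / d * (|C| ^ n / (B ^ n / d)) := by field_simp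
        have h5 : B ^ n / d * (|C| ^ n / (B ^ n / d)) ≤ B ^ n / d * R := by
          apply mul_le_mul_of_nonneg_left _ hq.le
          have := norm_nonneg (s - s0); linarith
        linarith
  by_contra hlt
  push Not at hlt
  have h1 : 1 < ‖F s‖ / B := by rwa [one_lt_div hB0]
  obtain ⟨n, hn⟩ := pow_unbounded_of_one_lt (‖s - s0‖ / d) h1
  have h2 := key n
  rw [div_pow, lt_div_iff₀ (by positivity)] at hn
  have : B ^ n / d * ‖s - s0‖ = ‖s - s0‖ / d * B ^ n := by ring
  linarith

/-- **PL with a comparison function.** `g` is bounded on the frontier of `G`, where `Re h ≤ M`,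
and `g = O(exp (-N Re h))` on `G` for every `N` (constants may depend on `N`).
Then `g` vanishes wherever `Re h > M`. -/
theorem pl_zero {E : Type*} [NormedAddCommGroup E] [NormedSpace ℂ E] {G : Set ℂ} {s0 : ℂ}
    {d : ℝ} (hd : 0 < d) (hs0 : ∀ s ∈ closure G, d ≤ ‖s - s0‖) {g : ℂ → E} {h : ℂ → ℂ}
    (hg : DiffContOnCl ℂ g G) (hh : DiffContOnCl ℂ h G) {B M : ℝ}
    (hB : ∀ s ∈ frontier G, ‖g s‖ ≤ B) (hM : ∀ s ∈ frontier G, (h s).re ≤ M)
    (hflat : ∀ N : ℕ, ∃ C : ℝ, ∀ s ∈ G, ‖g s‖ * Real.exp (N * (h s).re) ≤ C)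
    {s : ℂ} (hs : s ∈ G) (hsM : M < (h s).re) : g s = 0 := by
  obtain ⟨φ, hφ1, hφ⟩ := exists_dual_vector'' ℂ (g s)
  have hφle : ∀ z, ‖φ (g z)‖ ≤ ‖g z‖ := fun z =>
    (φ.le_opNorm _).trans (mul_le_of_le_one_left (norm_nonneg _) hφ1)
  have key : ∀ N : ℕ, ‖g s‖ * Real.exp (N * (h s).re) ≤ (|B| + 1) * Real.exp (N * M) := by
    intro N
    obtain ⟨C, hC⟩ := hflat N
    have hn : ∀ z, ‖φ (g z) * Complex.exp (N * h z)‖ = ‖φ (g z)‖ * Real.exp (N * (h z).re) := by
      intro z; rw [norm_mul, Complex.norm_exp]; simp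
    have hF : DiffContOnCl ℂ (fun z => φ (g z) * Complex.exp (N * h z)) G := by
      refine ⟨?_, ?_⟩
      · exact (φ.differentiable.comp_differentiableOn hg.differentiableOn).mul
          ((hh.differentiableOn.const_mul _).cexp)
      · exact (φ.continuous.comp_continuousOn hg.continuousOn).mul
          ((continuousOn_const.mul hh.continuousOn).cexp)
    have := max_unbdd_pos hd hs0 hF (B := (|B| + 1) * Real.exp (N * M)) (C := C)
      (by positivity) ?_ ?_ hs
    · rw [hn, hφ] at this; simpa using this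
    · intro z hz
      rw [hn]
      refine mul_le_mul (((hφle z).trans (hB z hz)).trans ?_) ?_ (by positivity) (by positivity)
      · linarith [le_abs_self B]
      · exact Real.exp_le_exp.2 (mul_le_mul_of_nonneg_left (hM z hz) (Nat.cast_nonneg N))
    · intro z hz
      rw [hn]
      exact (mul_le_mul_of_nonneg_right (hφle z) (by positivity)).trans (hC z hz)
  by_contra hne
  have hp : 0 < ‖g s‖ := norm_pos_iff.2 hne
  have h1 : 1 < Real.exp ((h s).re - M) := Real.one_lt_exp_iff.2 (by linarith)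
  obtain ⟨n, hn⟩ := pow_unbounded_of_one_lt ((|B| + 1) / ‖g s‖) h1
  have h2 := key n
  rw [← Real.exp_nat_mul, div_lt_iff₀ hp] at hn
  have h3 : Real.exp (n * (h s).re) = Real.exp (n * ((h s).re - M)) * Real.exp (n * M) := by
    rw [← Real.exp_add]; ring_nf
  rw [h3, ← mul_assoc] at h2
  have h4 := le_of_mul_le_mul_right h2 (Real.exp_pos _)
  linarith [mul_comm ‖g s‖ (Real.exp (n * ((h s).re - M)))]

end Crest.Agent.N207.O
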