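import Crest.Agent.N207.O.El1
import Crest.Agent.N207.O.PL
import Crest.Agent.N207.O.Sec2b

/-!
# Row 207, block O (helper88): quasi-analyticity of a free level
-/

set_option autoImplicit false
set_option linter.unusedSectionVars false

open Set Filter Topology Metric Function

noncomputable section

namespace Crest.Agent.N207.O

open El

theorem Om_re {R : ℝ} (hR : 1 ≤ R) {w : ℂ} (hw : w ∈ Om R) {t : ℝ} (ht : |t| ≤ |w.im|) :
    (w.re : ℂ) + t * Complex.I ∈ Om R := by
  have h1 := hw.1
  refine ⟨by simpa using h1, ?_⟩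
  have h2 : ‖(w.re : ℂ) + t * Complex.I‖ ≤ ‖w‖ := by
    rw [← sq_le_sq₀ (norm_nonneg _) (norm_nonneg _), Complex.sq_norm, Complex.sq_norm,
      Complex.normSq_add_mul_I, Complex.normSq_apply]
    have := sq_le_sq.2 ht
    nlinarith
  have h3 : w.re ≤ ‖(w.re : ℂ) + t * Complex.I‖ := by
    simpa using Complex.re_le_norm ((w.re : ℂ) + t * Complex.I)
  have h4 := Real.log_le_log (by linarith) h2
  have h5 := hw.2
  simp only [Complex.add_re, Complex.ofReal_re, Complex.mul_re, Complex.I_re, mul_zero,
    Complex.ofReal_im, Complex.I_im, sub_self, add_zero, zero_mul]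
  nlinarith

theorem Om_joined {R : ℝ} (hR : 1 ≤ R) {w : ℂ} (hw : w ∈ Om R) : JoinedIn (Om R) w w.re := by
  refine JoinedIn.ofLine (f := fun t : ℝ => (w.re : ℂ) + ((1 - t) * w.im : ℝ) * Complex.I)
    (by fun_prop) (by simp) (by simp) ?_
  rintro _ ⟨t, ht, rfl⟩
  refine Om_re hR hw ?_
  rw [abs_mul, abs_of_nonneg (by linarith [ht.2])]
  exact mul_le_of_le_one_left (abs_nonneg _) (by linarith [ht.1])

theorem isPreconnected_Om {R : ℝ} (hR : 1 ≤ R) : IsPreconnected (Om R) := by
  have key : ∀ x y : ℝ, (x : ℂ) ∈ Om R → x ≤ y → JoinedIn (Om R) x y := fun x y hx h => by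
    refine JoinedIn.ofLine (f := fun t : ℝ => ((x + t * (y - x) : ℝ) : ℂ))
      (by fun_prop) (by simp) (by simp) ?_
    rintro _ ⟨t, ht, rfl⟩
    refine Q.om_up (by linarith) hx (by simp) (by simp) ?_
    have := mul_nonneg ht.1 (sub_nonneg.2 h)
    simpa using this
  refine isPreconnected_of_forall_pair fun w hw w' hw' => ?_
  have h1 := Om_joined hR hw
  have h2 := Om_joined hR hw'
  have h3 : JoinedIn (Om R) w w' := by
    rcases le_total w.re w'.re with h | h
    · exact (h1.trans (key _ _ h1.target_mem h)).trans h2.symm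
    · exact (h1.trans (key _ _ h2.target_mem h).symm).trans h2.symm
  obtain ⟨γ, hγ⟩ := h3
  exact ⟨range γ, range_subset_iff.2 hγ, γ.source_mem_range, γ.target_mem_range,
    isPreconnected_range γ.continuous⟩

theorem closure_Om {R : ℝ} (hR : 1 ≤ R) {w : ℂ} (hw : w ∈ closure (Om R)) :
    R ≤ w.re ∧ R * (1 + Real.log ‖w‖) ≤ w.re := by
  have h1 : R ≤ w.re := closure_minimal (fun _ h => h.1.le)
    (isClosed_le continuous_const Complex.continuous_re) hw
  have h0 : ‖w‖ ≠ 0 := by have := Complex.re_le_norm w; intro h; linarith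
  refine ⟨h1, ?_⟩
  have hc : ContinuousAt (fun w : ℂ => R * (1 + Real.log ‖w‖)) w :=
    continuousAt_const.mul (continuousAt_const.add (continuous_norm.continuousAt.log h0))
  exact ContinuousWithinAt.closure_le hw hc.continuousWithinAt
    Complex.continuous_re.continuousWithinAt fun _ h => h.2.le

/-- a flat holomorphic function on `Om R` vanishes -/
theorem flat_Om {E : Type*} [NormedAddCommGroup E] [NormedSpace ℂ E] {R : ℝ} (hR : 1 ≤ R)
    {f : ℂ → E} (hf : DifferentiableOn ℂ f (Om R))
    (hK : ∀ K : ℝ, ∃ C : ℝ, ∀ w ∈ Om R, ‖f w‖ ≤ C * Real.exp (-(K * w.re))) {w : ℂ}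
    (hw : w ∈ Om R) : f w = 0 := by
  obtain ⟨R', hR', hw'⟩ : ∃ R', R < R' ∧ w ∈ Om R' := by
    have c : ContinuousAt (fun R' : ℝ => R' * (1 + Real.log ‖w‖)) R := by fun_prop
    obtain ⟨R', h1, h2⟩ := (((eventually_lt_nhds hw.1).and (c.eventually_lt continuousAt_const
      hw.2)).filter_mono (nhdsWithin_le_nhds (s := Ioi R))).and self_mem_nhdsWithin |>.exists
    exact ⟨R', h2, h1⟩
  have lg : ∀ z ∈ closure (Om R'), 0 ≤ Real.log ‖z‖ := fun z hz => Real.log_nonneg (by
    linarith [(closure_Om (by linarith) hz).1, Complex.re_le_norm z])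
  have cl : closure (Om R') ⊆ Om R := fun z hz => by
    have := closure_Om (by linarith) hz
    have := lg z hz
    exact ⟨by linarith, by nlinarith⟩
  obtain ⟨B, hB⟩ := hK 0
  have re : ∀ z : ℂ, (z - R' * Complex.log z).re = z.re - R' * Real.log ‖z‖ := fun z => by
    simp [Complex.log_re]
  refine pl_zero (G := Om R') (s0 := 0) (d := 1) (h := fun z => z - R' * Complex.log z) (B := B)
    (M := R') one_pos (fun z hz => ?_) (hf.mono cl).diffContOnCl
    (DifferentiableOn.diffContOnCl fun z hz => ?_)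
    (fun z hz => by simpa using hB z (cl (frontier_subset_closure hz))) (fun z hz => ?_)
    (fun N => ?_) hw' (by rw [re]; linarith [hw'.2])
  · rw [sub_zero]; linarith [(cl hz).1, Complex.re_le_norm z]
  · exact (differentiableAt_id.sub ((differentiableAt_id.clog
      (Or.inl (by simpa using (by linarith [(cl hz).1] : 0 < z.re)))).const_mul _)
      ).differentiableWithinAt
  · have h1 := lg z (frontier_subset_closure hz)
    have h2 : z ∉ Om R' := by
      rw [(El.isOpen_Om (by linarith)).frontier_eq] at hz; exact hz.2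
    rw [re]
    by_contra h3
    exact h2 ⟨by nlinarith, by linarith⟩
  · obtain ⟨C, hC⟩ := hK N
    refine ⟨max C 0, fun z hz => ?_⟩
    have h1 := lg z (subset_closure hz)
    have h2 := (hC z (cl (subset_closure hz))).trans
      (mul_le_mul_of_nonneg_right (le_max_left C 0) (Real.exp_pos _).le)
    calc _ ≤ max C 0 * Real.exp (-(N * z.re)) * Real.exp (N * z.re) := by
          refine mul_le_mul h2 (Real.exp_le_exp.2 (mul_le_mul_of_nonneg_left ?_ N.cast_nonneg))
            (Real.exp_pos _).le (by positivity)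
          rw [re]; nlinarith
      _ = _ := by rw [mul_assoc, ← Real.exp_add]; simp

variable {ι : Type} [Fintype ι] [DecidableEq ι] {T : Tw ι} {l : List (ι ⊕ ℕ)} {k : ι}

theorem upd_top (h : T.WF) (hl : Sum.inl k :: l <:+ T.top) {x : ι → ℂ}
    (hx : x ∈ T.D (Sum.inl k :: l)) {w : ℂ} (hw : w ∈ Om T.R) :
    update x k w ∈ T.D (Sum.inl k :: l) := by
  have hF : k ∉ T.Fv := fun h' => h.dj k h' (hl.subset List.mem_cons_self)
  obtain ⟨hx1, hx2⟩ := D_cons hx
  obtain ⟨z, hz, h5⟩ := hx
  refine ⟨z, hz, ?_⟩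
  rw [connectedComponentIn_eq h5]
  refine ((isPreconnected_Om h.R1).image (update x k)
    (continuous_const.update k continuous_id).continuousOn).subset_connectedComponentIn
    ⟨x k, by simpa only [h.sN] using hx2.1, update_eq_self k x⟩ ?_ (mem_image_of_mem _ hw)
  rintro _ ⟨v, hv, rfl⟩
  exact ⟨T2_upd h (suffix_tail hl) (h.not_mem hl) (fun h' => absurd h' hF) hx1
    fun h' => absurd h' hF, by rwa [h.sN, update_self], fun _ e => by cases e⟩

/-- **quasi-analyticity of a free level** -/
theorem qa_free (h : T.WF) (hl : Sum.inl k :: l <:+ T.top) : T.fr.QA1 (Sum.inl k) l := by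
  intro g hg hK x hx
  have := flat_Om h.R1 (f := fun w => g (update x k w))
    (hg.comp (dif_update (differentiableOn_const x) differentiableOn_id)
      fun w hw => upd_top h hl hx hw)
    (fun K => (hK K).imp fun C hC w hw => by
      simpa only [Tw.fr, h.sN, update_self] using hC _ (upd_top h hl hx hw))
    (w := x k) (by simpa only [h.sN] using (D_cons hx).2.1)
  simpa using this

end Crest.Agent.N207.O
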