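import Crest.Agent.N207.O.Sec4
import Crest.Agent.N207.O.PL

/-! Row 207, block O (helper76): quasi-analyticity along the section. -/

set_option autoImplicit false

namespace Crest.Agent.N207.O.Q

open Set Filter Finset Asymptotics Metric
open scoped Topology

variable {J : ℕ} {td : ℕ → Prop} {ρ cc : ℕ → ℕ → ℝ} {γ C R τ T R1 : ℝ} {p : ℕ → ℝ}
  {σ u : ℕ → ℂ → ℂ} {Z : ℕ → Set ℂ} {S : Set ℂ}

theorem ray_id {g : ℂ → ℂ} {U : Set ℂ} (hU : IsOpen U) (hg : DifferentiableOn ℂ g U)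
    (hm : ∀ x : ℝ, 0 ≤ x → (x : ℂ) ∈ U) (h0 : ∀ᶠ x : ℝ in atTop, g x = 0) : g 0 = 0 := by
  obtain ⟨X, hX⟩ := eventually_atTop.1 (h0.and (eventually_ge_atTop 0))
  have ha : AnalyticOnNhd ℂ g ((fun x : ℝ => (x : ℂ)) '' Ici 0) :=
    (hg.analyticOnNhd hU).mono (by rintro _ ⟨x, hx, rfl⟩; exact hm x hx)
  refine ha.eqOn_zero_of_preconnected_of_frequently_eq_zero ray_conn (z₀ := (X : ℂ))
    ⟨X, (hX X le_rfl).2, rfl⟩ ?_ ⟨0, mem_Ici.2 le_rfl, by simp⟩
  have t : Tendsto (fun x : ℝ => (x : ℂ)) (𝓝[>] X) (𝓝[≠] (X : ℂ)) :=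
    tendsto_nhdsWithin_iff.2 ⟨Complex.continuous_ofReal.continuousAt.mono_left nhdsWithin_le_nhds,
      mem_of_superset self_mem_nhdsWithin fun y hy => by simpa using (ne_of_gt hy)⟩
  exact t.frequently (Eventually.frequently
    (mem_of_superset self_mem_nhdsWithin fun y hy => (hX y (le_of_lt hy)).1))

namespace Sit

variable (H : Sit J td ρ cc γ C R τ T p σ u Z)
include H

theorem fd_cont (β : ℕ → ℝ) {n : ℕ} (hn : n ≤ J) {x : ℝ} (hx : 0 ≤ x) :
    ContinuousAt (fd β n σ) x := by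
  refine tendsto_finset_sum _ fun i hi => Tendsto.const_mul _ ?_
  have hi : i < J := by simp at hi; omega
  have := ((H.hS.diffOn' (Nat.le_succ i) hi hi).analyticAt
    ((H.hS.Zo _ hi).mem_nhds (H.ry i hi x hx).mem)).deriv.continuousAt
  exact Complex.continuous_re.continuousAt.comp
    (ContinuousAt.comp this Complex.continuous_ofReal.continuousAt)

theorem qa (htr : Trk J td p σ Z) {j : ℕ} (hj : j < J) (htj : td j) {R' : ℝ} {Z' : ℕ → Set ℂ}
    (hZ : Zs J td ρ σ u R' Z') (s0 : (0 : ℂ) ∈ Z' J) {g : ℂ → ℂ}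
    (hg : DifferentiableOn ℂ g (Z' (j + 1)))
    (hflat : ∀ K : ℝ, ∃ C' : ℝ, ∀ s ∈ Z' (j + 1), ‖g s‖ ≤ C' * Real.exp (-(K * (σ j s).re))) :
    g 0 = 0 := by
  have τ0 := H.hK.τ0
  have R0 := hZ.R0
  obtain ⟨X0, X00, hS, all, hψ, hW⟩ := H.region htr hj htj
  have ud := (H.u_dif hS hj htj all).and ((tendsto_zero_iff_norm_tendsto_zero.1
    (H.ud_zero hS hj htj all)).eventually (ge_mem_nhds (by positivity : 0 < τ / 16)))
  have f4 : ∀ᶠ s in FS (SS ρ σ j τ X0), |(u j s).im| ≤ τ / 16 * |s.im| := by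
    filter_upwards [hS.ev ud, pos_FS] with s h h0
    have := (Complex.abs_im_le_norm _).trans
      (vert_mv (f := u j) (b := 0) (e := τ / 16) (s := s) fun t ht => by simpa [vs] using h t ht)
    simpa [H.hS.re j hj htj _ (H.hS.Zm j hj (H.ry j hj _ h0).mem)] using this
  obtain ⟨X1, hX⟩ := ev_FS.1 ((((H.mem hS hj.le all).and (H.mem_of_gd hS hZ s0 j hj.le all)).and
    (hW.and (H.cc_small hj htj all))).and (f4.and (H.im_bd hj htj fun s hs => hs.1)))
  set X := max X0 X1 with hXd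
  have X0X : X0 ≤ X := le_max_left _ _
  set h : ℂ → ℂ := fun s => σ j s - ((4 * (2 * R' + 1) : ℝ) : ℂ) * Complex.exp (ph ρ σ u j s / 2)
    with hh
  set V1 : Set ℂ := {s ∈ {s : ℂ | X ≤ s.re} | |s.im| * fd (ρ j) j σ s.re ≤ 4} with hV1
  set V2 : Set ℂ := {s ∈ V1 | |(lf (ρ j) j σ s).im| ≤ Real.pi / 2 + τ / 16 * |s.im|} with hV2
  set V3 : Set ℂ := {s ∈ V2 | 2 * R' + 2 ≤ (h s).re} with hV3
  have F := fun s (hs : s ∈ V2) => hX s ⟨hs.1.2, X0X.trans hs.1.1, hs.2⟩
    ((le_max_right _ _).trans hs.1.1)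
  have cA : ∀ s : ℂ, X ≤ s.re → ContinuousAt (fun s : ℂ => |s.im| * fd (ρ j) j σ s.re) s :=
    fun s hs => (by fun_prop : ContinuousAt (fun s : ℂ => |s.im|) s).mul
      (ContinuousAt.comp (g := fd (ρ j) j σ) (f := Complex.re) (H.fd_cont _ hj.le (by linarith))
        Complex.continuous_re.continuousAt)
  have cψ : ∀ s ∈ V1, ContinuousAt (fun s : ℂ => |(lf (ρ j) j σ s).im|) s := fun s hs =>
    (Complex.continuous_im.continuousAt.comp (hψ s hs.2 (X0X.trans hs.1)).1.continuousAt).abs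
  have dφ : ∀ s ∈ V2, DifferentiableAt ℂ (ph ρ σ u j) s := fun s hs =>
    (H.hS.ph_hasDerivAt hj htj (F s hs).1.1.1).differentiableAt
  have dσ : ∀ s ∈ V2, DifferentiableAt ℂ (σ j) s := fun s hs =>
    H.hS.dAt le_rfl hj hj.le (F s hs).1.1.1
  have dh : ∀ s ∈ V2, DifferentiableAt ℂ h s := fun s hs =>
    (dσ s hs).sub (((dφ s hs).div_const 2).cexp.const_mul _)
  have ch : ∀ s ∈ V2, ContinuousAt (fun s => (h s).re) s := fun s hs =>
    Complex.continuous_re.continuousAt.comp (dh s hs).continuousAt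
  have c1 : IsClosed V1 := (isClosed_le continuous_const Complex.continuous_re).isClosed_le
    (fun s hs => (cA s hs).continuousWithinAt) continuousOn_const
  have c2 : IsClosed V2 := c1.isClosed_le (fun s hs => (cψ s hs).continuousWithinAt) (by fun_prop)
  have c3 : IsClosed V3 := c2.isClosed_le continuousOn_const
    (fun s hs => (ch s hs).continuousWithinAt)
  have yb : ∀ s ∈ V2, τ * |s.im| ≤ 4 := fun s hs => by
    have := (F s hs).2.2; rw [le_div_iff₀ τ0] at this; linarith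
  have θb : ∀ s ∈ V2, |(ph ρ σ u j s).im| ≤ Real.pi / 2 + 1 / 2 := fun s hs => by
    have := abs_add_le (lf (ρ j) j σ s).im (u j s).im
    rw [ph, Complex.add_im]
    linarith [hs.2, (F s hs).2.1, yb s hs]
  have hre : ∀ s ∈ V2, (h s).re + 2 * (2 * R' + 1) * Real.exp ((ph ρ σ u j s).re / 2) ≤
      (σ j s).re := fun s hs => by
    have a1 : 1 / 2 ≤ Real.cos ((ph ρ σ u j s).im / 2) := by
      rw [← Real.cos_abs, ← Real.cos_pi_div_three]
      refine Real.cos_le_cos_of_nonneg_of_le_pi (abs_nonneg _) (by linarith [Real.pi_pos]) ?_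
      rw [abs_div, abs_two]; linarith [θb s hs, Real.pi_gt_three]
    simp only [hh, Complex.sub_re, Complex.re_ofReal_mul, Complex.exp_re, Complex.div_ofNat_re,
      Complex.div_ofNat_im]
    nlinarith [mul_le_mul_of_nonneg_left a1 (Real.exp_pos ((ph ρ σ u j s).re / 2)).le]
  have C1 : ∀ s ∈ V3, σ j s ∈ Pw (2 * R' + 1) ∧ |(ph ρ σ u j s).im| < Real.pi / 2 := fun s hs => by
    have a0 := F s hs.1
    have a1 := hre s hs.1
    have a2 := hs.2
    have e0 := Real.exp_pos ((ph ρ σ u j s).re / 2)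
    have a3 : √‖σ j s‖ ≤ 2 * Real.exp ((ph ρ σ u j s).re / 2) := by
      refine Real.sqrt_le_iff.2 ⟨by positivity, ?_⟩
      rw [H.hS.tied j hj htj s a0.1.1.1, mul_pow, ← Real.exp_nat_mul]
      refine (norm_sub_le _ _).trans ?_
      rw [Complex.norm_exp, show ((2 : ℕ) : ℝ) * ((ph ρ σ u j s).re / 2) = (ph ρ σ u j s).re by
        push_cast; ring]
      linarith [a0.1.2.1, a0.1.2.2, Real.exp_pos (ph ρ σ u j s).re]
    refine ⟨show (2 * R' + 1) * (1 + √‖σ j s‖) < _ by nlinarith,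
      abs_lt_of_cos_pos (by linarith [θb s hs.1, Real.pi_gt_three]) ?_⟩
    have b2 := congrArg Complex.re (H.hS.tied j hj htj s a0.1.1.1)
    rw [Complex.sub_re, Complex.exp_re, lf_re] at b2
    have b3 : 0 ≤ ∑ i ∈ range j, cc j i * (σ i s).re := sum_nonneg fun i hi =>
      mul_nonneg (H.hE.cc_nn j i) (H.hS.re_pos (by simpa using hi) hj.le a0.1.1.1).le
    exact (pos_iff_pos_of_mul_pos (by nlinarith : 0 < Real.exp (ph ρ σ u j s).re *
      Real.cos (ph ρ σ u j s).im)).1 (Real.exp_pos _)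
  set G : Set ℂ := V3 ∩ Z' (j + 1) with hG
  have cG : IsClosed G := by
    refine isClosed_of_closure_subset fun s hs => ?_
    have s3 : s ∈ V3 := c3.closure_subset (closure_mono Set.inter_subset_left hs)
    have e : ∀ᶠ z in 𝓝 s, z ∈ Z' j ∧ cs td ρ σ u R' j z := by
      filter_upwards [(hZ.Zo j hj.le).mem_nhds (F s s3.1).1.1.2,
        (dσ s s3.1).continuousAt.eventually (closedBall_mem_nhds _ one_pos),
        (Complex.continuous_im.continuousAt.comp (dφ s s3.1).continuousAt).abs.eventually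
          (gt_mem_nhds (C1 s s3).2)] with z z1 z2 z3
      exact ⟨z1, pw_margin R0 (C1 s s3).1 (by simpa [dist_eq_norm] using z2), fun _ => z3⟩
    obtain ⟨r, r0, hr⟩ := Metric.eventually_nhds_iff_ball.1 e
    obtain ⟨z, z1, z2⟩ := Metric.mem_closure_iff.1 hs r r0
    exact ⟨s3, hZ.Zp j hj (ball s r) (convex_ball _ _).isPreconnected (fun z hz => (hr z hz).1)
      (fun z hz => (hr z hz).2) ⟨z, mem_ball'.2 z2, z1.2⟩ (mem_ball_self r0)⟩
  have oZ := hZ.Zo (j + 1) hj
  have int : ∀ s ∈ G, X < s.re → 2 * R' + 2 < (h s).re → s ∈ interior G := by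
    intro s hs a1 a2
    have a3 : |s.im| * fd (ρ j) j σ s.re < 4 := by
      refine lt_of_le_of_ne hs.1.1.1.2 fun e => ?_
      have b1 := (hψ s hs.1.1.1.2 (X0X.trans a1.le)).2
      have b2 := abs_sub_abs_le_abs_sub (s.im * fd (ρ j) j σ s.re) (lf (ρ j) j σ s).im
      rw [abs_mul, abs_of_nonneg (τ0.le.trans (H.fd_tau hj htj (by linarith))), abs_sub_comm] at b2
      linarith [hs.1.1.2, yb s hs.1.1, Real.pi_le_four]
    have a4 : |(lf (ρ j) j σ s).im| < Real.pi / 2 + τ / 16 * |s.im| := by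
      have b1 := (C1 s hs.1).2
      have b2 := abs_sub (ph ρ σ u j s).im (u j s).im
      rw [ph, Complex.add_im, add_sub_cancel_right, ← Complex.add_im] at b2
      unfold ph at b1
      linarith [(F s hs.1.1).2.1]
    refine mem_interior_iff_mem_nhds.2 ?_
    filter_upwards [oZ.mem_nhds hs.2, Complex.continuous_re.continuousAt.eventually (lt_mem_nhds a1),
      (cA s a1.le).eventually (gt_mem_nhds a3), (ch s hs.1.1).eventually (lt_mem_nhds a2),
      (cψ s hs.1.1.1).eventually_lt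
        (by fun_prop : ContinuousAt (fun s : ℂ => Real.pi / 2 + τ / 16 * |s.im|) s) a4] with z z1 z2 z3 z4 z5
    exact ⟨⟨⟨⟨z2.le, z3.le⟩, z5.le⟩, z4.le⟩, z1⟩
  have cK : IsCompact (G ∩ {s : ℂ | s.re ≤ X}) := by
    refine Metric.isCompact_of_isClosed_isBounded
      (cG.inter (isClosed_le Complex.continuous_re continuous_const))
      ((isBounded_closedBall (x := (0 : ℂ)) (r := X + 4 / τ)).subset fun s hs => ?_)
    rw [mem_closedBall_zero_iff]
    have := Complex.norm_le_abs_re_add_abs_im s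
    rw [abs_of_nonneg (by linarith [show X ≤ s.re from hs.1.1.1.1.1] : 0 ≤ s.re)] at this
    linarith [(F s hs.1.1.1).2.2, show s.re ≤ X from hs.2]
  obtain ⟨M', hM'⟩ := cK.exists_bound_of_continuousOn
    (f := h) fun s hs => (dh s hs.1.1.1).continuousAt.continuousWithinAt
  obtain ⟨B, hB⟩ := hflat 0
  have pl := fun s => pl_zero (G := G) (s0 := ((X - 1 : ℝ) : ℂ)) (g := g) (h := h) one_pos
    (fun s hs => by
      rw [cG.closure_eq] at hs
      have := Complex.re_le_norm (s - ((X - 1 : ℝ) : ℂ))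
      rw [Complex.sub_re, Complex.ofReal_re] at this
      linarith [show X ≤ s.re from hs.1.1.1.1])
    (DifferentiableOn.diffContOnCl (by rw [cG.closure_eq]; exact hg.mono Set.inter_subset_right))
    (DifferentiableOn.diffContOnCl (by
      rw [cG.closure_eq]; exact fun s hs => (dh s hs.1.1).differentiableWithinAt))
    (B := B) (M := max (2 * R' + 2) M')
    (fun s hs => by simpa using hB s (cG.frontier_subset hs).2)
    (fun s hs => by
      have b1 := cG.frontier_subset hs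
      by_contra hc
      rw [not_le, max_lt_iff] at hc
      rcases le_or_gt s.re X with b2 | b2
      · linarith [(Complex.re_le_norm _).trans (hM' s ⟨b1, b2⟩), hc.2]
      · exact hs.2 (int s b1 b2 hc.1))
    (fun N => by
      obtain ⟨C', hC'⟩ := hflat N
      refine ⟨|C'|, fun s hs => ?_⟩
      have b1 := hre s hs.1.1
      have b2 := Real.exp_pos ((ph ρ σ u j s).re / 2)
      refine (mul_le_mul_of_nonneg_right (hC' s hs.2) (Real.exp_pos _).le).trans ?_
      rw [mul_assoc, ← Real.exp_add]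
      have b3 : (h s).re ≤ (σ j s).re := by nlinarith
      have b4 : Real.exp (-(N * (σ j s).re) + N * (h s).re) ≤ 1 :=
        Real.exp_le_one_iff.2 (by nlinarith [Nat.cast_nonneg (α := ℝ) N])
      nlinarith [le_abs_self C', abs_nonneg C', Real.exp_pos (-(N * (σ j s).re) + N * (h s).re)])
    (s := s)
  have rm := ray_mem hZ s0 H.ry (j + 1) hj
  refine ray_id oZ hg rm ?_
  filter_upwards [eventually_ge_atTop X, (H.WW_top hj htj).eventually
    (ev_pw (2 * (4 * (2 * R' + 1) + |max (2 * R' + 2) M'|)))] with x x1 x2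
  have x0 : 0 ≤ x := by linarith
  obtain ⟨-, -, -, -, -, -, t5, t6⟩ := (H.ry j hj x x0).tied htj
  have e1 : (h x).re = oo σ j x - 4 * (2 * R' + 1) * √(WW ρ σ u j x) := by
    simp only [hh, Complex.sub_re, Complex.re_ofReal_mul, Complex.exp_re, Complex.div_ofNat_re,
      Complex.div_ofNat_im, t6, zero_div, Real.cos_zero, mul_one, oo, WW_eq, Real.exp_half]
  have e2 : max (2 * R' + 2) M' < (h x).re := by
    rw [e1]
    nlinarith [(H.ry j hj x x0).nc htj, le_abs_self (max (2 * R' + 2) M'),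
      abs_nonneg (max (2 * R' + 2) M'), Real.sqrt_nonneg (WW ρ σ u j x)]
  have v : (x : ℂ) ∈ VV ρ σ j := by simp [VV]
  refine pl x ⟨⟨⟨⟨x1, v⟩, ?_⟩, (le_max_left _ _).trans e2.le⟩, rm x x0⟩ e2
  have := (hψ x v (X0X.trans x1)).2
  simp only [Complex.ofReal_im, zero_mul, sub_zero, abs_zero, mul_zero, add_zero] at this ⊢
  linarith [Real.pi_pos]

end Sit

end Crest.Agent.N207.O.Q
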