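import Crest.Agent.N207.O.Brg2
import Crest.Agent.N207.O.Qf
import Crest.Agent.N207.O.Sec5

/-!
# Row 207, block O (helper88): quasi-analyticity of towers from the one variable statement
-/

set_option autoImplicit false
set_option linter.unusedSectionVars false

open Set Filter Topology Metric Function

noncomputable section

namespace Crest.Agent.N207.O

open El Br

/-- the one variable statement -/
def QAStmt : Prop := ∀ (j : ℕ) (td : ℕ → Prop) (ρ cc : ℕ → ℕ → ℝ) (γ C R τ T : ℝ) (p : ℕ → ℝ)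
  (σ u : ℕ → ℂ → ℂ) (Z : ℕ → Set ℂ), Q.Sit (j + 1) td ρ cc γ C R τ T p σ u Z →
  Q.Trk (j + 1) td p σ Z → td j → ∀ (R' : ℝ) (Z' : ℕ → Set ℂ), R ≤ R' → (∀ n, Z' n ⊆ Z n) →
  Q.Zs (j + 1) td ρ σ u R' Z' → (0 : ℂ) ∈ Z' (j + 1) → ∀ g : ℂ → ℂ,
  DifferentiableOn ℂ g (Z' (j + 1)) →
  (∀ K : ℝ, ∃ B : ℝ, ∀ s ∈ Z' (j + 1), ‖g s‖ ≤ B * Real.exp (-(K * (σ j s).re))) → g 0 = 0

theorem qaStmt : QAStmt := fun j _ _ _ _ _ _ _ _ _ _ _ _ H htr htj _ _ _ _ hZ h0 _ hg hK =>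
  H.qa htr j.lt_succ_self htj hZ h0 hg hK

variable {ι : Type} [Fintype ι] [DecidableEq ι] {T : Tw ι} {l : List (ι ⊕ ℕ)} {a : ι ⊕ ℕ}

/-- the situation at a deep seed, with constants that depend only on the tower -/
theorem Br.sit (h : T.WF) : ∃ (γ C R₀ : ℝ) (τ Tm : ℕ → ℝ), T.R ≤ R₀ ∧
    (∀ J ≤ T.top.length, Tm J * J ≤ R₀ ∧ ∀ R ≥ R₀, Q.Num J γ C T.R (τ J) (Tm J) R) ∧
    (∀ J ≤ T.top.length, ∀ (b : Bool) (y : ι → ℂ) (p : ℕ → ℝ), y ∈ T.D [] → y ∈ Rp ι →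
      (b = true → ∀ m, m + 1 < J → ¬ td T.top (m + 1) → 0 ≤ p (m + 1)) →
      Q.Sec J (td T.top) (nm T.top T.ρ) (nm T.top T.c) γ C T.R p (sg T.top T.s b y p)
        (uu T.top T.s T.u b y p) (ZZ T.top T b y p)) ∧
    ∀ R ≥ R₀, ∀ r : ι → ℝ, (∀ k ∈ T.Fv, 0 < r k ∧ r k ≤ T.r k) → ∀ J ≤ T.top.length,
      ∀ y ∈ (T.shr R r).D (sf T.top J), y ∈ (T.shr R r).Sd (sf T.top J) →
        Q.Sit J (td T.top) (nm T.top T.ρ) (nm T.top T.c) γ C T.R (τ J) (Tm J)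
          (pp T.top T.s true y) (sg T.top T.s true y (pp T.top T.s true y))
          (uu T.top T.s T.u true y (pp T.top T.s true y))
          (ZZ T.top T true y (pp T.top T.s true y)) ∧
        ∀ m, m + 1 < J → 0 ≤ pp T.top T.s true y (m + 1) := by
  obtain ⟨γ, C, h1, -, h3⟩ := sec h rfl
  have hK : ∀ J, ∃ τ Tm R0 : ℝ, J ≤ T.top.length → Q.Cn J (nm T.top T.ρ) (nm T.top T.c) τ Tm ∧
      Tm * J ≤ R0 ∧ ∀ R ≥ R0, Q.Num J γ C T.R τ Tm R := fun J => by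
    by_cases hJ : J ≤ T.top.length
    · obtain ⟨τ, Tm, hK⟩ := (ex h rfl hJ).cn
      obtain ⟨R0, hR0⟩ := Q.num_exists J h1 C T.R hK.τ0 Tm
      exact ⟨τ, Tm, max R0 (Tm * J), fun _ => ⟨hK, le_max_right _ _,
        fun R hR => hR0 R (le_trans (le_max_left _ _) hR)⟩⟩
    · exact ⟨0, 0, 0, fun h => absurd h hJ⟩
  choose τ Tm R0 hK using hK
  obtain ⟨n, -, hn⟩ := (Finset.range (T.top.length + 1)).exists_max_image R0 ⟨0, by simp⟩
  have hm : ∀ J ≤ T.top.length, R0 J ≤ max T.R (R0 n) := fun J hJ =>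
    (hn J (by simp; omega)).trans (le_max_right _ _)
  refine ⟨γ, C, max T.R (R0 n), τ, Tm, le_max_left _ _, fun J hJ => ⟨(hK J hJ).2.1.trans (hm J hJ),
    fun R hR => (hK J hJ).2.2 R ((hm J hJ).trans hR)⟩, h3 γ le_rfl C le_rfl,
    fun R hR r hr J hJ y hy hs => ?_⟩
  have hR' : T.R ≤ R := le_trans (le_max_left _ _) hR
  obtain ⟨w, sub, -⟩ := T4_shr h hR' hr
  have hp := pp_nn w (T.shr_top R r).symm hJ hy hs
  have hS := h3 γ le_rfl C le_rfl J hJ true y (pp T.top T.s true y)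
    (D_suffix List.nil_suffix (sub _ hy)) hs.1 fun _ m hm _ => hp m hm
  obtain ⟨s1, s2, s3⟩ := start h rfl hR' hr (b := true) hJ hy hs
    (fun a ha i hi => ((hK J hJ).1.k1 a ha i hi).2) ((hK J hJ).2.1.trans ((hm J hJ).trans hR))
  have s0 := zero_mem h rfl (b := true) hJ (sub _ hy) hs.1
  exact ⟨⟨ex h rfl hJ, hS, (hK J hJ).1, h1, s0, Q.ray (ex h rfl hJ) hS (hK J hJ).1
    ((hK J hJ).2.2 R ((hm J hJ).trans hR)) (trk h rfl hJ (fun m hm _ => hp m hm) _) s0 s1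
    (fun a ha _ => s2 a ha) fun a ha _ i hi => (s3 a ha i hi).2⟩, hp⟩

/-- a holomorphic function that vanishes at all seeds vanishes -/
theorem zero_of_seeds (h : T.WF) (hl : a :: l <:+ T.top) {g : (ι → ℂ) → ℂ}
    (hg : DifferentiableOn ℂ g (T.D (a :: l)))
    (h0 : ∀ y ∈ T.D (a :: l), y ∈ T.Sd (a :: l) → g y = 0) : EqOn g 0 (T.D (a :: l)) := by
  rintro x ⟨y, hy, hx⟩
  have hS := h.isOpen_S hl (T1_ok h (suffix_tail hl))
  have hyS := connectedComponentIn_nonempty_iff.1 ⟨x, hx⟩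
  have hyD : y ∈ T.D (a :: l) := mem_RC hy hyS
  have hsub : connectedComponentIn {x | x ∈ T.D l ∧ T.cst a x} y ⊆ T.D (a :: l) :=
    fun z hz => ⟨y, hy, hz⟩
  have hc : ∀ b ∈ a :: l, ContinuousAt (fun z => (T.s b z).re) y := fun b hb =>
    Complex.continuous_re.continuousAt.comp ((dif_mem (T1_ok h hl) hb).continuousOn.continuousAt
      ((h.isOpen_D hl).mem_nhds hyD))
  have key : ∀ m : List (ι ⊕ ℕ), (∀ b ∈ m, b ∈ a :: l) →
      (m.Pairwise fun a b => T.R * (T.s b y).re < (T.s a y).re) →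
      ∀ᶠ z in 𝓝 y, m.Pairwise fun a b => T.R * (T.s b z).re < (T.s a z).re := by
    intro m
    induction m with
    | nil => exact fun _ _ => .of_forall fun _ => List.Pairwise.nil
    | cons c m ih =>
      intro h1 h2
      rw [List.pairwise_cons] at h2
      have h3 : ∀ᶠ z in 𝓝 y, ∀ b ∈ m.toFinset, T.R * (T.s b z).re < (T.s c z).re :=
        (eventually_all_finset _).2 fun b hb => by
          have hb := List.mem_toFinset.1 hb
          exact (continuousAt_const.mul (hc b (h1 b (List.mem_cons_of_mem _ hb)))).eventually_lt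
            (hc c (h1 c List.mem_cons_self)) (h2.1 b hb)
      filter_upwards [h3, ih (fun b hb => h1 b (List.mem_cons_of_mem _ hb)) h2.2] with z h4 h5
      exact List.pairwise_cons.2 ⟨fun b hb => h4 b (List.mem_toFinset.2 hb), h5⟩
  obtain ⟨V, hV1, hV2, hV3⟩ := _root_.eventually_nhds_iff.1
    ((key _ (fun _ h => h) hy.2).and ((h.isOpen_D hl).mem_nhds hyD))
  have h1 := zero_of_real hV2 (hg.mono fun z hz => (hV1 z hz).2)
    (fun z hz hr => h0 z (hV1 z hz).2 ⟨hr, (hV1 z hz).1⟩) hV3 hy.1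
  exact id_thm hS.connectedComponentIn isPreconnected_connectedComponentIn (hg.mono hsub)
    (mem_connectedComponentIn hyS) h1 hx

theorem qa_all (h : T.WF) : ∃ R₀ : ℝ, T.R ≤ R₀ ∧ ∀ R ≥ R₀, ∀ r : ι → ℝ,
    (∀ k ∈ T.Fv, 0 < r k ∧ r k ≤ T.r k) → ∀ a l, a :: l <:+ T.top → (T.shr R r).fr.QA1 a l := by
  obtain ⟨γ, C, R₀, τ, Tm, h0, -, -, h1⟩ := Br.sit h
  refine ⟨R₀, h0, fun R hR r hr a l hl => ?_⟩
  have hR' : T.R ≤ R := h0.trans hR
  obtain ⟨w, sub, -⟩ := T4_shr h hR' hr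
  have hl' : a :: l <:+ (T.shr R r).top := by rwa [T.shr_top]
  rcases a with k | j
  · exact qa_free w hl'
  intro g hg hK
  refine zero_of_seeds w hl' hg fun y hy hs => ?_
  have hn : l.length < T.top.length := hl.length_le
  have e : sf T.top (l.length + 1) = Sum.inr j :: l := sf_of_suffix hl
  have e1 : ix T.top l.length = Sum.inr j := by
    rw [sf_succ hn] at e; exact (List.cons.inj e).1
  rw [← e] at hy hs hg
  obtain ⟨h2, h3⟩ := h1 R hR r hr _ hn y hy hs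
  have hy0 : y ∈ (T.shr R r).D [] := D_suffix List.nil_suffix hy
  have := qaStmt _ _ _ _ _ _ _ _ _ _ _ _ _ h2 (trk h rfl hn (fun m hm _ => h3 m hm) _) ⟨j, e1⟩ R _ hR'
    (fun n => ZZ_shr h rfl hR' hr) (zs_shr h rfl hR' hr hy0 hn)
    (zero_mem_shr h rfl hR' hr hn hy hs.1)
    (fun s => g (cv T.top T.s true y (pp T.top T.s true y) (l.length + 1) s))
    (hg.comp (open_dif w (T.shr_top R r).symm hy0 hn).2 fun _ hs => hs)
    fun K => (hK K).imp fun B hB s hs => by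
      have := hB _ (show _ ∈ (T.shr R r).D (Sum.inr j :: l) by rw [← e]; exact hs)
      rwa [sg, e1]
  rwa [cv_zero h rfl hn (sub _ hy) hs.1 le_rfl] at this

/-- `Q1_good` from connectivity -/
theorem good_of (h : T.WF) (hc : ∃ R₀ : ℝ, ∀ R ≥ R₀, ∀ r : ι → ℝ,
    (∀ k ∈ T.Fv, 0 < r k ∧ r k ≤ T.r k) → ∀ l, l <:+ T.top → IsPreconnected ((T.shr R r).D l)) :
    ∃ R₀ : ℝ, T.R ≤ R₀ ∧ ∀ R ≥ R₀, ∀ r : ι → ℝ,
      (∀ k ∈ T.Fv, 0 < r k ∧ r k ≤ T.r k) → (T.shr R r).Good := by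
  obtain ⟨R1, h1, h2⟩ := qa_all h
  obtain ⟨R2, h3⟩ := hc
  refine ⟨max R1 R2, le_max_of_le_left h1, fun R hR r hr => ?_⟩
  have hR1 : R1 ≤ R := le_trans (le_max_left _ _) hR
  exact ⟨(T4_shr h (h1.trans hR1) hr).1, fun a l hl => h2 R hR1 r hr a l (by rwa [T.shr_top] at hl),
    fun l hl => h3 R (le_trans (le_max_right _ _) hR) r hr l (by rwa [T.shr_top] at hl)⟩

end Crest.Agent.N207.O
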