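import Crest.Agent.N207.O.Cls

/-! Row 207, block O (helper76): the section through a deep point, definitions and small lemmas. -/

set_option autoImplicit false

namespace Crest.Agent.N207.O.Q

open Set Filter Finset
open scoped Topology

/-- the power domain -/
def Pw (R : ℝ) : Set ℂ := {w | R * (1 + √‖w‖) < w.re}

/-- a real linear form in the scales below `n` -/
noncomputable def lf (ρ : ℕ → ℝ) (n : ℕ) (σ : ℕ → ℂ → ℂ) (s : ℂ) : ℂ :=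
  ∑ i ∈ range n, (ρ i : ℂ) * σ i s

/-- logarithm of a tied quantity -/
noncomputable def ph (ρ : ℕ → ℕ → ℝ) (σ u : ℕ → ℂ → ℂ) (n : ℕ) (s : ℂ) : ℂ :=
  lf (ρ n) n σ s + u n s

/-- the exponents of a tower -/
structure Ex (J : ℕ) (td : ℕ → Prop) (ρ cc : ℕ → ℕ → ℝ) : Prop where
  rho_nn : ∀ a b, 0 ≤ ρ a b
  cc_nn : ∀ a b, 0 ≤ cc a b
  supp : ∀ a b, a ≤ b → ρ a b = 0
  pos : ∀ a < J, td a → ∃ b, 0 < ρ a b
  inc : ∀ a b, a < b → b < J → td a → td b → (∀ i, ρ a i ≤ ρ b i) ∧ ∃ i, ρ a i < ρ b i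

/-- the constraint of the level `n` -/
def cs (td : ℕ → Prop) (ρ : ℕ → ℕ → ℝ) (σ u : ℕ → ℂ → ℂ) (R : ℝ) (n : ℕ) (s : ℂ) : Prop :=
  σ n s ∈ Om R ∧ (td n → |(ph ρ σ u n s).im| < Real.pi / 2)

/-- preimages of the domains -/
structure Zs (J : ℕ) (td : ℕ → Prop) (ρ : ℕ → ℕ → ℝ) (σ u : ℕ → ℂ → ℂ) (R : ℝ)
    (Z : ℕ → Set ℂ) : Prop where
  R0 : 0 ≤ R
  Z0 : Z 0 = univ
  Zo : ∀ n ≤ J, IsOpen (Z n)
  Zm : ∀ n < J, Z (n + 1) ⊆ Z n
  Zc : ∀ n < J, ∀ s ∈ Z (n + 1), cs td ρ σ u R n s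
  Zp : ∀ n < J, ∀ P : Set ℂ, IsPreconnected P → P ⊆ Z n → (∀ s ∈ P, cs td ρ σ u R n s) →
    (P ∩ Z (n + 1)).Nonempty → P ⊆ Z (n + 1)

/-- a function of the class along the curve -/
def Dec (γ C : ℝ) (σ : ℕ → ℂ → ℂ) (Z : ℕ → Set ℂ) (n : ℕ) (g : ℂ → ℂ) : Prop :=
  ∃ (k : ℂ) (v : ℕ → ℂ → ℂ), (∀ s ∈ Z n, g s = k + ∑ b ∈ range n, v b s) ∧
    ∀ b < n, DifferentiableOn ℂ (v b) (Z (b + 1)) ∧
      ∀ s ∈ Z (b + 1), ‖v b s‖ ≤ C * Real.exp (-γ * (σ b s).re)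

/-- a holomorphic curve in a tower -/
structure Sec (J : ℕ) (td : ℕ → Prop) (ρ cc : ℕ → ℕ → ℝ) (γ C R : ℝ) (p : ℕ → ℝ)
    (σ u : ℕ → ℂ → ℂ) (Z : ℕ → Set ℂ) : Prop extends Zs J td ρ σ u R Z where
  C0 : 0 ≤ C
  free : ∀ n < J, ¬ td n → (∀ s ∈ Z n, σ n s = p n + s) ∨
    ∃ m, n = m + 1 ∧ 0 ≤ p n ∧ ∀ s ∈ Z n, σ n s = p n + σ m s
  tied : ∀ n < J, td n → ∀ s ∈ Z n, σ n s = Complex.exp (ph ρ σ u n s) - lf (cc n) n σ s
  dec : ∀ n < J, td n → Dec γ C σ Z n (u n)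
  bd : ∀ n < J, td n → ∀ s ∈ Z n, ‖u n s‖ ≤ C
  re : ∀ n < J, td n → ∀ x : ℝ, (x : ℂ) ∈ Z n → (u n x).im = 0

theorem Ex.consts {J : ℕ} {td : ℕ → Prop} {ρ cc : ℕ → ℕ → ℝ} (h : Ex J td ρ cc) :
    ∃ τ T : ℝ, 0 < τ ∧ τ ≤ 1 ∧ 0 ≤ T ∧ (∀ a < J, ∀ b < J, ρ a b ≤ T ∧ cc a b ≤ T) ∧
      (∀ a < J, ∀ b, 0 < ρ a b → τ ≤ ρ a b) ∧
      ∀ a < J, ∀ b < J, ∀ i, ρ a i < ρ b i → τ ≤ ρ b i - ρ a i := by
  have e1 : ∀ᶠ T : ℝ in atTop, ∀ a ∈ range J, ∀ b ∈ range J, ρ a b ≤ T ∧ cc a b ≤ T := by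
    simp only [eventually_all_finset]
    exact fun a _ b _ => (eventually_ge_atTop _).and (eventually_ge_atTop _)
  have e0 : ∀ {x : ℝ}, ∀ᶠ τ : ℝ in 𝓝[>] 0, 0 < x → τ ≤ x := by
    intro x
    by_cases hx : 0 < x
    · filter_upwards [mem_nhdsWithin_of_mem_nhds (Iic_mem_nhds hx)] with τ hτ _ using hτ
    · exact Eventually.of_forall fun τ h' => absurd h' hx
  have e2 : ∀ᶠ τ : ℝ in 𝓝[>] 0, ∀ a ∈ range J, ∀ b ∈ range J, 0 < ρ a b → τ ≤ ρ a b := by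
    simp only [eventually_all_finset]
    exact fun a _ b _ => e0
  have e3 : ∀ᶠ τ : ℝ in 𝓝[>] 0, ∀ a ∈ range J, ∀ b ∈ range J, ∀ i ∈ range J,
      0 < ρ b i - ρ a i → τ ≤ ρ b i - ρ a i := by
    simp only [eventually_all_finset]
    exact fun a _ b _ i _ => e0
  obtain ⟨T, hT, hT0⟩ := (e1.and (eventually_ge_atTop 0)).exists
  obtain ⟨τ, ⟨h2, h3⟩, h4, h5⟩ := ((e2.and e3).and ((e0 (x := 1)).and self_mem_nhdsWithin)).exists
  refine ⟨τ, T, h5, h4 one_pos, hT0, fun a ha b hb => hT a (by simpa) b (by simpa),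
    fun a ha b hb => h2 a (by simpa) b ?_ hb,
    fun a ha b hb i hi => h3 a (by simpa) b (by simpa) i ?_ (by linarith)⟩
  · by_contra hc
    rw [h.supp a b (by simp at hc; omega)] at hb
    exact lt_irrefl _ hb
  · by_contra hc
    rw [h.supp b i (by simp at hc; omega)] at hi
    exact absurd (h.rho_nn a i) (by linarith)

theorem lf_diffOn {ρ : ℕ → ℝ} {n : ℕ} {ω : ℕ → ℂ → ℂ} {Z : Set ℂ}
    (h : ∀ i < n, DifferentiableOn ℂ (ω i) Z) : DifferentiableOn ℂ (lf ρ n ω) Z :=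
  DifferentiableOn.fun_sum fun i hi => (h i (by simpa using hi)).const_mul _

theorem lf_hasDerivAt {ρ : ℕ → ℝ} {n : ℕ} {ω : ℕ → ℂ → ℂ} {s : ℂ}
    (h : ∀ i < n, DifferentiableAt ℂ (ω i) s) :
    HasDerivAt (lf ρ n ω) (∑ i ∈ range n, (ρ i : ℂ) * deriv (ω i) s) s :=
  HasDerivAt.fun_sum fun i hi => ((h i (by simpa using hi)).hasDerivAt).const_mul _

theorem lf_ext {ρ : ℕ → ℝ} {m n : ℕ} (h : ∀ i, m ≤ i → ρ i = 0) (hn : m ≤ n) (σ : ℕ → ℂ → ℂ) :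
    lf ρ n σ = lf ρ m σ := by
  ext s
  simp only [lf]
  symm
  refine sum_subset (range_mono hn) fun i _ hi => ?_
  rw [h i (by simpa using hi)]; simp

theorem lf_re (ρ : ℕ → ℝ) (n : ℕ) (σ : ℕ → ℂ → ℂ) (s : ℂ) :
    (lf ρ n σ s).re = ∑ i ∈ range n, ρ i * (σ i s).re := by
  simp [lf]

theorem lf_im (ρ : ℕ → ℝ) (n : ℕ) (σ : ℕ → ℂ → ℂ) (s : ℂ) :
    (lf ρ n σ s).im = ∑ i ∈ range n, ρ i * (σ i s).im := by
  simp [lf]

theorem lf_sub (ρ σ : ℕ → ℝ) (n : ℕ) (ω : ℕ → ℂ → ℂ) (s : ℂ) :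
    lf (ρ - σ) n ω s = lf ρ n ω s - lf σ n ω s := by
  simp only [lf, ← sum_sub_distrib, Pi.sub_apply, Complex.ofReal_sub, sub_mul]

/-- a function which is real at real points has a real derivative there -/
theorem deriv_im_zero {f : ℂ → ℂ} {x : ℝ} {Z : Set ℂ} (hZ : Z ∈ 𝓝 (x : ℂ))
    (hf : DifferentiableAt ℂ f x) (h : ∀ y : ℝ, (y : ℂ) ∈ Z → (f y).im = 0) :
    (deriv f x).im = 0 := by
  have h1 : HasDerivAt (fun y : ℝ => f y) (deriv f x) x := hf.hasDerivAt.comp_ofReal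
  have h2 : HasDerivAt (fun y : ℝ => (f y).im) (deriv f x).im x :=
    Complex.imCLM.hasFDerivAt.comp_hasDerivAt x h1
  have h3 : HasDerivAt (fun y : ℝ => (f y).im) 0 x :=
    (hasDerivAt_const x (0 : ℝ)).congr_of_eventuallyEq
      (mem_of_superset (Complex.continuous_ofReal.continuousAt hZ) fun y hy => h y hy)
  exact h2.unique h3

theorem hasDerivAt_re {f : ℂ → ℂ} {f' : ℂ} {x : ℝ} (hf : HasDerivAt f f' x) :
    HasDerivAt (fun y : ℝ => (f y).re) f'.re x := hf.real_of_complex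

/-- growth along the ray from a lower bound of the derivative -/
theorem ray_grow {f f' : ℝ → ℝ} {x0 m : ℝ} (h : ∀ x, x0 ≤ x → HasDerivAt f (f' x) x)
    (hm : ∀ x, x0 ≤ x → m ≤ f' x) {x : ℝ} (hx : x0 ≤ x) : f x0 + m * (x - x0) ≤ f x := by
  have := (convex_Ici x0).mul_sub_le_image_sub_of_le_deriv (f := f) (C := m)
    (fun y hy => (h y hy).continuousAt.continuousWithinAt)
    (fun y hy => (h y (interior_subset hy)).differentiableAt.differentiableWithinAt)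
    (fun y hy => by rw [(h y (interior_subset hy)).deriv]; exact hm y (interior_subset hy))
    x0 (mem_Ici.2 le_rfl) x hx hx
  linarith

/-- mean value estimate along a vertical segment -/
theorem vert_mv {f : ℂ → ℂ} {s b : ℂ} {e : ℝ}
    (h : ∀ τ ∈ Icc (0 : ℝ) 1, DifferentiableAt ℂ f (s.re + τ * s.im * Complex.I) ∧
      ‖deriv f (s.re + τ * s.im * Complex.I) - b‖ ≤ e) :
    ‖f s - f s.re - s.im * Complex.I * b‖ ≤ e * |s.im| := by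
  set g : ℝ → ℂ := fun τ => f (s.re + τ * s.im * Complex.I) - τ * (s.im * Complex.I * b) with hg
  have hd : ∀ τ ∈ Icc (0 : ℝ) 1, HasDerivWithinAt g
      (s.im * Complex.I * (deriv f (s.re + τ * s.im * Complex.I) - b)) (Icc 0 1) τ := by
    intro τ hτ
    have h1 : HasDerivAt (fun z : ℂ => (s.re : ℂ) + z * s.im * Complex.I) (s.im * Complex.I) τ := by
      simpa using (((hasDerivAt_id (τ : ℂ)).mul_const (s.im : ℂ)).mul_const Complex.I).const_add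
        (s.re : ℂ)
    have h2 := ((h τ hτ).1.hasDerivAt.comp (τ : ℂ) h1).sub
      ((hasDerivAt_id (τ : ℂ)).mul_const (s.im * Complex.I * b))
    have h3 := h2.comp_ofReal
    refine HasDerivAt.hasDerivWithinAt ?_
    refine HasDerivAt.congr_deriv h3 ?_
    ring
  have := norm_image_sub_le_of_norm_deriv_le_segment_01' (C := e * |s.im|) hd (fun τ hτ => by
    rw [norm_mul, norm_mul, Complex.norm_I, Complex.norm_real, Real.norm_eq_abs, mul_one, mul_comm]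
    exact mul_le_mul_of_nonneg_right (h τ (Ico_subset_Icc_self hτ)).2 (abs_nonneg _))
  simp only [hg, Complex.ofReal_one, one_mul, Complex.ofReal_zero, zero_mul, add_zero,
    sub_zero, Complex.re_add_im] at this
  rwa [sub_right_comm]

end Crest.Agent.N207.O.Q
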