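import Crest.Agent.N207.O.Sec2b

/-! Row 207, block O (helper76): asymptotics on vertically star shaped sets. -/

set_option autoImplicit false

namespace Crest.Agent.N207.O.Q

open Set Filter Finset Asymptotics
open scoped Topology

variable {J : ℕ} {td : ℕ → Prop} {ρ cc : ℕ → ℕ → ℝ} {γ C R τ T R1 : ℝ} {p : ℕ → ℝ}
  {σ u : ℕ → ℂ → ℂ} {Z : ℕ → Set ℂ} {S : Set ℂ}

/-- vertical segment -/
noncomputable def vs (s : ℂ) (t : ℝ) : ℂ := s.re + t * s.im * Complex.I

@[simp] theorem vs_re (s : ℂ) (t : ℝ) : (vs s t).re = s.re := by simp [vs]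
@[simp] theorem vs_im (s : ℂ) (t : ℝ) : (vs s t).im = t * s.im := by simp [vs]
@[simp] theorem vs_zero (s : ℂ) : vs s 0 = s.re := by simp [vs]
@[simp] theorem vs_one (s : ℂ) : vs s 1 = s := by simp [vs]

/-- vertically star shaped -/
def Star (S : Set ℂ) : Prop := ∀ s ∈ S, ∀ t ∈ Icc (0 : ℝ) 1, vs s t ∈ S

/-- far right in `S` -/
def FS (S : Set ℂ) : Filter ℂ := comap Complex.re atTop ⊓ 𝓟 S

theorem ev_FS {P : ℂ → Prop} : (∀ᶠ s in FS S, P s) ↔ ∃ X : ℝ, ∀ s ∈ S, X ≤ s.re → P s := by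
  rw [FS, eventually_inf_principal, eventually_comap, eventually_atTop]
  exact ⟨fun ⟨X, h⟩ => ⟨X, fun s hs hX => h _ hX s rfl hs⟩,
    fun ⟨X, h⟩ => ⟨X, fun b hb s e hs => h s hs (e ▸ hb)⟩⟩

theorem re_FS : Tendsto Complex.re (FS S) atTop := tendsto_comap.mono_left inf_le_left

theorem mem_FS : ∀ᶠ s in FS S, s ∈ S := ev_FS.2 ⟨0, fun _ h _ => h⟩

theorem FS_mono {S' : Set ℂ} (h : S ⊆ S') : FS S ≤ FS S' := inf_le_inf_left _ (principal_mono.2 h)

theorem Star.ev (h : Star S) {P : ℂ → Prop} (hP : ∀ᶠ s in FS S, P s) :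
    ∀ᶠ s in FS S, ∀ t ∈ Icc (0 : ℝ) 1, P (vs s t) := by
  obtain ⟨X, hX⟩ := ev_FS.1 hP
  exact ev_FS.2 ⟨X, fun s hs h' t ht => hX _ (h s hs t ht) (by simpa using h')⟩

theorem pos_FS : ∀ᶠ s in FS S, 0 ≤ s.re := re_FS.eventually (eventually_ge_atTop 0)

/-- everything known about the ray -/
structure Sit (J : ℕ) (td : ℕ → Prop) (ρ cc : ℕ → ℕ → ℝ) (γ C R τ T : ℝ) (p : ℕ → ℝ)
    (σ u : ℕ → ℂ → ℂ) (Z : ℕ → Set ℂ) : Prop where
  hE : Ex J td ρ cc
  hS : Sec J td ρ cc γ C R p σ u Z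
  hK : Cn J ρ cc τ T
  γ0 : 0 < γ
  s0 : (0 : ℂ) ∈ Z J
  ry : ∀ a < J, ∀ x, 0 ≤ x → Ry td ρ cc τ σ u Z a x

/-- level `b` is good on `S` -/
structure Gd (td : ℕ → Prop) (ρ : ℕ → ℕ → ℝ) (σ u : ℕ → ℂ → ℂ) (S : Set ℂ) (b : ℕ) : Prop where
  lo : ∀ r : ℝ, ∀ᶠ s in FS S, r * √(oo σ b s.re) ≤ (σ b s).re
  nb : ∃ B : ℝ, 1 ≤ B ∧ ∀ᶠ s in FS S, ‖σ b s‖ ≤ B * oo σ b s.re
  arg : td b → ∀ᶠ s in FS S, |(ph ρ σ u b s).im| < Real.pi / 2

theorem Gd.mono {b : ℕ} {S' : Set ℂ} (g : Gd td ρ σ u S' b) (h : S ⊆ S') : Gd td ρ σ u S b :=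
  ⟨fun r => (g.lo r).filter_mono (FS_mono h),
    g.nb.imp fun _ hB => ⟨hB.1, hB.2.filter_mono (FS_mono h)⟩,
    fun ht => (g.arg ht).filter_mono (FS_mono h)⟩

namespace Sit

variable (H : Sit J td ρ cc γ C R τ T p σ u Z)
include H

theorem oo_top {a : ℕ} (ha : a < J) : Tendsto (oo σ a) atTop atTop :=
  tendsto_atTop_mono' _ ((eventually_ge_atTop 0).mono fun x hx => (H.ry a ha x hx).grow)
    (tendsto_atTop_add_const_left _ _ tendsto_id)

theorem oo_pos {a : ℕ} (ha : a < J) {x : ℝ} (hx : 0 ≤ x) : 0 < oo σ a x :=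
  H.hS.re_pos (Nat.lt_succ_self a) ha (H.ry a ha x hx).mem

theorem dle {a : ℕ} (ha : a < J) : ∀ᶠ x in atTop, dd σ a x ≤ (Kd J T C * oo σ a x) ^ J := by
  have e : ∀ᶠ x in atTop, ∀ i ∈ range (a + 1), (2 * R + 1) * (1 + √(oo σ i x)) < oo σ i x :=
    (eventually_all_finset _).2 fun i hi =>
      (H.oo_top (by simp at hi; omega)).eventually (ev_pw _)
  filter_upwards [e, eventually_ge_atTop 0, (H.oo_top ha).eventually (eventually_ge_atTop 1)]
    with x h1 hx h2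
  refine (Complex.re_le_norm _).trans (sig_der H.hE H.hS H.hK.T0 H.hK.k1 ha (H.ry a ha x hx).mem
    (fun i hi => real_pw (H.ry i (by omega) x hx).im (H.oo_pos (by omega) hx).le
      (h1 i (by simp; omega))) h2 fun i hi => ?_)
  rw [norm_of_im (H.ry i (by omega) x hx).im (H.oo_pos (by omega) hx).le]
  exact ((H.ry a ha x hx).ord i hi).1

theorem fo_ge {β : ℕ → ℝ} (hβ : ∀ i, 0 ≤ β i) {n i : ℕ} (hn : n ≤ J) (hi : i < n) {x : ℝ}
    (hx : 0 ≤ x) : β i * oo σ i x ≤ fo β n σ x :=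
  single_le_sum (f := fun j => β j * oo σ j x) (fun j hj => mul_nonneg (hβ j)
    (H.oo_pos (by simp at hj; omega) hx).le) (by simpa)

theorem fd_ge {β : ℕ → ℝ} (hβ : ∀ i, 0 ≤ β i) {n i : ℕ} (hn : n ≤ J) (hi : i < n) {x : ℝ}
    (hx : 0 ≤ x) : β i * dd σ i x ≤ fd β n σ x :=
  single_le_sum (f := fun j => β j * dd σ j x) (fun j hj => mul_nonneg (hβ j)
    (by linarith [(H.ry j (by simp at hj; omega) x hx).d1])) (by simpa)

theorem fo_top {β : ℕ → ℝ} (hβ : ∀ i, 0 ≤ β i) {n i : ℕ} (hn : n ≤ J) (hi : i < n)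
    (h0 : 0 < β i) : Tendsto (fo β n σ) atTop atTop :=
  tendsto_atTop_mono' _ ((eventually_ge_atTop 0).mono fun _ hx => H.fo_ge hβ hn hi hx)
    ((H.oo_top (by omega)).const_mul_atTop h0)

theorem grow {β : ℕ → ℝ} (hβ : ∀ i, 0 ≤ β i) {n i : ℕ} (hn : n ≤ J) (hi : i < n) (h0 : 0 < β i) :
    Tendsto (fun x => (1 + fd β n σ x) * Real.exp (-(fo β n σ x / 2))) atTop (𝓝 0) := by
  have h1 : Tendsto (fun x => Real.exp (-(fo β n σ x / 2))) atTop (𝓝 0) :=
    Real.tendsto_exp_neg_atTop_nhds_zero.comp ((H.fo_top hβ hn hi h0).atTop_div_const two_pos)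
  have h2 : ∀ j ∈ range n,
      Tendsto (fun x => β j * dd σ j x * Real.exp (-(fo β n σ x / 2))) atTop (𝓝 0) := by
    intro j hj
    have hj : j < n := by simpa using hj
    rcases (hβ j).eq_or_lt with h | h
    · simp [← h]
    have h3 := ((tendsto_exp_pow (half_pos h) (Kd J T C) J).comp (H.oo_top (a := j)
      (by omega))).const_mul (β j)
    rw [mul_zero] at h3
    refine squeeze_zero' ?_ ?_ h3
    · filter_upwards [eventually_ge_atTop 0] with x hx
      have := (H.ry j (by omega) x hx).d1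
      positivity
    · filter_upwards [eventually_ge_atTop 0, H.dle (a := j) (by omega)] with x hx h4
      have h5 := H.fo_ge hβ hn hj hx
      rw [mul_assoc, mul_comm (dd σ j x)]
      exact mul_le_mul_of_nonneg_left (mul_le_mul (Real.exp_le_exp.2 (by linarith)) h4
        (by linarith [(H.ry j (by omega) x hx).d1]) (Real.exp_pos _).le) h.le
  have h4 := h1.add (tendsto_finset_sum _ h2)
  simp only [sum_const_zero, add_zero] at h4
  refine h4.congr fun x => ?_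
  rw [← sum_mul, add_mul, one_mul, fd]

theorem pw_of_gd {b : ℕ} (hb : b < J) (g : Gd td ρ σ u S b) (r : ℝ) :
    ∀ᶠ s in FS S, σ b s ∈ Pw r := by
  obtain ⟨B, hB, h⟩ := g.nb
  filter_upwards [h, g.lo (|r| * (1 + √B) + 1),
    re_FS.eventually ((H.oo_top hb).eventually (eventually_ge_atTop 1))] with s h1 h2 h3
  have h4 : √‖σ b s‖ ≤ √B * √(oo σ b s.re) := by
    rw [← Real.sqrt_mul (by linarith)]; exact Real.sqrt_le_sqrt h1
  have h5 : 1 ≤ √(oo σ b s.re) := Real.one_le_sqrt.2 h3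
  have h6 := Real.sqrt_nonneg ‖σ b s‖
  have h7 := le_abs_self r
  have h8 := abs_nonneg r
  show r * (1 + √‖σ b s‖) < _
  nlinarith

theorem mem_of_gd (hS : Star S) {R' : ℝ} {Z' : ℕ → Set ℂ} (hZ : Zs J td ρ σ u R' Z')
    (s0 : (0 : ℂ) ∈ Z' J) : ∀ n ≤ J, (∀ b < n, Gd td ρ σ u S b) → ∀ᶠ s in FS S, s ∈ Z' n := by
  intro n
  induction n with
  | zero => intro _ _; simp [hZ.Z0]
  | succ n ih =>
    intro hn g
    have e : ∀ᶠ s in FS S, cs td ρ σ u R' n s := by
      have h1 := H.pw_of_gd hn (g n (by omega)) (2 * R' + 1)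
      by_cases ht : td n
      · filter_upwards [h1, (g n (by omega)).arg ht] with s a1 a2
        exact ⟨pw_margin hZ.R0 a1 (by simp), fun _ => a2⟩
      · filter_upwards [h1] with s a1
        exact ⟨pw_margin hZ.R0 a1 (by simp), fun h => absurd h ht⟩
    filter_upwards [hS.ev (ih (by omega) fun b hb => g b (by omega)), hS.ev e, pos_FS]
      with s h1 h2 h3
    refine hZ.Zp n hn (vs s '' Icc 0 1) (isPreconnected_Icc.image _ (by unfold vs; fun_prop))
      (by rintro _ ⟨t, ht, rfl⟩; exact h1 t ht) (by rintro _ ⟨t, ht, rfl⟩; exact h2 t ht)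
      ⟨_, ⟨0, by simp, rfl⟩, ?_⟩ ⟨1, by simp, by simp⟩
    rw [vs_zero]; exact ray_mem hZ s0 H.ry _ hn _ h3

theorem mem (hS : Star S) {n : ℕ} (hn : n ≤ J) (g : ∀ b < n, Gd td ρ σ u S b) :
    ∀ᶠ s in FS S, s ∈ Z n := H.mem_of_gd hS H.hS.toZs H.s0 n hn g

theorem ud_zero (hS : Star S) {a : ℕ} (ha : a < J) (hta : td a) (g : ∀ b < a, Gd td ρ σ u S b) :
    Tendsto (deriv (u a)) (FS S) (𝓝 0) := by
  have hB : ∀ᶠ B : ℝ in atTop, ∀ i ∈ range a, ∀ᶠ s in FS S, ‖σ i s‖ ≤ B * oo σ i s.re := by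
    refine (eventually_all_finset _).2 fun i hi => ?_
    have hi : i < a := by simpa using hi
    obtain ⟨B, -, h⟩ := (g i hi).nb
    filter_upwards [eventually_ge_atTop B] with B' hB'
    filter_upwards [h, pos_FS] with s h1 h2
    exact h1.trans (mul_le_mul_of_nonneg_right hB' (H.oo_pos (by omega) h2).le)
  obtain ⟨B, hB, B1⟩ := (hB.and (eventually_ge_atTop 1)).exists
  have hC := H.hS.C0
  have hK := Kd_ge (J := J) H.hK.T0 hC
  have t1 : ∀ b ∈ range a, Tendsto (fun s : ℂ => 2 * C * Real.exp γ *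
      (Real.exp (-γ * (σ b s).re) * (Kd J T C * (B * oo σ b s.re)) ^ J)) (FS S) (𝓝 0) := by
    intro b hb
    have hb : b < a := by simpa using hb
    have h1 := ((tendsto_exp_pow H.γ0 (√(Kd J T C * B)) (2 * J)).comp
      (Real.tendsto_sqrt_atTop.comp ((H.oo_top (a := b) (by omega)).comp
        (re_FS (S := S))))).const_mul (2 * C * Real.exp γ)
    rw [mul_zero] at h1
    refine squeeze_zero' ?_ ?_ h1
    · filter_upwards [pos_FS] with s hs
      have := H.oo_pos (a := b) (by omega) hs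
      positivity
    · filter_upwards [pos_FS, (g b hb).lo 1] with s hs h2
      have := H.oo_pos (a := b) (by omega) hs
      simp only [Function.comp]
      rw [pow_mul, mul_pow (√_), Real.sq_sqrt (by positivity), Real.sq_sqrt this.le, mul_assoc _ B]
      refine mul_le_mul_of_nonneg_left (mul_le_mul_of_nonneg_right (Real.exp_le_exp.2 ?_)
        (by positivity)) (by positivity)
      nlinarith [H.γ0]
  have t2 := tendsto_finset_sum _ t1
  rw [sum_const_zero] at t2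
  refine squeeze_zero_norm' ?_ t2
  filter_upwards [H.mem hS ha.le g, (eventually_all_finset _).2 hB, pos_FS,
    (eventually_all_finset (range a)).2 fun b hb =>
      H.pw_of_gd (by simp at hb; omega) (g b (by simpa using hb)) (2 * R + 1),
    (eventually_all_finset (range a)).2 fun b hb => re_FS.eventually
      ((H.oo_top (a := b) (by simp at hb; omega)).eventually (eventually_ge_atTop 1))]
    with s h1 h2 h3 h4 h5
  refine (H.hS.dec a ha hta).der H.hE H.hS H.hK.T0 H.hK.k1 ha.le h1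
    (M := fun b => B * oo σ b s.re) (fun b hb => h4 b (by simpa))
    (fun b hb => by nlinarith [h5 b (by simpa)]) (fun b hb i hi => ?_) H.γ0.le hC
  exact (h2 i (by simp; omega)).trans (mul_le_mul_of_nonneg_left
    ((H.ry b (by omega) _ h3).ord i hi).1 (by linarith))

/-- upper bound of the real part of a scale -/
theorem re_up : ∀ b < J, ∃ P : ℝ, (∀ s ∈ Z b, (σ b s).re ≤ P + s.re) ∨
    ∃ i ≤ b, td i ∧ ∀ s ∈ Z b, (σ b s).re ≤ P + (Complex.exp (ph ρ σ u i s)).re := by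
  intro b
  induction b using Nat.strong_induction_on with
  | _ b ih =>
  intro hb
  by_cases ht : td b
  · refine ⟨0, Or.inr ⟨b, le_rfl, ht, fun s hs => ?_⟩⟩
    rw [H.hS.tied b hb ht s hs, Complex.sub_re, lf_re]
    have : 0 ≤ ∑ i ∈ range b, cc b i * (σ i s).re := sum_nonneg fun i hi =>
      mul_nonneg (H.hE.cc_nn b i) (H.hS.re_pos (by simpa using hi) hb.le hs).le
    linarith
  · rcases H.hS.free b hb ht with h1 | ⟨m, rfl, -, h1⟩
    · exact ⟨p b, Or.inl fun s hs => by simp [h1 s hs]⟩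
    · obtain ⟨P, h | ⟨i, hi, hti, h⟩⟩ := ih m (by omega) (by omega)
      · refine ⟨p (m + 1) + P, Or.inl fun s hs => ?_⟩
        have := h s (H.hS.Zm m (by omega) hs)
        simp [h1 s hs]; linarith
      · refine ⟨p (m + 1) + P, Or.inr ⟨i, by omega, hti, fun s hs => ?_⟩⟩
        have := h s (H.hS.Zm m (by omega) hs)
        simp only [h1 s hs, Complex.add_re, Complex.ofReal_re]; linarith

end Sit

end Crest.Agent.N207.O.Q
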