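import Crest.Agent.N207.O.Sec3

/-! Row 207, block O (helper76): a tied level on a star shaped set. -/

set_option autoImplicit false

namespace Crest.Agent.N207.O.Q

open Set Filter Finset Asymptotics
open scoped Topology

variable {J : ℕ} {td : ℕ → Prop} {ρ cc : ℕ → ℕ → ℝ} {γ C R τ T R1 : ℝ} {p : ℕ → ℝ}
  {σ u : ℕ → ℂ → ℂ} {Z : ℕ → Set ℂ} {S : Set ℂ}

/-- the derivative of the scale is almost constant on vertical segments -/
def Eq1 (σ : ℕ → ℂ → ℂ) (S : Set ℂ) (b : ℕ) : Prop :=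
  ∀ ε : ℝ, 0 < ε → ∀ᶠ s in FS S, ‖deriv (σ b) s - dd σ b s.re‖ ≤ ε * dd σ b s.re

theorem Eq1.mono {b : ℕ} {S' : Set ℂ} (g : Eq1 σ S' b) (h : S ⊆ S') : Eq1 σ S b :=
  fun ε hε => (g ε hε).filter_mono (FS_mono h)

theorem lf_ext' {β : ℕ → ℝ} {m n : ℕ} (h1 : ∀ i, m ≤ i → β i = 0) (h2 : ∀ i, n ≤ i → β i = 0) :
    lf β m σ = lf β n σ := by
  rw [← lf_ext h1 (le_max_left m n), lf_ext h2 (le_max_right m n)]

theorem fd_ext' {β : ℕ → ℝ} {m n : ℕ} (h1 : ∀ i, m ≤ i → β i = 0) (h2 : ∀ i, n ≤ i → β i = 0)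
    (x : ℝ) : fd β m σ x = fd β n σ x := by
  rw [fd, fd, ← wsum_ext h1 (le_max_left m n), wsum_ext h2 (le_max_right m n)]

theorem lfe {β : ℕ → ℝ} (hβ : ∀ i, 0 ≤ β i) {n : ℕ} (hE : ∀ b < n, Eq1 σ S b) {ε : ℝ} (hε : 0 < ε) :
    ∀ᶠ s in FS S, ‖∑ i ∈ range n, (β i : ℂ) * deriv (σ i) s - fd β n σ s.re‖ ≤
      ε * fd β n σ s.re := by
  filter_upwards [(eventually_all_finset (range n)).2 fun b hb => hE b (by simpa using hb) ε hε]
    with s h
  rw [fd, Complex.ofReal_sum, ← sum_sub_distrib, mul_sum]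
  refine norm_sum_le_of_le _ fun i hi => ?_
  rw [Complex.ofReal_mul, ← mul_sub, norm_mul, Complex.norm_real, Real.norm_eq_abs,
    abs_of_nonneg (hβ i), mul_left_comm]
  exact mul_le_mul_of_nonneg_left (h i hi) (hβ i)

theorem im_le_of {w : ℂ} {y f e : ℝ} (h : ‖w - y * Complex.I * f‖ ≤ e) :
    |w.im - y * f| ≤ e ∧ |w.re| ≤ e := by
  have h1 := (Complex.abs_im_le_norm _).trans h
  have h2 := (Complex.abs_re_le_norm _).trans h
  constructor
  · simpa using h1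
  · simpa using h2

namespace Sit

variable (H : Sit J td ρ cc γ C R τ T p σ u Z)
include H

theorem mva (hS : Star S) {β : ℕ → ℝ} (hβ : ∀ i, 0 ≤ β i) {n i : ℕ} (hn : n ≤ J) (hi : i < n)
    (hτ : τ ≤ β i) (hE : ∀ b < n, Eq1 σ S b) (g : ∀ b < n, Gd td ρ σ u S b) {v : ℂ → ℂ}
    (hv : ∀ᶠ s in FS S, DifferentiableAt ℂ v s) (hv0 : Tendsto (deriv v) (FS S) (𝓝 0)) {ε : ℝ}
    (hε : 0 < ε) : ∀ᶠ s in FS S, ‖lf β n σ s + v s - (lf β n σ s.re + v s.re) -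
      s.im * Complex.I * fd β n σ s.re‖ ≤ ε * fd β n σ s.re * |s.im| := by
  have τ0 := H.hK.τ0
  have e : ∀ᶠ s in FS S, DifferentiableAt ℂ (fun s => lf β n σ s + v s) s ∧
      ‖deriv (fun s => lf β n σ s + v s) s - fd β n σ s.re‖ ≤ ε * fd β n σ s.re := by
    filter_upwards [H.mem hS hn g, hv, lfe hβ hE (half_pos hε), pos_FS,
      (tendsto_zero_iff_norm_tendsto_zero.1 hv0).eventually
        (ge_mem_nhds (by positivity : 0 < ε / 2 * τ))] with s h1 h2 h3 h4 h5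
    have d := (lf_hasDerivAt (ρ := β) fun b hb => H.hS.dAt hb.le (by omega) hn h1).add h2.hasDerivAt
    refine ⟨d.differentiableAt, ?_⟩
    rw [show deriv (fun s => lf β n σ s + v s) s = _ from d.deriv, add_sub_right_comm]
    have h6 := H.fd_ge hβ hn hi h4
    have h7 := (H.ry i (by omega) _ h4).d1
    have h8 : τ ≤ fd β n σ s.re := by nlinarith
    exact (norm_add_le _ _).trans (by nlinarith)
  filter_upwards [hS.ev e] with s h
  exact vert_mv (f := fun s => lf β n σ s + v s) fun t ht => by simpa [vs] using h t ht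

theorem le_top {a i : ℕ} (ha : a < J) (hta : td a) (hi : i ≤ a) (hti : td i) (j : ℕ) :
    ρ i j ≤ ρ a j := by
  rcases hi.eq_or_lt with rfl | h
  · exact le_rfl
  · exact (H.hE.inc i a h ha hti hta).1 j

theorem u_dif (hS : Star S) {a : ℕ} (ha : a < J) (hta : td a) (g : ∀ b < a, Gd td ρ σ u S b) :
    ∀ᶠ s in FS S, DifferentiableAt ℂ (u a) s :=
  (H.mem hS ha.le g).mono fun _ hs => H.hS.uAt ha hta hs

theorem ph_mv (hS : Star S) {a n : ℕ} (ha : a < J) (hta : td a) (hn : n ≤ J)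
    (hs : ∀ j, n ≤ j → ρ a j = 0) (hE : ∀ b < n, Eq1 σ S b) (g : ∀ b < n, Gd td ρ σ u S b)
    (g' : ∀ b < a, Gd td ρ σ u S b) {ε : ℝ} (hε : 0 < ε) : ∀ᶠ s in FS S,
      |(ph ρ σ u a s).im - s.im * fd (ρ a) a σ s.re| ≤ ε * fd (ρ a) a σ s.re * |s.im| ∧
      |(ph ρ σ u a s).re - (ph ρ σ u a s.re).re| ≤ ε * fd (ρ a) a σ s.re * |s.im| := by
  obtain ⟨i, hi⟩ := H.hE.pos a ha hta
  have hin : i < n := by by_contra hc; rw [hs i (by omega)] at hi; exact lt_irrefl _ hi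
  filter_upwards [H.mva hS (H.hE.rho_nn a) hn hin (H.hK.k2 a ha i hi) hE g (H.u_dif hS ha hta g')
    (H.ud_zero hS ha hta g') hε, pos_FS] with s h h0
  rw [← lf_ext' (H.hE.supp a) hs, ← fd_ext' (H.hE.supp a) hs] at h
  have h1 := im_le_of h
  have h2 := ((H.ry a ha _ h0).tied hta).2.2.2.2.2.2.2
  simp only [ph] at h2 ⊢
  rwa [Complex.sub_im, Complex.sub_re, h2, sub_zero] at h1

theorem dif_mv (hS : Star S) {a i n : ℕ} (ha : a < J) (hta : td a) (hi : i < a) (hti : td i)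
    (hn : n ≤ J) (hs : ∀ j, n ≤ j → ρ a j = 0) (hE : ∀ b < n, Eq1 σ S b)
    (g : ∀ b < n, Gd td ρ σ u S b) (g' : ∀ b < i, Gd td ρ σ u S b) {v : ℂ → ℂ}
    (hv : ∀ᶠ s in FS S, DifferentiableAt ℂ v s) (hv0 : Tendsto (deriv v) (FS S) (𝓝 0))
    (hr : ∀ x : ℝ, 0 ≤ x → (lf (ρ a) a σ x + v x).im = 0) {ε : ℝ} (hε : 0 < ε) : ∀ᶠ s in FS S,
      |(lf (ρ a) a σ s + v s).im - (ph ρ σ u i s).im - s.im * fd (ρ a - ρ i) a σ s.re| ≤
        ε * fd (ρ a - ρ i) a σ s.re * |s.im| ∧ τ ≤ fd (ρ a - ρ i) a σ s.re := by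
  obtain ⟨m1, k, hk⟩ := H.hE.inc i a hi ha hti hta
  have hβ : ∀ j, 0 ≤ (ρ a - ρ i) j := fun j => sub_nonneg.2 (m1 j)
  have hk0 := (H.hE.rho_nn i k).trans_lt hk
  have hkn : k < n := by by_contra hc; rw [hs k (by omega)] at hk0; exact lt_irrefl _ hk0
  have hs' : ∀ j, n ≤ j → ρ i j = 0 := fun j hj =>
    le_antisymm (hs j hj ▸ m1 j) (H.hE.rho_nn i j)
  have ui := H.u_dif hS (by omega) hti g'
  have t0 : Tendsto (deriv fun s => v s - u i s) (FS S) (𝓝 0) := by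
    have := hv0.sub (H.ud_zero hS (by omega) hti g')
    rw [sub_zero] at this
    refine this.congr' ?_
    filter_upwards [hv, ui] with s h1 h2 using (deriv_fun_sub h1 h2).symm
  have hτ : τ ≤ (ρ a - ρ i) k := H.hK.k3 i (by omega) a ha k hk
  filter_upwards [H.mva hS hβ hn hkn hτ hE g ((hv.and ui).mono fun s h => h.1.sub h.2) t0 hε,
    pos_FS] with s h h0
  rw [← fd_ext' (m := a) (fun j hj => by simp [H.hE.supp a j hj, H.hE.supp i j (by omega)])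
    (fun j hj => by simp [hs j hj, hs' j hj]), lf_sub, lf_sub, ← lf_ext' (H.hE.supp a) hs,
    ← lf_ext' (H.hE.supp i) hs'] at h
  have h1 := (im_le_of h).1
  have h2 := ((H.ry i (by omega) _ h0).tied hti).2.2.2.2.2.2.2
  have h3 := hr _ h0
  have h4 := H.fd_ge hβ ha.le (H.hE.lt_of_pos hk0) h0
  have h5 := (H.ry k (by omega) _ h0).d1
  refine ⟨?_, by nlinarith [H.hK.τ0]⟩
  simp only [ph, Complex.add_im, Complex.sub_im, Pi.sub_apply] at h1 h2 h3 ⊢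
  convert h1 using 2
  linarith

theorem fd_tau {a : ℕ} (ha : a < J) (hta : td a) {x : ℝ} (hx : 0 ≤ x) : τ ≤ fd (ρ a) a σ x := by
  simpa [fd] using H.hE.gap0 H.hK ha hta zero_le_one fun i hi => (H.ry i (by omega) x hx).d1

theorem fd_mono {a i : ℕ} (ha : a < J) (hta : td a) (hi : i ≤ a) (hti : td i) {x : ℝ}
    (hx : 0 ≤ x) : fd (ρ i) i σ x ≤ fd (ρ a) a σ x := by
  rcases hi.eq_or_lt with rfl | h
  · exact le_rfl
  · have := H.hE.gap H.hK h ha hti hta zero_le_one fun i hi => (H.ry i (by omega) x hx).d1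
    unfold fd; linarith [H.hK.τ0]

theorem WW_ge {a : ℕ} (ha : a < J) (hta : td a) {x : ℝ} (hx : 0 ≤ x) :
    Real.exp (fo (ρ a) a σ x - C) ≤ WW ρ σ u a x ∧ WW ρ σ u a x ≤ Real.exp (fo (ρ a) a σ x + C) := by
  have := abs_le.1 ((Complex.abs_re_le_norm _).trans
    (H.hS.bd a ha hta x (H.hS.Zm a ha (H.ry a ha x hx).mem)))
  exact ⟨Real.exp_le_exp.2 (by linarith), Real.exp_le_exp.2 (by linarith)⟩

/-- `β ≪ √W` -/
theorem beta_small {a : ℕ} (ha : a < J) (hta : td a) {ε : ℝ} (hε : 0 < ε) :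
    ∀ᶠ x in atTop, 1 + fd (ρ a) a σ x ≤ ε * √(WW ρ σ u a x) := by
  obtain ⟨i, hi⟩ := H.hE.pos a ha hta
  filter_upwards [(H.grow (H.hE.rho_nn a) ha.le (H.hE.lt_of_pos hi) hi).eventually
    (ge_mem_nhds (by positivity : 0 < ε * Real.exp (-(C / 2)))), eventually_ge_atTop 0]
    with x h hx
  have h1 : Real.exp (fo (ρ a) a σ x / 2) * Real.exp (-(C / 2)) ≤ √(WW ρ σ u a x) := by
    refine Real.le_sqrt_of_sq_le (le_trans (le_of_eq ?_) (H.WW_ge ha hta hx).1)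
    rw [← Real.exp_add, ← Real.exp_nat_mul]; congr 1; push_cast; ring
  rw [Real.exp_neg, ← div_eq_mul_inv, div_le_iff₀ (Real.exp_pos _)] at h
  nlinarith

/-- `x ≪ √W` -/
theorem x_small {a : ℕ} (ha : a < J) (hta : td a) (P : ℝ) :
    ∀ᶠ x in atTop, P + x ≤ √(WW ρ σ u a x) := by
  obtain ⟨i, hi⟩ := H.hE.pos a ha hta
  have τ0 := H.hK.τ0
  have h := (isLittleO_pow_exp_pos_mul_atTop 2 τ0).bound (c := Real.exp (-C) / 4)
    (by positivity)
  filter_upwards [h, eventually_ge_atTop |P|] with x h1 h2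
  have hx := (abs_nonneg P).trans h2
  have h3 := H.hE.gap0 H.hK ha hta hx (f := fun i => oo σ i x) fun i hi => by
    linarith [(H.ry i (by omega) x hx).grow, H.oo_pos (a := i) (by omega) le_rfl]
  refine Real.le_sqrt_of_sq_le (le_trans ?_ (H.WW_ge ha hta hx).1)
  rw [Real.norm_eq_abs, Real.norm_eq_abs, abs_of_nonneg (by positivity),
    abs_of_pos (Real.exp_pos _)] at h1
  have h4 : Real.exp (-C) * Real.exp (τ * x) ≤ Real.exp (fo (ρ a) a σ x - C) := by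
    rw [← Real.exp_add]; exact Real.exp_le_exp.2 (by unfold fo; linarith)
  have := abs_le.1 h2
  nlinarith

theorem ratio_small {a i : ℕ} (ha : a < J) (hta : td a) (hi : i < a) (hti : td i) {ε : ℝ}
    (hε : 0 < ε) :
    ∀ᶠ x in atTop, WW ρ σ u i x * (1 + fd (ρ a - ρ i) a σ x) ≤ ε * WW ρ σ u a x := by
  obtain ⟨m1, k, hk⟩ := H.hE.inc i a hi ha hti hta
  have hβ : ∀ j, 0 ≤ (ρ a - ρ i) j := fun j => sub_nonneg.2 (m1 j)
  have hka := H.hE.lt_of_pos ((H.hE.rho_nn i k).trans_lt hk)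
  filter_upwards [(H.grow hβ ha.le hka (sub_pos.2 hk)).eventually
    (ge_mem_nhds (by positivity : 0 < ε * Real.exp (-(2 * C)))), eventually_ge_atTop 0,
    (H.fo_top hβ ha.le hka (sub_pos.2 hk)).eventually (eventually_ge_atTop 0)] with x h hx h0
  have e : fo (ρ a - ρ i) a σ x = fo (ρ a) a σ x - fo (ρ i) i σ x := by
    simp only [fo, Pi.sub_apply, sub_mul, sum_sub_distrib, wsum_ext (H.hE.supp i) hi.le]
  rw [Real.exp_neg, ← div_eq_mul_inv, div_le_iff₀ (Real.exp_pos _), mul_assoc,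
    ← Real.exp_add] at h
  have h1 : Real.exp (fo (ρ i) i σ x + C) * Real.exp (-(2 * C) + fo (ρ a - ρ i) a σ x / 2) ≤
      WW ρ σ u a x := by
    rw [← Real.exp_add]
    exact (Real.exp_le_exp.2 (by linarith)).trans (H.WW_ge ha hta hx).1
  have h2 : 0 ≤ 1 + fd (ρ a - ρ i) a σ x := by
    have := H.fd_ge hβ ha.le hka hx
    have := mul_nonneg (hβ k) (zero_le_one.trans (H.ry k (by omega) x hx).d1)
    linarith
  calc _ ≤ Real.exp (fo (ρ i) i σ x + C) *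
        (ε * Real.exp (-(2 * C) + fo (ρ a - ρ i) a σ x / 2)) :=
        mul_le_mul (H.WW_ge (by omega) hti hx).2 h h2 (Real.exp_pos _).le
    _ ≤ _ := by rw [mul_left_comm]; exact mul_le_mul_of_nonneg_left h1 hε.le

end Sit

end Crest.Agent.N207.O.Q
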