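import Crest.Agent.N207.O.Sec3b

/-! Row 207, block O (helper76): a tied level with an angle deficit is good. -/

set_option autoImplicit false

namespace Crest.Agent.N207.O.Q

open Set Filter Finset Asymptotics
open scoped Topology

variable {J : ℕ} {td : ℕ → Prop} {ρ cc : ℕ → ℕ → ℝ} {γ C R τ T R1 : ℝ} {p : ℕ → ℝ}
  {σ u : ℕ → ℂ → ℂ} {Z : ℕ → Set ℂ} {S : Set ℂ}

theorem WW_eq (a : ℕ) (x : ℝ) : WW ρ σ u a x = Real.exp (ph ρ σ u a x).re := by
  simp [WW, ph, lf_re, fo, oo]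

theorem WW_pos (a : ℕ) (x : ℝ) : 0 < WW ρ σ u a x := Real.exp_pos _

theorem cos_le_abs (θ : ℝ) : Real.cos θ ≤ |Real.pi / 2 - abs θ| := by
  rw [← Real.cos_abs, ← Real.sin_pi_div_two_sub]
  exact (le_abs_self _).trans Real.abs_sin_le_abs

theorem half_le_cos {θ : ℝ} (h : |θ| ≤ Real.pi / 2) : (Real.pi / 2 - |θ|) / 2 ≤ Real.cos θ := by
  rw [← Real.cos_abs, ← Real.sin_pi_div_two_sub]
  have h1 := Real.mul_le_sin (x := Real.pi / 2 - |θ|) (by linarith) (by linarith [abs_nonneg θ])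
  have h2 : 1 / 2 ≤ 2 / Real.pi := by
    rw [div_le_div_iff₀ two_pos Real.pi_pos]; linarith [Real.pi_le_four]
  nlinarith

namespace Sit

variable (H : Sit J td ρ cc γ C R τ T p σ u Z)
include H

theorem WW_top {a : ℕ} (ha : a < J) (hta : td a) : Tendsto (WW ρ σ u a) atTop atTop := by
  refine tendsto_atTop_mono' _ ((eventually_ge_atTop 0).mono fun x hx => ?_) (H.oo_top ha)
  have : 0 ≤ fo (cc a) a σ x := sum_nonneg fun i hi => mul_nonneg (H.hE.cc_nn a i)
    (H.oo_pos (by simp at hi; omega) hx).le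
  linarith [((H.ry a ha x hx).tied hta).2.2.1]

theorem oo_le_WW {a : ℕ} (ha : a < J) (hta : td a) {x : ℝ} (hx : 0 ≤ x) :
    oo σ a x ≤ WW ρ σ u a x := by
  have : 0 ≤ fo (cc a) a σ x := sum_nonneg fun i hi => mul_nonneg (H.hE.cc_nn a i)
    (H.oo_pos (by simp at hi; omega) hx).le
  linarith [((H.ry a ha x hx).tied hta).2.2.1]

theorem fd_sub_nn {a i : ℕ} (ha : a < J) (hta : td a) (hi : i ≤ a) (hti : td i) {x : ℝ}
    (hx : 0 ≤ x) : 0 ≤ fd (ρ a - ρ i) a σ x :=
  sum_nonneg fun j hj => mul_nonneg (sub_nonneg.2 (H.le_top ha hta hi hti j))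
    (zero_le_one.trans (H.ry j (by simp at hj; omega) x hx).d1)

theorem oo_small {a b : ℕ} (ha : a < J) (hta : td a) (hb : b < a) {ε : ℝ} (hε : 0 < ε) :
    ∀ᶠ x in atTop, oo σ b x ≤ ε * WW ρ σ u a x := by
  have e : ∀ᶠ x in atTop, √(WW ρ σ u a x) ≤ ε / 2 * WW ρ σ u a x := by
    filter_upwards [(Real.tendsto_sqrt_atTop.comp (H.WW_top ha hta)).eventually
      (eventually_ge_atTop (2 / ε))] with x h
    have h1 := Real.mul_self_sqrt (WW_pos (ρ := ρ) (σ := σ) (u := u) a x).le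
    simp only [Function.comp] at h
    rw [div_le_iff₀ hε] at h
    nlinarith [Real.sqrt_nonneg (WW ρ σ u a x)]
  have m : ∀ x : ℝ, 0 ≤ x → (x : ℂ) ∈ Z b := fun x hx =>
    H.hS.Zm b (by omega) (H.ry b (by omega) x hx).mem
  obtain ⟨P, h | ⟨i, hi, hti, h⟩⟩ := H.re_up b (by omega)
  · filter_upwards [e, H.x_small ha hta P, eventually_ge_atTop 0] with x h1 h2 hx
    have := h x (m x hx)
    simp only [Complex.ofReal_re] at this
    unfold oo; nlinarith [WW_pos (ρ := ρ) (σ := σ) (u := u) a x]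
  · filter_upwards [e, H.x_small ha hta P, eventually_ge_atTop 0,
      H.ratio_small ha hta (by omega : i < a) hti (half_pos hε)] with x h1 h2 hx h3
    have := h x (m x hx)
    rw [((H.ry i (by omega) x hx).tied hti).2.2.2.2.2.2.1, Complex.ofReal_re] at this
    have := H.fd_sub_nn ha hta (by omega : i ≤ a) hti hx
    unfold oo; nlinarith [WW_pos (ρ := ρ) (σ := σ) (u := u) i x]

theorem cc_small {a : ℕ} (ha : a < J) (hta : td a) (g : ∀ b < a, Gd td ρ σ u S b) :
    ∀ᶠ s in FS S, ‖lf (cc a) a σ s‖ ≤ Real.exp (-4) * WW ρ σ u a s.re := by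
  have T0 := H.hK.T0
  have e : ∀ b ∈ range a, ∀ᶠ s in FS S,
      ‖σ b s‖ ≤ Real.exp (-4) / (T * J + 1) * WW ρ σ u a s.re := by
    intro b hb
    have hb : b < a := by simpa using hb
    obtain ⟨B, B1, h⟩ := (g b hb).nb
    filter_upwards [h, re_FS.eventually (H.oo_small ha hta hb
      (by positivity : 0 < Real.exp (-4) / (T * J + 1) / B))] with s h1 h2
    refine h1.trans ((mul_le_mul_of_nonneg_left h2 (by linarith)).trans (le_of_eq ?_))
    field_simp
  filter_upwards [(eventually_all_finset _).2 e] with s h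
  have W0 := WW_pos (ρ := ρ) (σ := σ) (u := u) a s.re
  refine (lf_sub_le ha.le T0 (H.hE.cc_nn a) (fun i hi => (H.hK.k1 a ha i (by omega)).2)
    (by positivity) fun i hi => h i (by simpa)).trans ?_
  rw [div_mul_eq_mul_div, mul_div_assoc', div_le_iff₀ (by positivity)]
  nlinarith [mul_pos (Real.exp_pos (-4)) W0]

theorem ph_bd (hS : Star S) {a i n : ℕ} (ha : a < J) (hta : td a) (hi : i ≤ a) (hti : td i)
    (hn : n ≤ J) (hs : ∀ j, n ≤ j → ρ a j = 0) (hE : ∀ b < n, Eq1 σ S b)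
    (g : ∀ b < n, Gd td ρ σ u S b) (g' : ∀ b < a, Gd td ρ σ u S b)
    (hY : ∀ᶠ s in FS S, |s.im| * fd (ρ a) a σ s.re ≤ 4) : ∀ᶠ s in FS S,
      |(ph ρ σ u i s).im| ≤ 2 * (|s.im| * fd (ρ i) i σ s.re) ∧
      Real.exp (-4) * WW ρ σ u i s.re ≤ Real.exp (ph ρ σ u i s).re ∧
      Real.exp (ph ρ σ u i s).re ≤ Real.exp 4 * WW ρ σ u i s.re := by
  filter_upwards [H.ph_mv hS (by omega) hti hn (fun j hj => le_antisymm
    (hs j hj ▸ H.le_top ha hta hi hti j) (H.hE.rho_nn i j)) hE g (fun b hb => g' b (by omega))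
    one_pos, hY, pos_FS] with s h1 h2 h0
  have h3 := mul_le_mul_of_nonneg_left (H.fd_mono ha hta hi hti h0) (abs_nonneg s.im)
  have h4 := (H.hK.τ0.trans_le (H.fd_tau (by omega) hti h0)).le
  have h5 := abs_le.1 h1.2
  rw [WW_eq, ← Real.exp_add, ← Real.exp_add]
  refine ⟨?_, Real.exp_le_exp.2 (by linarith), Real.exp_le_exp.2 (by linarith)⟩
  have := abs_sub_abs_le_abs_sub (ph ρ σ u i s).im (s.im * fd (ρ i) i σ s.re)
  rw [abs_mul, abs_of_nonneg h4] at this
  linarith [h1.1]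

theorem good_tied (hS : Star S) {a n : ℕ} (ha : a < J) (hta : td a) (hn : n ≤ J)
    (hs : ∀ j, n ≤ j → ρ a j = 0) (hE : ∀ b < n, Eq1 σ S b) (g : ∀ b < n, Gd td ρ σ u S b)
    (g' : ∀ b < a, Gd td ρ σ u S b) (hY : ∀ᶠ s in FS S, |s.im| * fd (ρ a) a σ s.re ≤ 4)
    {g0 : ℝ} (hg0 : 0 < g0)
    (hdef : ∀ᶠ s in FS S, g0 * |s.im| ≤ Real.pi / 2 - |(ph ρ σ u a s).im|) :
    Gd td ρ σ u S a := by
  have τ0 := H.hK.τ0
  have T0 := H.hK.T0
  have pb := H.ph_bd hS ha hta le_rfl hta hn hs hE g g' hY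
  have K0 : ∀ᶠ s in FS S, min τ g0 / 2 ≤ (Real.pi / 2 - |(ph ρ σ u a s).im|) * fd (ρ a) a σ s.re ∧
      0 < Real.pi / 2 - |(ph ρ σ u a s).im| := by
    filter_upwards [pb, hdef, pos_FS] with s h1 h2 h0
    have h3 := H.fd_tau ha hta h0
    have m1 := min_le_left τ g0
    have m2 := min_le_right τ g0
    have h4 : min τ g0 / 2 ≤ (Real.pi / 2 - |(ph ρ σ u a s).im|) * fd (ρ a) a σ s.re := by
      rcases le_total (|s.im| * fd (ρ a) a σ s.re) (1 / 2) with h | h
      · nlinarith [Real.pi_gt_three, h1.1]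
      · nlinarith
    exact ⟨h4, (pos_iff_pos_of_mul_pos ((half_pos (lt_min τ0 hg0)).trans_le h4)).2 (by linarith)⟩
  have K1 : ∀ ε : ℝ, 0 < ε → ∀ᶠ s in FS S, √(WW ρ σ u a s.re) ≤
      ε * ((Real.pi / 2 - |(ph ρ σ u a s).im|) * WW ρ σ u a s.re) := by
    intro ε hε
    have m0 := lt_min τ0 hg0
    filter_upwards [K0, re_FS.eventually (H.beta_small ha hta
      (by positivity : 0 < min τ g0 / 2 * ε))] with s h1 h2
    have h3 := Real.mul_self_sqrt (WW_pos (ρ := ρ) (σ := σ) (u := u) a s.re).le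
    have h4 := Real.sqrt_nonneg (WW ρ σ u a s.re)
    have h5 : min τ g0 / 2 * 1 ≤ min τ g0 / 2 *
        (ε * ((Real.pi / 2 - |(ph ρ σ u a s).im|) * √(WW ρ σ u a s.re))) := by nlinarith [h1.1, h1.2]
    have h6 := mul_le_mul_of_nonneg_right (le_of_mul_le_mul_left h5 (by positivity)) h4
    rwa [one_mul, mul_assoc, mul_assoc, h3] at h6
  have K2 : ∀ ε : ℝ, 0 < ε → ∀ b ∈ range a, ∀ᶠ s in FS S, (σ b s).re ≤
      ε * ((Real.pi / 2 - |(ph ρ σ u a s).im|) * WW ρ σ u a s.re) := by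
    intro ε hε b hb
    have hb : b < a := by simpa using hb
    have m := H.mem hS (n := b) (by omega) fun i hi => g' i (by omega)
    obtain ⟨P, h | ⟨i, hi, hti, h⟩⟩ := H.re_up b (by omega)
    · filter_upwards [m, K1 ε hε, re_FS.eventually (H.x_small ha hta P)] with s h1 h2 h3
      linarith [h s h1]
    · filter_upwards [m, K1 _ (half_pos hε), re_FS.eventually (H.x_small ha hta P), pos_FS, K0,
        hdef, H.ph_bd hS ha hta (by omega : i ≤ a) hti hn hs hE g g' hY,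
        H.dif_mv hS ha hta (by omega : i < a) hti hn hs hE g (fun b hb => g' b (by omega))
          (H.u_dif hS ha hta g') (H.ud_zero hS ha hta g')
          (fun x hx => ((H.ry a ha x hx).tied hta).2.2.2.2.2.2.2) one_pos,
        re_FS.eventually (H.ratio_small ha hta (by omega : i < a) hti
          (by positivity : 0 < ε / 2 / (Real.exp 4 * (1 + 2 / g0))))]
        with s h1 h2 h3 h0 h4 h5 h6 h7 h8
      set δ := Real.pi / 2 - |(ph ρ σ u a s).im| with hδ
      set α := fd (ρ a - ρ i) a σ s.re with hα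
      have α0 : 0 ≤ α := τ0.le.trans h7.2
      have c1 : |(ph ρ σ u a s).im - (ph ρ σ u i s).im| ≤ 2 * (α * |s.im|) := by
        have := abs_sub_abs_le_abs_sub ((ph ρ σ u a s).im - (ph ρ σ u i s).im) (s.im * α)
        rw [abs_mul, abs_of_nonneg α0] at this
        have h9 : |(ph ρ σ u a s).im - (ph ρ σ u i s).im - s.im * α| ≤ 1 * α * |s.im| := h7.1
        linarith
      have c2 : |s.im| ≤ δ / g0 := by rw [le_div_iff₀ hg0]; linarith
      have c3 : Real.cos (ph ρ σ u i s).im ≤ (1 + 2 / g0) * δ * (1 + α) := by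
        refine (cos_le_abs _).trans ?_
        have d1 := abs_abs_sub_abs_le_abs_sub (ph ρ σ u a s).im (ph ρ σ u i s).im
        have d2 := abs_add_le δ (|(ph ρ σ u a s).im| - |(ph ρ σ u i s).im|)
        rw [abs_of_pos h4.2, hδ, sub_add_sub_cancel, ← hδ] at d2
        have d3 := mul_le_mul_of_nonneg_left c2 α0
        have d4 : (1 + 2 / g0) * δ * (1 + α) = δ + 2 * (α * (δ / g0)) + (δ * α + 2 * (δ / g0)) := by
          ring
        have d5 : 0 ≤ δ * α + 2 * (δ / g0) := by have := h4.2; positivity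
        linarith
      have c4 : (Complex.exp (ph ρ σ u i s)).re ≤
          Real.exp 4 * WW ρ σ u i s.re * ((1 + 2 / g0) * δ * (1 + α)) := by
        rw [Complex.exp_re]
        exact (mul_le_mul_of_nonneg_left c3 (Real.exp_pos _).le).trans
          (mul_le_mul_of_nonneg_right h6.2.2 (by have := h4.2; positivity))
      have c5 := mul_le_mul_of_nonneg_left h8
        (by have := h4.2; positivity : 0 ≤ Real.exp 4 * (1 + 2 / g0) * δ)
      have c6 : Real.exp 4 * (1 + 2 / g0) * δ * (ε / 2 / (Real.exp 4 * (1 + 2 / g0)) *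
          WW ρ σ u a s.re) = ε / 2 * (δ * WW ρ σ u a s.re) := by field_simp
      have := h s h1
      linarith
  have K3 : ∀ᶠ s in FS S, Real.exp (-4) / 4 *
      ((Real.pi / 2 - |(ph ρ σ u a s).im|) * WW ρ σ u a s.re) ≤ (σ a s).re := by
    filter_upwards [H.mem hS ha.le g', K0, pb, (eventually_all_finset _).2
      (K2 _ (by positivity : 0 < Real.exp (-4) / 4 / (T * J + 1)))] with s h1 h2 h3 h4
    set D := (Real.pi / 2 - |(ph ρ σ u a s).im|) * WW ρ σ u a s.re with hD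
    have D0 : 0 < D := mul_pos h2.2 (WW_pos _ _)
    rw [H.hS.tied a ha hta s h1, Complex.sub_re, Complex.exp_re]
    have c1 := mul_le_mul h3.2.1 (half_le_cos (θ := (ph ρ σ u a s).im) (by linarith [h2.2]))
      (by linarith [h2.2])
      (Real.exp_pos _).le
    have c2 := ((Complex.re_le_norm _).trans (lf_sub_le (f := fun i => ((σ i s).re : ℂ)) ha.le T0
      (H.hE.cc_nn a) (fun i hi => (H.hK.k1 a ha i (by omega)).2)
      (M := Real.exp (-4) / 4 / (T * J + 1) * D) (by positivity) fun i hi => by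
        rw [Complex.norm_real, Real.norm_eq_abs, abs_of_pos (H.hS.re_pos hi ha.le h1)]
        exact h4 i (by simpa)))
    have c3 : T * J * (Real.exp (-4) / 4 / (T * J + 1) * D) ≤ Real.exp (-4) / 4 * D := by
      rw [div_mul_eq_mul_div _ _ D, mul_div_assoc', div_le_iff₀ (by positivity)]
      nlinarith [mul_pos (Real.exp_pos (-4)) D0]
    have c4 : (lf (cc a) a σ s).re = (∑ i ∈ range a, (cc a i : ℂ) * ((σ i s).re : ℂ)).re := by
      simp [lf_re]
    have c5 : Real.exp (-4) * WW ρ σ u a s.re * ((Real.pi / 2 - |(ph ρ σ u a s).im|) / 2) =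
        Real.exp (-4) / 2 * D := by rw [hD]; ring
    rw [c4]
    linarith
  refine ⟨fun r => ?_, ⟨2 * (Real.exp 4 + 1), by linarith [Real.exp_pos 4], ?_⟩,
    fun _ => K0.mono fun s h => by linarith [h.2]⟩
  · filter_upwards [K3, K1 _ (by positivity : 0 < Real.exp (-4) / 4 / (|r| + 1)), pos_FS]
      with s h1 h2 h0
    have c1 := Real.sqrt_le_sqrt (H.oo_le_WW ha hta h0)
    have c2 := mul_le_mul_of_nonneg_left h2 (by positivity : 0 ≤ |r| + 1)
    rw [← mul_assoc, mul_div_cancel₀ _ (by positivity)] at c2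
    nlinarith [Real.sqrt_nonneg (oo σ a s.re), le_abs_self r, abs_nonneg r]
  · filter_upwards [H.mem hS ha.le g', pb, H.cc_small ha hta g', pos_FS] with s h1 h2 h3 h0
    rw [H.hS.tied a ha hta s h1]
    refine (norm_sub_le _ _).trans ?_
    rw [Complex.norm_exp]
    have c1 := (H.ry a ha _ h0).nc hta
    have c2 : Real.exp (-4) ≤ 1 := Real.exp_le_one_iff.2 (by norm_num)
    nlinarith [WW_pos (ρ := ρ) (σ := σ) (u := u) a s.re, Real.exp_pos 4, h2.2.2]

end Sit

end Crest.Agent.N207.O.Q
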