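import Crest.Agent.N207.O.Sec3c

/-! Row 207, block O (helper76): the region of the Phragmén–Lindelöf argument. -/

set_option autoImplicit false

namespace Crest.Agent.N207.O.Q

open Set Filter Finset Asymptotics
open scoped Topology

variable {J : ℕ} {td : ℕ → Prop} {ρ cc : ℕ → ℕ → ℝ} {γ C R τ T R1 : ℝ} {p : ℕ → ℝ}
  {σ u : ℕ → ℂ → ℂ} {Z : ℕ → Set ℂ} {S : Set ℂ}

/-- the strip on which the top argument turns by at most `4` -/
def VV (ρ : ℕ → ℕ → ℝ) (σ : ℕ → ℂ → ℂ) (j : ℕ) : Set ℂ := {s | |s.im| * fd (ρ j) j σ s.re ≤ 4}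

theorem star_VV (j : ℕ) : Star (VV ρ σ j) := by
  intro s hs t ht
  have hs : |s.im| * fd (ρ j) j σ s.re ≤ 4 := hs
  show |(vs s t).im| * fd (ρ j) j σ (vs s t).re ≤ 4
  rw [vs_im, vs_re, abs_mul, abs_of_nonneg ht.1, mul_assoc]
  nlinarith [ht.1, ht.2]

/-- the closed region -/
def SS (ρ : ℕ → ℕ → ℝ) (σ : ℕ → ℂ → ℂ) (j : ℕ) (τ X : ℝ) : Set ℂ :=
  {s | s ∈ VV ρ σ j ∧ X ≤ s.re ∧ |(lf (ρ j) j σ s).im| ≤ Real.pi / 2 + τ / 16 * |s.im|}

namespace Sit

variable (H : Sit J td ρ cc γ C R τ T p σ u Z)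
include H

theorem good_free (hS : Star S) (htr : Trk J td p σ Z) {a : ℕ} (ha : a < J) (hta : ¬ td a)
    (g : ∀ b < a, Gd td ρ σ u S b) {B0 : ℝ} (hb : ∀ᶠ s in FS S, |s.im| ≤ B0) :
    Gd td ρ σ u S a ∧ ((∀ b < a, Eq1 σ S b) → Eq1 σ S a) := by
  rcases a with _ | m
  · have h1 : ∀ s ∈ Z 0, σ 0 s = p 0 + s := by
      rcases H.hS.free 0 ha hta with h | ⟨m, hm, -⟩
      · exact h
      · omega
    have h2 : ∀ s, s ∈ Z 0 := fun s => by simp [H.hS.Z0]
    have h3 : ∀ s : ℂ, oo σ 0 s.re = (σ 0 s).re := fun s => by simp [oo, h1 _ (h2 _)]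
    refine ⟨⟨fun r => ?_, ⟨2, one_le_two, ?_⟩, fun h => absurd h hta⟩, fun _ ε hε => ?_⟩
    · filter_upwards [re_FS.eventually ((H.oo_top ha).eventually (ev_pw |r|))] with s h
      rw [← h3]
      nlinarith [Real.sqrt_nonneg (oo σ 0 s.re), le_abs_self r, abs_nonneg r]
    · filter_upwards [hb, re_FS.eventually ((H.oo_top ha).eventually (eventually_ge_atTop B0)),
        pos_FS] with s b1 b2 b3
      have := Complex.norm_le_abs_re_add_abs_im (σ 0 s)
      rw [← h3, abs_of_pos (H.oo_pos ha b3)] at this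
      have e : (σ 0 s).im = s.im := by simp [h1 _ (h2 _)]
      rw [e] at this; linarith
    · refine Eventually.of_forall fun s => ?_
      simp [dd, H.hS.free_deriv1 ha (h2 _) h1, hε.le]
  · obtain ⟨p0, h1⟩ := htr m ha hta
    have m0 : ∀ x : ℝ, 0 ≤ x → (x : ℂ) ∈ Z (m + 1) := fun x hx => (H.ry m (by omega) x hx).mem
    have h3 : ∀ x : ℝ, 0 ≤ x → oo σ (m + 1) x = p (m + 1) + oo σ m x := fun x hx => by
      simp [oo, h1 _ (m0 x hx)]
    have mem := H.mem hS ha.le g
    refine ⟨⟨fun r => ?_, ?_, fun h => absurd h hta⟩, fun E ε hε => ?_⟩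
    · filter_upwards [mem, pos_FS, (g m (by omega)).lo (2 * |r|), re_FS.eventually
        ((H.oo_top (a := m) (by omega)).eventually (eventually_ge_atTop (p (m + 1))))]
        with s b1 b2 b3 b4
      have b5 : √(oo σ (m + 1) s.re) ≤ 2 * √(oo σ m s.re) := by
        rw [h3 _ b2]
        refine Real.sqrt_le_iff.2 ⟨by positivity, ?_⟩
        rw [mul_pow, Real.sq_sqrt (by linarith)]; linarith
      rw [h1 s b1, Complex.add_re, Complex.ofReal_re]
      nlinarith [Real.sqrt_nonneg (oo σ (m + 1) s.re), le_abs_self r, abs_nonneg r]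
    · obtain ⟨B, B1, hB⟩ := (g m (by omega)).nb
      refine ⟨B, B1, ?_⟩
      filter_upwards [mem, pos_FS, hB] with s b1 b2 b3
      rw [h1 s b1, h3 _ b2]
      refine (norm_add_le _ _).trans ?_
      rw [Complex.norm_real, Real.norm_eq_abs, abs_of_nonneg p0]
      nlinarith
    · filter_upwards [mem, pos_FS, E m (by omega) ε hε] with s b1 b2 b3
      rwa [dd, H.hS.free_deriv2 ha b1 h1, H.hS.free_deriv2 ha (m0 _ b2) h1]

theorem eq1_tied (hS : Star S) {a : ℕ} (ha : a < J) (hta : td a) (g : ∀ b < a, Gd td ρ σ u S b)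
    (hE : ∀ b < a, Eq1 σ S b)
    (h0 : Tendsto (fun s : ℂ => |s.im| * fd (ρ a) a σ s.re) (FS S) (𝓝 0)) : Eq1 σ S a := by
  intro ε hε
  have τ0 := H.hK.τ0
  set e := min ε 1 / 41 with he
  have e0 : 0 < e := by positivity
  have e1 : e ≤ 1 / 41 := by linarith [min_le_right ε 1]
  have e2 : 41 * e ≤ ε := by linarith [min_le_left ε 1]
  have ud := (tendsto_zero_iff_norm_tendsto_zero.1 (H.ud_zero hS ha hta g)).eventually
    (ge_mem_nhds (mul_pos e0 τ0))
  filter_upwards [H.mem hS ha.le g, pos_FS, ud, hS.ev ud, lfe (H.hE.rho_nn a) hE e0,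
    lfe (H.hE.cc_nn a) hE e0, H.ph_mv hS ha hta ha.le (H.hE.supp a) hE g g one_pos,
    h0.eventually (ge_mem_nhds (by positivity : 0 < e / 3))] with s b1 b2 b3 b4 b5 b6 b7 b8
  have b4 := b4 0 (by simp)
  rw [vs_zero] at b4
  obtain ⟨t1, t2, -, t3, -, t4, t5, t6⟩ := (H.ry a ha _ b2).tied hta
  have fτ := H.fd_tau ha hta b2
  set W := WW ρ σ u a s.re
  set b := bb ρ σ u a s.re with hb
  set β := fd (ρ a) a σ s.re
  have W0 : 0 < W := WW_pos _ _
  have c0 := abs_le.1 ((Complex.abs_re_le_norm _).trans t1)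
  have c1 : β ≤ 2 * b := by rw [hb, bb] at t3 ⊢; linarith
  set φ' := ∑ i ∈ range a, (ρ a i : ℂ) * deriv (σ i) s + deriv (u a) s with hφ
  have c2 : ‖φ' - b‖ ≤ 6 * e * b := by
    have : φ' - b = (∑ i ∈ range a, (ρ a i : ℂ) * deriv (σ i) s - β) + deriv (u a) s -
        ((deriv (u a) s.re).re : ℝ) := by rw [hφ, hb, bb]; push_cast; ring
    rw [this]
    refine (norm_sub_le _ _).trans ((add_le_add (norm_add_le _ _) le_rfl).trans ?_)
    rw [Complex.norm_real, Real.norm_eq_abs]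
    nlinarith [(Complex.abs_re_le_norm _).trans b4]
  have c3 : ‖φ'‖ ≤ 7 * b := by
    have := norm_le_insert' φ' b
    rw [Complex.norm_real, Real.norm_eq_abs, abs_of_pos (by linarith)] at this
    nlinarith
  have c4 : ‖ph ρ σ u a s - ph ρ σ u a s.re‖ ≤ e := by
    refine (Complex.norm_le_abs_re_add_abs_im _).trans ?_
    rw [Complex.sub_re, Complex.sub_im, t6, sub_zero]
    have := abs_sub_abs_le_abs_sub (ph ρ σ u a s).im (s.im * β)
    rw [abs_mul, abs_of_nonneg (by linarith : 0 ≤ β)] at this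
    linarith [b7.1, b7.2]
  have c5 : ‖Complex.exp (ph ρ σ u a s) - W‖ ≤ W * (2 * e) := by
    have : Complex.exp (ph ρ σ u a s) - W =
        W * (Complex.exp (ph ρ σ u a s - ph ρ σ u a s.re) - 1) := by
      rw [← t5, mul_sub, ← Complex.exp_add]; simp
    rw [this, norm_mul, Complex.norm_real, Real.norm_eq_abs, abs_of_pos W0]
    exact mul_le_mul_of_nonneg_left ((Complex.norm_exp_sub_one_le (by linarith)).trans
      (by linarith)) W0.le
  have c6 : deriv (σ a) s - dd σ a s.re = (Complex.exp (ph ρ σ u a s) - W) * φ' + W * (φ' - b) -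
      (∑ i ∈ range a, (cc a i : ℂ) * deriv (σ i) s - fd (cc a) a σ s.re) := by
    rw [H.hS.tied_deriv ha hta b1, t2]; push_cast; ring
  rw [c6]
  refine (norm_sub_le _ _).trans ((add_le_add (norm_add_le _ _) le_rfl).trans ?_)
  rw [norm_mul, norm_mul, Complex.norm_real, Real.norm_eq_abs, abs_of_pos W0]
  have c7 := mul_le_mul c5 c3 (norm_nonneg _) (by positivity)
  have c8 := mul_le_mul_of_nonneg_left c2 W0.le
  have c9 : W * b ≤ 2 * dd σ a s.re := by linarith
  have d1 := (H.ry a ha _ b2).d1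
  have d2 : fd (cc a) a σ s.re ≤ dd σ a s.re := by linarith
  nlinarith [mul_le_mul_of_nonneg_left c9 e0.le, mul_le_mul_of_nonneg_left d2 e0.le]

theorem im_bd {j : ℕ} (hj : j < J) (htj : td j) (h : S ⊆ VV ρ σ j) :
    ∀ᶠ s in FS S, |s.im| ≤ 4 / τ := by
  filter_upwards [mem_FS, pos_FS] with s h1 h2
  have h3 : |s.im| * fd (ρ j) j σ s.re ≤ 4 := h h1
  rw [le_div_iff₀ H.hK.τ0]
  nlinarith [H.fd_tau hj htj h2, abs_nonneg s.im]

theorem hY {j a : ℕ} (hj : j < J) (htj : td j) (ha : a ≤ j) (hta : td a) (h : S ⊆ VV ρ σ j) :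
    ∀ᶠ s in FS S, |s.im| * fd (ρ a) a σ s.re ≤ 4 := by
  filter_upwards [mem_FS, pos_FS] with s h1 h2
  exact (mul_le_mul_of_nonneg_left (H.fd_mono hj htj ha hta h2) (abs_nonneg _)).trans (h h1)

theorem low (htr : Trk J td p σ Z) {j κ : ℕ} (hj : j < J) (htj : td j) (hκ : 0 < ρ j κ) :
    ∀ a ≤ κ, Gd td ρ σ u (VV ρ σ j) a ∧ Eq1 σ (VV ρ σ j) a := by
  have κj := H.hE.lt_of_pos hκ
  have τ0 := H.hK.τ0
  have hS := star_VV (ρ := ρ) (σ := σ) j
  intro a
  induction a using Nat.strong_induction_on with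
  | _ a ih =>
  intro ha
  have g := fun b (hb : b < a) => (ih b hb (by omega)).1
  have hE := fun b (hb : b < a) => (ih b hb (by omega)).2
  by_cases hta : td a
  swap
  · have := H.good_free hS htr (by omega) hta g (H.im_bd hj htj Subset.rfl)
    exact ⟨this.1, this.2 hE⟩
  have aJ : a < J := by omega
  have hY := H.hY hj htj (by omega : a ≤ j) hta Subset.rfl
  have h0 : Tendsto (fun s : ℂ => |s.im| * fd (ρ a) a σ s.re) (FS (VV ρ σ j)) (𝓝 0) := by
    have t := (tendsto_inv_atTop_zero.comp ((H.WW_top aJ hta).comp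
      (re_FS (S := VV ρ σ j)))).const_mul (16 / τ)
    rw [mul_zero] at t
    refine squeeze_zero' ?_ ?_ t
    · filter_upwards [pos_FS] with s hs
      exact mul_nonneg (abs_nonneg _) (τ0.le.trans (H.fd_tau aJ hta hs))
    · filter_upwards [pos_FS, mem_FS] with s hs h1
      have h1 : |s.im| * fd (ρ j) j σ s.re ≤ 4 := h1
      obtain ⟨t1, t2, -, t3, -, t4, -⟩ := (H.ry a aJ _ hs).tied hta
      have W0 : 0 < WW ρ σ u a s.re := WW_pos _ _
      have c0 := abs_le.1 ((Complex.abs_re_le_norm _).trans t1)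
      have c1 : fd (ρ a) a σ s.re ≤ 2 * bb ρ σ u a s.re := by rw [bb] at t3 ⊢; linarith
      have c2 := ((H.ry κ (by omega) _ hs).ord a ha).2
      have c3 := H.fd_ge (H.hE.rho_nn j) hj.le κj hs
      have c4 := H.hK.k2 j hj κ hκ
      have c5 := (H.ry κ (by omega) _ hs).d1
      have c6 : τ * dd σ κ s.re ≤ fd (ρ j) j σ s.re := by nlinarith
      have c7 : fd (ρ a) a σ s.re * WW ρ σ u a s.re ≤ 4 * dd σ κ s.re := by nlinarith
      simp only [Function.comp]
      rw [← div_eq_mul_inv, le_div_iff₀ W0, le_div_iff₀ τ0, mul_assoc]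
      nlinarith [abs_nonneg s.im, mul_le_mul_of_nonneg_left c7 (abs_nonneg s.im),
        mul_le_mul_of_nonneg_left c6 (abs_nonneg s.im)]
  refine ⟨H.good_tied hS aJ hta aJ.le (H.hE.supp a) hE g g hY (by positivity : 0 < τ / 4) ?_,
    H.eq1_tied hS aJ hta g hE h0⟩
  filter_upwards [H.ph_bd hS aJ hta le_rfl hta aJ.le (H.hE.supp a) hE g g hY,
    h0.eventually (ge_mem_nhds (by norm_num : (0 : ℝ) < 1 / 4)), H.im_bd hj htj Subset.rfl]
    with s h1 h2 h3
  rw [le_div_iff₀ τ0] at h3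
  linarith [Real.pi_gt_three, h1.1]

theorem region (htr : Trk J td p σ Z) {j : ℕ} (hj : j < J) (htj : td j) : ∃ X : ℝ, 0 ≤ X ∧
    Star (SS ρ σ j τ X) ∧ (∀ b < j, Gd td ρ σ u (SS ρ σ j τ X) b) ∧
    (∀ s ∈ VV ρ σ j, X ≤ s.re → DifferentiableAt ℂ (lf (ρ j) j σ) s ∧
      |(lf (ρ j) j σ s).im - s.im * fd (ρ j) j σ s.re| ≤ 1 / 8 * fd (ρ j) j σ s.re * |s.im|) ∧
    ∀ᶠ s in FS (SS ρ σ j τ X), Real.exp (-4) * WW ρ σ u j s.re ≤ Real.exp (ph ρ σ u j s).re := by
  have τ0 := H.hK.τ0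
  obtain ⟨κ, hκ, hs⟩ : ∃ κ, 0 < ρ j κ ∧ ∀ i, κ + 1 ≤ i → ρ j i = 0 := by
    classical
    obtain ⟨i, hi⟩ := H.hE.pos j hj htj
    refine ⟨Nat.findGreatest (fun i => 0 < ρ j i) j,
      Nat.findGreatest_spec (P := fun i => 0 < ρ j i) (H.hE.lt_of_pos hi).le hi, fun i h => ?_⟩
    rcases le_total i j with h1 | h1
    · exact le_antisymm (not_lt.1 (Nat.findGreatest_is_greatest (P := fun i => 0 < ρ j i) h h1))
        (H.hE.rho_nn j i)
    · exact H.hE.supp j i h1
  have κj := H.hE.lt_of_pos hκ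
  have hV := star_VV (ρ := ρ) (σ := σ) j
  have gV := fun b (hb : b < κ + 1) => (H.low htr hj htj hκ b (by omega)).1
  have EV := fun b (hb : b < κ + 1) => (H.low htr hj htj hκ b (by omega)).2
  have e1 : lf (ρ j) j σ = lf (ρ j) (κ + 1) σ := lf_ext' (H.hE.supp j) hs
  have e2 : ∀ x, fd (ρ j) j σ x = fd (ρ j) (κ + 1) σ x := fd_ext' (H.hE.supp j) hs
  have im0 : ∀ x : ℝ, 0 ≤ x → (lf (ρ j) j σ x).im = 0 := fun x hx => by
    rw [lf_im]; exact sum_eq_zero fun i hi => by rw [(H.ry i (by simp at hi; omega) x hx).im, mul_zero]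
  have ev : ∀ᶠ s in FS (VV ρ σ j), 0 ≤ s.re ∧ DifferentiableAt ℂ (lf (ρ j) j σ) s ∧
      τ / 2 ≤ (deriv (lf (ρ j) j σ) s).re ∧
      |(lf (ρ j) j σ s).im - s.im * fd (ρ j) j σ s.re| ≤ 1 / 8 * fd (ρ j) j σ s.re * |s.im| := by
    filter_upwards [pos_FS, H.mem hV (n := κ + 1) (by omega) gV, lfe (H.hE.rho_nn j) EV one_half_pos,
      H.mva hV (H.hE.rho_nn j) (n := κ + 1) (by omega) (Nat.lt_succ_self κ) (H.hK.k2 j hj κ hκ) EV gV
        (v := fun _ => 0) (by simp) (by simpa using tendsto_const_nhds) (by norm_num : (0 : ℝ) < 1 / 8)] with s h0 h1 h2 h3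
    have d := lf_hasDerivAt (ρ := ρ j) fun b (hb : b < κ + 1) =>
      H.hS.dAt hb.le (by omega) (by omega) h1
    rw [← e1] at d h3
    rw [← e2] at h2 h3
    refine ⟨h0, d.differentiableAt, ?_, ?_⟩
    · rw [d.deriv]
      have := (abs_le.1 ((Complex.abs_re_le_norm _).trans h2)).1
      rw [Complex.sub_re, Complex.ofReal_re] at this
      linarith [H.fd_tau hj htj h0]
    · have := (im_le_of h3).1
      simpa [im0 _ h0] using this
  obtain ⟨X, hX⟩ := ev_FS.1 ev
  have hS : Star (SS ρ σ j τ (max X 0)) := by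
    rintro s ⟨h1, h2, h3⟩ t ht
    refine ⟨hV s h1 t ht, by simpa using h2, ?_⟩
    have hv := fun r (hr : r ∈ Icc (0 : ℝ) 1) => hX (vs s r) (hV s h1 r hr)
      (by rw [vs_re]; exact (le_max_left _ _).trans h2)
    rcases eq_or_ne s.im 0 with h0 | h0
    · have : vs s t = s := by apply Complex.ext <;> simp [h0]
      rwa [this]
    have sg : ∀ r ∈ Icc (0 : ℝ) 1, s.im * (lf (ρ j) j σ (vs s r)).im =
        |s.im| * |(lf (ρ j) j σ (vs s r)).im| := fun r hr => by
      rw [← abs_mul, abs_of_nonneg]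
      obtain ⟨a1, -, -, a2⟩ := hv r hr
      have a3 := τ0.le.trans (H.fd_tau hj htj a1)
      simp only [vs_re, vs_im, abs_mul, abs_of_nonneg hr.1] at a2 a3
      have a4 := mul_nonneg hr.1 a3
      rcases le_total 0 s.im with h | h
      · rw [abs_of_nonneg h] at a2
        exact mul_nonneg h (by nlinarith [(abs_le.1 a2).1])
      · rw [abs_of_nonpos h] at a2
        exact mul_nonneg_of_nonpos_of_nonpos h (by nlinarith [(abs_le.1 a2).2])
    have der : ∀ r ∈ Icc (0 : ℝ) 1, HasDerivAt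
        (fun r : ℝ => s.im * (lf (ρ j) j σ (vs s r)).im - τ / 16 * s.im ^ 2 * r)
        (s.im ^ 2 * ((deriv (lf (ρ j) j σ) (vs s r)).re - τ / 16)) r := fun r hr => by
      have a1 : HasDerivAt (fun z : ℂ => (s.re : ℂ) + z * s.im * Complex.I) (s.im * Complex.I) r := by
        simpa using (((hasDerivAt_id (r : ℂ)).mul_const (s.im : ℂ)).mul_const Complex.I).const_add
          (s.re : ℂ)
      have a2 := ((hv r hr).2.1.hasDerivAt.comp (r : ℂ) a1).comp_ofReal
      have a3 : HasDerivAt (fun r : ℝ => (lf (ρ j) j σ (vs s r)).im) _ r :=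
        Complex.imCLM.hasFDerivAt.comp_hasDerivAt r a2
      refine ((a3.const_mul s.im).sub ((hasDerivAt_id r).const_mul _)).congr_deriv ?_
      simp; ring
    have mono := monotoneOn_of_deriv_nonneg (convex_Icc (0 : ℝ) 1)
      (fun r hr => (der r hr).continuousAt.continuousWithinAt)
      (fun r hr => (der r (interior_subset hr)).differentiableAt.differentiableWithinAt)
      (fun r hr => by
        rw [(der r (interior_subset hr)).deriv]
        exact mul_nonneg (sq_nonneg _) (by linarith [(hv r (interior_subset hr)).2.2.1]))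
      ht (by simp : (1 : ℝ) ∈ Icc (0 : ℝ) 1) ht.2
    have sg1 := sg 1 (by simp)
    rw [vs_one] at sg1
    simp only [sg t ht, vs_one, sg1] at mono
    rw [vs_im, abs_mul, abs_of_nonneg ht.1]
    rw [← sq_abs s.im] at mono
    have y0 := abs_pos.2 h0
    exact le_of_mul_le_mul_left (by nlinarith) y0
  have sV : SS ρ σ j τ (max X 0) ⊆ VV ρ σ j := fun s hs => hs.1
  have gS := fun b hb => (gV b hb).mono sV
  have ES := fun b hb => (EV b hb).mono sV
  have all : ∀ b < j, Gd td ρ σ u (SS ρ σ j τ (max X 0)) b := by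
    intro i
    induction i using Nat.strong_induction_on with
    | _ i ih =>
    intro hi
    have g := fun b (hb : b < i) => ih b hb (by omega)
    by_cases hti : td i
    swap
    · exact (H.good_free hS htr (by omega) hti g (H.im_bd hj htj sV)).1
    have hs' : ∀ k, κ + 1 ≤ k → ρ i k = 0 := fun k hk =>
      le_antisymm (hs k hk ▸ H.le_top hj htj hi.le hti k) (H.hE.rho_nn i k)
    refine H.good_tied hS (by omega) hti (by omega) hs' ES gS g (H.hY hj htj hi.le hti sV)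
      (by positivity : 0 < τ / 4) ?_
    filter_upwards [mem_FS, pos_FS, H.ph_mv hS (by omega) hti (by omega) hs' ES gS g one_half_pos,
      H.dif_mv hS hj htj hi hti (by omega) hs ES gS g (v := fun _ => 0) (by simp)
        (by simpa using tendsto_const_nhds) (by simpa using im0) one_half_pos] with s h1 h0 h2 h3
    have a1 := h1.2.2
    have a2 := τ0.le.trans (H.fd_tau (by omega) hti h0)
    have a3 := abs_le.1 h2.1
    have a4 := abs_le.1 h3.1
    have a5 := h3.2
    rw [add_zero] at a4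
    rcases le_total 0 s.im with h | h
    · rw [abs_of_nonneg h] at a1 a3 a4 ⊢
      rw [abs_of_nonneg (by nlinarith)]
      nlinarith [le_abs_self (lf (ρ j) j σ s).im]
    · rw [abs_of_nonpos h] at a1 a3 a4 ⊢
      rw [abs_of_nonpos (by nlinarith)]
      nlinarith [neg_abs_le (lf (ρ j) j σ s).im]
  exact ⟨max X 0, le_max_right _ _, hS, all,
    fun s h1 h2 => ⟨(hX s h1 ((le_max_left _ _).trans h2)).2.1,
      (hX s h1 ((le_max_left _ _).trans h2)).2.2.2⟩,
    (H.ph_bd hS hj htj le_rfl htj (by omega) hs ES gS all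
      (H.hY hj htj le_rfl htj sV)).mono fun s h => h.2.1⟩

end Sit

end Crest.Agent.N207.O.Q
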