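import Crest.Agent.N207.O.Tw
import Crest.Agent.N207.J.Dul

/-! Row 207, block O: STATEMENT LIST (never imported by a final file). Prove each under the SAME
name (drop the `St.` prefix of the namespace) in your own file. -/

set_option autoImplicit false

open Set Filter Topology Metric

noncomputable section

namespace Crest.Agent.N207.O.St

section ALG
variable {X X' κ κ' E E' E'' : Type*} [NormedAddCommGroup X] [NormedSpace ℂ X]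
  [NormedAddCommGroup X'] [NormedSpace ℂ X'] [NormedAddCommGroup E] [NormedSpace ℂ E]
  [NormedAddCommGroup E'] [NormedSpace ℂ E'] [NormedAddCommGroup E''] [NormedSpace ℂ E'']
  {F : Fr X κ} {F' : Fr X' κ'} {l : List κ} {l' : List κ'} {a : κ} {a' : κ'} {b b' : ℝ}
  {g g' : X → E}

/-! ALG (76): also `Ok.isOpen, Ok.suffix, Ok.subset, Cl.zero/const/neg/sub/mul/smul/pow/sum/prod`,
`St.congr, In.congr, In.mono`. -/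
theorem A1_diff (h : F.Cl l b g) : DifferentiableOn ℂ g (F.D l) := sorry
theorem A1_bd (hF : F.Ok l) (hb : 0 ≤ b) (h : F.Cl l b g) : Bd (F.D l) g := sorry
theorem A2_congr (h : F.Cl l b g) (e : EqOn g g' (F.D l)) : F.Cl l b g' := sorry
theorem A3_mono (h : F.Cl l b g) (hb : b' ≤ b) : F.Cl l b' g := sorry
theorem A3_add (hF : F.Ok l) (h : F.Cl l b g) (h' : F.Cl l b g') :
    F.Cl l b fun x => g x + g' x := sorry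
theorem A3_clm (L : E →L[ℂ] E') (h : F.Cl l b g) : F.Cl l b fun x => L (g x) := sorry
theorem A3_bil (hF : F.Ok l) (B : E →L[ℂ] E' →L[ℂ] E'') {f : X → E'} (hb : 0 ≤ b) (hb' : 0 ≤ b')
    (h : F.Cl l b g) (h' : F.Cl l b' f) : F.Cl l (b + b') fun x => B (g x) (f x) := sorry
theorem A4_lift {l₀ : List κ} (hF : F.Ok l) (hl : l₀ <:+ l) (h : F.A l₀ g) : F.A l g := sorry
theorem A5_ex (hF : F.Ok (a :: l)) {t : ℝ} (ht : 0 ≤ t) (h : F.A (a :: l) g) :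
    F.Cl (a :: l) t fun x => F.ex a t x • g x := sorry
theorem A6_series (hF : F.Ok (a :: l)) {T : ℕ → X → E} {β : ℕ → ℝ} (h0 : ∀ n, 0 ≤ β n)
    (hβ : Tendsto β atTop atTop) (hT : ∀ n, F.Cl (a :: l) (β n) (T n))
    (hg : DifferentiableOn ℂ g (F.D (a :: l)))
    (he : ∀ K : ℝ, ∃ N₀ : ℕ, ∀ N ≥ N₀, ∃ C : ℝ, ∀ x ∈ F.D (a :: l),
      ‖g x - ∑ n ∈ Finset.range N, T n x‖ ≤ C * Real.exp (-(K * (F.s a x).re))) :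
    F.A (a :: l) g := sorry
theorem A7_St (hF : F.Ok l) (h : F.A l g) : ∃ gb, F.St l g gb := sorry
theorem A7_In (hF : F.Ok l) (h : F.A l g) : ∃ M : ℝ, F.In l (closedBall 0 M) g := sorry
theorem A8_lead (hF : F.Ok (a :: l)) (hq : F.QA1 a l) {g : X → ℂ} (h : F.A (a :: l) g)
    (h0 : ¬ EqOn g 0 (F.D (a :: l))) : ∃ (t γ : ℝ) (c g1 : X → ℂ), 0 < γ ∧ F.A l c ∧
      ¬ EqOn c 0 (F.D l) ∧ F.A (a :: l) g1 ∧
      ∀ x ∈ F.D (a :: l), g x = F.ex a t x * (c x + F.ex a γ x * g1 x) := sorry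
theorem A9_step (hF : F.Ok (a :: l)) (hF' : F'.Ok (a' :: l')) {Φ : X' → X} {e : X' → ℂ}
    (hm : MapsTo Φ (F'.D (a' :: l')) (F.D (a :: l)))
    (hd : DifferentiableOn ℂ Φ (F'.D (a' :: l')))
    (hs : ∀ x ∈ F'.D (a' :: l'), F.s a (Φ x) = F'.s a' x + e x)
    (he : ∀ t : ℝ, 0 ≤ t → F'.A (a' :: l') fun x => Complex.exp (-((t : ℂ) * e x)))
    (hB : ∃ B : ℝ, ∀ x ∈ F'.D (a' :: l'), -B ≤ (e x).re)
    (H : ∀ c : X → E, F.A l c → F'.A (a' :: l') (c ∘ Φ)) (h : F.A (a :: l) g) :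
    F'.A (a' :: l') (g ∘ Φ) := sorry
theorem A9_pull {F' : Fr X' κ} (hF' : F'.Ok l) {Φ : X' → X}
    (hm : ∀ l₀, l₀ <:+ l → MapsTo Φ (F'.D l₀) (F.D l₀)) (hd : DifferentiableOn ℂ Φ (F'.D []))
    (hs : ∀ a l₀, a :: l₀ <:+ l → ∀ x ∈ F'.D (a :: l₀), F.s a (Φ x) = F'.s a x)
    (h : F.Cl l b g) : F'.Cl l b (g ∘ Φ) := sorry

/-! COMP (28) -/
theorem C1_comp1 [FiniteDimensional ℂ X] [CompleteSpace E] (hF : F.Ok l) {U K : Set ℂ}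
    (hU : IsOpen U) {δ : ℝ} (hδ : 0 < δ) (hK : cthickening δ K ⊆ U) {G : X × ℂ → E}
    (hG : (F.prod U).A l G) {φ : X → ℂ} (hφ : F.In l K φ) : F.A l fun x => G (x, φ x) := sorry
theorem C2_compB [CompleteSpace E] [CompleteSpace E'] (hF : F.Ok l) {U K : Set E} (hU : IsOpen U)
    {δ : ℝ} (hδ : 0 < δ) (hK : cthickening δ K ⊆ U) {G : E → E'} (hG : AnalyticOnNhd ℂ G U)
    (hb : Bd U G) (hφ : F.In l K g) : F.A l fun x => G (g x) := sorry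
theorem C3_exp (hF : F.Ok l) {g : X → ℂ} (h : F.A l g) : F.A l fun x => Complex.exp (g x) := sorry
theorem C4_near (hF : F.Ok l) {gb : X → E} (h : F.St l g gb) {ε : ℝ} (hε : 0 < ε) :
    ∃ R₀ : ℝ, ∀ F' : Fr X κ, F'.Ok l → F'.Sub F R₀ l →
      F'.In l (cthickening ε (gb '' F'.D [])) g ∧ F'.St l g gb ∧
        ∀ x ∈ F'.D l, ‖g x - gb x‖ ≤ ε := sorry
end ALG

variable {ι : Type} [Fintype ι] [DecidableEq ι] {α : Type} {U : Ultrafilter α} {T : Tw ι}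
  {p : α → ι → ℂ} {l : List (ι ⊕ ℕ)} {W : Finset ι} {k : ι} {g : (ι → ℂ) → ℂ}

/-! TK = tower kit (84, lands first) -/
theorem T1_ok (h : T.WF) (hl : l <:+ T.top) : T.fr.Ok l := sorry
theorem T2_upd (h : T.WF) (hl : l <:+ T.top) (hk : Sum.inl k ∉ l) (hf : k ∈ T.Fv → T.Free l k)
    {x : ι → ℂ} (hx : x ∈ T.D l) {w : ℂ} (hw : k ∈ T.Fv → ‖w‖ < T.r k) :
    Function.update x k w ∈ T.D l := sorry
theorem T3_liou (h : T.WF) (hl : l <:+ T.top) (hk : Sum.inl k ∉ l) (hf : k ∉ T.Fv)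
    (hg : DifferentiableOn ℂ g (T.D l)) (hb : Bd (T.D l) g) {x : ι → ℂ} (hx : x ∈ T.D l) (w : ℂ) :
    g (Function.update x k w) = g x := sorry
theorem T4_shr (h : T.WF) {R : ℝ} (hR : T.R ≤ R) {r : ι → ℝ}
    (hr : ∀ k ∈ T.Fv, 0 < r k ∧ r k ≤ T.r k) :
    (T.shr R r).WF ∧ (∀ l, (T.shr R r).D l ⊆ T.D l) ∧
      ∀ l, l <:+ T.top → (T.shr R r).fr.Sub T.fr R l := sorry
theorem T5_mem (h : T.WF) (hp : T.Pt U p) (hl : l <:+ T.top) : ∀ᶠ i in U, p i ∈ T.D l := sorry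
theorem T6_real (h : T.WF) (hl : l <:+ T.top) : ∀ a ∈ l, RR (T.D l) (T.s a) := sorry
theorem T7_mon (h : T.WF) (hl : l <:+ T.top) {γ : ι ⊕ ℕ → ℝ} (hγ : ∀ a, 0 ≤ γ a) :
    T.fr.A l fun x => Complex.exp (-T.lin l γ x) := sorry
theorem T8_id (hl : IsOpen (T.D l)) (hc : IsPreconnected (T.D l))
    (hg : DifferentiableOn ℂ g (T.D l)) {x : ι → ℂ} (hx : x ∈ T.D l) (h0 : g =ᶠ[𝓝 x] 0) :
    EqOn g 0 (T.D l) := sorry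
theorem T9_idR (h : T.WF) (hl : l <:+ T.top) (hg : DifferentiableOn ℂ g (T.D l))
    (h0 : ∀ x ∈ T.D l, x ∈ Rp ι → g x = 0) : EqOn g 0 (T.D l) := sorry

/-! CJ (76, after ALG): conjugation symmetry -/
theorem J1_cj (h : T.WF) (hl : l <:+ T.top) : (∀ x ∈ T.D l, cj x ∈ T.D l) ∧
    ∀ a ∈ l, ∀ x ∈ T.D l, T.s a (cj x) = (starRingEnd ℂ) (T.s a x) := sorry
theorem J2_A (h : T.WF) (hl : l <:+ T.top) {b : ℝ} (hg : T.fr.Cl l b g) :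
    T.fr.Cl l b fun x => (starRingEnd ℂ) (g (cj x)) := sorry
theorem J3_lead (h : T.Good) {a : ι ⊕ ℕ} (hl : a :: l <:+ T.top) (hg : T.fr.A (a :: l) g)
    (hr : RR (T.D (a :: l)) g) (h0 : ¬ EqOn g 0 (T.D (a :: l))) :
    ∃ (t γ : ℝ) (c g1 : (ι → ℂ) → ℂ), 0 < γ ∧ T.fr.A l c ∧ RR (T.D l) c ∧ ¬ EqOn c 0 (T.D l) ∧
      T.fr.A (a :: l) g1 ∧ RR (T.D (a :: l)) g1 ∧
      ∀ x ∈ T.D (a :: l), g x = T.fr.ex a t x * (c x + T.fr.ex a γ x * g1 x) := sorry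
/-- real decomposition (used by QA for the ties) -/
theorem J4_proj (h : T.WF) {a : ι ⊕ ℕ} (hl : a :: l <:+ T.top) (hg : T.fr.A (a :: l) g)
    (hr : RR (T.D (a :: l)) g) : ∃ (γ : ℝ) (c g1 : (ι → ℂ) → ℂ), 0 < γ ∧ T.fr.A l c ∧
      RR (T.D l) c ∧ T.fr.A (a :: l) g1 ∧ RR (T.D (a :: l)) g1 ∧
      ∀ x ∈ T.D (a :: l), g x = c x + T.fr.ex a γ x * g1 x := sorry

/-! TAY + ROOT (28) -/
theorem C5_tay (h : T.WF) (hl : l <:+ T.top) (hk : k ∈ T.Fv) (hf : T.Free l k) (hg : T.fr.A l g)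
    (hr : RR (T.D l) g) (d : ℕ) : (T.fr.A l (tc k d g) ∧ RR (T.D l) (tc k d g)) ∧
      ∃ u : (ι → ℂ) → ℂ, T.fr.A l u ∧ RR (T.D l) u ∧ ∀ x ∈ T.D l,
        g x = ∑ j ∈ Finset.range d, tc k j g x * x k ^ j + x k ^ d * u x ∧
          u (Function.update x k 0) = tc k d g x := sorry
/-- Lipschitz in a free variable, on the half disc -/
theorem C6_lip (h : T.WF) (hl : l <:+ T.top) (hk : k ∈ T.Fv) (hf : T.Free l k) (hg : T.fr.A l g) :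
    ∃ C : ℝ, ∀ x ∈ T.D l, ∀ w : ℂ, ‖x k‖ ≤ T.r k / 2 → ‖w‖ ≤ T.r k / 2 →
      ‖g (Function.update x k w) - g x‖ ≤ C * ‖w - x k‖ := sorry
theorem C7_root (h : T.WF) (hp : T.Pt U p) (hl : l <:+ T.top) (hk : k ∈ T.Fv) (hkW : k ∉ W)
    (hf : T.Free l k) (hW : ∀ k ∈ W, k ∈ T.Fv ∧ T.Free l k ∧ Ind k g) (hg : T.fr.A l g)
    (hr : RR (T.D l) g) {e : ℕ} {c : ℂ} (hc : c ≠ 0)
    (h0 : Tendsto (fun i => tc k e g (p i)) U (𝓝 0))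
    (h1 : Tendsto (fun i => tc k (e + 1) g (p i)) U (𝓝 c)) :
    ∃ (R : ℝ) (r : ι → ℝ) (ψ : (ι → ℂ) → ℂ), T.R ≤ R ∧ (∀ k ∈ T.Fv, 0 < r k ∧ r k ≤ T.r k) ∧
      (∀ k ∈ W, r k = T.r k) ∧ (T.shr R r).fr.A l ψ ∧ RR ((T.shr R r).D l) ψ ∧ Ind k ψ ∧
      (∀ k ∈ W, Ind k ψ) ∧ Tendsto (fun i => ψ (p i)) U (𝓝 0) ∧ ∀ x ∈ (T.shr R r).D l,
        iteratedDeriv e (fun w => g (Function.update x k w)) (ψ x) = 0 := sorry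

/-! QA (52) -/
theorem Q1_good (h : T.WF) : ∃ R₀ : ℝ, T.R ≤ R₀ ∧ ∀ R ≥ R₀, ∀ r : ι → ℝ,
    (∀ k ∈ T.Fv, 0 < r k ∧ r k ≤ T.r k) → (T.shr R r).Good := sorry
theorem Q2_der (h : T.WF) (hp : T.Pt U p) (hg : T.fr.A T.top g) :
    Tendsto (fun i => fderiv ℂ g (p i) T.dir) U (𝓝 0) := sorry
theorem Q3_ders (h : T.WF) (hp : T.Pt U p) {a : ι ⊕ ℕ} (ha : a ∈ T.top) : ∃ (C : ℝ) (N : ℕ),
    ∀ᶠ i in U, 1 ≤ (fderiv ℂ (T.s a) (p i) T.dir).re ∧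
      ‖fderiv ℂ (T.s a) (p i) T.dir‖ ≤ C * (T.s a (p i)).re ^ N := sorry

/-! ELEMENTARY LIFTS -/
theorem E0_shr (h : T.WF) (hp : T.Pt U p) {R : ℝ} (hR : T.R ≤ R) {r : ι → ℝ}
    (hr : ∀ k ∈ T.Fv, 0 < r k ∧ r k ≤ T.r k) (hW : ∀ k ∈ W, r k = T.r k) :
    T.Lift (T.shr R r) U 0 W p p id ∧ T.Same (T.shr R r) 0 id := sorry
/-- renormalise the top level of `γ` -/
theorem E1_norm (h : T.WF) (hp : T.Pt U p) (hl : l <:+ T.top)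
    (hW : ∀ k ∈ W, k ∈ T.Fv ∧ T.Free l k) {γ : ι ⊕ ℕ → ℝ}
    (hγ : Tendsto (fun i => (T.lin l γ (p i)).re) U atTop) :
    ∃ (T' : Tw ι) (p' : α → ι → ℂ) (Φ : (ι → ℂ) → ι → ℂ) (γ' : ι ⊕ ℕ → ℝ),
      T.Lift T' U 0 W p p' Φ ∧ T.Same T' 0 Φ ∧ T'.r = T.r ∧ (∀ a, 0 ≤ γ' a) ∧
      (∃ a ∈ l, 0 < γ' a) ∧ (∀ x ∈ T'.D l, T.lin l γ (Φ x) = T'.lin l γ' x) ∧
      (∀ k ∈ T.Fv, ∀ x, Φ x k = x k) ∧ ∀ k ∈ T.Fv, ∀ i, p' i k = p i k := sorry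
/-- `x k := a + b * x k` (shear, translation, blow up) -/
theorem E2_sub (h : T.WF) (hp : T.Pt U p) (hk : k ∈ T.Fv) (hkW : k ∉ W)
    (hW : ∀ j ∈ W, j ∈ T.Fv ∧ T.lab k ≤ T.lab j) (hV : ∀ j ∈ T.Fv, j ∉ W → T.lab j ≤ T.lab k)
    {a b : (ι → ℂ) → ℂ} (ha : T.fr.A (T.lv (T.lab k)) a) (hb : T.fr.A (T.lv (T.lab k)) b)
    (ra : RR (T.D (T.lv (T.lab k))) a) (rb : RR (T.D (T.lv (T.lab k))) b)
    (ia : Ind k a ∧ ∀ j ∈ W, Ind j a) (ib : Ind k b ∧ ∀ j ∈ W, Ind j b)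
    (b0 : ∀ x ∈ T.D (T.lv (T.lab k)), b x ≠ 0) (a0 : Tendsto (fun i => a (p i)) U (𝓝 0))
    {z : α → ℝ} (hz : Tendsto z U (𝓝 0)) (e : ∀ᶠ i in U, p i k = a (p i) + b (p i) * z i) :
    ∃ (T' : Tw ι) (Φ : (ι → ℂ) → ι → ℂ),
      T.Lift T' U (T.lab k + 1) W p (fun i => Function.update (p i) k (z i)) Φ ∧
      T.Same T' (T.lab k + 1) Φ ∧ T'.D (T.lv (T.lab k)) ⊆ T.D (T.lv (T.lab k)) ∧
      (∀ c ∈ T.lv (T.lab k), T'.s c = T.s c) ∧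
      ∀ x ∈ T'.D (T.lv (T.lab k)), Φ x = Function.update x k (a x + b x * x k) := sorry
/-- `x k := a`, the variable is removed -/
theorem E5_elim (h : T.WF) (hp : T.Pt U p) (hk : k ∈ T.Fv) (hkW : k ∉ W)
    (hW : ∀ j ∈ W, j ∈ T.Fv ∧ T.lab k ≤ T.lab j) (hV : ∀ j ∈ T.Fv, j ∉ W → T.lab j ≤ T.lab k)
    {a : (ι → ℂ) → ℂ} (ha : T.fr.A (T.lv (T.lab k)) a) (ra : RR (T.D (T.lv (T.lab k))) a)
    (ia : Ind k a ∧ ∀ j ∈ W, Ind j a) (e : ∀ᶠ i in U, p i k = a (p i)) :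
    ∃ (T' : Tw ι) (p' : α → ι → ℂ) (Φ : (ι → ℂ) → ι → ℂ),
      T.Lift T' U (T.lab k + 1) W p p' Φ ∧ T'.B = T.B ∧ T'.Fv = T.Fv.erase k ∧
        T'.lab = T.lab := sorry
/-- a new free level of value `σ` between `l₁` and `l₂` -/
theorem E3_new (h : T.WF) (hs : T.Sp) (hp : T.Pt U p) {j : ℕ} (hj : j ≤ T.p)
    {l₁ l₂ : List (ι ⊕ ℕ)} (hl : T.lv j = l₁ ++ l₂) {σ : α → ℝ} (hσ : Tendsto σ U atTop)
    (h₂ : ∀ b ∈ l₂, Tendsto (fun i => (T.s b (p i)).re / σ i) U (𝓝 0))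
    (h₁ : ∀ a ∈ l₁, Tendsto (fun i => σ i / (T.s a (p i)).re) U (𝓝 0))
    (h₃ : j < T.p → Tendsto (fun i => σ i / (T.s (Sum.inr j) (p i)).re) U (𝓝 0)) :
    ∃ (T' : Tw ι) (k' : ι) (Φ : (ι → ℂ) → ι → ℂ),
      T.Lift T' U 0 W p (fun i => Function.update (p i) k' (σ i)) Φ ∧ T'.Fv = T.Fv ∧
      T'.lab = T.lab ∧ T'.s = T.s ∧ k' ∉ T.Fv ∧ Sum.inl k' ∉ T.top ∧
      T'.lv j = l₁ ++ Sum.inl k' :: l₂ ∧ T'.top.toFinset = insert (Sum.inl k') T.top.toFinset ∧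
      ∀ x, Φ x = Function.update x k' 0 := sorry
/-- un-tie -/
theorem E4_untie (h : T.WF) (hp : T.Pt U p) (hk : k ∈ T.Fv) (hkW : k ∉ W) (hj : T.lab k < T.p)
    (hW : ∀ j ∈ W, j ∈ T.Fv ∧ T.lab k < T.lab j) (hB : T.Bey U p (T.lab k) k) :
    ∃ (T' : Tw ι) (p' : α → ι → ℂ) (Φ : (ι → ℂ) → ι → ℂ),
      T.Lift T' U (T.lab k + 2) W p p' Φ ∧ T'.B = T.B ∧ T'.Fv = T.Fv ∧
        T'.lab = Function.update T.lab k (T.lab k + 1) := sorry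

/-! CL: values along the ultrafilter -/
theorem L1_class (h : T.WF) (hp : T.Pt U p) (hk : k ∈ T.Fv) {j : ℕ} (hj : j ≤ T.p) :
    T.Bey U p j k ∨
    (∃ (γ : ι ⊕ ℕ → ℝ) (c : ℝ) (z : α → ℝ), c ≠ 0 ∧ Tendsto z U (𝓝 0) ∧
      Tendsto (fun i => (T.lin (T.lv j) γ (p i)).re) U atTop ∧
      ∀ᶠ i in U, p i k = Complex.exp (-T.lin (T.lv j) γ (p i)) * ((c : ℂ) + z i)) ∨
    ∃ (γ : ι ⊕ ℕ → ℝ) (ε η : ℝ) (σ : α → ℝ) (l₁ l₂ : List (ι ⊕ ℕ)), T.lv j = l₁ ++ l₂ ∧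
      Tendsto σ U atTop ∧ (∀ b ∈ l₂, Tendsto (fun i => (T.s b (p i)).re / σ i) U (𝓝 0)) ∧
      (∀ a ∈ l₁, Tendsto (fun i => σ i / (T.s a (p i)).re) U (𝓝 0)) ∧
      (j < T.p → Tendsto (fun i => σ i / (T.s (Sum.inr j) (p i)).re) U (𝓝 0)) ∧
      ∀ᶠ i in U, p i k = (ε : ℂ) * Complex.exp (-(T.lin (T.lv j) γ (p i) + (η * σ i : ℝ))) ∧
        ε ≠ 0 := sorry
/-- monomials are totally ordered -/
theorem L2_tri (hp : T.Pt U p) (hl : l <:+ T.top) (γ : ι ⊕ ℕ → ℝ) :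
    (∀ a ∈ l, γ a = 0) ∨ Tendsto (fun i => (T.lin l γ (p i)).re) U atTop ∨
      Tendsto (fun i => (T.lin l γ (p i)).re) U atBot := sorry
theorem L3_top (hp : T.Pt U p) (hl : l <:+ T.top) {γ : ι ⊕ ℕ → ℝ}
    (hγ : Tendsto (fun i => (T.lin l γ (p i)).re) U atTop) {a : ι ⊕ ℕ} (ha : a ∈ l)
    (h0 : γ a ≠ 0) : ∃ C : ℝ, ∀ᶠ i in U, (T.s a (p i)).re ≤ C * (T.lin l γ (p i)).re := sorry

/-! INI: the initial tower -/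
theorem I1_ini {n m : ℕ} {θ : α → Fin n → ℝ} {θ₀ : Fin n → ℝ} (hθ : Tendsto θ U (𝓝 θ₀))
    {L : α → Fin m → ℝ} (hL : ∀ e, Tendsto (fun i => L i e) U atTop) :
    ∃ (ι : Type) (_ : Fintype ι) (_ : DecidableEq ι) (T : Tw ι) (p : α → ι → ℂ) (κ : Fin n → ι)
      (Λ : Fin m → (ι → ℂ) → ℂ), T.WF ∧ T.Sp ∧ T.Pt U p ∧ (∀ k, κ k ∈ T.Fv) ∧
      (∀ᶠ i in U, (∀ k, (θ i k : ℂ) = θ₀ k + p i (κ k)) ∧ ∀ e, (L i e : ℂ) = Λ e (p i)) ∧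
      (∀ e, ∃ (γ : ι ⊕ ℕ → ℝ) (b : (ι → ℂ) → ℂ), T.fr.A T.top b ∧ RR (T.D T.top) b ∧
        ∀ x ∈ T.D T.top, Λ e x = T.lin T.top γ x + b x) ∧
      ∀ (e : Fin m) (C : ℝ), ∃ R₀ : ℝ, ∀ R ≥ R₀, ∀ r : ι → ℝ,
        (∀ k ∈ T.Fv, 0 < r k ∧ r k ≤ T.r k) → MapsTo (Λ e) ((T.shr R r).D T.top) (J.Om C) ∧
        ∀ (E : Type) [NormedAddCommGroup E] [NormedSpace ℂ E] (N : ℂ → E) (c : ℕ → ℕ → E),
          J.Dul C N c → (T.shr R r).fr.St T.top (fun x => N (Λ e x)) fun _ => c 0 0 := sorry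

end Crest.Agent.N207.O.St
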