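import Crest.Agent.N207.O.St
import Crest.Agent.N207.O.Ost

/-! Row 207, block O: STATEMENT LIST 2 (never imported by a final file). -/

set_option autoImplicit false

open Set Filter Topology Metric

noncomputable section

namespace Crest.Agent.N207.O.St

variable {ι : Type} [Fintype ι] [DecidableEq ι] {α : Type} {U : Ultrafilter α} {T : Tw ι}
  {p : α → ι → ℂ} {g : (ι → ℂ) → ℂ}

/-- monomialisation (84) -/
theorem M_fin (h : T.WF) (hs : T.Sp) (hp : T.Pt U p) (hg : T.fr.A T.top g)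
    (hr : RR (T.D T.top) g) : ∃ (T' : Tw ι) (p' : α → ι → ℂ) (Φ : (ι → ℂ) → ι → ℂ),
      T.Lift T' U (T.p + 1) ∅ p p' Φ ∧
        (EqOn (g ∘ Φ) 0 (T'.D T'.top) ∨ T'.MU U p' T'.top ∅ (g ∘ Φ)) := sorry

/-- logarithmic derivative of a small monomial times a unit -/
theorem O4_low (h : T.WF) (hp : T.Pt U p) (hm : T.MU U p T.top ∅ g)
    (h0 : Tendsto (fun i => g (p i)) U (𝓝 0)) : ∃ (T' : Tw ι) (p' : α → ι → ℂ)
      (Φ : (ι → ℂ) → ι → ℂ) (c : ℝ), T.Lift T' U 0 ∅ p p' Φ ∧ 0 < c ∧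
      ∀ᶠ i in U, c * ‖g (p i)‖ ≤ ‖fderiv ℂ (g ∘ Φ) (p' i) T'.dir‖ := sorry

/-- derivative of a large logarithmic quantity -/
theorem O4_up (h : T.WF) (hp : T.Pt U p) {γ : ι ⊕ ℕ → ℝ} {b Λ : (ι → ℂ) → ℂ}
    (hb : T.fr.A T.top b) (he : ∀ x ∈ T.D T.top, Λ x = T.lin T.top γ x + b x) {L : α → ℝ}
    (hL : Tendsto L U atTop) (hv : ∀ᶠ i in U, Λ (p i) = L i) {a η : ℝ} (ha : 0 < a) (hη : 0 < η) :
    ∀ᶠ i in U, ‖fderiv ℂ Λ (p i) T.dir‖ ≤ η * Real.exp (a * L i) := sorry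

theorem ost : OST := sorry

end Crest.Agent.N207.O.St
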