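import Crest.Agent.N207.O.Comp
import Crest.Agent.N207.O.Kit2

/-!
# Row 207, block O (helper28): Taylor expansion in a free variable (C5, C6)
-/

set_option autoImplicit false
set_option linter.unusedSectionVars false

open Set Filter Topology Metric Complex
open Crest.Agent.N250.H

noncomputable section

namespace Crest.Agent.N207.O

open Fr

theorem C2_compB' {X κ E E' : Type*} [NormedAddCommGroup X] [NormedSpace ℂ X]
    [NormedAddCommGroup E] [NormedSpace ℂ E] [NormedAddCommGroup E'] [NormedSpace ℂ E']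
    {F : Fr X κ} {l : List κ} {g : X → E} [CompleteSpace E'] (hF : F.Ok l) {U K : Set E}
    (hU : IsOpen U) {δ : ℝ} (hδ : 0 < δ) (hK : cthickening δ K ⊆ U) {G : E → E'}
    (hG : DifferentiableOn ℂ G U) (hb : Bd U G) (hφ : F.In l K g) : F.A l fun x => G (g x) :=
  C2_compD hF hU hδ (ball_of_cth hK) hG hb hφ

variable {ι : Type} [Fintype ι] [DecidableEq ι] {α : Type} {U : Ultrafilter α} {T : Tw ι}
  {p : α → ι → ℂ} {l : List (ι ⊕ ℕ)} {W : Finset ι} {k : ι} {g : (ι → ℂ) → ℂ}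

namespace Ty

theorem upd_D (h : T.WF) (hl : l <:+ T.top) (hk : k ∈ T.Fv) (hf : T.Free l k) {x : ι → ℂ}
    (hx : x ∈ T.D l) {w : ℂ} (hw : w ∈ ball (0 : ℂ) (T.r k)) : Function.update x k w ∈ T.D l :=
  T2_upd h hl (fun h' => h.dj k hk (hl.subset h')) (fun _ => hf) hx
    fun _ => mem_ball_zero_iff.1 hw

theorem ind_s (h : T.WF) (hl : l <:+ T.top) (hk : k ∈ T.Fv) (hf : T.Free l k) {a : ι ⊕ ℕ}
    (ha : a ∈ l) : Ind k (T.s a) :=
  (h.ind_s hl (fun h' => h.dj k hk (hl.subset h')) (fun _ => hf) ha).1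

theorem free_suffix {l₀ : List (ι ⊕ ℕ)} (hf : T.Free l k) (e : l₀ <:+ l) : T.Free l₀ k :=
  fun j hj => hf j (e.subset hj)

theorem dif_upd2 (k : ι) : Differentiable ℂ fun z : (ι → ℂ) × ℂ => Function.update z.1 k z.2 :=
  differentiable_pi.2 fun i => by
    by_cases e : i = k
    · subst e; simp
    · simp only [Function.update_of_ne e]; fun_prop

theorem real_upd {x : ι → ℂ} (hx : x ∈ Rp ι) {w : ℂ} (hw : w.im = 0) :
    Function.update x k w ∈ Rp ι := fun i => by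
  by_cases e : i = k
  · subst e; simpa using hw
  · simpa [e] using hx i

variable {E : Type*} [NormedAddCommGroup E] [NormedSpace ℂ E]

/-- the free variable as a parameter -/
theorem cl_upd {g : (ι → ℂ) → E} {b : ℝ} (h : T.WF) (hl : l <:+ T.top) (hk : k ∈ T.Fv)
    (hf : T.Free l k) (hg : T.fr.Cl l b g) :
    (T.fr.prod (ball (0 : ℂ) (T.r k))).Cl l b fun z => g (Function.update z.1 k z.2) :=
  A9_pull' (F' := T.fr.prod (ball (0 : ℂ) (T.r k)))
    (Φ := fun z : (ι → ℂ) × ℂ => Function.update z.1 k z.2)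
    (fun _ e _ hz => upd_D h (e.trans hl) hk (free_suffix hf e) hz.1 hz.2)
    (fun _ _ => (dif_upd2 k).differentiableOn)
    (fun _ _ e z _ => ind_s h hl hk hf (e.subset List.mem_cons_self) z.1 z.2) hg

/-- back to the diagonal -/
theorem cl_diag {G : (ι → ℂ) × ℂ → E} {b : ℝ} (hk : k ∈ T.Fv)
    (hG : (T.fr.prod (ball (0 : ℂ) (T.r k))).Cl l b G) : T.fr.Cl l b fun x => G (x, x k) :=
  A9_pull' (F := T.fr.prod (ball (0 : ℂ) (T.r k))) (Φ := fun x : ι → ℂ => (x, x k))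
    (fun _ _ _ hx => ⟨hx, mem_ball_zero_iff.2 (Tw.D_nil hx hk)⟩)
    (fun _ _ => by fun_prop) (fun _ _ _ _ _ => rfl) hG

theorem slice_upd {g : (ι → ℂ) → E} {b : ℝ} (h : T.WF) (hl : l <:+ T.top) (hk : k ∈ T.Fv)
    (hf : T.Free l k) (hg : T.fr.Cl l b g) {x : ι → ℂ} (hx : x ∈ T.D l) :
    DifferentiableOn ℂ (fun w => g (Function.update x k w)) (ball 0 (T.r k)) :=
  slice_diff (G := fun z : (ι → ℂ) × ℂ => g (Function.update z.1 k z.2))
    (A1_diff (cl_upd h hl hk hf hg)) hx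

theorem slice_real (h : T.WF) (hl : l <:+ T.top) (hk : k ∈ T.Fv) (hf : T.Free l k)
    (hr : RR (T.D l) g) {x : ι → ℂ} (hx : x ∈ T.D l) (hx' : x ∈ Rp ι) :
    ∀ w ∈ ball (0 : ℂ) (T.r k), w.im = 0 → (g (Function.update x k w)).im = 0 :=
  fun _ hw h0 => hr _ (upd_D h hl hk hf hx hw) (real_upd hx' h0)

theorem ds_tc (h : T.WF) (hl : l <:+ T.top) (hk : k ∈ T.Fv) (hf : T.Free l k) (hg : T.fr.A l g)
    (d : ℕ) {x : ι → ℂ} (hx : x ∈ T.D l) :
    ds d (fun w => g (Function.update x k w)) 0 = tc k d g x := by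
  rw [ds_at_zero ((slice_upd h hl hk hf hg hx).analyticAt (ball_mem_nhds _ (h.r0 k hk))), tc,
    smul_eq_mul, div_eq_inv_mul]

end Ty

open Ty

/-- the remainder of `C5_tay` explicitly -/
def tr {ι : Type*} [DecidableEq ι] (k : ι) (d : ℕ) (g : (ι → ℂ) → ℂ) (x : ι → ℂ) : ℂ :=
  ds d (fun w => g (Function.update x k w)) (x k)

theorem C5_tc (h : T.WF) (hl : l <:+ T.top) (hk : k ∈ T.Fv) (hf : T.Free l k) (hg : T.fr.A l g)
    (d : ℕ) : T.fr.A l (tc k d g) :=
  A2_congr (Cl.slice (cl_ds (T1_ok h hl) le_rfl (cl_upd h hl hk hf hg) d)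
    (mem_ball_self (h.r0 k hk))) fun _ hx => ds_tc h hl hk hf hg d hx

theorem C5_tr (h : T.WF) (hl : l <:+ T.top) (hk : k ∈ T.Fv) (hf : T.Free l k) (hg : T.fr.A l g)
    (d : ℕ) : T.fr.A l (tr k d g) ∧ ∀ x ∈ T.D l,
      g x = ∑ j ∈ Finset.range d, tc k j g x * x k ^ j + x k ^ d * tr k d g x ∧
        tr k d g (Function.update x k 0) = tc k d g x := by
  refine ⟨cl_diag hk (cl_ds (T1_ok h hl) le_rfl (cl_upd h hl hk hf hg) d), fun x hx => ⟨?_, ?_⟩⟩
  · have := ds_expand (fun w => g (Function.update x k w)) d (x k)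
    simp only [ds_tc h hl hk hf hg _ hx, Function.update_eq_self, smul_eq_mul] at this
    simpa only [mul_comm (tc k _ g x), tr] using this
  · simp only [tr, Function.update_idem, Function.update_self]
    exact ds_tc h hl hk hf hg d hx

theorem C5_tay (h : T.WF) (hl : l <:+ T.top) (hk : k ∈ T.Fv) (hf : T.Free l k) (hg : T.fr.A l g)
    (hr : RR (T.D l) g) (d : ℕ) : (T.fr.A l (tc k d g) ∧ RR (T.D l) (tc k d g)) ∧
      ∃ u : (ι → ℂ) → ℂ, T.fr.A l u ∧ RR (T.D l) u ∧ ∀ x ∈ T.D l,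
        g x = ∑ j ∈ Finset.range d, tc k j g x * x k ^ j + x k ^ d * u x ∧
          u (Function.update x k 0) = tc k d g x := by
  have hR := fun x hx hx' =>
    ds_real (slice_upd h hl hk hf hg (x := x) hx) (slice_real h hl hk hf hr hx hx') d
  refine ⟨⟨C5_tc h hl hk hf hg d, fun x hx hx' => ?_⟩, tr k d g, (C5_tr h hl hk hf hg d).1,
    fun x hx hx' => hR x hx hx' _ (mem_ball_zero_iff.2 (Tw.D_nil hx hk)) (hx' k),
    (C5_tr h hl hk hf hg d).2⟩
  rw [← ds_tc h hl hk hf hg d hx]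
  exact hR x hx hx' 0 (mem_ball_self (h.r0 k hk)) rfl

/-- Lipschitz in a free variable, on the half disc -/
theorem C6_lip (h : T.WF) (hl : l <:+ T.top) (hk : k ∈ T.Fv) (hf : T.Free l k) (hg : T.fr.A l g) :
    ∃ C : ℝ, ∀ x ∈ T.D l, ∀ w : ℂ, ‖x k‖ ≤ T.r k / 2 → ‖w‖ ≤ T.r k / 2 →
      ‖g (Function.update x k w) - g x‖ ≤ C * ‖w - x k‖ := by
  obtain ⟨M, hM0, hM⟩ := (A1_bd (T1_ok h hl) le_rfl hg).pos
  have hr := h.r0 k hk
  refine ⟨2 * M / (T.r k / 2), fun x hx w h1 h2 => ?_⟩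
  have hM' : ∀ z ∈ ball (0 : ℂ) (T.r k), ‖g (Function.update x k z)‖ ≤ M := fun z hz =>
    hM _ (upd_D h hl hk hf hx hz)
  by_cases hw : ‖w - x k‖ < T.r k / 2
  · have hs : ball (x k) (T.r k / 2) ⊆ ball 0 (T.r k) :=
      ball_subset_ball' (by rw [dist_zero_right]; linarith)
    simpa only [Function.update_eq_self] using lip_le ((slice_upd h hl hk hf hg hx).mono hs)
      (fun z hz => hM' z (hs hz)) (mem_ball_iff_norm.2 hw)
  · rw [div_mul_eq_mul_div, le_div_iff₀ (by positivity)]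
    refine mul_le_mul ((norm_sub_le _ _).trans ?_) (not_lt.1 hw) (by positivity) (by positivity)
    linarith [hM x hx, hM' w (mem_ball_zero_iff.2 (by linarith))]

end Crest.Agent.N207.O
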