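import Crest.Agent.N207.O.Ost
import Crest.Agent.N207.N.St

/-! # Row 207, block O (helper84): the form of the output used by block N -/

set_option autoImplicit false

open Set Filter Topology Metric

namespace Crest.Agent.N207.O

theorem ost_ns (h : OST) : NS.OST := by
  intro Θ V _ _ _ _ D r l0 r0 r1 _ U θ L hθ hL hf a η ha hη
  classical
  have e : ∀ᶠ i in (U : Filter ℕ), (if ‖θ i‖ ≤ r / 2 then θ i else 0) = θ i :=
    hθ.mono fun i hi => if_pos hi
  have := h Θ V D ℕ U (fun i => if ‖θ i‖ ≤ r / 2 then θ i else 0) L (r / 2) (by linarith)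
    (fun i => by
      split_ifs with hi
      · exact hi
      · rw [norm_zero]; linarith) hL (hf.congr' (e.mono fun i hi => by simp only [hi])) a ha η hη
  filter_upwards [this, e] with i h1 h2
  simpa only [h2] using h1

end Crest.Agent.N207.O
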