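import Crest.Agent.N207.O.Cls

/-!
# Row 207, block O (helper84): towers of scales, ultrafilter points, lifts

Levels `inl k` (free logarithmic coordinate `x k`) and `inr j` (tied:
`s_j = exp(<ρ_j,s> + u_j) - <c_j,s>`), finite variables `Fv` with labels.
-/

set_option autoImplicit false

open Set Filter Topology Metric

noncomputable section

namespace Crest.Agent.N207.O

/-- a tower -/
structure Tw (ι : Type) where
  p : ℕ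
  B : ℕ → List ι
  Fv : Finset ι
  lab : ι → ℕ
  r : ι → ℝ
  R : ℝ
  s : ι ⊕ ℕ → (ι → ℂ) → ℂ
  ρ : ℕ → ι ⊕ ℕ → ℝ
  c : ℕ → ι ⊕ ℕ → ℝ
  u : ℕ → (ι → ℂ) → ℂ

namespace Tw

variable {ι : Type} [Fintype ι] [DecidableEq ι] {α : Type}

/-- the levels strictly below the tied level `j` (head = top) -/
def lv (T : Tw ι) : ℕ → List (ι ⊕ ℕ)
  | 0 => (T.B 0).map Sum.inl
  | j + 1 => (T.B (j + 1)).map Sum.inl ++ Sum.inr j :: T.lv j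

/-- `lw 0 = []`, `lw (j+1) = lv j` -/
def lw (T : Tw ι) : ℕ → List (ι ⊕ ℕ)
  | 0 => []
  | j + 1 => T.lv j

/-- all levels -/
def top (T : Tw ι) : List (ι ⊕ ℕ) := T.lv T.p

/-- real linear combination of the scales of `l` -/
def lin (T : Tw ι) (l : List (ι ⊕ ℕ)) (γ : ι ⊕ ℕ → ℝ) (x : ι → ℂ) : ℂ :=
  ∑ a ∈ l.toFinset, (γ a : ℂ) * T.s a x

/-- logarithm of the tied quantity -/
def E (T : Tw ι) (j : ℕ) (x : ι → ℂ) : ℂ := T.lin (T.lv j) (T.ρ j) x + T.u j x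

/-- the constraint of the level `a` -/
def cst (T : Tw ι) (a : ι ⊕ ℕ) (x : ι → ℂ) : Prop :=
  T.s a x ∈ Om T.R ∧ ∀ j, a = Sum.inr j → |(T.E j x).im| < Real.pi / 2

/-- seeds: real points at which the scales of `l` are ordered -/
def Sd (T : Tw ι) (l : List (ι ⊕ ℕ)) : Set (ι → ℂ) :=
  {y | y ∈ Rp ι ∧ l.Pairwise fun a b => T.R * (T.s b y).re < (T.s a y).re}

/-- domains -/
def D (T : Tw ι) : List (ι ⊕ ℕ) → Set (ι → ℂ)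
  | [] => {x | ∀ k ∈ T.Fv, ‖x k‖ < T.r k}
  | a :: l => RC (T.Sd (a :: l)) {x | x ∈ T.D l ∧ T.cst a x}

/-- the frame of a tower -/
def fr (T : Tw ι) : Fr (ι → ℂ) (ι ⊕ ℕ) := ⟨T.s, T.D⟩

/-- change of the parameters -/
def shr (T : Tw ι) (R : ℝ) (r : ι → ℝ) : Tw ι := { T with R := R, r := r }

/-- well formed towers -/
structure WF (T : Tw ι) : Prop where
  R1 : 1 ≤ T.R
  r0 : ∀ k ∈ T.Fv, 0 < T.r k
  nd : T.top.Nodup
  dj : ∀ k ∈ T.Fv, Sum.inl k ∉ T.top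
  lab : ∀ k ∈ T.Fv, T.lab k ≤ T.p
  sN : ∀ k x, T.s (Sum.inl k) x = x k
  sL : ∀ j < T.p, ∀ x ∈ T.D (T.lv j),
    T.s (Sum.inr j) x = Complex.exp (T.E j x) - T.lin (T.lv j) (T.c j) x
  uA : ∀ j < T.p, T.fr.A (T.lv j) (T.u j)
  uR : ∀ j < T.p, RR (T.D (T.lv j)) (T.u j)
  ind : ∀ j < T.p, ∀ k, Sum.inl k ∉ T.lv j → (k ∉ T.Fv ∨ j < T.lab k) →
    Ind k (T.s (Sum.inr j)) ∧ Ind k (T.u j)
  ρ0 : ∀ j a, 0 ≤ T.ρ j a
  c0 : ∀ j a, 0 ≤ T.c j a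
  ρs : ∀ j < T.p, ∀ a, a ∉ T.lv j → T.ρ j a = 0
  ρp : ∀ j < T.p, ∃ a ∈ T.lv j, 0 < T.ρ j a
  ρm : ∀ j j', j < j' → j' < T.p → (∀ a, T.ρ j a ≤ T.ρ j' a) ∧ ∃ a ∈ T.lv j', T.ρ j a < T.ρ j' a

/-- there is an unused coordinate -/
def Sp (T : Tw ι) : Prop :=
  T.Fv.card + (Finset.univ.filter fun k => Sum.inl k ∈ T.top.toFinset).card < Fintype.card ι

/-- quasi-analytic, connected towers -/
structure Good (T : Tw ι) : Prop where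
  wf : T.WF
  qa : ∀ a l, a :: l <:+ T.top → T.fr.QA1 a l
  cn : ∀ l, l <:+ T.top → IsPreconnected (T.D l)

/-- ultrafilter points in the regime of `T` -/
structure Pt (T : Tw ι) (U : Ultrafilter α) (p : α → ι → ℂ) : Prop where
  re : ∀ i, p i ∈ Rp ι
  z0 : ∀ k ∈ T.Fv, Tendsto (fun i => p i k) U (𝓝 0)
  un : ∀ k, k ∉ T.Fv → Sum.inl k ∉ T.top → ∀ i, p i k = 0
  big : ∀ a ∈ T.top, Tendsto (fun i => (T.s a (p i)).re) U atTop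
  ord : ∀ a l, a :: l <:+ T.top → ∀ b ∈ l,
    Tendsto (fun i => (T.s b (p i)).re / (T.s a (p i)).re) U (𝓝 0)

/-- termination measure -/
def μ (T : Tw ι) : ℕ := ∑ k ∈ T.Fv, (T.p + 1 - T.lab k)

/-- pull back properties of `Φ` from the list `l` of `T` to the list `l'` of `T'` -/
structure Pb (T T' : Tw ι) (l l' : List (ι ⊕ ℕ)) (Φ : (ι → ℂ) → ι → ℂ) : Prop where
  maps : MapsTo Φ (T'.D l') (T.D l)
  cl : ∀ g : (ι → ℂ) → ℂ, T.fr.A l g → T'.fr.A l' (g ∘ Φ)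
  rr : ∀ g : (ι → ℂ) → ℂ, T.fr.A l g → RR (T.D l) g → RR (T'.D l') (g ∘ Φ)
  sc : ∀ a ∈ l, ∃ (C : ι ⊕ ℕ → ℝ) (b : (ι → ℂ) → ℂ), T'.fr.A l' b ∧ RR (T'.D l') b ∧
    ∀ x ∈ T'.D l', T.s a (Φ x) = T'.lin l' C x + b x

/-- a change of chart, valid for the lists `lw m`, `n ≤ m`, that does not touch the passive
variables `W` -/
structure Lift (T T' : Tw ι) (U : Ultrafilter α) (n : ℕ) (W : Finset ι) (p p' : α → ι → ℂ)
    (Φ : (ι → ℂ) → ι → ℂ) : Prop where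
  wf : T'.WF
  pt : T'.Pt U p'
  hp : ∀ᶠ i in U, Φ (p' i) = p i
  pp : T'.p = T.p
  mu : T'.μ ≤ T.μ
  sub : T'.Fv ⊆ T.Fv
  pas : ∀ k ∈ W, k ∈ T.Fv → k ∈ T'.Fv ∧ T'.lab k = T.lab k ∧ T'.r k = T.r k
  com : ∀ k ∈ W, ∀ x w, Φ (Function.update x k w) = Function.update (Φ x) k w
  lab : ∀ k ∈ T'.Fv, T'.lab k ≤ max (T.lab k) (n - 1)
  dif : DifferentiableOn ℂ Φ (T'.D T'.top)
  rea : ∀ x ∈ T'.D T'.top, x ∈ Rp ι → Φ x ∈ Rp ι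
  pb : ∀ m, n ≤ m → m ≤ T.p + 1 → Pb T T' (T.lw m) (T'.lw m) Φ

/-- a change of chart that keeps the shape -/
structure Same (T T' : Tw ι) (n : ℕ) (Φ : (ι → ℂ) → ι → ℂ) : Prop where
  B : T'.B = T.B
  Fv : T'.Fv = T.Fv
  lab : T'.lab = T.lab
  opn : ∀ x ∈ T'.D T'.top, 𝓝 (Φ x) ≤ map Φ (𝓝 x)
  pb : ∀ l, T.lw n <:+ l → l <:+ T.top → Pb T T' l l Φ
  sc : ∀ a l, T.lw n <:+ l → a :: l <:+ T.top → ∃ (C : ι ⊕ ℕ → ℝ) (b : (ι → ℂ) → ℂ),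
    T'.fr.A (a :: l) b ∧ RR (T'.D (a :: l)) b ∧
      ∀ x ∈ T'.D (a :: l), T.s a (Φ x) = T'.s a x + T'.lin l C x + b x

/-- `h` is a unit at some real value of the passive variables -/
def UU (T : Tw ι) (U : Ultrafilter α) (p : α → ι → ℂ) (W : Finset ι) (h : (ι → ℂ) → ℂ) : Prop :=
  ∃ (w : ι → ℝ) (c : ℂ), (∀ k ∈ W, |w k| < T.r k) ∧ c ≠ 0 ∧
    Tendsto (fun i => h (upd W w (p i))) U (𝓝 c)

/-- monomial times unit -/
def MU (T : Tw ι) (U : Ultrafilter α) (p : α → ι → ℂ) (l : List (ι ⊕ ℕ)) (W : Finset ι)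
    (g : (ι → ℂ) → ℂ) : Prop :=
  ∃ (γ : ι ⊕ ℕ → ℝ) (h : (ι → ℂ) → ℂ), T.fr.A l h ∧ RR (T.D l) h ∧ T.UU U p W h ∧
    ∀ x ∈ T.D l, g x = Complex.exp (-T.lin l γ x) * h x

/-- the value of the variable `k` is beyond the cut `j` -/
def Bey (T : Tw ι) (U : Ultrafilter α) (p : α → ι → ℂ) (j : ℕ) (k : ι) : Prop :=
  (j < T.p → ∃ t : ℝ, 0 < t ∧
    ∀ᶠ i in U, ‖p i k‖ ≤ Real.exp (-(t * (T.s (Sum.inr j) (p i)).re))) ∧
  (¬ j < T.p → ∀ᶠ i in U, p i k = 0)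

/-- all tied levels of `l` ignore the variable `k` -/
def Free (T : Tw ι) (l : List (ι ⊕ ℕ)) (k : ι) : Prop := ∀ j, Sum.inr j ∈ l → j < T.lab k

/-- the direction that translates all free logarithmic coordinates -/
def dir (T : Tw ι) : ι → ℂ := fun k => if Sum.inl k ∈ T.top.toFinset then 1 else 0

end Tw

/-- Taylor coefficient in the coordinate `k` -/
def tc {ι : Type*} [DecidableEq ι] (k : ι) (j : ℕ) (g : (ι → ℂ) → ℂ) (x : ι → ℂ) : ℂ :=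
  iteratedDeriv j (fun w => g (Function.update x k w)) 0 / (j.factorial : ℂ)

end Crest.Agent.N207.O
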