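import Crest.Agent.N207.O.El1
import Crest.Agent.N207.O.Comp
import Crest.Agent.N207.O.Kit2
import Crest.Agent.N207.O.Alg3

/-!
# Row 207, block O (helper88): un-tying a variable, part 1 (the new tower, base relation)
-/

set_option autoImplicit false
set_option linter.unusedSectionVars false

open Set Filter Topology Metric Function

noncomputable section

namespace Crest.Agent.N207.O.Unt

open El Fr

variable {ι : Type} [Fintype ι] [DecidableEq ι] {T : Tw ι} {k : ι} {β : ι ⊕ ℕ → ℝ} {t R : ℝ}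
  {x : ι → ℂ} {a : ι ⊕ ℕ} {l : List (ι ⊕ ℕ)} {v : (ι → ℂ) → ℂ}

theorem dif_upd {X : Type*} [NormedAddCommGroup X] [NormedSpace ℂ X] {S : Set X}
    {φ : X → ι → ℂ} {ψ : X → ℂ} (hφ : DifferentiableOn ℂ φ S) (hψ : DifferentiableOn ℂ ψ S) :
    DifferentiableOn ℂ (fun x => update (φ x) k (ψ x)) S := by
  refine differentiableOn_pi.2 fun i => ?_
  by_cases h : i = k
  · subst h; simpa using hψ
  · simpa [update_of_ne h] using differentiableOn_pi.1 hφ i

theorem rp_upd (hx : x ∈ Rp ι) {w : ℂ} (hw : w.im = 0) : update x k w ∈ Rp ι := fun i => by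
  by_cases h : i = k
  · subst h; simpa using hw
  · simpa [update_of_ne h] using hx i

/-- the monomial -/
def mm (T : Tw ι) (k : ι) (t : ℝ) (x : ι → ℂ) : ℂ :=
  Complex.exp (-((t : ℂ) * T.s (Sum.inr (T.lab k)) (update x k 0))) *
    Complex.exp (-T.lin (T.lv (T.lab k)) (T.ρ (T.lab k)) x)

/-- the change of chart -/
def Ph (T : Tw ι) (k : ι) (t : ℝ) (x : ι → ℂ) : ι → ℂ := update x k (mm T k t x * x k)

/-- the change of the tied scale -/
def bb (T : Tw ι) (k : ι) (t : ℝ) (x : ι → ℂ) : ℂ :=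
  T.s (Sum.inr (T.lab k)) (Ph T k t x) - T.s (Sum.inr (T.lab k)) (update x k 0)

/-- the new tower -/
def unt (T : Tw ι) (k : ι) (t : ℝ) (β : ι ⊕ ℕ → ℝ) (R : ℝ) : Tw ι :=
  { T with
    lab := update T.lab k (T.lab k + 1)
    r := update T.r k (T.r k / 2)
    R := R
    s := Sum.elim (fun k' x => x k')
      fun i x => T.s (Sum.inr i) (Ph T k t x) - β (Sum.inr i) * bb T k t x
    u := fun i x => if i = T.lab k then T.u i (update x k 0) else
      T.u i (Ph T k t x) + (∑ a ∈ (T.lv i).toFinset, T.ρ i a * β a : ℝ) * bb T k t x }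

theorem unt_lv : (unt T k t β R).lv = T.lv := lv_congr rfl

theorem unt_top : (unt T k t β R).top = T.top := top_congr rfl rfl

/-- standing hypotheses -/
structure Ctx (T : Tw ι) (k : ι) (β : ι ⊕ ℕ → ℝ) : Prop where
  wf : T.WF
  hk : k ∈ T.Fv
  hj : T.lab k < T.p
  b0 : ∀ k', β (Sum.inl k') = 0
  b1 : ∀ i < T.lab k, β (Sum.inr i) = 0
  b2 : β (Sum.inr (T.lab k)) = 1
  b3 : ∀ i, T.lab k < i → i < T.p → β (Sum.inr i) = -∑ a ∈ (T.lv i).toFinset, T.c i a * β a

theorem exists_ctx (h : T.WF) (hk : k ∈ T.Fv) (hj : T.lab k < T.p) : ∃ β, Ctx T k β := by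
  have key : ∀ N : ℕ, ∃ β : ι ⊕ ℕ → ℝ, (∀ k', β (Sum.inl k') = 0) ∧
      (∀ i < T.lab k, β (Sum.inr i) = 0) ∧ β (Sum.inr (T.lab k)) = 1 ∧
      ∀ i, T.lab k < i → i < N → β (Sum.inr i) = -∑ a ∈ (T.lv i).toFinset, T.c i a * β a := by
    intro N
    induction N with
    | zero =>
      exact ⟨Pi.single (Sum.inr (T.lab k)) 1, fun k' => by simp, fun i hi => by simp [hi.ne],
        by simp, fun i _ hi => absurd hi (Nat.not_lt_zero _)⟩
    | succ N ih =>
      obtain ⟨β, h0, h1, h2, h3⟩ := ih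
      by_cases hN : T.lab k < N
      · have e : ∀ i ≤ N, ∀ z, ∑ a ∈ (T.lv i).toFinset, T.c i a * update β (Sum.inr N) z a =
            ∑ a ∈ (T.lv i).toFinset, T.c i a * β a := fun i hi z =>
          Finset.sum_congr rfl fun a ha => by
            rw [update_of_ne]
            rintro rfl
            exact absurd (inr_mem.1 (List.mem_toFinset.1 ha)) (not_lt.2 hi)
        refine ⟨update β (Sum.inr N) (-∑ a ∈ (T.lv N).toFinset, T.c N a * β a),
          fun k' => by simp [h0], fun i hi => ?_, ?_, fun i hi hi' => ?_⟩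
        · rw [update_of_ne (by simp; omega), h1 i hi]
        · rw [update_of_ne (by simp; omega), h2]
        · rw [e i (by omega)]
          by_cases hiN : i = N
          · rw [hiN, update_self]
          · rw [update_of_ne (by simpa using hiN), h3 i hi (by omega)]
      · exact ⟨β, h0, h1, h2, fun i hi hi' => by omega⟩
  obtain ⟨β, h0, h1, h2, h3⟩ := key T.p
  exact ⟨β, h, hk, hj, h0, h1, h2, h3⟩

namespace Ctx

variable (c : Ctx T k β)
include c

theorem lo : T.lv (T.lab k) <:+ T.top := lv_top T c.hj.le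

theorem l0 : Sum.inr (T.lab k) :: T.lv (T.lab k) <:+ T.top := lv_suffix' T c.hj

theorem nk (hl : l <:+ T.top) : Sum.inl k ∉ l := fun h => c.wf.dj k c.hk (hl.subset h)

theorem free (hl : l <:+ T.lv (T.lab k)) : k ∈ T.Fv → T.Free l k := fun _ _ h =>
  inr_mem.1 (hl.subset h)

theorem ind_lo (ha : a ∈ T.lv (T.lab k)) : Ind k (T.s a) :=
  (c.wf.ind_s c.lo (c.nk c.lo) (c.free List.suffix_rfl) ha).1

theorem lin_lo (γ : ι ⊕ ℕ → ℝ) : Ind k (T.lin (T.lv (T.lab k)) γ) :=
  Tw.ind_lin (fun _ ha => c.ind_lo ha) γ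

theorem ind_mm : Ind k (mm T k t) := fun x w => by simp only [mm, update_idem, c.lin_lo _ x w]

theorem upd (hl : l <:+ T.lv (T.lab k)) (hx : x ∈ T.D l) {w : ℂ} (hw : ‖w‖ < T.r k) :
    update x k w ∈ T.D l :=
  T2_upd c.wf (hl.trans c.lo) (c.nk (hl.trans c.lo)) (c.free hl) hx fun _ => hw

theorem upd0 (hx : x ∈ T.D (T.lv (T.lab k))) : update x k 0 ∈ T.D (T.lv (T.lab k)) :=
  c.upd List.suffix_rfl hx (by simpa using c.wf.r0 k c.hk)

theorem beta_lo (ha : a ∈ T.lv (T.lab k)) : β a = 0 := by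
  rcases a with k' | i
  · exact c.b0 k'
  · exact c.b1 i (inr_mem.1 ha)

theorem s_Ph (ha : a ∈ T.top) (x : ι → ℂ) :
    T.s a (Ph T k t x) = (unt T k t β R).s a x + β a * bb T k t x := by
  rcases a with k' | i
  · have : k' ≠ k := by rintro rfl; exact c.nk List.suffix_rfl ha
    simp [unt, c.wf.sN, Ph, update_of_ne this, c.b0]
  · simp [unt]

theorem s_lo (ha : a ∈ T.lv (T.lab k)) : (unt T k t β R).s a = T.s a := by
  funext x
  have := c.s_Ph (t := t) (R := R) (c.lo.subset ha) x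
  rw [c.beta_lo ha, Ph, c.ind_lo ha] at this
  simpa using this.symm

theorem s_j (x : ι → ℂ) :
    (unt T k t β R).s (Sum.inr (T.lab k)) x = T.s (Sum.inr (T.lab k)) (update x k 0) := by
  simp [unt, c.b2, bb]

theorem lin_Ph (hl : l <:+ T.top) (γ : ι ⊕ ℕ → ℝ) (x : ι → ℂ) : T.lin l γ (Ph T k t x) =
    (unt T k t β R).lin l γ x + (∑ a ∈ l.toFinset, γ a * β a : ℝ) * bb T k t x := by
  simp only [Tw.lin, Complex.ofReal_sum, Finset.sum_mul, ← Finset.sum_add_distrib]
  refine Finset.sum_congr rfl fun a ha => ?_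
  rw [c.s_Ph (R := R) (hl.subset (List.mem_toFinset.1 ha))]
  push_cast; ring

theorem lin_eq (γ : ι ⊕ ℕ → ℝ) (hl : l <:+ T.lv (T.lab k)) (x : ι → ℂ) :
    (unt T k t β R).lin l γ x = T.lin l γ x :=
  lin_congr (fun a ha => by rw [c.s_lo (hl.subset ha)]) fun _ _ => rfl

theorem E_ne {i : ℕ} (hi : i ≠ T.lab k) (hp : i ≤ T.p) (x : ι → ℂ) :
    (unt T k t β R).E i x = T.E i (Ph T k t x) := by
  rw [Tw.E, Tw.E, unt_lv, c.lin_Ph (R := R) (lv_top T hp)]
  simp only [unt, if_neg hi]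
  ring

theorem E_lo {i : ℕ} (hi : i < T.lab k) (x : ι → ℂ) : (unt T k t β R).E i x = T.E i x := by
  rw [c.E_ne hi.ne (hi.trans c.hj).le, Ph,
    c.wf.ind_E c.lo (c.nk c.lo) (c.free List.suffix_rfl) (inr_mem.2 hi)]

theorem u_lo {i : ℕ} (hi : i < T.lab k) (x : ι → ℂ) : (unt T k t β R).u i x = T.u i x := by
  have := c.E_lo (t := t) (R := R) hi x
  rw [Tw.E, Tw.E, unt_lv, c.lin_eq _ (lv_suffix T hi.le)] at this
  exact add_left_cancel this

theorem u_j (x : ι → ℂ) : (unt T k t β R).u (T.lab k) x = T.u (T.lab k) (update x k 0) := by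
  simp [unt]

theorem E_j (x : ι → ℂ) : (unt T k t β R).E (T.lab k) x = T.E (T.lab k) (update x k 0) := by
  rw [Tw.E, Tw.E, unt_lv, c.lin_eq _ List.suffix_rfl, c.u_j, c.lin_lo]; rfl

theorem r_le (k' : ι) (hk' : k' ∈ T.Fv) : (unt T k t β R).r k' ≤ T.r k' := by
  by_cases h : k' = k
  · subst h
    have := c.wf.r0 k' hk'
    simp only [unt, update_self]; linarith
  · simp [unt, update_of_ne h]

theorem rel0 (hR : T.R ≤ R) (hl : l <:+ T.lv (T.lab k)) : Rel T (unt T k t β R) l l id := by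
  have := climb0 (T' := unt T k t β R) (Φ := id) c.wf (Q := T.lv (T.lab k)) (l0 := []) (l0' := [])
    (by simpa using c.lo)
    (Rel.nil (fun x hx k' hk' => (hx k' hk').trans_le (c.r_le k' hk')) differentiableOn_id
      fun _ _ h => h) hR (List.Sublist.refl _)
    (fun a ha x _ => by rw [c.s_lo (by simpa using ha)]; rfl)
    (fun i hi x _ => c.E_lo (inr_mem.1 hi) x) hl
  simpa using this

theorem sub0 (hR : T.R ≤ R) (hx : x ∈ (unt T k t β R).D (Sum.inr (T.lab k) :: T.lv (T.lab k))) :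
    x ∈ T.D (T.lv (T.lab k)) := (c.rel0 hR List.suffix_rfl).maps (D_cons hx).1

theorem dif_s0 : DifferentiableOn ℂ (fun x => T.s (Sum.inr (T.lab k)) (update x k 0))
    (T.D (T.lv (T.lab k))) :=
  (dif_s c.wf c.l0).comp (dif_upd differentiableOn_id (differentiableOn_const _)) fun _ => c.upd0

theorem ok0 (hR : T.R ≤ R) : (unt T k t β R).fr.Ok (Sum.inr (T.lab k) :: T.lv (T.lab k)) := by
  have H := c.rel0 (t := t) hR List.suffix_rfl
  refine ok_step H.ok (le_trans (by linarith [c.wf.R1]) hR)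
    ((c.dif_s0.mono H.maps).congr fun x _ => c.s_j x) fun j hj => ?_
  cases hj
  exact ((((dif_E c.wf c.hj).comp (dif_upd differentiableOn_id (differentiableOn_const _))
    fun _ => c.upd0).mono H.maps).congr fun x _ => c.E_j x).continuousOn

theorem mm_eq (x : ι → ℂ) : mm T k t x = (unt T k t β R).fr.ex (Sum.inr (T.lab k)) t x *
    Complex.exp (-T.lin (T.lv (T.lab k)) (T.ρ (T.lab k)) x) := by
  simp only [mm, ex, Tw.fr, c.s_j]

theorem xk_lt (hx : x ∈ (unt T k t β R).D l) : ‖x k‖ < T.r k / 2 := by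
  simpa [unt] using Tw.D_nil hx (k := k) c.hk

theorem mx_le (hR : T.R ≤ R) (ht : 0 ≤ t)
    (hx : x ∈ (unt T k t β R).D (Sum.inr (T.lab k) :: T.lv (T.lab k))) :
    ‖mm T k t x * x k‖ ≤ T.r k / 2 := by
  have h1 := (c.ok0 hR).norm_ex_le hx ht
  have h2 : ‖Complex.exp (-T.lin (T.lv (T.lab k)) (T.ρ (T.lab k)) x)‖ ≤ 1 := by
    rw [Complex.norm_exp, Real.exp_le_one_iff, Complex.neg_re, neg_nonpos]
    exact re_lin (by linarith [c.wf.R1]) (c.wf.ρ0 _) (c.sub0 hR hx)
  rw [c.mm_eq (R := R), norm_mul, norm_mul]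
  calc _ ≤ 1 * 1 * (T.r k / 2) := by gcongr; exact (c.xk_lt hx).le
    _ = _ := by ring

theorem A_xk (ho : (unt T k t β R).fr.Ok l) : (unt T k t β R).fr.A l fun x => x k :=
  A.of_nil ho (differentiableOn_apply k _) ⟨T.r k / 2, fun _ hx => (c.xk_lt hx).le⟩

theorem s0_im (hx : x ∈ T.D (T.lv (T.lab k))) (hr : x ∈ Rp ι) :
    (T.s (Sum.inr (T.lab k)) x).im = 0 := by
  rw [c.wf.sL _ c.hj x hx, Complex.sub_im, Complex.exp_im, rr_E c.wf c.hj x hx hr,
    rr_lin (T6_real c.wf c.lo) _ x hx hr]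
  simp

theorem mm_im (hx : x ∈ T.D (T.lv (T.lab k))) (hr : x ∈ Rp ι) : (mm T k t x).im = 0 := by
  have h1 := c.s0_im (c.upd0 hx) (rp_upd hr rfl)
  have h2 := rr_lin (T6_real c.wf c.lo) (T.ρ (T.lab k)) x hx hr
  simp [mm, Complex.exp_im, h1, h2]

/-- the base relation -/
theorem base (hR : T.R ≤ R) (ht : 0 < t) : Rel T (unt T k t β R) (T.lv (T.lab k))
    (Sum.inr (T.lab k) :: T.lv (T.lab k)) (Ph T k t) := by
  have ho := c.ok0 (t := t) hR
  have r0 := c.wf.r0 k c.hk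
  have hg1 : (unt T k t β R).fr.A (Sum.inr (T.lab k) :: T.lv (T.lab k)) fun x =>
      Complex.exp (-T.lin (T.lv (T.lab k)) (T.ρ (T.lab k)) x) * x k :=
    A.mul ho (((c.rel0 hR List.suffix_rfl).cl _ (T7_mon c.wf c.lo (c.wf.ρ0 _))).up ho) (c.A_xk ho)
  have e : ∀ x, mm T k t x * x k = (unt T k t β R).fr.ex (Sum.inr (T.lab k)) t x •
      (Complex.exp (-T.lin (T.lv (T.lab k)) (T.ρ (T.lab k)) x) * x k) := fun x => by
    rw [c.mm_eq (R := R), smul_eq_mul, mul_assoc]
  have hA : (unt T k t β R).fr.A (Sum.inr (T.lab k) :: T.lv (T.lab k)) fun x => mm T k t x * x k :=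
    A2_congr (A3_mono (A5_ex ho ht.le hg1) ht.le) fun x _ => (e x).symm
  refine ⟨ho, fun x hx => c.upd List.suffix_rfl (c.sub0 hR hx) ((c.mx_le hR ht.le hx).trans_lt
    (by linarith)), dif_upd differentiableOn_id (A1_diff hA), fun x hx hr => rp_upd hr ?_,
    fun g hg => ?_⟩
  · simp [c.mm_im (c.sub0 hR hx) hr, hr k]
  have hI : (unt T k t β R).fr.In (Sum.inr (T.lab k) :: T.lv (T.lab k))
      (closedBall 0 (T.r k / 2)) fun x => mm T k t x * x k :=
    ⟨hA, fun x hx => by simpa only [mem_closedBall, dist_zero_right] using c.mx_le hR ht.le hx,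
      0, _, t, ht, In.lift ho.1 List.nil_suffix ⟨Cl.zero, fun _ _ => by simp; linarith⟩, hg1,
      fun x _ => (e x).trans (zero_add _).symm⟩
  have hG : ((unt T k t β R).fr.prod (ball (0 : ℂ) (T.r k))).A (T.lv (T.lab k))
      (g ∘ fun z : (ι → ℂ) × ℂ => update z.1 k z.2) :=
    A9_pull' (F := T.fr)
      (fun l hl z hz => c.upd hl ((c.rel0 hR hl).maps hz.1) (by simpa using hz.2))
      (fun _ _ => dif_upd differentiableOn_fst differentiableOn_snd)
      (fun a l hl z _ => by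
        have ha := hl.subset List.mem_cons_self
        change T.s a _ = (unt T k t β R).s a z.1
        rw [c.s_lo ha, c.ind_lo ha]) hg
  exact C1_comp1 ho isOpen_ball (δ := T.r k / 4) (by linarith)
    (by rw [cthickening_closedBall (by linarith) (by linarith)]
        exact closedBall_subset_ball (by linarith))
    (hG.up (ho.prod isOpen_ball)) hI

end Ctx

end Crest.Agent.N207.O.Unt
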