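import Crest.Agent.N207.O.Unt1
import Crest.Agent.N207.O.Tay

/-!
# Row 207, block O (helper88): un-tying a variable, part 2
-/

set_option autoImplicit false
set_option linter.unusedSectionVars false

open Set Filter Topology Metric Function

noncomputable section

namespace Crest.Agent.N207.O

namespace Unt

open El Fr

variable {ι : Type} [Fintype ι] [DecidableEq ι] {T : Tw ι} {k : ι} {β : ι ⊕ ℕ → ℝ} {t R : ℝ}
  {x : ι → ℂ} {a : ι ⊕ ℕ} {l : List (ι ⊕ ℕ)} {v : (ι → ℂ) → ℂ}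

theorem Om_add {R R' B : ℝ} (hR : 1 ≤ R) (hB : 0 ≤ B) (h : 2 * R + B ≤ R') {w e : ℂ}
    (hw : w ∈ Om R') (he : ‖e‖ ≤ B) : w + e ∈ Om R := by
  have h1 : -B ≤ e.re := by
    have := Complex.abs_re_le_norm e; have := neg_abs_le e.re; linarith
  have h2 := hw.1
  have h3 := hw.2
  have h4 : w.re ≤ ‖w‖ := Complex.re_le_norm w
  have h5 : 0 ≤ Real.log ‖w‖ := Real.log_nonneg (by linarith)
  have h6 : (w + e).re ≤ ‖w + e‖ := Complex.re_le_norm _
  rw [Complex.add_re] at h6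
  have h7 : Real.log ‖w + e‖ ≤ 1 + Real.log ‖w‖ := by
    have : ‖w + e‖ ≤ 2 * ‖w‖ := (norm_add_le _ _).trans (by linarith)
    refine (Real.log_le_log (by linarith) this).trans ?_
    rw [Real.log_mul two_ne_zero (by linarith)]
    have := Real.log_two_lt_d9
    linarith
  refine ⟨by rw [Complex.add_re]; linarith, ?_⟩
  rw [Complex.add_re]
  nlinarith

theorem sd_add {T' : Tw ι} {Φ : (ι → ℂ) → ι → ℂ} {B : ℝ} (h1 : 1 ≤ T.R) (hB : 0 ≤ B)
    (hR : (T.R + 1) * (B + 1) ≤ T'.R) {y : ι → ℂ} (hy : y ∈ T'.Sd l) (hD : y ∈ T'.D l)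
    (hr : Φ y ∈ Rp ι) (hs : ∀ a ∈ l, ‖T.s a (Φ y) - T'.s a y‖ ≤ B) : Φ y ∈ T.Sd l := by
  refine ⟨hr, hy.2.imp_of_mem fun {a b} ha hb hab => ?_⟩
  have e1 := (Complex.abs_re_le_norm _).trans (hs a ha)
  have e2 := (Complex.abs_re_le_norm _).trans (hs b hb)
  rw [Complex.sub_re, abs_le] at e1 e2
  have e3 := (s_om hD hb).1
  have e4 : T.R + 1 ≤ T'.R := by nlinarith
  have e5 : T.R * (T.s b (Φ y)).re ≤ T.R * ((T'.s b y).re + B) := by gcongr; linarith
  have e6 : (T.R + 1) * (T'.s b y).re ≤ T'.R * (T'.s b y).re := by gcongr; linarith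
  nlinarith

/-- first order Taylor formula for the tied scale -/
structure Tay (T : Tw ι) (k : ι) (v : (ι → ℂ) → ℂ) (M : ℝ) : Prop where
  A : T.fr.A (T.lv (T.lab k)) v
  rr : RR (T.D (T.lv (T.lab k))) v
  M0 : 0 < M
  bd : ∀ x ∈ T.D (T.lv (T.lab k)), ‖v x‖ ≤ M
  eq : ∀ x ∈ T.D (T.lv (T.lab k)), T.s (Sum.inr (T.lab k)) x - T.s (Sum.inr (T.lab k)) (update x k 0)
    = Complex.exp (T.lin (T.lv (T.lab k)) (T.ρ (T.lab k)) x) * (x k * v x)

/-- the bound for the corrections -/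
def Bc (T : Tw ι) (k : ι) (β : ι ⊕ ℕ → ℝ) (M : ℝ) : ℝ :=
  (∑ a ∈ T.top.toFinset, |β a|) * (T.r k * M)

namespace Ctx

variable (c : Ctx T k β)
include c

theorem tay : ∃ v M, Tay T k v M := by
  have ho := T1_ok c.wf c.lo
  obtain ⟨-, v, h1, h2, h3⟩ := C5_tay c.wf c.lo c.hk (c.free List.suffix_rfl c.hk)
    (C3_exp ho (c.wf.uA _ c.hj))
    (fun x hx hr => by simp [Complex.exp_im, c.wf.uR _ c.hj x hx hr]) 1
  obtain ⟨M, hM0, hM⟩ := (A1_bd ho le_rfl h1).pos
  refine ⟨v, M, h1, h2, hM0, hM, fun x hx => ?_⟩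
  have e := (h3 x hx).1
  simp only [Finset.range_one, Finset.sum_singleton, tc, iteratedDeriv_zero, Nat.factorial_zero,
    Nat.cast_one, div_one, pow_zero, mul_one, pow_one] at e
  rw [c.wf.sL _ c.hj x hx, c.wf.sL _ c.hj _ (c.upd0 hx), Tw.E, Tw.E, c.lin_lo, c.lin_lo,
    Complex.exp_add, Complex.exp_add, e]
  ring

variable {M : ℝ} (y : Tay T k v M) (hR : T.R ≤ R) (ht : 0 < t)
include y hR ht

theorem bb_eq (hx : x ∈ (unt T k t β R).D (Sum.inr (T.lab k) :: T.lv (T.lab k))) : bb T k t x =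
    (unt T k t β R).fr.ex (Sum.inr (T.lab k)) t x • (x k * v (Ph T k t x)) := by
  have e := y.eq _ ((c.base hR ht).maps hx)
  rw [Ph, update_idem, update_self, c.lin_lo, c.mm_eq (R := R)] at e
  rw [bb, Ph, c.mm_eq (R := R), e, Complex.exp_neg, smul_eq_mul]
  field_simp

theorem bb_A : (unt T k t β R).fr.A (Sum.inr (T.lab k) :: T.lv (T.lab k)) (bb T k t) :=
  A2_congr (A3_mono (A5_ex (c.ok0 hR) ht.le (A.mul (c.ok0 hR) (c.A_xk (c.ok0 hR))
    ((c.base hR ht).cl v y.A))) ht.le) fun _ hx => (c.bb_eq y hR ht hx).symm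

theorem bb_le (hx : x ∈ (unt T k t β R).D (Sum.inr (T.lab k) :: T.lv (T.lab k))) :
    ‖bb T k t x‖ ≤ T.r k * M := by
  have r0 := c.wf.r0 k c.hk
  have := c.xk_lt hx
  rw [c.bb_eq y hR ht hx, norm_smul, norm_mul]
  calc _ ≤ 1 * (T.r k * M) := by
        gcongr
        · exact (c.ok0 hR).norm_ex_le hx ht.le
        · linarith
        · exact y.bd _ ((c.base hR ht).maps hx)
    _ = _ := one_mul _

omit y in
theorem bb_rr : RR ((unt T k t β R).D (Sum.inr (T.lab k) :: T.lv (T.lab k))) (bb T k t) :=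
  fun x hx hr => by
    rw [bb, Complex.sub_im, c.s0_im ((c.base hR ht).maps hx) ((c.base hR ht).rea x hx hr),
      c.s0_im (c.upd0 (c.sub0 hR hx)) (rp_upd hr rfl), sub_self]

theorem cor_le (ha : a ∈ T.top)
    (hx : x ∈ (unt T k t β R).D (Sum.inr (T.lab k) :: T.lv (T.lab k))) :
    ‖β a * bb T k t x‖ ≤ Bc T k β M := by
  rw [norm_mul, Complex.norm_real, Real.norm_eq_abs]
  exact mul_le_mul (Finset.single_le_sum (f := fun a => |β a|) (fun _ _ => abs_nonneg _)
    (List.mem_toFinset.2 ha)) (c.bb_le y hR ht hx) (norm_nonneg _)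
    (Finset.sum_nonneg fun _ _ => abs_nonneg _)

omit hR ht in
theorem Bc0 : 0 ≤ Bc T k β M :=
  mul_nonneg (Finset.sum_nonneg fun _ _ => abs_nonneg _) (mul_pos (c.wf.r0 k c.hk) y.M0).le

variable (hB : (T.R + 1) * (Bc T k β M + 2) ≤ R)
include hB

/-- all lists above the tie -/
theorem rel (h1 : Sum.inr (T.lab k) :: T.lv (T.lab k) <:+ l) (h2 : l <:+ T.top) :
    Rel T (unt T k t β R) l l (Ph T k t) := by
  have B0 := c.Bc0 y
  have R1 := c.wf.R1
  have H := c.base hR ht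
  have hom : ∀ a ∈ T.top, ∀ x ∈ (unt T k t β R).D (Sum.inr (T.lab k) :: T.lv (T.lab k)),
      (unt T k t β R).s a x ∈ Om R → T.s a (Ph T k t x) ∈ Om T.R := fun a ha x hx h => by
    rw [c.s_Ph (R := R) ha]
    exact Om_add R1 B0 (by nlinarith) h (c.cor_le y hR ht ha hx)
  have hsd : ∀ l, Sum.inr (T.lab k) :: T.lv (T.lab k) <:+ l → l <:+ T.top →
      ∀ z ∈ (unt T k t β R).Sd l, z ∈ (unt T k t β R).D l → Ph T k t z ∈ T.Sd l :=
    fun l h1 h2 z hz hD => by
      have hD' := D_suffix h1 hD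
      refine sd_add R1 B0 (le_trans (by nlinarith) hB) hz hD (H.rea z hD' hz.1) fun a ha => ?_
      rw [c.s_Ph (R := R) (h2.subset ha), add_sub_cancel_left]
      exact c.cor_le y hR ht (h2.subset ha) hD'
  have hA : ∀ a, (unt T k t β R).fr.A (Sum.inr (T.lab k) :: T.lv (T.lab k))
      fun x => β a * bb T k t x := fun a => (c.bb_A y hR ht).const_mul _
  have hj : Sum.inr (T.lab k) ∈ T.top := c.l0.subset List.mem_cons_self
  obtain ⟨c1, c2⟩ := corr_of_A H.ok (hA (Sum.inr (T.lab k)))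
  have H0 := Rel.step c.wf c.l0 H (fun x _ => c.s_Ph hj x)
    (fun x hx => hom _ hj x hx (D_cons hx).2.1) c1 c2 (hsd _ List.suffix_rfl c.l0)
  obtain ⟨q, rfl⟩ := h1
  refine climb c.wf h2 H0 (by change 0 ≤ R; linarith) (fun a ha => ⟨_, hA a, fun x hx => ?_⟩)
    (fun i hi x _ => c.E_ne ?_ ?_ x) (fun q' hq' => hsd _ (List.suffix_append _ _) ?_)
    List.suffix_rfl
  · have ha' : a ∈ T.top := h2.subset (List.mem_append_left _ ha)
    exact ⟨c.s_Ph ha' x, hom a ha' x hx⟩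
  · rintro rfl
    exact (List.nodup_append.1 (h2.sublist.nodup c.wf.nd)).2.2 _ hi _ List.mem_cons_self rfl
  · exact (inr_mem.1 (h2.subset (List.mem_append_left _ hi))).le
  · obtain ⟨s, rfl⟩ := hq'
    exact List.IsSuffix.trans ⟨s, by simp⟩ h2

end Ctx

/-- coordinates that commute with everything -/
theorem Ctx.ind_mm' (c : Ctx T k β) {k' : ι} (hk : k' ≠ k) (h1 : Sum.inl k' ∉ T.lv (T.lab k))
    (h2 : k' ∉ T.Fv ∨ T.lab k < T.lab k') : Ind k' (mm T k t) ∧
      (∀ x w, Ph T k t (update x k' w) = update (Ph T k t x) k' w) ∧ Ind k' (bb T k t) := by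
  have i1 := (c.wf.ind _ c.hj k' h1 h2).1
  have i2 : Ind k' (T.lin (T.lv (T.lab k)) (T.ρ (T.lab k))) := Tw.ind_lin (fun a ha =>
    (c.wf.ind_s c.lo h1 (fun hf i hi => (inr_mem.1 hi).trans (h2.resolve_left fun h => h hf))
      ha).1) _
  have i3 : Ind k' (mm T k t) := fun x w => by simp only [mm, update_comm hk, i1 _ w, i2 x w]
  have i4 : ∀ x w, Ph T k t (update x k' w) = update (Ph T k t x) k' w := fun x w => by
    rw [Ph, Ph, i3 x w, update_of_ne hk.symm, update_comm hk]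
  exact ⟨i3, i4, fun x w => by simp only [bb, i4, update_comm hk, i1 _ w]⟩

theorem Ctx.wf' (c : Ctx T k β) {M : ℝ} (y : Tay T k v M) (hR : T.R ≤ R) (ht : 0 < t)
    (hB : (T.R + 1) * (Bc T k β M + 2) ≤ R) : (unt T k t β R).WF := by
  have h := c.wf
  have hu : ∀ i < T.p, (unt T k t β R).fr.A (T.lv i) ((unt T k t β R).u i) ∧
      RR ((unt T k t β R).D (T.lv i)) ((unt T k t β R).u i) := by
    intro i hi
    rcases lt_trichotomy i (T.lab k) with h1 | rfl | h1
    · have H := c.rel0 (t := t) hR (lv_suffix T h1.le)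
      rw [show (unt T k t β R).u i = T.u i ∘ id from funext (c.u_lo h1)]
      exact ⟨H.cl _ (h.uA i hi), H.rr (h.uR i hi)⟩
    · have H := c.rel0 (t := t) hR List.suffix_rfl
      obtain ⟨⟨h1, h2⟩, -⟩ := C5_tay h c.lo c.hk (c.free List.suffix_rfl c.hk) (h.uA _ hi)
        (h.uR _ hi) 0
      rw [show (unt T k t β R).u (T.lab k) = tc k 0 (T.u (T.lab k)) ∘ id from
        funext fun x => by simp [c.u_j, tc]]
      exact ⟨H.cl _ h1, H.rr h2⟩
    · have H := c.rel y hR ht hB (lv_suffix' T h1) (lv_top T hi.le)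
      simp only [unt, if_neg h1.ne']
      refine ⟨A3_add H.ok (H.cl _ (h.uA i hi))
        ((A4_lift H.ok (lv_suffix' T h1) (c.bb_A y hR ht)).const_mul _), fun x hx hr => ?_⟩
      have e1 : (T.u i (Ph T k t x)).im = 0 := H.rr (h.uR i hi) x hx hr
      rw [Complex.add_im, e1, Complex.im_ofReal_mul,
        c.bb_rr hR ht x (D_suffix (lv_suffix' T h1) hx) hr]
      simp
  refine ⟨h.R1.trans hR, fun k' hk' => ?_, by rw [unt_top]; exact h.nd,
    by rw [unt_top]; exact h.dj, fun k' hk' => ?_, fun _ _ => rfl, fun i hi x hx => ?_,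
    fun i hi => by rw [unt_lv]; exact (hu i hi).1, fun i hi => by rw [unt_lv]; exact (hu i hi).2,
    fun i hi k' h1 h2 => ?_, h.ρ0, h.c0, by rw [unt_lv]; exact h.ρs, by rw [unt_lv]; exact h.ρp,
    by rw [unt_lv]; exact h.ρm⟩
  · have := h.r0 k' hk'
    by_cases e : k' = k
    · subst e; simpa [unt] using this
    · simpa [unt, update_of_ne e] using this
  · by_cases e : k' = k
    · subst e; simpa [unt] using c.hj
    · simpa [unt, update_of_ne e] using h.lab k' hk'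
  · rw [unt_lv] at hx ⊢
    change _ = _ - (unt T k t β R).lin _ (T.c i) x
    rcases lt_trichotomy i (T.lab k) with h1 | rfl | h1
    · rw [c.s_lo (inr_mem.2 h1), c.E_lo h1, c.lin_eq _ (lv_suffix T h1.le)]
      exact h.sL i hi x ((c.rel0 hR (lv_suffix T h1.le)).maps hx)
    · rw [c.s_j, c.E_j, c.lin_eq _ List.suffix_rfl,
        h.sL _ hi _ (c.upd0 (x := x) ((c.rel0 hR List.suffix_rfl).maps hx)), c.lin_lo]
    · have e := h.sL i hi _ ((c.rel y hR ht hB (lv_suffix' T h1) (lv_top T hi.le)).maps hx)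
      rw [c.s_Ph (R := R) (inr_mem.2 hi), c.lin_Ph (R := R) (lv_top T hi.le), c.b3 i h1 hi,
        ← c.E_ne (R := R) h1.ne' hi.le] at e
      push_cast at e ⊢
      linear_combination e
  · rw [unt_lv] at h1
    by_cases e : k' = k
    · subst e
      have h3 : i ≤ T.lab k' := by simpa [unt, c.hk, Nat.lt_succ_iff] using h2
      rcases h3.lt_or_eq with h3 | rfl
      · rw [c.s_lo (inr_mem.2 h3), show (unt T k' t β R).u i = T.u i from funext (c.u_lo h3)]
        exact h.ind i hi k' h1 (Or.inr h3)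
      · exact ⟨fun x w => by rw [c.s_j, c.s_j, update_idem],
          fun x w => by rw [c.u_j, c.u_j, update_idem]⟩
    have h2' : k' ∉ T.Fv ∨ i < T.lab k' := by simpa [unt, update_of_ne e] using h2
    obtain ⟨i1, i2⟩ := h.ind i hi k' h1 h2'
    rcases lt_trichotomy i (T.lab k) with h3 | rfl | h3
    · rw [c.s_lo (inr_mem.2 h3), show (unt T k t β R).u i = T.u i from funext (c.u_lo h3)]
      exact ⟨i1, i2⟩
    · exact ⟨fun x w => by rw [c.s_j, c.s_j, update_comm e, i1],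
        fun x w => by rw [c.u_j, c.u_j, update_comm e, i2]⟩
    · obtain ⟨-, i3, i4⟩ := c.ind_mm' (t := t) e (fun h4 => h1 ((lv_suffix T h3.le).subset h4))
        (h2'.imp id h3.trans)
      exact ⟨fun x w => by simp only [unt, Sum.elim_inr, i3, i4 x w, i1 _ w],
        fun x w => by simp only [unt, if_neg h3.ne', i3, i4 x w, i2 _ w]⟩

end Unt

end Crest.Agent.N207.O
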